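import Vale.Agent.P022D.Sel.All

/-!
# P022, non solvable case, block GW: the lower bound for the characters
-/

set_option linter.all false

noncomputable section

namespace Vale.Agent.P022E.GW.Chr

open NumberField IsDedekindDomain
open Vale.Agent.P022 Vale.Agent.P022.C Vale.Agent.P022D.Sel
open Vale.Agent.P027M.S (Pr Inert mx)

/-- a continuous character of `Γ`, unramified outside `A`, on which `h` acts by `x` -/
structure Cx {F : Type} [Field F] (Γ : Subgroup GQ) (h : GQ) (x : F) (A : Finset ℕ)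
    (φ : GQ → F) : Prop where
  add : ∀ σ ∈ Γ, ∀ τ ∈ Γ, φ (σ * τ) = φ σ + φ τ
  off : ∀ g ∉ Γ, φ g = 0
  opn : ∃ U : Subgroup GQ, IsOpen (U : Set GQ) ∧ ∀ σ ∈ U, φ σ = 0
  unr : ∀ l : ℕ, l.Prime → l ∉ A → ∀ P : Ideal (𝓞 Qb), P.IsPrime → (l : 𝓞 Qb) ∈ P →
    ∀ g, Inert P g → φ g = 0
  eqv : ∀ σ ∈ Γ, φ (h * σ * h⁻¹) = x * φ σ

variable {L : Type} [Field L] [NumberField L]

open Classical in
/-- the Kummer character of `y` -/
def kf (F : Type) [Field F] (j : L →+* Qb) (y : L) (g : GQ) : F :=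
  if g ∈ GK j ∧ ¬ Fix j g y then 1 else 0

variable {F : Type} [Field F] {j : L →+* Qb}

theorem ex_w (j : L →+* Qb) {y : L} (hy : y ≠ 0) : ∃ w : Qb, w ≠ 0 ∧ w ^ 2 = j y := by
  obtain ⟨w, hw⟩ : ∃ w : Qb, w ^ 2 = j y := IsAlgClosed.exists_pow_nat_eq _ (by norm_num)
  refine ⟨w, fun e => hy (j.injective ?_), hw⟩
  rw [← hw, e, map_zero]
  ring

theorem fix_iff {y : L} {w : Qb} (hw : w ^ 2 = j y) (g : GQ) : Fix j g y ↔ g w = w := by
  refine ⟨fun h => h w hw, fun h v hv => ?_⟩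
  rcases sq_eq_sq_iff_eq_or_eq_neg.1 (hv.trans hw.symm) with e | e
  · rw [e, h]
  · rw [e, map_neg, h]

theorem kf_fix {y : L} {g : GQ} (h : Fix j g y) : kf F j y g = 0 := if_neg fun k => k.2 h

theorem kf_off (y : L) {g : GQ} (h : g ∉ GK j) : kf F j y g = 0 := if_neg fun k => h k.1

theorem kf_pos {y : L} {w : Qb} (hw : w ^ 2 = j y) {g : GQ} (e : g w = w) : kf F j y g = 0 :=
  kf_fix ((fix_iff hw g).2 e)

theorem kf_neg {y : L} {w : Qb} (h0 : w ≠ 0) (hw : w ^ 2 = j y) {g : GQ} (hg : g ∈ GK j)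
    (e : g w = -w) : kf F j y g = 1 :=
  if_pos ⟨hg, fun k => h0 (by
    have := (fix_iff hw g).1 k
    linear_combination (1 / 2 : Qb) * (e - this))⟩

theorem pm {y : L} {w : Qb} (hw : w ^ 2 = j y) {g : GQ} (hg : g ∈ GK j) :
    g w = w ∨ g w = -w :=
  sq_eq_sq_iff_eq_or_eq_neg.1 (by rw [← map_pow, hw, hg])

theorem kf_mul [CharP F 2] {y : L} (hy : y ≠ 0) {σ τ : GQ} (hσ : σ ∈ GK j) (hτ : τ ∈ GK j) :
    kf F j y (σ * τ) = kf F j y σ + kf F j y τ := by
  obtain ⟨w, h0, hw⟩ := ex_w j hy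
  have hm := (GK j).mul_mem hσ hτ
  rcases pm hw hσ with a | a <;> rcases pm hw hτ with b | b
  · rw [kf_pos hw a, kf_pos hw b, kf_pos hw (by rw [AlgEquiv.mul_apply, b, a]), add_zero]
  · rw [kf_pos hw a, kf_neg h0 hw hτ b,
      kf_neg h0 hw hm (by rw [AlgEquiv.mul_apply, b, map_neg, a]), zero_add]
  · rw [kf_neg h0 hw hσ a, kf_pos hw b,
      kf_neg h0 hw hm (by rw [AlgEquiv.mul_apply, b, a]), add_zero]
  · rw [kf_neg h0 hw hσ a, kf_neg h0 hw hτ b,
      kf_pos hw (by rw [AlgEquiv.mul_apply, b, map_neg, a, neg_neg]), CharTwo.add_self_eq_zero]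

theorem kf_yz [CharP F 2] {y z : L} (hy : y ≠ 0) (hz : z ≠ 0) (g : GQ) :
    kf F j (y * z) g = kf F j y g + kf F j z g := by
  by_cases hg : g ∈ GK j
  swap
  · rw [kf_off _ hg, kf_off _ hg, kf_off _ hg, add_zero]
  obtain ⟨w, h0, hw⟩ := ex_w j hy
  obtain ⟨v, k0, hv⟩ := ex_w j hz
  have hm : (w * v) ^ 2 = j (y * z) := by rw [mul_pow, hw, hv, map_mul]
  have m0 := mul_ne_zero h0 k0
  rcases pm hw hg with a | a <;> rcases pm hv hg with b | b
  · rw [kf_pos hw a, kf_pos hv b, kf_pos hm (by rw [map_mul, b, a]), add_zero]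
  · rw [kf_pos hw a, kf_neg k0 hv hg b,
      kf_neg m0 hm hg (by rw [map_mul, b, a, mul_neg]), zero_add]
  · rw [kf_neg h0 hw hg a, kf_pos hv b,
      kf_neg m0 hm hg (by rw [map_mul, b, a, neg_mul]), add_zero]
  · rw [kf_neg h0 hw hg a, kf_neg k0 hv hg b,
      kf_pos hm (by rw [map_mul, b, a, neg_mul_neg]), CharTwo.add_self_eq_zero]

theorem kf_conj {h : GQ} {τ : L ≃+* L} (hτ : ∀ y, j (τ y) = h (j y)) {y : L} (hy : y ≠ 0)
    {σ : GQ} (hσ : σ ∈ GK j) : kf F j (τ y) (h * σ * h⁻¹) = kf F j y σ := by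
  obtain ⟨w, h0, hw⟩ := ex_w j hy
  have hw' : (h w) ^ 2 = j (τ y) := by rw [← map_pow, hw, hτ]
  have e : (h * σ * h⁻¹) (h w) = h (σ w) := by
    rw [← AlgEquiv.mul_apply, inv_mul_cancel_right, AlgEquiv.mul_apply]
  have hm : h * σ * h⁻¹ ∈ GK j := fun z => by
    have e1 := hτ (τ.symm z)
    rw [RingEquiv.apply_symm_apply] at e1
    rw [e1, ← AlgEquiv.mul_apply, inv_mul_cancel_right, AlgEquiv.mul_apply, hσ]
  rcases pm hw hσ with a | a
  · rw [kf_pos hw a, kf_pos hw' (by rw [e, a])]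
  · rw [kf_neg h0 hw hσ a, kf_neg ((map_ne_zero h).2 h0) hw' hm (by rw [e, a, map_neg])]

/-- the inertia groups at odd primes fix the square roots of units -/
theorem fix_inert (u : Pr L) {P : Ideal (𝓞 Qb)} (hP : P.IsPrime)
    (hm : ∀ r : 𝓞 L, RingOfIntegers.mapRingHom j r ∈ P ↔ r ∈ u.asIdeal) (h2 : (2 : 𝓞 Qb) ∉ P)
    {g : GQ} (hg : g ∈ GK j) (hI : Inert P g) {y : L} (hy : u.valuation L y = 1) :
    Fix j g y := by
  intro w hw
  rcases pm hw hg with h | h
  · exact h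
  exfalso
  obtain ⟨n1, d1, e1⟩ := u.exists_primeCompl_mul_eq_of_integer y hy.le
  have v1 : u.valuation L (algebraMap (𝓞 L) L d1) = 1 :=
    (HeightOneSpectrum.valuation_eq_one_iff_notMem u).2 d1.2
  let a : 𝓞 L := (d1 : 𝓞 L) * n1
  have ea : algebraMap (𝓞 L) L a = (algebraMap (𝓞 L) L d1) ^ 2 * y := by
    simp only [a, map_mul, ← e1]; ring
  have ha : a ∉ u.asIdeal := by
    rw [← HeightOneSpectrum.valuation_eq_one_iff_notMem (K := L), ea, map_mul, map_pow, v1, hy]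
    simp
  let J := RingOfIntegers.mapRingHom j
  have hJ : ∀ r : 𝓞 L, ((J r : 𝓞 Qb) : Qb) = j (algebraMap (𝓞 L) L r) := fun r => rfl
  let W0 : Qb := j (algebraMap (𝓞 L) L d1) * w
  have hW0 : W0 ^ 2 = ((J a : 𝓞 Qb) : Qb) := by
    rw [hJ, ea, map_mul j (_ ^ 2), map_pow, ← hw]
    simp only [W0]; ring
  have hint : IsIntegral ℤ W0 := by
    apply IsIntegral.of_pow (n := 2) (by norm_num)
    rw [hW0]
    exact (J a).2
  let W : 𝓞 Qb := ⟨W0, hint⟩
  have hW : W ^ 2 = J a := by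
    apply Subtype.ext
    exact hW0
  have gW : g • W = -W := by
    apply Subtype.ext
    show g W0 = -W0
    simp only [W0]
    rw [map_mul, hg, h]; ring
  have h2W : 2 * W ∈ P := by
    have k := P.neg_mem (hI W)
    rw [gW] at k
    have e : -(-W - W) = 2 * W := by ring
    rwa [e] at k
  rcases hP.mem_or_mem h2W with k | k
  · exact h2 k
  · apply ha
    rw [← hm, ← hW]
    exact P.pow_mem_of_mem k 2 (by norm_num)

theorem two_not {l : ℕ} (hl : l.Prime) (l2 : l ≠ 2) {P : Ideal (𝓞 Qb)} (hP : P.IsPrime)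
    (hlP : (l : 𝓞 Qb) ∈ P) : (2 : 𝓞 Qb) ∉ P := fun h => by
  obtain ⟨k, hk⟩ := hl.odd_of_ne_two l2
  have e : (1 : 𝓞 Qb) = (l : 𝓞 Qb) - 2 * k := by rw [hk]; push_cast; ring
  exact hP.ne_top ((Ideal.eq_top_iff_one P).2 (e ▸ P.sub_mem hlP (P.mul_mem_right _ h)))

theorem fix_unr {A : Finset ℕ} (hA : ∀ l ∈ A, l = 0 ∨ l.Prime) (h2 : 2 ∈ A) (y : US L A) {l : ℕ}
    (hl : l.Prime) (hlA : l ∉ A) {P : Ideal (𝓞 Qb)} (hP : P.IsPrime) (hlP : (l : 𝓞 Qb) ∈ P)
    {g : GQ} (hg : g ∈ GK j) (hI : Inert P g) : Fix j g (el y) := by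
  have hm : ∀ r : 𝓞 L, RingOfIntegers.mapRingHom j r ∈ P ↔
      r ∈ (Pl.bl j hl.ne_zero hP hlP 1).asIdeal := fun r => by
    rw [Pl.mem_bl, inv_one, one_smul]
  refine fix_inert _ hP hm (two_not hl (fun e => hlA (e ▸ h2)) hP hlP) hg hI
    (KillAux.el_val y _ (Count.disj (Q := {l}) hA (fun q hq => ?_) (Pl.bl_ov j _ hP hlP 1)))
  rw [Finset.mem_singleton.1 hq]
  exact ⟨hl, hlA⟩

/-- evaluation of the Kummer characters at `g` -/
def ev (F : Type) [Field F] [CharP F 2] (j : L →+* Qb) (A : Finset ℕ) (g : GQ) :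
    US L A →+ F :=
  AddMonoidHom.mk' (fun y => kf F j (el y) g) fun y z => by
    rw [el_add, kf_yz (KillAux.el_ne y) (KillAux.el_ne z)]

theorem ev_apply [CharP F 2] (A : Finset ℕ) (g : GQ) (y : US L A) :
    ev F j A g y = kf F j (el y) g := rfl

theorem sq_of {A : Finset ℕ} (y : US L A) (h : ∀ g ∈ GK j, Fix j g (el y)) :
    ∃ z : US L A, y = 2 • z := by
  obtain ⟨w, h0, hw⟩ := ex_w j (KillAux.el_ne y)
  obtain ⟨z, rfl⟩ := KillAux.fix_range j w fun g hg => h g hg w hw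
  have e : el y = z ^ 2 := j.injective (by rw [map_pow, hw])
  obtain ⟨z', hz⟩ := KillAux.mk_el (A := A) z (fun k => h0 (by rw [k, map_zero])) fun v hv => by
    have := KillAux.el_val y v hv
    rw [e, map_pow] at this
    exact (pow_eq_one_iff_of_nonneg zero_le two_ne_zero).1 this
  exact ⟨z', KillAux.el_inj (by rw [KillAux.el_nsmul, hz, e])⟩

/-- the evaluations span the functionals on the units -/
theorem span_ev [CharP F 2] (j : L →+* Qb) (A : Finset ℕ) (l : US L A →+ F) :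
    l ∈ Submodule.span F (Set.range (ev F j A)) := by
  classical
  obtain ⟨U, hU, hn, hle, hfix⟩ := opn L j A
  haveI := OddP.compact_GQ
  haveI : Finite (GQ ⧸ U) := Subgroup.quotient_finite_of_isOpen U hU
  haveI : Fintype (GQ ⧸ U) := Fintype.ofFinite _
  let e : US L A →+ (GQ ⧸ U → ZMod 2) :=
    AddMonoidHom.pi fun q : GQ ⧸ U => ev (ZMod 2) j A q.out
  have he : ∀ y q, e y q = kf (ZMod 2) j (el y) q.out := fun _ _ => rfl
  obtain ⟨k, hk⟩ := ext0 e l fun y b hb => by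
    obtain ⟨z, rfl⟩ := sq_of (j := j) y fun g hg => by
      obtain ⟨u, hu⟩ := QuotientGroup.mk_out_eq_mul U g
      have h1 := congrFun hb (g : GQ ⧸ U)
      rw [he, hu, kf_mul (KillAux.el_ne y) hg (hle u.2), kf_fix (hfix _ u.2 y), add_zero,
        Pi.smul_apply, two_nsmul, CharTwo.add_self_eq_zero] at h1
      by_contra hc
      rw [kf, if_pos ⟨hg, hc⟩] at h1
      exact one_ne_zero h1
    rw [map_nsmul, two_nsmul, CharTwo.add_self_eq_zero]
  have : l = ∑ q : GQ ⧸ U, k (Pi.single q 1) • ev F j A q.out := by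
    refine AddMonoidHom.ext fun y => ?_
    rw [← hk, ← Finset.univ_sum_single (e y), map_sum, AddMonoidHom.finset_sum_apply]
    refine Finset.sum_congr rfl fun q _ => ?_
    rw [he, AddMonoidHom.smul_apply, ev_apply, kf, kf]
    split_ifs
    · rw [smul_eq_mul, mul_one]
    · rw [Pi.single_zero, map_zero, smul_zero]
  rw [this]
  exact Submodule.sum_mem _ fun q _ => Submodule.smul_mem _ _ (Submodule.subset_span ⟨_, rfl⟩)

/-- the projector on an eigenspace -/
theorem proj {B : Type} [AddCommGroup B] [CharP F 2] (t : B →+ B) (m : ℕ) (x : F) (hm : Odd m)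
    (hx : x ^ m = 1) (ht : ∀ b, t^[m] b = b) :
    ∃ π : (B →+ F) →ₗ[F] X F t x⁻¹, (∀ l : X F t x⁻¹, π l = l) ∧
      ∀ l l' : B →+ F, (∀ b, l' (t b) = l b) → π l' = x • π l := by
  have hm0 : m ≠ 0 := by
    rintro rfl
    simp at hm
  have hx0 : x ≠ 0 := by
    rintro rfl
    rw [zero_pow hm0] at hx
    exact zero_ne_one hx
  have hm1 : (m : F) = 1 := by
    obtain ⟨c, rfl⟩ := hm
    push_cast
    rw [CharTwo.two_eq_zero]
    ring
  let p : (B →+ F) → B →+ F := fun k =>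
    AddMonoidHom.mk' (fun b => ∑ i ∈ Finset.range m, x ^ i * k (t^[i] b)) fun a b => by
      simp only [iterate_map_add, map_add, mul_add, Finset.sum_add_distrib]
  have hp : ∀ k b, p k b = ∑ i ∈ Finset.range m, x ^ i * k (t^[i] b) := fun _ _ => rfl
  have key : ∀ (k : B →+ F) b, p k b = x * ∑ i ∈ Finset.range m, x ^ i * k (t^[i + 1] b) := by
    intro k b
    have e1 := Finset.sum_range_succ (fun i => x ^ i * k (t^[i] b)) m
    have e2 := Finset.sum_range_succ' (fun i => x ^ i * k (t^[i] b)) m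
    simp only [ht, hx, pow_zero, Function.iterate_zero, id] at e1 e2
    rw [hp, add_right_cancel (e1.symm.trans e2), Finset.mul_sum]
    exact Finset.sum_congr rfl fun i _ => by ring
  have mem : ∀ k, p k ∈ X F t x⁻¹ := fun k b => by
    rw [key k b, ← mul_assoc, inv_mul_cancel₀ hx0, one_mul, hp]
    rfl
  refine ⟨⟨⟨fun k => ⟨p k, mem k⟩, fun a b => Subtype.ext (AddMonoidHom.ext fun c => ?_)⟩,
    fun a b => Subtype.ext (AddMonoidHom.ext fun c => ?_)⟩,
    fun l => Subtype.ext (AddMonoidHom.ext fun c => ?_),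
    fun l l' h => Subtype.ext (AddMonoidHom.ext fun c => ?_)⟩
  · show p (a + b) c = p a c + p b c
    simp only [hp, AddMonoidHom.add_apply, mul_add, Finset.sum_add_distrib]
  · show p (a • b) c = a * p b c
    simp only [hp, AddMonoidHom.smul_apply, smul_eq_mul, Finset.mul_sum]
    exact Finset.sum_congr rfl fun i _ => by ring
  · show p l c = l.1 c
    have e' : ∀ i, x ^ i * l.1 (t^[i] c) = l.1 c := by
      intro i
      induction i with
      | zero => simp
      | succ i ih =>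
        rw [Function.iterate_succ_apply', l.2, ← ih, pow_succ, mul_assoc, ← mul_assoc x,
          mul_inv_cancel₀ hx0, one_mul]
    rw [hp, Finset.sum_congr rfl fun i _ => e' i, Finset.sum_const, Finset.card_range,
      nsmul_eq_mul, hm1, one_mul]
  · show p l' c = x * p l c
    rw [key, hp]
    simp only [Function.iterate_succ_apply', h]

/-- from functionals on the units to characters -/
theorem core [CharP F 2] (j : L →+* Qb) (h : GQ) (τ : L ≃+* L) (m : ℕ) (x : F) (A : Finset ℕ)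
    (hτ : ∀ y, j (τ y) = h (j y)) (hm : Odd m) (hx : x ^ m = 1) (ht : ∀ y, τ^[m] y = y)
    (hA : ∀ l ∈ A, l = 0 ∨ l.Prime) (h2 : 2 ∈ A) :
    ∃ Z : Submodule F (GQ → F), (∀ φ ∈ Z, Cx (GK j) h x A φ) ∧
      Module.rank F (X F (tU τ A) x⁻¹) ≤ Module.rank F Z := by
  obtain ⟨π, h1, h3⟩ := proj (tU τ A) m x hm hx fun y => KillAux.el_inj (by
    have : ∀ i : ℕ, el ((tU τ A)^[i] y) = τ^[i] (el y) := fun i => by
      induction i with
      | zero => rfl
      | succ i ih => rw [Function.iterate_succ_apply', Function.iterate_succ_apply', el_tU, ih]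
    rw [this, ht])
  let Φ : Module.Dual F (X F (tU τ A) x⁻¹) →ₗ[F] (GQ → F) :=
    LinearMap.pi fun g => Module.Dual.eval F _ (π (ev F j A g))
  have hΦ : ∀ f g, Φ f g = f (π (ev F j A g)) := fun _ _ => rfl
  have h0 : ∀ f g, (∀ y : US L A, kf F j (el y) g = 0) → Φ f g = 0 := fun f g k => by
    rw [hΦ, show ev F j A g = 0 from AddMonoidHom.ext k, map_zero, map_zero]
  have inj : Function.Injective Φ := by
    rw [injective_iff_map_eq_zero]
    intro f hf
    ext l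
    have : ∀ l ∈ Submodule.span F (Set.range (ev F j A)), f (π l) = 0 := fun l hl => by
      induction hl using Submodule.span_induction with
      | mem _ hl => obtain ⟨g, rfl⟩ := hl; exact congrFun hf g
      | zero => rw [map_zero, map_zero]
      | add a b _ _ ha hb => rw [map_add, map_add, ha, hb, add_zero]
      | smul c a _ ha => rw [map_smul, map_smul, ha, smul_zero]
    rw [← h1 l]
    exact this _ (span_ev j A _)
  refine ⟨LinearMap.range Φ, ?_, ?_⟩
  · rintro _ ⟨f, rfl⟩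
    obtain ⟨U, hU, -, -, hfix⟩ := opn L j A
    refine ⟨fun σ hσ s hs => ?_, fun g hg => h0 f g fun y => kf_off _ hg,
      ⟨U, hU, fun σ hσ => h0 f σ fun y => kf_fix (hfix σ hσ y)⟩,
      fun l hl hlA P hP hlP g hI => h0 f g fun y => ?_, fun σ hσ => ?_⟩
    · rw [hΦ, hΦ, hΦ, ← map_add, ← map_add]
      exact congrArg (fun z => f (π z))
        (AddMonoidHom.ext fun y => kf_mul (KillAux.el_ne y) hσ hs)
    · by_cases hg : g ∈ GK j
      · exact kf_fix (fix_unr hA h2 y hl hlA hP hlP hg hI)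
      · exact kf_off _ hg
    · rw [hΦ, hΦ, h3 (ev F j A σ) (ev F j A (h * σ * h⁻¹)) fun y =>
        kf_conj hτ (KillAux.el_ne y) hσ, map_smul, smul_eq_mul]
  · rw [rank_range_of_injective Φ inj]
    classical
    let b := Module.Basis.ofVectorSpace F (X F (tU τ A) x⁻¹)
    exact LinearMap.rank_le_of_injective b.toDual b.toDual_injective

theorem places {K : Type} [Field K] [Algebra K L] (j : L →+* Qb) (h : GQ) (τ : L ≃ₐ[K] L) (x : F)
    (A : Finset ℕ) (D : ℕ → Set GQ) (hτ : ∀ y, j (τ y) = h (j y)) (h0 : 0 ∈ A)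
    (hD : ∀ l ∈ A, IsDec l (D l)) :
    ∑ l ∈ A, Module.rank F (Ind F (GK j) h x (D l)) ≤
      Module.rank F (E F (mv τ.toRingEquiv) x (ov L A)) +
        Module.rank F (E F (fun w : InfinitePlace L => τ • w) x Set.univ) := by
  obtain ⟨-, sT⟩ := sum L F τ.toRingEquiv x A fun l hl => (hD l hl).cases
  rw [← Finset.sum_erase_add _ _ h0, sT]
  refine add_le_add (le_of_eq (Finset.sum_congr rfl fun l hl => ?_))
    (pli K L F j h τ x (D 0) hτ (hD 0 h0))
  exact (pl L F j h τ.toRingEquiv x l (D l) hτ (Finset.ne_of_mem_erase hl)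
    (hD l (Finset.mem_of_mem_erase hl))).symm

/-- **the lower bound, non trivial eigenvalue** -/
theorem chrX (K L F : Type) [Field K] [NumberField K] [Field L] [NumberField L] [Algebra K L]
    [IsGalois K L] [Field F] [CharP F 2] (j : L →+* Qb) (h : GQ) (τ : L ≃ₐ[K] L) (x : F)
    (A : Finset ℕ) (D : ℕ → Set GQ) (hτ : ∀ y, j (τ y) = h (j y))
    (ho : Odd (Module.finrank K L)) (hx : x ^ Module.finrank K L = 1) (x1 : x ≠ 1) (h0 : 0 ∈ A)
    (h2 : 2 ∈ A) (hD : ∀ l ∈ A, IsDec l (D l)) :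
    ∃ Z : Submodule F (GQ → F), (∀ φ ∈ Z, Cx (GK j) h x A φ) ∧
      ∑ l ∈ A, Module.rank F (Ind F (GK j) h x⁻¹ (D l)) ≤ Module.rank F Z := by
  haveI : FiniteDimensional K L := Module.Finite.of_restrictScalars_finite ℚ K L
  obtain ⟨Z, hZ, hr⟩ := core j h τ.toRingEquiv _ x A hτ ho hx (fun y => by
    have e1 : ∀ i : ℕ, (τ.toRingEquiv)^[i] y = (τ ^ i) y := by
      intro i
      induction i with
      | zero => rfl
      | succ i ih => rw [Function.iterate_succ_apply', ih, pow_succ']; rfl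
    rw [e1, ← IsGalois.card_aut_eq_finrank, pow_card_eq_one']
    rfl) (fun l hl => (hD l hl).cases) h2
  exact ⟨Z, hZ, ((places j h τ x⁻¹ A D hτ h0 hD).trans (unitx (lb ext) K L F τ x⁻¹ A ho
    (by rw [inv_pow, hx, inv_one]) (inv_ne_one.2 x1))).trans hr⟩

/-- **the lower bound, all characters** -/
theorem chr1 (K F : Type) [Field K] [NumberField K] [Field F] [CharP F 2] (j : K →+* Qb)
    (A : Finset ℕ) (D : ℕ → Set GQ) (h0 : 0 ∈ A) (h2 : 2 ∈ A) (hD : ∀ l ∈ A, IsDec l (D l)) :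
    ∃ Z : Submodule F (GQ → F), (∀ φ ∈ Z, Cx (GK j) 1 (1 : F) A φ) ∧
      ∑ l ∈ A, Module.rank F (Ind F (GK j) 1 (1 : F) (D l)) ≤ Module.rank F Z := by
  obtain ⟨Z, hZ, hr⟩ := core (F := F) j 1 (1 : K ≃ₐ[K] K).toRingEquiv 1 1 A (fun _ => rfl) odd_one
    (one_pow _) (fun _ => rfl) (fun l hl => (hD l hl).cases) h2
  rw [inv_one] at hr
  exact ⟨Z, hZ, ((places j 1 (1 : K ≃ₐ[K] K) 1 A D (fun _ => rfl) h0 hD).trans
    (unit1 K F A)).trans hr⟩

end Vale.Agent.P022E.GW.Chr
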