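import Vale.Agent.P022E.GW.Defs
import Vale.Agent.P022E.GW.Chr0

/-!
# P022, non solvable case, block GW: the number of cocycles of a character
-/

set_option linter.all false

noncomputable section

namespace Vale.Agent.P022E.GW

open NumberField
open Vale.Agent.P022 Vale.Agent.P022.H916
open Vale.Agent.P027M.S (Inert)
open Vale.Agent.P022D.Sel (IsDec Ind)

namespace Chr

theorem ex_fld {H : Subgroup GQ} (hH : IsOpen (H : Set GQ)) :
    ∃ (K : Type) (_ : Field K) (_ : NumberField K) (j : K →+* Qb), GK j = H := by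
  haveI := isGalois_Qb
  have hfix : (IntermediateField.fixedField H).fixingSubgroup = H :=
    InfiniteGalois.fixingSubgroup_fixedField ⟨H, OpenSubgroup.isClosed ⟨H, hH⟩⟩
  have hfin : FiniteDimensional ℚ (FF H) := finU H hH
  refine ⟨FF H, inferInstance, { to_charZero := inferInstance, to_finiteDimensional := hfin },
    (IntermediateField.fixedField H).val.toRingHom, ?_⟩
  ext g
  rw [← hfix, IntermediateField.mem_fixingSubgroup_iff, hfix]
  exact ⟨fun h x hx => h ⟨x, hx⟩, fun h x => h x x.2⟩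

variable {F : Type} [Field F] {T : Finset ℕ} {D : ℕ → Set GQ} {H : Subgroup GQ}

/-- the character may be inverted -/
theorem ft_inv (θ : GQ → F) (h0 : ∀ g ∈ H, θ g ≠ 0) :
    Module.rank F (Ft θ T D H) ≤ Module.rank F (Ft (fun g => (θ g)⁻¹) T D H) := by
  classical
  let S : ℕ → GQ → (ℕ → GQ → F) → Prop := fun l g f => f ∈ Ft θ T D H ∧ f l g ≠ 0
  let e : ℕ → GQ → F := fun l g => Classical.epsilon (S l g) l g
  have he : ∀ l g f, S l g f → S l g (Classical.epsilon (S l g)) := fun l g f h =>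
    Classical.epsilon_spec ⟨f, h⟩
  have s1 : ∀ l, ∀ γ ∈ H, ∀ g, S l (γ * g) = S l g := fun l γ hγ g => funext fun f =>
    propext (and_congr_right fun hf => by
      rw [hf.2.1 l γ hγ g, mul_ne_zero_iff, and_iff_right (h0 γ hγ)])
  have s2 : ∀ l, ∀ d ∈ D l, ∀ g, S l (g * d) = S l g := fun l d hd g => funext fun f =>
    propext (and_congr_right fun hf => by rw [hf.2.2 l d hd g])
  let Φ : Ft θ T D H →ₗ[F] Ft (fun g => (θ g)⁻¹) T D H :=
    { toFun := fun f => ⟨fun l g => f.1 l g * (e l g)⁻¹ ^ 2,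
        fun l hl => funext fun g => by simp [f.2.1 l hl],
        fun l γ hγ g => by
          by_cases k : f.1 l g = 0
          · simp only [f.2.2.1 l γ hγ g, k, mul_zero, zero_mul]
          · have := h0 γ hγ
            simp only [e, s1 l γ hγ g, f.2.2.1 l γ hγ g, (he l g f ⟨f.2, k⟩).1.2.1 l γ hγ g]
            field_simp,
        fun l d hd g => by
          by_cases k : f.1 l g = 0
          · simp only [f.2.2.2 l d hd g, k, zero_mul]
          · simp only [e, s2 l d hd g, f.2.2.2 l d hd g, (he l g f ⟨f.2, k⟩).1.2.2 l d hd g]⟩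
      map_add' := fun a b => Subtype.ext (funext fun l => funext fun g => add_mul _ _ _)
      map_smul' := fun a b => Subtype.ext (funext fun l => funext fun g => mul_assoc _ _ _) }
  refine LinearMap.rank_le_of_injective Φ ((injective_iff_map_eq_zero Φ).2 fun f hf =>
    Subtype.ext (funext fun l => funext fun g => ?_))
  by_contra k
  have h1 : f.1 l g * (e l g)⁻¹ ^ 2 = 0 := congrFun (congrFun (congrArg Subtype.val hf) l) g
  exact mul_ne_zero k (pow_ne_zero _ (inv_ne_zero (he l g f ⟨f.2, k⟩).2)) h1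

theorem ft_le (θ : GQ → F) {Γ : Subgroup GQ} {h : GQ} {x : F} (hle : Γ ≤ H)
    (h1 : ∀ γ ∈ Γ, θ γ = 1) (hh : h ∈ H) (hx : θ h = x) :
    Module.rank F (Ft θ T D H) ≤ ∑ l ∈ T, Module.rank F (Ind F Γ h x (D l)) := by
  classical
  let p : ℕ → (Ft θ T D H →ₗ[F] (GQ → F)) := fun l =>
    (LinearMap.proj l).comp (Ft θ T D H).subtype
  have e : (Ft θ T D H).subtype =
      ∑ l ∈ T, (LinearMap.single F (fun _ : ℕ => GQ → F) l).comp (p l) := by
    refine LinearMap.ext fun f => funext fun l => ?_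
    rw [LinearMap.sum_apply, Finset.sum_apply]
    simp only [LinearMap.comp_apply, LinearMap.single_apply, Pi.single_apply]
    rw [Finset.sum_ite_eq]
    split_ifs with hl
    · rfl
    · exact f.2.1 l hl
  have r : LinearMap.rank (Ft θ T D H).subtype = Module.rank F (Ft θ T D H) :=
    rank_range_of_injective _ (Ft θ T D H).injective_subtype
  rw [← r, e]
  refine (LinearMap.rank_finsetSum_le _ _).trans (Finset.sum_le_sum fun l _ =>
    (LinearMap.rank_comp_le_right _ _).trans (Submodule.rank_mono ?_))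
  rintro _ ⟨f, rfl⟩
  exact ⟨fun γ hγ g => by
      show f.1 l (γ * g) = f.1 l g
      rw [f.2.2.1 l γ (hle hγ) g, h1 γ hγ, one_mul],
    fun g => by
      show f.1 l (h * g) = x * f.1 l g
      rw [f.2.2.1 l h hh g, hx], f.2.2.2 l⟩

theorem Cx.one {Γ : Subgroup GQ} {h : GQ} {x : F} {φ : GQ → F} (c : Cx Γ h x T φ) : φ 1 = 0 := by
  have := c.add 1 Γ.one_mem 1 Γ.one_mem
  rw [mul_one] at this
  linear_combination -this

theorem Cx.inv {Γ : Subgroup GQ} {h : GQ} {x : F} {φ : GQ → F} (c : Cx Γ h x T φ) {g : GQ}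
    (hg : g ∈ Γ) : φ g⁻¹ = -φ g := by
  have := c.add g hg g⁻¹ (Γ.inv_mem hg)
  rw [mul_inv_cancel, c.one] at this
  linear_combination -this

/-- extension of the characters to cocycles -/
theorem zt_ge (θ : GQ → F) {Γ : Subgroup GQ} {h : GQ} (h1 : θ 1 = 1)
    (hm : ∀ g ∈ H, ∀ k ∈ H, θ (g * k) = θ g * θ k) (hΓ : ∀ g, g ∈ Γ ↔ g ∈ H ∧ θ g = 1)
    (ho : IsOpen (Γ : Set GQ)) (hh : h ∈ H) (x1 : θ h ≠ 1)
    (hgen : ∀ g ∈ H, ∃ i : ℕ, ∃ γ ∈ Γ, g = h ^ i * γ)
    (hu : ∀ l ∉ T, ∀ P : Ideal (𝓞 Qb), Ov l P → ∀ g ∈ H, Inert P g → θ g = 1)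
    (Z : Submodule F (GQ → F)) (hZ : ∀ φ ∈ Z, Cx Γ h (θ h) T φ) :
    Module.rank F Z + 1 ≤ Module.rank F (Zt θ T H) := by
  classical
  have hi : ∀ g ∈ H, θ g * θ g⁻¹ = 1 := fun g hg => by
    rw [← hm g hg _ (H.inv_mem hg), mul_inv_cancel, h1]
  have hn : ∀ g ∈ H, ∀ σ ∈ Γ, g * σ * g⁻¹ ∈ Γ := fun g hg σ hσ => by
    obtain ⟨a, b⟩ := (hΓ σ).1 hσ
    refine (hΓ _).2 ⟨H.mul_mem (H.mul_mem hg a) (H.inv_mem hg), ?_⟩
    rw [hm _ (H.mul_mem hg a) _ (H.inv_mem hg), hm g hg σ a, b, mul_one, hi g hg]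
  have hc : ∀ g ∈ H, h * g * h⁻¹ * g⁻¹ ∈ Γ := fun g hg => by
    have a := H.mul_mem hh hg
    have b := H.mul_mem a (H.inv_mem hh)
    refine (hΓ _).2 ⟨H.mul_mem b (H.inv_mem hg), ?_⟩
    rw [hm _ b _ (H.inv_mem hg), hm _ a _ (H.inv_mem hh), hm h hh g hg]
    linear_combination θ g * θ g⁻¹ * hi h hh + hi g hg
  have eq : ∀ φ ∈ Z, ∀ g ∈ H, ∀ σ ∈ Γ, φ (g * σ * g⁻¹) = θ g * φ σ := fun φ hφ g hg => by
    obtain ⟨i, γ, hγ, rfl⟩ := hgen g hg
    obtain ⟨a, b⟩ := (hΓ γ).1 hγ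
    clear hg
    induction i with
    | zero =>
      intro σ hσ
      rw [pow_zero, one_mul, b, (hZ φ hφ).add _ (Γ.mul_mem hγ hσ) _ (Γ.inv_mem hγ),
        (hZ φ hφ).add _ hγ _ hσ, (hZ φ hφ).inv hγ]
      ring
    | succ i ih =>
      intro σ hσ
      have k := H.mul_mem (H.pow_mem hh i) a
      have e : h ^ (i + 1) * γ * σ * (h ^ (i + 1) * γ)⁻¹ =
          h * (h ^ i * γ * σ * (h ^ i * γ)⁻¹) * h⁻¹ := by group
      rw [e, (hZ φ hφ).eqv _ (hn _ k σ hσ), ih σ hσ, pow_succ', mul_assoc h, hm h hh _ k,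
        mul_assoc]
  have res : ∀ φ ∈ Z, ∀ g ∈ Γ, φ (h * g * h⁻¹ * g⁻¹) = (θ h - 1) * φ g := fun φ hφ g hg => by
    rw [(hZ φ hφ).add _ (hn h hh g hg) _ (Γ.inv_mem hg), (hZ φ hφ).eqv g hg, (hZ φ hφ).inv hg]
    ring
  have van : ∀ (z : Z × F), ∀ g ∈ Γ, z.1.1 g = 0 →
      (if g ∈ H then z.1.1 (h * g * h⁻¹ * g⁻¹) + z.2 * (θ g - 1) else 0) = 0 := fun z g hg k => by
    rw [if_pos ((hΓ g).1 hg).1, res _ z.1.2 g hg, k, ((hΓ g).1 hg).2]
    ring
  let Φ : (Z × F) →ₗ[F] Zt θ T H :=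
    { toFun := fun z => ⟨fun g => if g ∈ H then z.1.1 (h * g * h⁻¹ * g⁻¹) + z.2 * (θ g - 1) else 0,
        fun g hg k hk => by
          have e : h * (g * k) * h⁻¹ * (g * k)⁻¹ =
              (h * g * h⁻¹ * g⁻¹) * (g * (h * k * h⁻¹ * k⁻¹) * g⁻¹) := by group
          simp only [if_pos hg, if_pos hk, if_pos (H.mul_mem hg hk)]
          rw [e, (hZ _ z.1.2).add _ (hc g hg) _ (hn g hg _ (hc k hk)), eq _ z.1.2 g hg _ (hc k hk),
            hm g hg k hk]
          ring,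
        fun g hg => if_neg hg,
        by
          obtain ⟨U, hU, k⟩ := (hZ _ z.1.2).opn
          exact ⟨U ⊓ Γ, hU.inter ho, fun σ hσ => van z σ hσ.2 (k σ hσ.1)⟩,
        fun l hl P hP g hI => by
          by_cases hg : g ∈ H
          · exact van z g ((hΓ g).2 ⟨hg, hu l hl P hP g hg hI⟩)
              ((hZ _ z.1.2).unr l hP.1 hl P hP.2.1 hP.2.2 g hI)
          · exact if_neg hg⟩
      map_add' := fun a b => Subtype.ext (funext fun g => by
        simp only [Submodule.coe_add, Pi.add_apply]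
        split_ifs
        · simp only [Prod.fst_add, Prod.snd_add, Submodule.coe_add, Pi.add_apply]
          ring
        · rw [add_zero])
      map_smul' := fun a b => Subtype.ext (funext fun g => by
        show (if g ∈ H then _ else 0) = a * (if g ∈ H then _ else 0)
        split_ifs
        · simp only [Prod.smul_fst, Prod.smul_snd, Submodule.coe_smul, Pi.smul_apply, smul_eq_mul]
          ring
        · rw [mul_zero]) }
  have inj : Function.Injective Φ := (injective_iff_map_eq_zero Φ).2 fun z hz => by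
    have k : ∀ g ∈ H, z.1.1 (h * g * h⁻¹ * g⁻¹) + z.2 * (θ g - 1) = 0 := fun g hg =>
      (if_pos hg).symm.trans (congrFun (congrArg Subtype.val hz) g)
    refine Prod.ext (Subtype.ext (funext fun g => ?_)) ?_
    · by_cases hg : g ∈ Γ
      · have := k g ((hΓ g).1 hg).1
        rw [res _ z.1.2 g hg, ((hΓ g).1 hg).2, sub_self, mul_zero, add_zero] at this
        exact (mul_eq_zero.1 this).resolve_left (sub_ne_zero.2 x1)
      · exact (hZ _ z.1.2).off g hg
    · have := k h hh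
      rw [mul_inv_cancel_right, mul_inv_cancel, (hZ _ z.1.2).one, zero_add] at this
      exact (mul_eq_zero.1 this).resolve_right (sub_ne_zero.2 x1)
  have := LinearMap.rank_le_of_injective Φ inj
  rwa [rank_prod', Module.rank_self] at this

end Chr

open Chr in
theorem chrC : CHR := by
  intro F _ _ _ H θ T D hH h1 hm hU h0 h2 hD hu
  obtain ⟨K, _, _, jK, rfl⟩ := ex_fld hH
  by_cases ht : ∀ g ∈ GK jK, θ g = 1
  · refine ⟨?_, fun ⟨g, hg, k⟩ => absurd (ht g hg) k⟩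
    obtain ⟨Z, hZ, hr⟩ := chr1 K F jK T D h0 h2 hD
    refine ((ft_le θ le_rfl ht (GK jK).one_mem h1).trans hr).trans (Submodule.rank_mono ?_)
    intro φ hφ
    exact ⟨fun g hg k hk => by rw [(hZ φ hφ).add g hg k hk, ht g hg, one_mul], (hZ φ hφ).off,
      (hZ φ hφ).opn, fun l hl P hP => (hZ φ hφ).unr l hP.1 hl P hP.2.1 hP.2.2⟩
  suffices k : Module.rank F (Ft θ T D (GK jK)) + 1 ≤ Module.rank F (Zt θ T (GK jK)) from
    ⟨le_self_add.trans k, fun _ => k⟩
  let ψ : GK jK →* F := ⟨⟨fun g => θ g, h1⟩, fun g k => hm g g.2 k k.2⟩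
  let Γ : Subgroup GQ := ψ.toHomUnits.ker.map (GK jK).subtype
  have hΓ : ∀ g, g ∈ Γ ↔ g ∈ GK jK ∧ θ g = 1 := fun g =>
    ⟨by rintro ⟨a, ha, rfl⟩; exact ⟨a.2, congrArg Units.val ha⟩,
      fun k => ⟨⟨g, k.1⟩, Units.ext k.2, rfl⟩⟩
  have hle : Γ ≤ GK jK := fun g hg => ((hΓ g).1 hg).1
  have ho : IsOpen (Γ : Set GQ) := by
    obtain ⟨U, hU, k⟩ := hU
    exact Subgroup.isOpen_mono (H₁ := U ⊓ GK jK) (fun g hg => (hΓ g).2 ⟨hg.2, k g hg.1⟩)
      (hU.inter hH)
  obtain ⟨L, _, _, _, _, jL, res, hdict, hL, hker⟩ := exists_fld jK Γ ho hle fun g hg u hu => by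
    obtain ⟨a, ha, rfl⟩ := hu
    exact ⟨_, (inferInstance : ψ.toHomUnits.ker.Normal).conj_mem a ha ⟨g, hg⟩, rfl⟩
  have hfd : FiniteDimensional K L := Module.Finite.of_restrictScalars_finite ℚ K L
  have hcard : Nat.card (L ≃ₐ[K] L) = Module.finrank K L := IsGalois.card_aut_eq_finrank K L
  let χ : (L ≃ₐ[K] L) →* F := (Units.coeHom F).comp
    (res.liftOfRightInverse (Function.surjInv hdict.surj)
    (Function.rightInverse_surjInv hdict.surj) ⟨ψ.toHomUnits, fun g hg =>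
      Units.ext ((hΓ g).1 ((hker g).1 hg)).2⟩)
  have hχ : ∀ g, χ (res g) = θ g := fun g => by
    simp only [χ, MonoidHom.comp_apply, MonoidHom.liftOfRightInverse_comp_apply]
    rfl
  have hχ1 : ∀ σ, χ σ = 1 → σ = 1 := by
    intro σ hσ
    obtain ⟨g, rfl⟩ := hdict.surj σ
    rw [hχ] at hσ
    exact (hker g).2 ((hΓ g).2 ⟨g.2, hσ⟩)
  have hinj : Function.Injective χ := (injective_iff_map_eq_one χ).2 hχ1
  have hcyc : IsCyclic (L ≃ₐ[K] L) := isCyclic_of_injective_ringHom χ hinj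
  have hodd : Odd (Module.finrank K L) := by
    rw [← hcard, ← Nat.not_even_iff_odd, even_iff_two_dvd]
    intro h2
    haveI : Fact (Nat.Prime 2) := ⟨Nat.prime_two⟩
    obtain ⟨σ, hσ⟩ := exists_prime_orderOf_dvd_card' 2 h2
    have h1 : χ σ ^ 2 = 1 := by rw [← map_pow, ← hσ, pow_orderOf_eq_one, map_one]
    have h3 : χ σ = 1 := by
      rcases sq_eq_one_iff.1 h1 with h | h
      · exact h
      · rw [h, CharTwo.neg_eq]
    rw [hχ1 σ h3, orderOf_one] at hσ
    omega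
  obtain ⟨τ, hτ⟩ := IsCyclic.exists_monoid_generator (α := L ≃ₐ[K] L)
  obtain ⟨h, rfl⟩ := hdict.surj τ
  have hgen : ∀ g ∈ GK jK, ∃ i : ℕ, ∃ γ ∈ Γ, g = (h : GQ) ^ i * γ := by
    intro g hg
    obtain ⟨i, hi⟩ := hτ (res ⟨g, hg⟩)
    refine ⟨i, ((h : GQ) ^ i)⁻¹ * g, ?_, by rw [mul_inv_cancel_left]⟩
    exact (hker ((h ^ i)⁻¹ * ⟨g, hg⟩)).1 (by rw [map_mul, map_inv, map_pow, ← hi, inv_mul_cancel])
  have x1 : θ h ≠ 1 := fun e => ht fun g hg => by
    obtain ⟨i, hi⟩ := hτ (res ⟨g, hg⟩)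
    have := hχ ⟨g, hg⟩
    rw [← hi, map_pow, hχ, e, one_pow] at this
    exact this.symm
  obtain ⟨Z, hZ, hr⟩ := chrX K L F jL h (res h) (θ h) T D (fun y => (hdict.act h y).symm) hodd
    (by rw [← hχ, ← map_pow, ← hcard, pow_card_eq_one', map_one]) x1 h0 h2 hD
  rw [hL] at hZ hr
  refine le_trans (add_le_add ?_ le_rfl) (zt_ge θ h1 hm hΓ ho h.2 x1 hgen hu Z hZ)
  exact ((ft_inv θ fun g hg => (ψ.toHomUnits ⟨g, hg⟩).ne_zero).trans
    (ft_le _ hle (fun γ hγ => by rw [((hΓ γ).1 hγ).2, inv_one]) h.2 rfl)).trans hr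

end Vale.Agent.P022E.GW
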