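import Vale.Agent.P022E.GW.DeU

/-!
# P022E, block GW: finiteness of the units outside `T`
-/

set_option linter.all false

noncomputable section

namespace Vale.Agent.P022E.GW.De

open NumberField
open Vale.Agent.P022 Vale.Agent.P022E.GW.Du

section

variable {Y I : Type} [AddCommGroup Y] [Finite I]

theorem fg_of (y : I → Y) {N : ℕ} (ht : {z : Y | N • z = 0}.Finite)
    (h : ∀ z, N • z ∈ AddSubgroup.closure (Set.range y)) : Module.Finite ℤ Y := by
  let f : Y →ₗ[ℤ] Y := (N : ℤ) • LinearMap.id
  have hf : ∀ z, f z = N • z := fun z => natCast_zsmul z N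
  have h1 : (Submodule.span ℤ (Set.range y)).FG := Submodule.fg_span (Set.finite_range y)
  refine ⟨Submodule.fg_of_fg_map_of_fg_inf_ker f (h1.of_le ?_) ?_⟩
  · rintro _ ⟨z, -, rfl⟩
    rw [hf, ← Submodule.mem_toAddSubgroup, Submodule.span_int_eq_addSubgroupClosure]
    exact h z
  · refine Submodule.fg_def.2 ⟨_, ht.subset fun z hz => (hf z).symm.trans hz.2,
      Submodule.span_eq _⟩

theorem idx_of (y : I → Y) {N : ℕ} (hN : N ≠ 0) (ht : {z : Y | N • z = 0}.Finite)
    (h : ∀ z, N • z ∈ AddSubgroup.closure (Set.range y)) :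
    (AddSubgroup.closure (Set.range y)).index ≠ 0 := by
  haveI := fg_of y ht h
  haveI : AddGroup.FG Y := Module.Finite.iff_addGroup_fg.1 inferInstance
  haveI : Finite (Y ⧸ AddSubgroup.closure (Set.range y)) :=
    AddCommGroup.finite_of_fg_torsion _ fun x => by
      obtain ⟨z, rfl⟩ := QuotientAddGroup.mk_surjective x
      exact isOfFinAddOrder_iff_nsmul_eq_zero.2 ⟨N, hN.bot_lt, by
        rw [← QuotientAddGroup.mk_nsmul]; exact (QuotientAddGroup.eq_zero_iff _).2 (h z)⟩
  exact AddSubgroup.index_ne_zero_of_finite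

theorem fin_dual (F : Type) [Field F] [Module.Finite ℤ Y] : Module.Finite F (Y →+ F) := by
  obtain ⟨n, s, hs⟩ := Module.Finite.exists_fin (R := ℤ) (M := Y)
  let e : (Y →+ F) →ₗ[F] (Fin n → F) :=
    { toFun := fun l i => l (s i)
      map_add' := fun _ _ => rfl
      map_smul' := fun _ _ => rfl }
  refine Module.Finite.of_injective e fun a b hab => ?_
  have : a.toIntLinearMap = b.toIntLinearMap :=
    LinearMap.ext_on_range hs fun i => congrFun hab i
  exact AddMonoidHom.ext fun z => LinearMap.congr_fun this z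

end

variable {L : Type} [Field L] [NumberField L] {θ : GQ →* (L ≃ₐ[ℚ] L)} {T : Finset ℕ}

theorem el_nsmul (n : ℕ) (z : UA θ T) : (n • z).el = z.el ^ n := by
  induction n with
  | zero => rw [zero_nsmul, pow_zero, UA.el_zero]
  | succ n ih => rw [succ_nsmul, UA.el_add, ih, pow_succ]

theorem tors {N : ℕ} (hN : N ≠ 0) : {z : UA θ T | N • z = 0}.Finite := by
  classical
  refine Set.Finite.of_finite_image (f := UA.el)
    ((Polynomial.nthRoots N (1 : L)).toFinset.finite_toSet.subset ?_) fun a _ b _ h => UA.ext h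
  rintro _ ⟨z, hz, rfl⟩
  rw [Finset.mem_coe, Multiset.mem_toFinset, Polynomial.mem_nthRoots hN.bot_lt, ← el_nsmul,
    show N • z = 0 from hz, UA.el_zero]

end Vale.Agent.P022E.GW.De
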