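import Vale.Agent.P022E.Sel.Defs
import Vale.Agent.P022D.L2c.Defs
import Vale.Agent.P022D.W.Tame

/-!
# P022E, block GW: reciprocity and the lower bound for the cocycles of `ad` (statements)
-/

set_option linter.all false

noncomputable section

namespace Vale.Agent.P022E.GW

open NumberField
open Vale.Agent.P022 Vale.Agent.P022.H443
open Vale.Agent.P027M.S (Inert mx)
open Vale.Agent.P022D.Sel (M2 IsDec TanP Big)
open Vale.Agent.P022D.L2c (Hm Cob IsZ2 cup up)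
open Vale.Agent.P022D.W (dec)

section

variable {F : Type} [Field F]

/-- restriction of a two cochain -/
def rs (H : Subgroup GQ) (z : GQ → GQ → F) : H → H → F := fun a b => z a b

/-- `z` is a coboundary on `H` -/
def Cb (H : Subgroup GQ) (z : GQ → GQ → F) : Prop := rs H z ∈ Cob F H

/-- `z` is a locally constant two cocycle on `H` -/
def Z2 (H : Subgroup GQ) (z : GQ → GQ → F) : Prop := IsZ2 (rs H z)

/-- `a` is a locally constant additive character of `H` -/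
def Ch (H : Subgroup GQ) (a : GQ → F) : Prop := (fun x : H => a x) ∈ Hm F H

/-- `z` is a coboundary on the intersections of `H` with all decomposition groups -/
def Lc (H : Subgroup GQ) (z : GQ → GQ → F) : Prop :=
  ∀ (l : ℕ) (D : Subgroup GQ), IsDec l (D : Set GQ) → Cb (H ⊓ D) z

variable (F) in
/-- the sums of symbols -/
def Sy (H : Subgroup GQ) : Submodule F (GQ → GQ → F) :=
  Submodule.span F {z | ∃ a b : GQ → F, Ch H a ∧ Ch H b ∧ z = cup a b}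

/-- `P` is a prime above the prime number `l` -/
def Ov (l : ℕ) (P : Ideal (𝓞 Qb)) : Prop := l.Prime ∧ P.IsPrime ∧ (l : 𝓞 Qb) ∈ P

/-- `φ` is a Frobenius element at `P` -/
def Fb (l : ℕ) (P : Ideal (𝓞 Qb)) (φ : GQ) : Prop := ∀ x : 𝓞 Qb, φ • x - x ^ l ∈ P

/-- `τ` is an element of the inertia group which moves the square roots of `l` -/
def Gn (l : ℕ) (P : Ideal (𝓞 Qb)) (τ : GQ) : Prop :=
  Inert P τ ∧ ∀ w : Qb, w ^ 2 = (l : Qb) → τ w = -w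

/-- `c` vanishes on an open subgroup -/
def Op {M : Type} [Zero M] (c : GQ → M) : Prop :=
  ∃ U : Subgroup GQ, IsOpen (U : Set GQ) ∧ ∀ σ ∈ U, c σ = 0

/-- `c` vanishes on the inertia groups outside `T` -/
def Ur {M : Type} [Zero M] (T : Finset ℕ) (c : GQ → M) : Prop :=
  ∀ l ∉ T, ∀ P : Ideal (𝓞 Qb), Ov l P → ∀ g, Inert P g → c g = 0

theorem Op.add {M : Type} [AddMonoid M] {a b : GQ → M} (ha : Op a) (hb : Op b) : Op (a + b) := by
  obtain ⟨U, hU, h⟩ := ha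
  obtain ⟨V, hV, k⟩ := hb
  exact ⟨U ⊓ V, hU.inter hV, fun σ hσ => by rw [Pi.add_apply, h σ hσ.1, k σ hσ.2, add_zero]⟩

/-- `T` is big for the field of `H` -/
def Bg (H : Subgroup GQ) (T : Finset ℕ) : Prop :=
  ∃ (L : Type) (_ : Field L) (_ : NumberField L) (j : L →+* Qb), GK j = H ∧ Big L T

/-- the cocycles of `ad ρ` on `Γ` which are unramified outside `T` -/
def H1 (ρ : GQ →* GL (Fin 2) F) (T : Finset ℕ) (Γ : Subgroup GQ) : Submodule F (GQ → M2 F) where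
  carrier := {c | (∀ g ∈ Γ, ∀ h ∈ Γ, c (g * h) = c g + mx ρ g * c h * mx ρ g⁻¹) ∧
    (∀ g ∉ Γ, c g = 0) ∧ Op c ∧ Ur T c}
  add_mem' {a b} ha hb := ⟨fun g hg h hh => by
      rw [Pi.add_apply, Pi.add_apply, Pi.add_apply, ha.1 g hg h hh, hb.1 g hg h hh, mul_add,
        add_mul]; abel,
    fun g hg => by rw [Pi.add_apply, ha.2.1 g hg, hb.2.1 g hg, add_zero],
    ha.2.2.1.add hb.2.2.1,
    fun l hl P hP g hg => by
      rw [Pi.add_apply, ha.2.2.2 l hl P hP g hg, hb.2.2.2 l hl P hP g hg, add_zero]⟩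
  zero_mem' := ⟨fun _ _ _ _ => by simp, fun _ _ => rfl, ⟨⊤, isOpen_univ, fun _ _ => rfl⟩,
    fun _ _ _ _ _ _ => rfl⟩
  smul_mem' r a ha := ⟨fun g hg h hh => by
      rw [Pi.smul_apply, Pi.smul_apply, Pi.smul_apply, ha.1 g hg h hh, smul_add, mul_smul_comm,
        smul_mul_assoc],
    fun g hg => by rw [Pi.smul_apply, ha.2.1 g hg, smul_zero],
    ha.2.2.1.imp fun U hU => ⟨hU.1, fun σ hσ => by rw [Pi.smul_apply, hU.2 σ hσ, smul_zero]⟩,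
    fun l hl P hP g hg => by rw [Pi.smul_apply, ha.2.2.2 l hl P hP g hg, smul_zero]⟩

/-- the `Γ` equivariant functions on the places above `T` with values in `ad ρ` -/
def Fx (ρ : GQ →* GL (Fin 2) F) (T : Finset ℕ) (D : ℕ → Set GQ) (Γ : Subgroup GQ) :
    Submodule F (ℕ → GQ → M2 F) where
  carrier := {f | (∀ l ∉ T, f l = 0) ∧
    (∀ l, ∀ γ ∈ Γ, ∀ g, f l (γ * g) = mx ρ γ * f l g * mx ρ γ⁻¹) ∧
    ∀ l, ∀ d ∈ D l, ∀ g, f l (g * d) = f l g}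
  add_mem' {a b} ha hb := ⟨fun l hl => by rw [Pi.add_apply, ha.1 l hl, hb.1 l hl, add_zero],
    fun l γ hγ g => by
      simp only [Pi.add_apply]; rw [ha.2.1 l γ hγ g, hb.2.1 l γ hγ g, mul_add, add_mul],
    fun l d hd g => by simp only [Pi.add_apply]; rw [ha.2.2 l d hd g, hb.2.2 l d hd g]⟩
  zero_mem' := ⟨fun _ _ => rfl, fun _ _ _ _ => by simp, fun _ _ _ _ => rfl⟩
  smul_mem' r a ha := ⟨fun l hl => by rw [Pi.smul_apply, ha.1 l hl, smul_zero],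
    fun l γ hγ g => by
      simp only [Pi.smul_apply]; rw [ha.2.1 l γ hγ g, mul_smul_comm, smul_mul_assoc],
    fun l d hd g => by simp only [Pi.smul_apply]; rw [ha.2.2 l d hd g]⟩

/-- the cocycles of the character `θ` on `Γ` which are unramified outside `T` -/
def Zt (θ : GQ → F) (T : Finset ℕ) (Γ : Subgroup GQ) : Submodule F (GQ → F) where
  carrier := {c | (∀ g ∈ Γ, ∀ h ∈ Γ, c (g * h) = c g + θ g * c h) ∧
    (∀ g ∉ Γ, c g = 0) ∧ Op c ∧ Ur T c}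
  add_mem' {a b} ha hb := ⟨fun g hg h hh => by
      rw [Pi.add_apply, Pi.add_apply, Pi.add_apply, ha.1 g hg h hh, hb.1 g hg h hh]; ring,
    fun g hg => by rw [Pi.add_apply, ha.2.1 g hg, hb.2.1 g hg, add_zero],
    ha.2.2.1.add hb.2.2.1,
    fun l hl P hP g hg => by
      rw [Pi.add_apply, ha.2.2.2 l hl P hP g hg, hb.2.2.2 l hl P hP g hg, add_zero]⟩
  zero_mem' := ⟨fun _ _ _ _ => by simp, fun _ _ => rfl, ⟨⊤, isOpen_univ, fun _ _ => rfl⟩,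
    fun _ _ _ _ _ _ => rfl⟩
  smul_mem' r a ha := ⟨fun g hg h hh => by
      simp only [Pi.smul_apply, smul_eq_mul]; rw [ha.1 g hg h hh]; ring,
    fun g hg => by rw [Pi.smul_apply, ha.2.1 g hg, smul_zero],
    ha.2.2.1.imp fun U hU => ⟨hU.1, fun σ hσ => by rw [Pi.smul_apply, hU.2 σ hσ, smul_zero]⟩,
    fun l hl P hP g hg => by rw [Pi.smul_apply, ha.2.2.2 l hl P hP g hg, smul_zero]⟩

/-- the `Γ` equivariant functions on the places above `T` with values in `θ` -/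
def Ft (θ : GQ → F) (T : Finset ℕ) (D : ℕ → Set GQ) (Γ : Subgroup GQ) :
    Submodule F (ℕ → GQ → F) where
  carrier := {f | (∀ l ∉ T, f l = 0) ∧ (∀ l, ∀ γ ∈ Γ, ∀ g, f l (γ * g) = θ γ * f l g) ∧
    ∀ l, ∀ d ∈ D l, ∀ g, f l (g * d) = f l g}
  add_mem' {a b} ha hb := ⟨fun l hl => by rw [Pi.add_apply, ha.1 l hl, hb.1 l hl, add_zero],
    fun l γ hγ g => by
      simp only [Pi.add_apply]; rw [ha.2.1 l γ hγ g, hb.2.1 l γ hγ g, mul_add],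
    fun l d hd g => by simp only [Pi.add_apply]; rw [ha.2.2 l d hd g, hb.2.2 l d hd g]⟩
  zero_mem' := ⟨fun _ _ => rfl, fun _ _ _ _ => by simp, fun _ _ _ _ => rfl⟩
  smul_mem' r a ha := ⟨fun l hl => by rw [Pi.smul_apply, ha.1 l hl, smul_zero],
    fun l γ hγ g => by
      simp only [Pi.smul_apply, smul_eq_mul]; rw [ha.2.1 l γ hγ g]; ring,
    fun l d hd g => by simp only [Pi.smul_apply]; rw [ha.2.2 l d hd g]⟩

/-- the elements with upper triangular image -/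
def GB (ρ : GQ →* GL (Fin 2) F) : Subgroup GQ where
  carrier := {g | mx ρ g 1 0 = 0}
  mul_mem' {g h} hg hh := by
    have e : mx ρ (g * h) = mx ρ g * mx ρ h := by simp only [mx, map_mul, Units.val_mul]
    simp only [Set.mem_setOf_eq] at hg hh ⊢
    rw [e, Matrix.mul_apply, Fin.sum_univ_two, hg, hh, zero_mul, mul_zero, add_zero]
  one_mem' := by simp [mx]
  inv_mem' {g} hg := by
    simp only [Set.mem_setOf_eq, mx] at hg ⊢
    simp [Matrix.inv_def, Matrix.adjugate_fin_two, hg]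

/-- the elements with unipotent upper triangular image -/
def GP (ρ : GQ →* GL (Fin 2) F) : Subgroup GQ := (Gp.Up F).comap ρ

/-- normal form, big set of places, one prime with a unipotent Frobenius element -/
structure Hyp (ρ : GQ →* GL (Fin 2) F) (T : Finset ℕ) (D : ℕ → Set GQ) : Prop where
  opn : IsOpen {g : GQ | ρ g = 1}
  std : Gp.Std ρ.range
  h0 : 0 ∈ T
  h2 : 2 ∈ T
  dec : ∀ l ∈ T, IsDec l (D l)
  unr : ∀ l ∉ T, ∀ P : Ideal (𝓞 Qb), Ov l P → ∀ g, Inert P g → ρ g = 1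
  bL : Bg ρ.ker T
  bP : Bg (GP ρ) T
  bB : Bg (GB ρ) T
  a0 : ∃ l ∈ T, l ≠ 2 ∧ ∃ (P : Ideal (𝓞 Qb)) (φ : GQ), Ov l P ∧ Fb l P φ ∧
    (∀ g, Inert P g → ρ g = 1) ∧ φ ∈ GP ρ ∧ ρ φ ≠ 1

end

/-! ### group cohomology -/

/-- restriction to a subgroup of odd index -/
def ODG : Prop := ∀ (F : Type) [Field F] [CharP F 2] (H U : Subgroup GQ) (z : GQ → GQ → F),
  IsOpen (U : Set GQ) → Odd (U.relIndex H) → Z2 H z → Cb (H ⊓ U) z → Cb H z

/-- conjugation -/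
def CJ : Prop := ∀ (F : Type) [Field F] [CharP F 2] (H D D' : Subgroup GQ) (g : GQ)
  (z : GQ → GQ → F), g ∈ H → (∀ x, x ∈ D ↔ g * x * g⁻¹ ∈ D') → Z2 H z → Cb (H ⊓ D) z →
  Cb (H ⊓ D') z

/-- the Gysin sequence -/
def GYS : Prop := ∀ (F : Type) [Field F] [CharP F 2] (H H' : Subgroup GQ) (χ : GQ → ZMod 2)
  (z : GQ → GQ → F), Ch H χ → (∀ g, g ∈ H' ↔ g ∈ H ∧ χ g = 0) → Z2 H z → Cb H' z →
  ∃ b : GQ → F, Ch H b ∧ Cb H (z - cup (fun g => up F (χ g)) b)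

/-! ### local and global arithmetic -/

/-- the norm theorem -/
def HNPG : Prop := ∀ (H : Subgroup GQ) (a b : GQ → ZMod 2), IsOpen (H : Set GQ) → Ch H a →
  Ch H b → Lc H (cup a b) → Cb H (cup a b)

/-- the local global principle -/
def HASSE : Prop := ∀ (F : Type) [Field F] [Finite F] [CharP F 2] (H : Subgroup GQ)
  (z : GQ → GQ → F), IsOpen (H : Set GQ) → Z2 H z → Lc H z → Cb H z

/-- the local norm index is at most two -/
def NIL : Prop := ∀ (H D : Subgroup GQ) (l : ℕ) (a b b' : GQ → ZMod 2), IsOpen (H : Set GQ) →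
  IsDec l (D : Set GQ) → Ch H a → Ch H b → Ch H b' → ¬ Cb (H ⊓ D) (cup a b) →
  ¬ Cb (H ⊓ D) (cup a b') → Cb (H ⊓ D) (cup a (b + b'))

/-- the local symbols span a line, which is fixed by conjugation -/
def SYL : Prop := ∀ (F : Type) [Field F] [Finite F] [CharP F 2] (H : Subgroup GQ),
  IsOpen (H : Set GQ) → ∃ inv : Subgroup GQ → (GQ → GQ → F) →ₗ[F] F,
    ∀ (l : ℕ) (D : Subgroup GQ), IsDec l (D : Set GQ) →
      (∀ z ∈ Sy F H, inv D z = 0 ↔ Cb (H ⊓ D) z) ∧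
      ∀ (g : GQ) (D' : Subgroup GQ), (∀ x, x ∈ H ↔ g * x * g⁻¹ ∈ H) →
        (∀ x, x ∈ D ↔ g * x * g⁻¹ ∈ D') → ∀ z ∈ Sy F H,
          inv D (fun x y => z (g * x * g⁻¹) (g * y * g⁻¹)) = inv D' z

/-- unramified cocycles -/
def UNR : Prop := ∀ (F : Type) [Field F] [CharP F 2] (H : Subgroup GQ) (l : ℕ)
  (P : Ideal (𝓞 Qb)) (z : GQ → GQ → F), IsOpen (H : Set GQ) → Ov l P → Z2 (H ⊓ dec P) z →
  (∀ g ∈ H ⊓ dec P, ∀ h ∈ H ⊓ dec P, ∀ i ∈ H, Inert P i →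
    z (g * i) h = z g h ∧ z g (h * i) = z g h) → Cb (H ⊓ dec P) z

/-- the tame symbol -/
def TAME : Prop := ∀ (F : Type) [Field F] [CharP F 2] (H : Subgroup GQ) (l : ℕ)
  (P : Ideal (𝓞 Qb)) (u ψ : GQ → F), IsOpen (H : Set GQ) → Ov l P → l ≠ 2 →
  Ch (H ⊓ dec P) u → Ch (H ⊓ dec P) ψ → (∀ i ∈ H, Inert P i → u i = 0) →
  (∃ φ ∈ H ⊓ dec P, u φ ≠ 0) → Cb (H ⊓ dec P) (cup u ψ) → ∀ i ∈ H, Inert P i → ψ i = 0

/-- **reciprocity** for a class which is trivial outside finitely many tame places of degree one -/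
def ONE : Prop := ∀ (F : Type) [Field F] [Finite F] [CharP F 2] (H : Subgroup GQ)
  (z : GQ → GQ → F) (ι : Type) [Fintype ι] (l : ι → ℕ) (P : ι → Ideal (𝓞 Qb)) (τ φ : ι → GQ)
  (u ψ : ι → GQ → F), IsOpen (H : Set GQ) → Z2 H z →
  (∀ i, Ov (l i) (P i) ∧ l i ≠ 2 ∧ Gn (l i) (P i) (τ i) ∧ Fb (l i) (P i) (φ i) ∧
    dec (P i) ≤ H) →
  (∀ i j, ∀ g ∈ H, (∀ x : 𝓞 Qb, x ∈ P i ↔ g • x ∈ P j) → i = j) →
  (∀ i, Ch (dec (P i)) (u i) ∧ Ch (dec (P i)) (ψ i) ∧ (∀ g, Inert (P i) g → u i g = 0) ∧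
    u i (φ i) = 1 ∧ Cb (dec (P i)) (z - cup (u i) (ψ i))) →
  (∀ D : Subgroup GQ, IsDec 0 (D : Set GQ) → Cb (H ⊓ D) z) →
  (∀ (p : ℕ) (P' : Ideal (𝓞 Qb)), Ov p P' →
    (∀ i, ∀ g ∈ H, ¬ ∀ x : 𝓞 Qb, x ∈ P i ↔ g • x ∈ P') → Cb (H ⊓ dec P') z) →
  ∑ i, ψ i (τ i) = 0

/-- removal of the ramification outside a big set -/
def FIX : Prop := ∀ (F : Type) [Field F] [Finite F] [CharP F 2] (H : Subgroup GQ) (T : Finset ℕ)
  (w : GQ → F), Bg H T → 2 ∈ T → (∃ U : Subgroup GQ, IsOpen (U : Set GQ) ∧ ∀ σ ∈ H ⊓ U, w σ = 0) →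
  (∀ l ∉ T, ∀ P : Ideal (𝓞 Qb), Ov l P → ∀ i ∈ H, Inert P i →
    (∀ i' ∈ H, Inert P i' → w (i * i') = w i + w i') ∧ ∀ g ∈ H, w (g * i * g⁻¹) = w i) →
  ∃ b : GQ → F, Ch H b ∧ ∀ l ∉ T, ∀ P : Ideal (𝓞 Qb), Ov l P → ∀ i ∈ H, Inert P i → b i = w i

/-- the unit theorem: the number of cocycles of a character -/
def CHR : Prop := ∀ (F : Type) [Field F] [Finite F] [CharP F 2] (H : Subgroup GQ) (θ : GQ → F)
  (T : Finset ℕ) (D : ℕ → Set GQ), IsOpen (H : Set GQ) → θ 1 = 1 →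
  (∀ g ∈ H, ∀ h ∈ H, θ (g * h) = θ g * θ h) →
  (∃ U : Subgroup GQ, IsOpen (U : Set GQ) ∧ ∀ σ ∈ U, θ σ = 1) → 0 ∈ T → 2 ∈ T →
  (∀ l ∈ T, IsDec l (D l)) →
  (∀ l ∉ T, ∀ P : Ideal (𝓞 Qb), Ov l P → ∀ g ∈ H, Inert P g → θ g = 1) →
  Module.rank F (Ft θ T D H) ≤ Module.rank F (Zt θ T H) ∧
    ((∃ g ∈ H, θ g ≠ 1) → Module.rank F (Ft θ T D H) + 1 ≤ Module.rank F (Zt θ T H))

/-! ### the output -/

/-- **reciprocity for `ad`** -/
def REC : Prop := ∀ (F : Type) [Field F] [Finite F] [CharP F 2] (ρ : GQ →* GL (Fin 2) F)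
  (T Q : Finset ℕ) (D : ℕ → Set GQ) (P : ℕ → Ideal (𝓞 Qb)) (τ φ : ℕ → GQ) (m : ℕ → ℕ)
  (c y : GQ → M2 F) (a : ℕ → M2 F), IsOpen {g : GQ | ρ g = 1} → 0 ∈ T → 2 ∈ T →
  (∀ l ∈ T, IsDec l (D l)) →
  (∀ l ∉ T, ∀ P : Ideal (𝓞 Qb), Ov l P → ∀ g, Inert P g → ρ g = 1) →
  (∀ q ∈ Q, q ∉ T ∧ Ov q (P q) ∧ Gn q (P q) (τ q) ∧ Fb q (P q) (φ q) ∧ Odd (m q) ∧
    ρ (φ q ^ m q) = 1) →
  TanP ρ T Q D c a → y ∈ H1 ρ T ⊤ → ∑ q ∈ Q, (c (τ q) * y (φ q ^ m q)).trace = 0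

/-- **the lower bound over the field of the upper triangular subgroup** -/
def LBB : Prop := ∀ (F : Type) [Field F] [Finite F] [CharP F 2] (ρ : GQ →* GL (Fin 2) F)
  (T : Finset ℕ) (D : ℕ → Set GQ), Hyp ρ T D →
  Module.rank F (Fx ρ T D (GB ρ)) + 3 ≤ Module.rank F (H1 ρ T (GB ρ))

/-- **the lower bound** -/
def LB : Prop := ∀ (F : Type) [Field F] [Finite F] [CharP F 2] (ρ : GQ →* GL (Fin 2) F)
  (T : Finset ℕ) (D : ℕ → Set GQ), Hyp ρ T D →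
  Module.rank F (Fx ρ T D ⊤) + 3 ≤ Module.rank F (H1 ρ T ⊤)

end Vale.Agent.P022E.GW
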