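import Vale.Agent.P022E.GW.DeU
import Vale.Agent.P022E.GW.Defs

/-!
# P022E, block GW: equivariant functions on the places above `T`
-/

set_option linter.all false

noncomputable section

namespace Vale.Agent.P022E.GW.Du

open NumberField
open Vale.Agent.P022 Vale.Agent.P022.C
open Vale.Agent.P022D.Sel (M2 Big)
open Vale.Agent.P027M.S (mx)

/-- the field of a normal subgroup is Galois -/
theorem th_of {L : Type} [Field L] [NumberField L] (j : L →+* Qb) (ho : IsOpen (GK j : Set GQ))
    (hn : (GK j).Normal) : ∃ (_ : IsGalois ℚ L) (θ : GQ →* (L ≃ₐ[ℚ] L)),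
      (∀ g y, j (θ g y) = g (j y)) ∧ Function.Surjective θ := by
  obtain ⟨L', _, _, _, j', θ', hK, hθ, hs⟩ := ex_th (GK j) ho hn
  have key : ∀ {A B : Type} [Field A] [NumberField A] [Field B] [NumberField B] (a : A →+* Qb)
      (b : B →+* Qb), GK a = GK b → ∀ x, ∃ y, a y = b x := by
    intro A B _ _ _ _ a b h x
    let E : IntermediateField ℚ Qb := a.toRatAlgHom.fieldRange
    have h1 : b x ∈ IntermediateField.fixedField E.fixingSubgroup := by
      rw [IntermediateField.mem_fixedField_iff]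
      intro g hg
      have : g ∈ GK a := fun y => (IntermediateField.mem_fixingSubgroup_iff _ _).1 hg _ ⟨y, rfl⟩
      rw [h] at this
      exact this x
    rw [InfiniteGalois.fixedField_fixingSubgroup] at h1
    exact h1
  choose f hf using key j j' hK.symm
  have hb : Function.Bijective f := ⟨fun x y h => j'.injective (by rw [← hf, ← hf, h]), fun y => by
    obtain ⟨x, hx⟩ := key j' j hK y
    exact ⟨x, j.injective (by rw [hf, hx])⟩⟩
  let φ : L' →+* L :=
    { toFun := f
      map_one' := j.injective (by rw [hf, map_one, map_one])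
      map_mul' := fun x y => j.injective (by rw [hf, map_mul, map_mul, hf, hf])
      map_zero' := j.injective (by rw [hf, map_zero, map_zero])
      map_add' := fun x y => j.injective (by rw [hf, map_add, map_add, hf, hf]) }
  let e : L' ≃ₐ[ℚ] L := AlgEquiv.ofBijective φ.toRatAlgHom hb
  have he : ∀ x, j (e x) = j' x := hf
  refine ⟨IsGalois.of_algEquiv e, (AlgEquiv.autCongr e).toMonoidHom.comp θ', fun g y => ?_,
    (AlgEquiv.autCongr e).surjective.comp hs⟩
  show j (e (θ' g (e.symm y))) = _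
  rw [he, hθ, ← he, AlgEquiv.apply_symm_apply]

variable {F : Type} [Field F] {ρ : GQ →* GL (Fin 2) F} {T : Finset ℕ} {D : ℕ → Set GQ}

theorem fx_right {H Γ : Subgroup GQ} (hn : Γ.Normal) (hΓ : Γ ≤ H) (hk : ∀ g ∈ Γ, ρ g = 1)
    {f : ℕ → GQ → M2 F} (hf : f ∈ Fx ρ T D H) (l : ℕ) {d : GQ}
    (hd : d ∈ Subgroup.closure (D l) ⊔ Γ) (g : GQ) : f l (g * d) = f l g := by
  let S : Subgroup GQ :=
    { carrier := {d | ∀ g, f l (g * d) = f l g}
      mul_mem' := fun {a b} ha hb g => by rw [← mul_assoc, hb, ha]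
      one_mem' := fun g => by rw [mul_one]
      inv_mem' := fun {a} ha g => by rw [← ha, inv_mul_cancel_right] }
  have h : Subgroup.closure (D l) ⊔ Γ ≤ S := by
    refine sup_le ((Subgroup.closure_le _).2 fun d hd g => hf.2.2 l d hd g) fun γ hγ g => ?_
    have h1 := hn.conj_mem γ hγ g
    have h2 := hf.2.1 l _ (hΓ h1) g
    rw [inv_mul_cancel_right] at h2
    rw [h2]
    simp only [mx, map_inv, hk _ h1, inv_one, Units.val_one, one_mul, mul_one]
  exact h hd g

/-- equivariant functions on the cosets are the elements of `Fx` -/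
theorem inv_fx {H Γ : Subgroup GQ} (hn : Γ.Normal) (hΓ : Γ ≤ H) (hk : ∀ g ∈ Γ, ρ g = 1)
    (W : Submodule F (Ix Γ T D → M2 F))
    (hW : ∀ f, f ∈ W ↔ ∀ h ∈ H, ∀ i, mx ρ h * f (h⁻¹ • i) * mx ρ h⁻¹ = f i) :
    Nonempty (W ≃ₗ[F] Fx ρ T D H) := by
  classical
  let φ : (Ix Γ T D → M2 F) →ₗ[F] (ℕ → GQ → M2 F) :=
    { toFun := fun f l g => if h : l ∈ T then f ⟨⟨l, h⟩, (g : GQ ⧸ _)⟩ else 0
      map_add' := fun a b => by
        funext l g
        by_cases h : l ∈ T <;> simp [h]
      map_smul' := fun r a => by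
        funext l g
        by_cases h : l ∈ T <;> simp [h] }
  have hφ : ∀ f l (h : l ∈ T) (g : GQ), φ f l g = f ⟨⟨l, h⟩, (g : GQ ⧸ _)⟩ :=
    fun f l h g => dif_pos h
  have hφ' : ∀ f l, l ∉ T → ∀ g : GQ, φ f l g = 0 := fun f l h g => dif_neg h
  have hsm : ∀ (h g : GQ) (l : T), h • (⟨l, (g : GQ ⧸ _)⟩ : Ix Γ T D) =
      ⟨l, ((h * g : GQ) : GQ ⧸ _)⟩ := fun h g l => rfl
  have hinj : Function.Injective φ := by
    intro a b h
    funext ⟨l, x⟩
    induction x using QuotientGroup.induction_on with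
    | H g => rw [← hφ a l l.2 g, ← hφ b l l.2 g, h]
  have hmap : W.map φ = Fx ρ T D H := by
    apply le_antisymm
    · rintro _ ⟨f, hf, rfl⟩
      refine ⟨fun l hl => funext (hφ' f l hl), fun l γ hγ g => ?_, fun l d hd g => ?_⟩
      · by_cases h : l ∈ T
        · rw [hφ f l h, hφ f l h, ← (hW f).1 hf γ hγ, hsm, inv_mul_cancel_left]
        · rw [hφ' f l h, hφ' f l h, mul_zero, zero_mul]
      · by_cases h : l ∈ T
        · rw [hφ f l h, hφ f l h]
          have e : ((g * d : GQ) : GQ ⧸ (Subgroup.closure (D l) ⊔ Γ)) = (g : GQ ⧸ _) := by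
            rw [eq_comm, QuotientGroup.eq, inv_mul_cancel_left]
            exact Subgroup.mem_sup_left (Subgroup.subset_closure hd)
          exact congrArg (fun x => f ⟨⟨l, h⟩, x⟩) e
        · rw [hφ' f l h, hφ' f l h]
    · intro f hf
      let k : Ix Γ T D → M2 F := fun i => Quotient.liftOn' i.2 (f i.1) fun a b hab => by
        have := fx_right hn hΓ hk hf i.1 (QuotientGroup.leftRel_apply.1 hab) a
        rw [mul_inv_cancel_left] at this
        exact this.symm
      have hk' : ∀ (l : T) (g : GQ), k ⟨l, (g : GQ ⧸ _)⟩ = f l g := fun l g => rfl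
      refine ⟨k, (hW k).2 fun h hh ⟨l, x⟩ => ?_, ?_⟩
      · induction x using QuotientGroup.induction_on with
        | H g => rw [hsm, hk', hk', ← hf.2.1 l h hh, mul_inv_cancel_left]
      · funext l g
        by_cases h : l ∈ T
        · rw [hφ k l h, hk']
        · rw [hφ' k l h, hf.1 l h]; rfl
  exact ⟨(Submodule.equivMapOfInjective φ hinj W).trans (LinearEquiv.ofEq _ _ hmap)⟩

end Vale.Agent.P022E.GW.Du
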