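import Vale.Agent.P022E.GW.Ex1

/-! P022, block GW: the kernel of the trace only depends on the lattice up to finite index. -/

set_option linter.all false

noncomputable section

namespace Vale.Agent.P022E.GW.Ex

open Module Representation

variable {F G : Type} [Field F] [Group G]

theorem extend [CharP F 2] {A B : Type} [AddCommGroup A] [AddCommGroup B] (i : B →+ A)
    (l : B →+ F) (h : ∀ b a, i b = a + a → l b = 0) : ∃ L : A →+ F, ∀ b, L (i b) = l b := by
  let N : AddSubgroup A := (nsmulAddMonoidHom 2 : A →+ A).range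
  letI : Module (ZMod 2) (A ⧸ N) := QuotientAddGroup.zmodModule fun x => ⟨x, rfl⟩
  letI := ZMod.algebra F 2
  let j : B →+ A ⧸ N := (QuotientAddGroup.mk' N).comp i
  have hk : j.rangeRestrict.ker ≤ l.ker := fun b hb => by
    obtain ⟨a, ha⟩ := (QuotientAddGroup.eq_zero_iff _).1 (congrArg Subtype.val hb)
    exact h b a (ha.symm.trans (two_nsmul a))
  let l0 := j.rangeRestrict.liftOfSurjective j.rangeRestrict_surjective ⟨l, hk⟩
  have h0 : ∀ b, l0 (j.rangeRestrict b) = l b := fun b =>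
    j.rangeRestrict.liftOfRightInverse_comp_apply _ _ _ b
  let p : Submodule (ZMod 2) (A ⧸ N) := AddSubgroup.toZModSubmodule 2 j.range
  let l1 : p →+ F := AddMonoidHom.mk' (fun y => l0 ⟨y.1, y.2⟩) fun a b => l0.map_add ⟨_, a.2⟩ ⟨_, b.2⟩
  obtain ⟨g, hg⟩ := LinearMap.exists_extend (l1.toZModLinearMap 2)
  exact ⟨g.toAddMonoidHom.comp (QuotientAddGroup.mk' N), fun b =>
    (DFunLike.congr_fun hg ⟨j b, b, rfl⟩).trans (h0 b)⟩

section

variable {M U W V : Type} [AddCommGroup M] [Module F M] [AddCommGroup U] [Module F U]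
  [AddCommGroup W] [Module F W] [AddCommGroup V] [Module F V] {N P B : Subgroup G}

theorem lin_triv {ρ : Representation F G W} {σ : Representation F G M}
    (hρ : ∀ n ∈ N, ∀ w, ρ n w = w) (hσ : ∀ n ∈ N, ∀ w, σ n w = w) :
    ∀ n ∈ N, ∀ f, linHom ρ σ n f = f := fun n hn f => LinearMap.ext fun w => by
  show σ n (f (ρ n⁻¹ w)) = f w
  rw [hρ _ (inv_mem hn), hσ n hn]

theorem lin_eqv {τ : Representation F G U} {ρ : Representation F G W} (σ : Representation F G M)
    (i : U →ₗ[F] W) (hi : ∀ g u, i (τ g u) = ρ g (i u)) (g : G) (f : W →ₗ[F] M) :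
    LinearMap.lcomp F M i (linHom ρ σ g f) = linHom τ σ g (LinearMap.lcomp F M i f) :=
  LinearMap.ext fun u => by
    show σ g (f (ρ g⁻¹ (i u))) = σ g (f (i (τ g⁻¹ u)))
    rw [hi]

theorem lin_sur (i : U →ₗ[F] W) (hj : Function.Injective i) :
    Function.Surjective (LinearMap.lcomp F M i) := fun f => by
  obtain ⟨g, hg⟩ := i.exists_leftInverse_of_injective (LinearMap.ker_eq_bot.2 hj)
  exact ⟨f ∘ₗ g, LinearMap.ext fun u => congrArg f (DFunLike.congr_fun hg u)⟩

variable [CharP F 2] [Fintype (G ⧸ B)] [FiniteDimensional F M]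

theorem eps_mono (h : TI N P B) {τ : Representation F G U} {ρ : Representation F G W}
    {σ : Representation F G M} [FiniteDimensional F W] (hρ : ∀ n ∈ N, ∀ w, ρ n w = w)
    (hσ : ∀ n ∈ N, ∀ w, σ n w = w) (i : U →ₗ[F] W) (hi : ∀ g u, i (τ g u) = ρ g (i u))
    (hj : Function.Injective i) :
    finrank F (La B (linHom τ σ)) ≤ finrank F (La B (linHom ρ σ)) :=
  Module.finrank_le_finrank_of_rank_le_rank (by
    simpa using La_le_sur h (lin_triv hρ hσ) _ (lin_eqv σ i hi) (lin_sur i hj))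
    (Module.rank_lt_aleph0 _ _)

theorem eps_ses (h : TI N P B) {τ : Representation F G U} {ρ : Representation F G W}
    {υ : Representation F G V} {σ : Representation F G M} [FiniteDimensional F W]
    (hρ : ∀ n ∈ N, ∀ w, ρ n w = w) (hσ : ∀ n ∈ N, ∀ w, σ n w = w)
    (i : U →ₗ[F] W) (hi : ∀ g u, i (τ g u) = ρ g (i u))
    (π : W →ₗ[F] V) (hπ : ∀ g w, π (ρ g w) = υ g (π w)) (hj : Function.Injective i)
    (hs : Function.Surjective π) (he : ∀ w, π w = 0 ↔ ∃ u, i u = w) :
    finrank F (La B (linHom ρ σ)) =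
      finrank F (La B (linHom υ σ)) + finrank F (La B (linHom τ σ)) := by
  refine ses h (lin_triv hρ hσ) _ (lin_eqv σ π hπ) _ (lin_eqv σ i hi) (fun a b e => ?_)
    (lin_sur i hj) fun f => ⟨fun e => ?_, ?_⟩
  · refine LinearMap.ext fun v => ?_
    obtain ⟨w, rfl⟩ := hs v
    exact DFunLike.congr_fun e w
  · obtain ⟨s, hs⟩ := π.exists_rightInverse_of_surjective (LinearMap.range_eq_top.2 hs)
    refine ⟨f ∘ₗ s, LinearMap.ext fun w => ?_⟩
    obtain ⟨u, hu⟩ := (he (s (π w) - w)).1 (by
      rw [map_sub, show π (s (π w)) = π w from DFunLike.congr_fun hs _, sub_self])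
    have : f (i u) = 0 := DFunLike.congr_fun e u
    rwa [hu, map_sub, sub_eq_zero] at this
  · rintro ⟨k, rfl⟩
    refine LinearMap.ext fun u => ?_
    show k (π (i u)) = 0
    rw [(he _).2 ⟨u, rfl⟩, map_zero]

theorem eps_triv (hB : Odd B.index) {σ : Representation F G M} (hM : Inv B σ ≤ Inv ⊤ σ) :
    finrank F (La B (linHom (Representation.trivial F G U) σ)) = 0 := by
  rw [show La B (linHom (Representation.trivial F G U) σ) = ⊥ from ?_, finrank_bot]
  refine eq_bot_iff.2 fun f hf => LinearMap.ext fun u => ?_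
  have h1 : f u ∈ Inv ⊤ σ := hM fun b hb => DFunLike.congr_fun (hf.1 b hb) u
  have h2 : ∑ x : G ⧸ B, σ x.out (f u) = 0 := by
    have := DFunLike.congr_fun hf.2 u
    rwa [LinearMap.sum_apply] at this
  simp only [h1 _ trivial, Finset.sum_const, Finset.card_univ] at h2
  rwa [← Nat.card_eq_fintype_card, show Nat.card (G ⧸ B) • f u = f u from odd_smul (F := F) hB _]
    at h2

end

section

variable (F) (G) (Y : Type) [AddCommGroup Y] [DistribMulAction G Y]

/-- the functionals on `Y` -/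
def Dr : Representation F G (Y →+ F) where
  toFun g :=
    { toFun := fun l => l.comp (DistribSMul.toAddMonoidHom Y g⁻¹)
      map_add' := fun _ _ => rfl
      map_smul' := fun _ _ => rfl }
  map_one' := by
    ext l a
    show l ((1 : G)⁻¹ • a) = l a
    rw [inv_one, one_smul]
  map_mul' g h := by
    ext l a
    show l ((g * h)⁻¹ • a) = l (h⁻¹ • g⁻¹ • a)
    rw [mul_inv_rev, mul_smul]

variable {F G Y}

theorem Dr_ap (g : G) (l : Y →+ F) (a : Y) : Dr F G Y g l a = l (g⁻¹ • a) := rfl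

variable (F)

/-- the functionals on a stable subgroup -/
def Ds (A : AddSubgroup Y) (hA : ∀ (g : G), ∀ a ∈ A, g • a ∈ A) : Representation F G (A →+ F) where
  toFun g :=
    { toFun := fun l => l.comp (((DistribSMul.toAddMonoidHom Y g⁻¹).comp A.subtype).codRestrict A
        fun a => hA _ _ a.2)
      map_add' := fun _ _ => rfl
      map_smul' := fun _ _ => rfl }
  map_one' := by
    ext l a
    exact congrArg l (Subtype.ext (show (1 : G)⁻¹ • a.1 = a.1 by rw [inv_one, one_smul]))
  map_mul' g h := by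
    ext l a
    exact congrArg l (Subtype.ext (show (g * h)⁻¹ • a.1 = h⁻¹ • g⁻¹ • a.1 by
      rw [mul_inv_rev, mul_smul]))

/-- composition with an additive map -/
def cm {A B : Type} [AddCommGroup A] [AddCommGroup B] (φ : A →+ B) : (B →+ F) →ₗ[F] (A →+ F) where
  toFun l := l.comp φ
  map_add' _ _ := rfl
  map_smul' _ _ := rfl

variable {F}

theorem fin1 {S' S : AddSubgroup Y} (le : S' ≤ S) (h : S'.relIndex S ≠ 0)
    [Module.Finite F (S' →+ F)] : Module.Finite F (S →+ F) := by
  have : (S'.addSubgroupOf S).FiniteIndex := ⟨h⟩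
  let ρ : (S →+ F) →ₗ[F] (S' →+ F) × (S ⧸ S'.addSubgroupOf S → F) :=
    { toFun := fun l => (l.comp (AddSubgroup.inclusion le), fun q => l q.out)
      map_add' := fun _ _ => rfl
      map_smul' := fun _ _ => rfl }
  refine Module.Finite.of_injective ρ ((injective_iff_map_eq_zero _).2 fun l hl => ?_)
  ext s
  obtain ⟨b, hb⟩ := QuotientAddGroup.mk_out_eq_mul (S'.addSubgroupOf S) s
  have e1 : l (s : S ⧸ S'.addSubgroupOf S).out = 0 := congrFun (congrArg Prod.snd hl) _
  have e2 : l b = 0 := DFunLike.congr_fun (congrArg Prod.fst hl) ⟨b, b.2⟩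
  rwa [hb, map_add, e2, add_zero] at e1

variable {M : Type} [AddCommGroup M] [Module F M] {N P B : Subgroup G}

theorem Ds_triv (hY : ∀ n ∈ N, ∀ y : Y, n • y = y) (A : AddSubgroup Y)
    (hA : ∀ (g : G), ∀ a ∈ A, g • a ∈ A) : ∀ n ∈ N, ∀ l, Ds F A hA n l = l := fun n hn l =>
  AddMonoidHom.ext fun a => congrArg l (Subtype.ext (hY _ (inv_mem hn) a.1))

variable [CharP F 2] [Fintype (G ⧸ B)] [FiniteDimensional F M]

theorem step (h : TI N P B) {σ : Representation F G M} (hσ : ∀ n ∈ N, ∀ w, σ n w = w)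
    (hM : Inv B σ ≤ Inv ⊤ σ) (hY : ∀ n ∈ N, ∀ y : Y, n • y = y)
    (h2 : ∀ (g : G) (y : Y), y + y = 0 → g • y = y) {A' A : AddSubgroup Y} (le : A' ≤ A)
    (hA' : ∀ (g : G), ∀ a ∈ A', g • a ∈ A') (hA : ∀ (g : G), ∀ a ∈ A, g • a ∈ A)
    (hd : ∀ a ∈ A, a + a ∈ A') [Module.Finite F (A →+ F)] [Module.Finite F (A' →+ F)] :
    finrank F (La B (linHom (Ds F A hA) σ)) = finrank F (La B (linHom (Ds F A' hA') σ)) := by
  let d : A →+ A' := AddMonoidHom.mk' (fun a => ⟨a + a, hd a a.2⟩) fun a b =>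
    Subtype.ext (add_add_add_comm _ _ _ _)
  let T : AddSubgroup A := d.ker
  let rs := cm F (AddSubgroup.inclusion le)
  let db := cm F d
  have q1 : ∀ g l, rs (Ds F A hA g l) = Ds F A' hA' g (rs l) := fun _ _ => rfl
  have q2 : ∀ g l, db (Ds F A' hA' g l) = Ds F A hA g (db l) := fun g l =>
    AddMonoidHom.ext fun a => congrArg l (Subtype.ext (smul_add g⁻¹ a.1 a.1))
  have s1 : ∀ g, LinearMap.ker rs ≤ (LinearMap.ker rs).comap (Ds F A hA g) := fun g l hl => by
    show rs _ = 0
    rw [q1, show rs l = 0 from hl, map_zero]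
  have s2 : ∀ g, LinearMap.ker db ≤ (LinearMap.ker db).comap (Ds F A' hA' g) := fun g l hl => by
    show db _ = 0
    rw [q2, show db l = 0 from hl, map_zero]
  have s3 : ∀ g, LinearMap.range db ≤ (LinearMap.range db).comap (Ds F A hA g) := by
    rintro g _ ⟨l, rfl⟩
    exact ⟨_, q2 g l⟩
  have m1 : ∀ l, rs l ∈ LinearMap.ker db := fun l => AddMonoidHom.ext fun a => by
    show l (a + a) = 0
    rw [map_add, CharTwo.add_self_eq_zero]
  have m2 : LinearMap.range db ≤ LinearMap.ker rs := by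
    rintro _ ⟨l, rfl⟩
    refine AddMonoidHom.ext fun a => ?_
    show l (a + a) = 0
    rw [map_add, CharTwo.add_self_eq_zero]
  let r1 : Representation F G (LinearMap.ker rs) := (Ds F A hA).subrepresentation _ s1
  let r2 : Representation F G (LinearMap.ker db) := (Ds F A' hA').subrepresentation _ s2
  let r3 : Representation F G (LinearMap.range db) := (Ds F A hA).subrepresentation _ s3
  have e1 := eps_ses h (τ := r1) (ρ := Ds F A hA) (υ := r2) (Ds_triv hY A hA) hσ (Submodule.subtype _)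
    (fun _ _ => rfl) (rs.codRestrict _ m1) (fun _ _ => rfl) Subtype.val_injective (fun l : LinearMap.ker db => by
      obtain ⟨L, hL⟩ := extend (AddSubgroup.inclusion le) l.1 fun b a e =>
        (congrArg l.1 (show b = d a from Subtype.ext (congrArg (fun z : A => (z : Y)) e))).trans
          (DFunLike.congr_fun (LinearMap.mem_ker.1 (show l.1 ∈ LinearMap.ker db from l.2)) a)
      exact ⟨L, Subtype.ext (AddMonoidHom.ext hL)⟩)
    fun l => ⟨fun e => ⟨⟨l, congrArg Subtype.val e⟩, rfl⟩, by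
      rintro ⟨l, rfl⟩
      exact Subtype.ext l.2⟩
  let π2 : (A' →+ F) →ₗ[F] LinearMap.range db := db.rangeRestrict
  have p2 : Function.Surjective π2 := db.surjective_rangeRestrict
  have u2 : ∀ g w, π2 (Ds F A' hA' g w) = r3 g (π2 w) := fun g l => Subtype.ext (q2 g l)
  have v2 : ∀ l, π2 l = 0 ↔ ∃ u, (LinearMap.ker db).subtype u = l :=
    fun l => ⟨fun e => ⟨⟨l, congrArg Subtype.val e⟩, rfl⟩, by
      rintro ⟨l, rfl⟩
      exact Subtype.ext l.2⟩
  have x2 : ∀ g u, (LinearMap.ker db).subtype (r2 g u) =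
      Ds F A' hA' g ((LinearMap.ker db).subtype u) := fun _ _ => rfl
  have e2 := @eps_ses F G _ _ M (LinearMap.ker db) (A' →+ F) (LinearMap.range db) _ _ _ _ _ _ _ _
    N P B _ _ _ h r2 (Ds F A' hA') r3 σ _ (Ds_triv hY A' hA') hσ _ x2 π2 u2
    (LinearMap.ker db).injective_subtype p2 v2
  let t := cm F T.subtype ∘ₗ (LinearMap.ker rs).subtype
  let π3 : LinearMap.ker rs →ₗ[F] LinearMap.range t := t.rangeRestrict
  have p3 : Function.Surjective π3 := t.surjective_rangeRestrict
  have u3 : ∀ g w, π3 (r1 g w) = Representation.trivial F G (LinearMap.range t) g (π3 w) :=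
    fun g l => Subtype.ext (AddMonoidHom.ext fun a =>
      congrArg l.1 (Subtype.ext (h2 g⁻¹ a.1.1 (congrArg Subtype.val a.2))))
  have v3 : ∀ l, π3 l = 0 ↔ ∃ u, Submodule.inclusion m2 u = l :=
    fun l => ⟨fun e => by
      obtain ⟨L, hL⟩ := extend d l.1 fun b a e' => by
        have e1 : l.1 (b - AddSubgroup.inclusion le a) = 0 :=
          DFunLike.congr_fun (congrArg Subtype.val e) ⟨b - AddSubgroup.inclusion le a,
            Subtype.ext (by
              show ((b : Y) - a) + (b - a) = 0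
              rw [sub_add_sub_comm, sub_eq_zero]
              exact congrArg Subtype.val e')⟩
        rwa [map_sub, show l.1 (AddSubgroup.inclusion le a) = 0 from
          DFunLike.congr_fun (LinearMap.mem_ker.1 l.2) a, sub_zero] at e1
      exact ⟨⟨l.1, L, AddMonoidHom.ext hL⟩, rfl⟩, by
      rintro ⟨⟨_, l, rfl⟩, rfl⟩
      refine Subtype.ext (AddMonoidHom.ext fun a => ?_)
      show l (d a.1) = 0
      rw [show d a.1 = 0 from a.2, map_zero]⟩
  have w3 : ∀ n ∈ N, ∀ l, r1 n l = l := fun n hn l => Subtype.ext (Ds_triv hY A hA n hn l.1)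
  have x3 : ∀ g u, Submodule.inclusion m2 (r3 g u) = r1 g (Submodule.inclusion m2 u) :=
    fun _ _ => rfl
  have e3 := @eps_ses F G _ _ M (LinearMap.range db) (LinearMap.ker rs) (LinearMap.range t)
    _ _ _ _ _ _ _ _ N P B _ _ _ h r3 r1 _ σ _ w3 hσ _ x3 π3 u3
    (Submodule.inclusion_injective m2) p3 v3
  have e4 := @eps_triv F G _ _ M (LinearMap.range t) _ _ _ _ B _ _ _ h.oddB σ hM
  exact e1.trans ((congrArg₂ (· + ·) rfl (e3.trans ((congrArg₂ (· + ·) e4 rfl).trans
    (zero_add _)))).trans ((add_comm _ _).trans e2.symm))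

theorem steps (h : TI N P B) {σ : Representation F G M} (hσ : ∀ n ∈ N, ∀ w, σ n w = w)
    (hM : Inv B σ ≤ Inv ⊤ σ) (hY : ∀ n ∈ N, ∀ y : Y, n • y = y)
    (h2 : ∀ (g : G) (y : Y), y + y = 0 → g • y = y) {A' : AddSubgroup Y}
    (hA' : ∀ (g : G), ∀ a ∈ A', g • a ∈ A') (hi : A'.index ≠ 0) [Module.Finite F (A' →+ F)]
    {m : ℕ} (hm : Odd m) (k : ℕ) : ∀ (A : AddSubgroup Y) (le : A' ≤ A)
    (hA : ∀ (g : G), ∀ a ∈ A, g • a ∈ A), (∀ a ∈ A, (2 ^ k * m) • a ∈ A') →
    finrank F (La B (linHom (Ds F A hA) σ)) ≤ finrank F (La B (linHom (Ds F A' hA') σ)) := by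
  have fi : ∀ A : AddSubgroup Y, A' ≤ A → Module.Finite F (A →+ F) := fun A le =>
    fin1 le fun e => hi (AddSubgroup.index_eq_zero_of_relIndex_eq_zero e)
  induction k with
  | zero =>
    intro A le hA hk
    refine eps_mono h (Ds_triv hY A' hA') hσ (cm F (AddSubgroup.inclusion le)) (fun _ _ => rfl)
      ((injective_iff_map_eq_zero _).2 fun l hl => AddMonoidHom.ext fun a => ?_)
    have : l (m • a) = 0 := DFunLike.congr_fun hl ⟨m • a.1, by simpa using hk a a.2⟩
    rwa [map_nsmul, odd_smul (F := F) hm] at this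
  | succ k ih =>
    intro A le hA hk
    let A1 := A' ⊔ A.map (nsmulAddMonoidHom 2)
    have h1 : ∀ (g : G), ∀ a ∈ A1, g • a ∈ A1 := fun g a ha => by
      obtain ⟨b, hb, _, ⟨c, hc, rfl⟩, rfl⟩ := AddSubgroup.mem_sup.1 ha
      rw [smul_add]
      exact AddSubgroup.add_mem_sup (hA' g b hb) ⟨g • c, hA g c hc, by
        simp only [nsmulAddMonoidHom_apply, two_nsmul, smul_add]⟩
    have := fi A le
    have := fi A1 le_sup_left
    rw [step h hσ hM hY h2 (A' := A1) (sup_le le (by
      rintro _ ⟨c, hc, rfl⟩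
      exact nsmul_mem hc 2)) h1 hA fun a ha => AddSubgroup.mem_sup_right ⟨a, ha, two_nsmul a⟩]
    refine ih A1 le_sup_left h1 fun a ha => ?_
    obtain ⟨b, hb, _, ⟨c, hc, rfl⟩, rfl⟩ := AddSubgroup.mem_sup.1 ha
    rw [smul_add]
    refine add_mem (nsmul_mem hb _) ?_
    have := hk c hc
    rwa [pow_succ, mul_right_comm, mul_smul] at this

end

section

variable {M : Type} [AddCommGroup M] [Module F M] (I : Type) [MulAction G I]

/-- functions on a `G`-set -/
def Fn (σ : Representation F G M) : Representation F G (I → M) where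
  toFun g :=
    { toFun := fun f i => σ g (f (g⁻¹ • i))
      map_add' := fun _ _ => funext fun _ => map_add _ _ _
      map_smul' := fun _ _ => funext fun _ => map_smul _ _ _ }
  map_one' := by
    ext f i
    show σ 1 (f ((1 : G)⁻¹ • i)) = f i
    rw [inv_one, one_smul, one_ap]
  map_mul' g h := by
    ext f i
    show σ (g * h) (f ((g * h)⁻¹ • i)) = σ g (σ h (f (h⁻¹ • g⁻¹ • i)))
    rw [mul_inv_rev, mul_smul, mul_ap]

theorem Fn_ap (σ : Representation F G M) (g : G) (f : I → M) (i : I) :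
    Fn I σ g f i = σ g (f (g⁻¹ • i)) := rfl

variable {I} {Y : Type} [AddCommGroup Y] [DistribMulAction G Y] {N P B : Subgroup G}

theorem La_le_inj {W V : Type} [AddCommGroup W] [Module F W] [AddCommGroup V] [Module F V]
    [Fintype (G ⧸ B)] [FiniteDimensional F V] {ρ : Representation F G W}
    {σ : Representation F G V} (π : W →ₗ[F] V) (hπ : ∀ g w, π (ρ g w) = σ g (π w))
    (hj : Function.Injective π) : finrank F (La B ρ) ≤ finrank F (La B σ) :=
  LinearMap.finrank_le_finrank_of_injective (f := π.restrict fun w hw => La_map B π hπ hw)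
    fun a b e => Subtype.ext (hj (congrArg Subtype.val e))

/-- the values on a family -/
def ev (y : I → Y) : (AddSubgroup.closure (Set.range y) →+ F) →ₗ[F] (I → F) where
  toFun l i := l ⟨y i, AddSubgroup.subset_closure ⟨i, rfl⟩⟩
  map_add' _ _ := rfl
  map_smul' _ _ := rfl

theorem ev_inj (y : I → Y) : Function.Injective (ev (F := F) y) :=
  (injective_iff_map_eq_zero _).2 fun l hl => AddMonoidHom.ext fun ⟨a, ha⟩ => by
    induction ha using AddSubgroup.closure_induction with
    | mem x hx =>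
      obtain ⟨i, rfl⟩ := hx
      exact congrFun hl i
    | zero => exact map_zero l
    | add a b ha hb h1 h2 =>
      refine (map_add l ⟨a, ha⟩ ⟨b, hb⟩).trans ?_
      rw [h1, h2]
      exact add_zero _
    | neg a ha h1 =>
      refine (map_neg l ⟨a, ha⟩).trans ?_
      rw [h1]
      exact neg_zero

/-- **The lattice step.** -/
theorem lat [CharP F 2] [Fintype (G ⧸ B)] [FiniteDimensional F M] [Finite I] (h : TI N P B)
    {σ : Representation F G M} (hσ : ∀ n ∈ N, ∀ w, σ n w = w) (hM : Inv B σ ≤ Inv ⊤ σ)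
    (hY : ∀ n ∈ N, ∀ y : Y, n • y = y) (hI : ∀ n ∈ N, ∀ i : I, n • i = i)
    (h2 : ∀ (g : G) (y : Y), y + y = 0 → g • y = y) (y : I → Y)
    (hy : ∀ (g : G) i, y (g • i) = g • y i) (hi : (AddSubgroup.closure (Set.range y)).index ≠ 0) :
    finrank F (La B (linHom (Dr F G Y) σ)) + finrank F (Inv ⊤ (Fn I σ)) ≤
      finrank F (Inv B (Fn I σ)) := by
  classical
  have f1 := Module.Finite.of_injective (ev (F := F) y) (ev_inj y)
  have f2 : Module.Finite F ((⊤ : AddSubgroup Y) →+ F) :=
    fin1 le_top (by rwa [AddSubgroup.relIndex_top_right])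
  have hA : ∀ (g : G), ∀ a ∈ AddSubgroup.closure (Set.range y),
      g • a ∈ AddSubgroup.closure (Set.range y) := fun g a ha => by
    induction ha using AddSubgroup.closure_induction with
    | mem x hx =>
      obtain ⟨i, rfl⟩ := hx
      exact AddSubgroup.subset_closure ⟨_, hy g i⟩
    | zero => rw [smul_zero]; exact zero_mem _
    | add a b _ _ h1 h2 => rw [smul_add]; exact add_mem h1 h2
    | neg a _ h1 => rw [smul_neg]; exact neg_mem h1
  have c1 := eps_mono h (τ := Dr F G Y) (ρ := Ds F ⊤ fun _ _ _ => trivial) (Ds_triv hY _ _) hσ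
    (cm F (AddSubgroup.subtype ⊤)) (fun _ _ => rfl)
    fun a b e => AddMonoidHom.ext fun z => DFunLike.congr_fun e ⟨z, trivial⟩
  obtain ⟨k, m, hm, e⟩ := Nat.exists_eq_two_pow_mul_odd hi
  have c2 := steps h hσ hM hY h2 hA hi hm k ⊤ le_top (fun _ _ _ => trivial) fun a _ =>
    e ▸ AddSubgroup.nsmul_index_mem _ a
  have c3 := eps_mono h (τ := Ds F _ hA) (ρ := Fn I (Representation.trivial F G F))
    (fun n hn f => funext fun i => congrArg f (hI _ (inv_mem hn) i)) hσ (ev y)
    (fun g l => funext fun i => congrArg l (Subtype.ext (hy g⁻¹ i).symm)) (ev_inj y)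
  have c4 := La_le_inj (B := B) (ρ := linHom (Fn I (Representation.trivial F G F)) σ)
    (σ := Fn I σ) (LinearMap.pi fun i => LinearMap.applyₗ (Pi.single i 1)) (fun g w => funext
      fun i => by
        show σ g (w _) = σ g (w _)
        congr 2
        funext j
        show (Pi.single i 1 : I → F) (g⁻¹⁻¹ • j) = (Pi.single (g⁻¹ • i) 1 : I → F) j
        simp only [Pi.single_apply, inv_inv, eq_inv_smul_iff])
    fun a b e => by
      letI := Fintype.ofFinite I
      exact (Pi.basisFun F I).ext fun i => by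
        rw [Pi.basisFun_apply]
        exact congrFun e i
  rw [cnt h.oddB]
  omega

end

end Vale.Agent.P022E.GW.Ex
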