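import Vale.Agent.P022E.GW.DeG
import Vale.Agent.P022E.GW.DeI
import Vale.Agent.P022E.GW.DeF
import Vale.Agent.P022E.GW.Ex2

/-!
# P022E, block GW: the descent from the Borel field to the rationals
-/

set_option linter.all false

noncomputable section

namespace Vale.Agent.P022E.GW

open NumberField
open Vale.Agent.P022 Vale.Agent.P022E.GW.Du
open Vale.Agent.P022D.Sel (M2)
open Vale.Agent.P027M.S (mx)

theorem De.uni : De.S_UNI := by
  intro F _ _ _ ρ T D _ h
  obtain ⟨L, _, _, j, hj, hB⟩ := h.bL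
  have ho : IsOpen (GK j : Set GQ) := hj.symm ▸ h.opn
  have hn : (GK j).Normal := hj.symm ▸ inferInstance
  have hk : ∀ g ∈ GK j, ρ g = 1 := fun g hg => by rwa [hj] at hg
  obtain ⟨_, θ, hθ, hs⟩ := th_of j ho hn
  obtain ⟨y, N, hN, hy, hz⟩ := fam hθ hs D h.h0 h.dec
  haveI := fin_ix ho T D
  haveI := De.fg_of y (De.tors hN) hz
  haveI := De.fin_dual (Y := UA θ T) F
  have ti : Ex.TI (GK j) (GP ρ) (GB ρ) := hj.symm ▸ De.ti ρ h.std
  have le : GK j ≤ GB ρ := hj.symm ▸ Bor.ker_le.trans Bor.le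
  have key := Ex.lat (σ := Cor.ad ρ) ti
    (fun n hn m => by rw [Cor.ad_apply, map_inv, hk n hn]; simp)
    (fun m hm g _ => Bor.invG h.std m hm g) (fun n hn u => gk_fix hθ hn u)
    (fun n h1 i => by
      obtain ⟨l, x⟩ := i
      induction x using QuotientGroup.induction_on with
      | H a =>
        have e : ((n * a : GQ) : GQ ⧸ (Subgroup.closure (D l) ⊔ GK j)) = (a : GQ ⧸ _) := by
          rw [eq_comm, QuotientGroup.eq, ← mul_assoc]
          exact Subgroup.mem_sup_right (by simpa using hn.conj_mem n h1 a⁻¹)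
        exact congrArg (Sigma.mk l) e)
    (fun g u hu => two_fix u ((two_nsmul u).trans hu) g) y hy (De.idx_of y hN (De.tors hN) hz)
  obtain ⟨e1⟩ := inv_fx (ρ := ρ) (T := T) (D := D) hn le hk
    (Ex.Inv (GB ρ) (Ex.Fn (Ix (GK j) T D) (Cor.ad ρ)))
    fun f => ⟨fun a b c i => congrFun (a b c) i, fun a b c => funext (a b c)⟩
  obtain ⟨e2⟩ := inv_fx (ρ := ρ) (T := T) (D := D) (H := ⊤) hn le_top hk
    (Ex.Inv ⊤ (Ex.Fn (Ix (GK j) T D) (Cor.ad ρ)))
    fun f => ⟨fun a b c i => congrFun (a b c) i, fun a b c => funext (a b c)⟩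
  rw [← e1.rank_eq, ← e2.rank_eq]
  refine ⟨(add_le_add_left (De.kumU h j hj hB hθ (Ex.Dr F GQ (UA θ T)) fun _ _ _ => rfl) _).trans ?_,
    Module.rank_lt_aleph0 _ _⟩
  have k2 := (Nat.cast_le (α := Cardinal)).2 key
  rwa [Nat.cast_add, Module.finrank_eq_rank, Module.finrank_eq_rank, Module.finrank_eq_rank] at k2

/-- **The descent.** -/
theorem desc (hB : LBB) : LB := De.desc_of De.gal De.uni hB

end Vale.Agent.P022E.GW
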