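import Vale.Agent.P022D.Sel.Open
import Vale.Agent.P022D.Sel.Pl
import Vale.Agent.P011.Arith.Hasse4

/-! # P022, block GW: elements fixed by a decomposition group are limits of global elements -/

set_option linter.all false

noncomputable section

namespace Vale.Agent.P022E.GW.Brg

open NumberField IsDedekindDomain
open Vale.Agent.P022 Vale.Agent.P022D.Sel
open Vale.Agent.P027M.S (Pr)
open Vale.Agent.P027M.S.Gen (cm val_cm mem_cm)
open Vale.Agent.P011.Arith (Z0 NF LS LSR)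
open scoped Pointwise

section F

variable {L E : Type} [Field L] [NumberField L] [Field E] [NumberField E] [Algebra L E]

theorem cm_one (w : Pr E) : cm ((1 : E ≃ₐ[L] E) : E ≃+* E) w = w := by
  apply HeightOneSpectrum.ext
  ext y
  rw [mem_cm]
  rfl

theorem apxF [IsGalois L E] (w : Pr E) (x : E)
    (hx : ∀ σ : E ≃ₐ[L] E, cm (σ : E ≃+* E) w = w → σ x = x) (γ : Z0) (hγ : γ ≠ 0) :
    ∃ a : L, w.valuation E (x - algebraMap L E a) < γ := by
  classical
  haveI : FiniteDimensional L E := Module.Finite.of_restrictScalars_finite ℚ L E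
  let D : Finset (E ≃ₐ[L] E) := Finset.univ.filter fun σ => cm (σ : E ≃+* E) w = w
  have hD : (D.card : E) ≠ 0 := by
    rw [Nat.cast_ne_zero, Finset.card_ne_zero]
    exact ⟨1, Finset.mem_filter.2 ⟨Finset.mem_univ _, cm_one w⟩⟩
  let t : Pr E → E := fun v => if v = w then x / D.card else 0
  obtain ⟨f, hf, -⟩ := Vale.Agent.P011.Arith.approxVal
    (Finset.univ.image fun σ : E ≃ₐ[L] E => cm (σ : E ≃+* E) w) t (fun _ => γ)
    (fun _ _ => hγ) (fun _ => 0) one_pos
  refine ⟨Algebra.trace L E f, ?_⟩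
  have e1 : ∑ σ : E ≃ₐ[L] E, σ (t (cm (σ : E ≃+* E) w)) = x := by
    have e2 : ∀ σ : E ≃ₐ[L] E, σ (t (cm (σ : E ≃+* E) w)) =
        if cm (σ : E ≃+* E) w = w then x / D.card else 0 := by
      intro σ
      by_cases h : cm (σ : E ≃+* E) w = w
      · simp only [t, if_pos h]
        rw [map_div₀, hx σ h, map_natCast]
      · simp only [t, if_neg h, map_zero]
    rw [Finset.sum_congr rfl fun σ _ => e2 σ, ← Finset.sum_filter, Finset.sum_const, nsmul_eq_mul]
    exact mul_div_cancel₀ x hD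
  have e3 : x - algebraMap L E (Algebra.trace L E f) =
      ∑ σ : E ≃ₐ[L] E, -σ (f - t (cm (σ : E ≃+* E) w)) := by
    rw [trace_eq_sum_automorphisms]
    conv_lhs => rw [← e1]
    rw [← Finset.sum_sub_distrib]
    refine Finset.sum_congr rfl fun σ _ => ?_
    rw [map_sub, neg_sub]
  rw [e3]
  refine Valuation.map_sum_lt _ hγ fun σ _ => ?_
  rw [Valuation.map_neg]
  have := hf _ (Finset.mem_image_of_mem _ (Finset.mem_univ σ))
  rwa [val_cm] at this

theorem small (w : Valuation E Z0) (c : E) {δ : Z0} (hδ : δ ≠ 0) (X : E) :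
    ∃ γ : Z0, γ ≠ 0 ∧ ∀ X' : E, w (X - X') < γ → w (c * (X' ^ 2 - X ^ 2)) < δ := by
  let M : Z0 := max 1 (w (2 * X)) * max 1 (w c)
  have h1 : (0 : Z0) < max 1 (w (2 * X)) := lt_max_of_lt_left zero_lt_one
  have h2 : (0 : Z0) < max 1 (w c) := lt_max_of_lt_left zero_lt_one
  have hM : 0 < M := mul_pos h1 h2
  refine ⟨min 1 (δ / M), ?_, fun X' h => ?_⟩
  · exact (lt_min zero_lt_one (div_pos (zero_lt_iff.2 hδ) hM)).ne'
  have h3 : w (X - X') < 1 := h.trans_le (min_le_left _ _)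
  have h4 : w (X - X') * M < δ := (lt_div_iff₀ hM).1 (h.trans_le (min_le_right _ _))
  have e : c * (X' ^ 2 - X ^ 2) = (X - X') * (((X - X') - 2 * X) * c) := by ring
  rw [e, map_mul, map_mul]
  refine lt_of_le_of_lt (mul_le_mul_right (mul_le_mul' ?_ (le_max_right _ _)) _) h4
  exact (Valuation.map_sub _ _ _).trans (max_le_max h3.le le_rfl)

/-- norms of approximable elements -/
theorem close {w : Pr E} {u : Pr L}
    (hw : w.asIdeal.comap (algebraMap (𝓞 L) (𝓞 E)) = u.asIdeal) (α : L) (β : Lˣ) (X Y : E)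
    (hX : ∀ γ : Z0, γ ≠ 0 → ∃ a : L, w.valuation E (X - algebraMap L E a) < γ)
    (hY : ∀ γ : Z0, γ ≠ 0 → ∃ a : L, w.valuation E (Y - algebraMap L E a) < γ)
    (e : algebraMap L E β = X ^ 2 - algebraMap L E α * Y ^ 2) :
    ∃ μ ∈ LS (u.valuation L), ∃ x y : L, (β : L) * μ = x ^ 2 - α * y ^ 2 := by
  have hβ : (β : L) ≠ 0 := β.ne_zero
  have hδ : w.valuation E (algebraMap L E (4 * β)) ≠ 0 := by
    rw [Valuation.ne_zero_iff, _root_.map_ne_zero]
    exact mul_ne_zero (by norm_num) hβ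
  obtain ⟨γ1, g1, k1⟩ := small (w.valuation E) 1 hδ X
  obtain ⟨γ2, g2, k2⟩ := small (w.valuation E) (algebraMap L E α) hδ Y
  obtain ⟨x, hx⟩ := hX γ1 g1
  obtain ⟨y, hy⟩ := hY γ2 g2
  have h1 : u.valuation L (x ^ 2 - α * y ^ 2 - β) < u.valuation L (4 * β) := by
    rw [← Vale.Agent.P011.Arith.val_lt_val_iff hw]
    have e2 : algebraMap L E (x ^ 2 - α * y ^ 2 - β) = 1 * (algebraMap L E x ^ 2 - X ^ 2) -
        algebraMap L E α * (algebraMap L E y ^ 2 - Y ^ 2) := by
      rw [map_sub, map_sub, map_mul, map_pow, map_pow, e]; ring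
    rw [e2]
    exact Valuation.map_sub_lt _ (k1 _ hx) (k2 _ hy)
  have hv : 0 < u.valuation L (β : L) := zero_lt_iff.2 ((Valuation.ne_zero_iff _).2 hβ)
  have h2 : u.valuation L ((x ^ 2 - α * y ^ 2) / β - 1) < u.valuation L 4 := by
    have e3 : (x ^ 2 - α * y ^ 2) / β - 1 = (x ^ 2 - α * y ^ 2 - β) / β := by field_simp
    rw [e3, map_div₀, div_lt_iff₀ hv, ← map_mul]
    exact h1
  have h3 : (x ^ 2 - α * y ^ 2) / β ≠ 0 := by
    intro h
    rw [h, zero_sub, Valuation.map_neg, map_one] at h2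
    exact absurd (Vale.Agent.P011.Arith.val_four_le _) (not_le.2 h2)
  refine ⟨Units.mk0 _ h3, Vale.Agent.P011.Arith.LS_of_close h2, x, y, ?_⟩
  rw [Units.val_mk0]
  field_simp

/-- an automorphism which fixes `w` fixes the roots of local squares -/
theorem fixF {w : Pr E} {u : Pr L}
    (hw : w.asIdeal.comap (algebraMap (𝓞 L) (𝓞 E)) = u.asIdeal) {β : Lˣ}
    (hβ : β ∈ LS (u.valuation L)) {X : E} (e : X ^ 2 = algebraMap L E β) (σ : E ≃ₐ[L] E)
    (hσ : cm (σ : E ≃+* E) w = w) : σ X = X := by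
  have h0 : (σ X) ^ 2 = X ^ 2 := by rw [← map_pow, e, AlgEquiv.commutes]
  rcases sq_eq_sq_iff_eq_or_eq_neg.1 h0 with h | h
  · exact h
  exfalso
  obtain ⟨y, hy⟩ := hβ
  rw [← Vale.Agent.P011.Arith.val_lt_val_iff hw] at hy
  have y0 : algebraMap L E y ≠ 0 := (_root_.map_ne_zero _).2 y.ne_zero
  let z : E := (X / algebraMap L E y - 1) / 2
  have h4 : w.valuation E (algebraMap L E 4) ≠ 0 := by
    rw [Valuation.ne_zero_iff, _root_.map_ne_zero]
    norm_num
  have e1 : algebraMap L E ((β : L) / (y : L) ^ 2 - 1) = z * (z + 1) * algebraMap L E 4 := by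
    rw [map_sub, map_div₀, map_pow, map_one, ← e, map_ofNat]
    simp only [z]
    field_simp
    ring
  rw [e1, map_mul, map_mul] at hy
  have h5 : w.valuation E z * w.valuation E (z + 1) < 1 := by
    by_contra k
    exact absurd hy (not_lt.2 (le_mul_of_one_le_left' (not_lt.1 k)))
  have e2 : σ z = -(z + 1) := by
    simp only [z]
    rw [map_div₀, map_sub, map_div₀, h, AlgEquiv.commutes, map_one, map_ofNat]
    ring
  have h6 : w.valuation E (z + 1) = w.valuation E z := by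
    have := val_cm (σ : E ≃+* E) w z
    rw [hσ] at this
    rw [this]
    change _ = w.valuation E (σ z)
    rw [e2, Valuation.map_neg]
  rw [h6] at h5
  have h7 : w.valuation E z < 1 := by
    by_contra k
    exact absurd h5 (not_lt.2 (one_le_mul (not_lt.1 k) (not_lt.1 k)))
  have h8 := Valuation.map_sub_lt _ (h6 ▸ h7) h7
  rw [add_sub_cancel_left, map_one] at h8
  exact lt_irrefl _ h8

end F

variable {L : Type} [Field L] [NumberField L] {j : L →+* Qb} {u : Pr L} {P : Ideal (𝓞 Qb)}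

theorem stab_iff {g : GQ} : Stab P g ↔ g • P = P := by
  constructor
  · intro h
    ext x
    rw [Pl.mem_smul, ← h, smul_inv_smul]
  · intro h x
    conv_lhs => rw [← h]
    exact Ideal.smul_mem_pointwise_smul_iff

/-- a finite Galois extension which contains two given elements -/
theorem exists_ext (hP : P.IsPrime) (hb : below j P = u.asIdeal) (x y : Qb) :
    ∃ (E : Type) (_ : Field E) (_ : NumberField E) (_ : Algebra L E) (_ : IsGalois L E)
      (jE : E →+* Qb) (ρ : GK j →* (E ≃ₐ[L] E)) (w : Pr E) (X Y : E), H916.Dict j jE ρ ∧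
      w.asIdeal.comap (algebraMap (𝓞 L) (𝓞 E)) = u.asIdeal ∧ jE X = x ∧ jE Y = y ∧
      ∀ σ : E ≃ₐ[L] E, cm (σ : E ≃+* E) w = w ↔ ∃ g : GK j, Stab P (g : GQ) ∧ ρ g = σ := by
  haveI := H916.isAlg_Qb
  let U : Subgroup GQ := GK j ⊓ (MulAction.stabilizer GQ x ⊓ MulAction.stabilizer GQ y)
  have hU : IsOpen (U : Set GQ) := (H916.isOpen_GK j).inter
    ((stabilizer_isOpen_of_isIntegral x).inter (stabilizer_isOpen_of_isIntegral y))
  have hle := Subgroup.normalCore_le U
  obtain ⟨E, _, _, _, _, jE, ρ, D, hG, -⟩ := H916.exists_fld j U.normalCore (opn_core U hU)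
    (hle.trans inf_le_left) (fun g _ v hv => (Subgroup.normalCore_normal U).conj_mem v hv g)
  obtain ⟨X, hX⟩ := H916.fixed jE (x := x) fun g => (hle (hG ▸ g.2)).2.1
  obtain ⟨Y, hY⟩ := H916.fixed jE (x := y) fun g => (hle (hG ▸ g.2)).2.2
  have hc : (below jE P).comap (algebraMap (𝓞 L) (𝓞 E)) = u.asIdeal := by
    rw [D.below_comap, hb]
  have hne : below jE P ≠ ⊥ := by
    intro h
    apply u.ne_bot
    rw [← hc, h]
    exact Ideal.comap_bot_of_injective _ (FaithfulSMul.algebraMap_injective (𝓞 L) (𝓞 E))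
  let w : Pr E := ⟨below jE P, Ideal.comap_isPrime _ _, hne⟩
  have key : ∀ σ : E ≃ₐ[L] E, cm (σ : E ≃+* E) w = w ↔ σ • below jE P = below jE P := by
    intro σ
    have e : ∀ z : 𝓞 E, z ∈ (cm (σ : E ≃+* E) w).asIdeal ↔ σ • z ∈ below jE P := fun z => Iff.rfl
    constructor
    · intro h
      ext z
      rw [Ideal.mem_pointwise_smul_iff_inv_smul_mem]
      have := e (σ⁻¹ • z)
      rw [h, smul_inv_smul] at this
      exact this
    · intro h
      apply HeightOneSpectrum.ext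
      ext z
      rw [e]
      conv_lhs => rw [← h]
      exact Ideal.smul_mem_pointwise_smul_iff
  refine ⟨E, inferInstance, inferInstance, inferInstance, inferInstance, jE, ρ, w, X, Y, D, hc,
    hX, hY, fun σ => ?_⟩
  rw [key]
  constructor
  · intro h
    obtain ⟨g₀, h0⟩ := D.surj σ
    have hb' : below jE ((g₀ : GQ) • P) = below jE P := by rw [D.below_smul, h0, h]
    obtain ⟨k, hk⟩ := H916.exists_smul jE (Pl.prime_smul (g₀ : GQ) hP) hP hb'
    let k' : GK j := ⟨(k : GQ), D.mem_GK k.2⟩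
    have hρk : ρ k' = 1 := (D.ker k').2 k.2
    refine ⟨k' * g₀, stab_iff.2 ?_, by rw [map_mul, hρk, h0, one_mul]⟩
    show ((k : GQ) * (g₀ : GQ)) • P = P
    rw [mul_smul]
    exact hk.symm
  · rintro ⟨g, hg, rfl⟩
    rw [← D.below_smul, stab_iff.1 hg]

/-- **norms from the decomposition field are local norms** -/
theorem nf0 (hP : P.IsPrime) (hb : below j P = u.asIdeal) (α : L) (β : Lˣ) {x y : Qb}
    (hx : ∀ g ∈ GK j, Stab P g → g x = x) (hy : ∀ g ∈ GK j, Stab P g → g y = y)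
    (e : j β = x ^ 2 - j α * y ^ 2) :
    ∃ μ ∈ LS (u.valuation L), ∃ s t : L, (β : L) * μ = s ^ 2 - α * t ^ 2 := by
  obtain ⟨E, _, _, _, _, jE, ρ, w, X, Y, D, hc, rfl, rfl, h⟩ := exists_ext hP hb x y
  have k : ∀ Z : E, (∀ g ∈ GK j, Stab P g → g (jE Z) = jE Z) →
      ∀ γ : Z0, γ ≠ 0 → ∃ a : L, w.valuation E (Z - algebraMap L E a) < γ := by
    intro Z hZ
    refine apxF w Z fun σ hσ => ?_
    obtain ⟨g, hg, rfl⟩ := (h σ).1 hσ
    apply jE.injective
    rw [← D.act]
    exact hZ g g.2 hg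
  refine close hc α β X Y (k X hx) (k Y hy) (jE.injective ?_)
  rw [map_sub, map_mul, map_pow, map_pow, D.comp, D.comp, e]

/-- **norms from the decomposition field are local norms** -/
theorem nf_of (hP : P.IsPrime) (hb : below j P = u.asIdeal) (α β : Lˣ) {x y : Qb}
    (hx : ∀ g ∈ GK j, Stab P g → g x = x) (hy : ∀ g ∈ GK j, Stab P g → g y = y)
    (e : j β = x ^ 2 - j α * y ^ 2) : β ∈ NF α ⊔ LS (u.valuation L) :=
  Vale.Agent.P011.Arith.mem_sup_iff_exists.2 (nf0 hP hb α β hx hy e)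

/-- **local squares** (all residue characteristics) -/
theorem ls_iff (hP : P.IsPrime) (hb : below j P = u.asIdeal) (β : Lˣ) {x : Qb}
    (e : x ^ 2 = j β) : β ∈ LS (u.valuation L) ↔ ∀ g ∈ GK j, Stab P g → g x = x := by
  constructor
  · intro hβ g hg hs
    obtain ⟨E, _, _, _, _, jE, ρ, w, X, Y, D, hc, rfl, -, h⟩ := exists_ext hP hb x x
    have := fixF hc hβ (X := X) (jE.injective (by rw [map_pow, D.comp, e])) (ρ ⟨g, hg⟩)
      ((h _).2 ⟨⟨g, hg⟩, hs, rfl⟩)
    have h2 := D.act ⟨g, hg⟩ X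
    rwa [this] at h2
  · intro hx
    obtain ⟨μ, hμ, s, t, h⟩ := nf0 hP hb 0 β (y := 0) hx (fun g _ _ => map_zero g)
      (by rw [e]; simp)
    rw [zero_mul, sub_zero] at h
    have s0 : s ≠ 0 := by
      rintro rfl
      exact mul_ne_zero β.ne_zero μ.ne_zero (by rw [h]; simp)
    have e2 : β = Units.mk0 s s0 ^ 2 * μ⁻¹ := by
      rw [eq_mul_inv_iff_mul_eq]
      exact Units.ext h
    rw [e2]
    exact mul_mem (Vale.Agent.P011.Arith.sq_mem_LS _) (inv_mem hμ)

/-- **local norms are norms from the decomposition field** -/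
theorem of_nf (hP : P.IsPrime) (hb : below j P = u.asIdeal) (α β : Lˣ)
    (h : β ∈ NF α ⊔ LS (u.valuation L)) : ∃ x y : Qb, (∀ g ∈ GK j, Stab P g → g x = x) ∧
      (∀ g ∈ GK j, Stab P g → g y = y) ∧ j β = x ^ 2 - j α * y ^ 2 := by
  obtain ⟨μ, hμ, s, t, e⟩ := Vale.Agent.P011.Arith.mem_sup_iff_exists.1 h
  obtain ⟨m, hm⟩ := IsAlgClosed.exists_pow_nat_eq (j μ) (by norm_num : 0 < 2)
  have hf := (ls_iff hP hb μ hm).1 hμ
  have m0 : m ≠ 0 := by
    rintro rfl
    exact (_root_.map_ne_zero j).2 μ.ne_zero (by rw [← hm]; simp)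
  refine ⟨j s / m, j t / m, fun g hg hs => by rw [map_div₀, hg, hf g hg hs],
    fun g hg hs => by rw [map_div₀, hg, hf g hg hs], ?_⟩
  have e2 := congrArg j e
  rw [map_mul, map_sub, map_mul, map_pow, map_pow, ← hm] at e2
  field_simp
  linear_combination e2

end Vale.Agent.P022E.GW.Brg
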