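import Vale.Agent.P022D.L2.Ar
import Vale.Agent.P022D.L2c.Defs

/-!
# P022, block GW: cup products of quadratic characters and norm equations, on subgroups
-/

set_option linter.all false

noncomputable section

namespace Vale.Agent.P022E.GW.Hn

open Vale.Agent.P022D Vale.Agent.P022D.L2.Ar
open Vale.Agent.P022D.L2c (Hm Cob)

/-- a locally constant function on a closed subset of a profinite space extends -/
theorem ext_lc {X : Type} [TopologicalSpace X] [CompactSpace X] [T2Space X]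
    [TotallyDisconnectedSpace X] {S : Set X} (hS : IsClosed S) {z : S → ZMod 2}
    (hz : IsLocallyConstant z) : ∃ w : X → ZMod 2, IsLocallyConstant w ∧ ∀ x : S, w x = z x := by
  have : CompactSpace S := isCompact_iff_compactSpace.1 hS.isCompact
  let _ : TopologicalSpace (ZMod 2) := ⊥
  have : DiscreteTopology (ZMod 2) := ⟨rfl⟩
  obtain ⟨k, hk, -, h1⟩ := Profinite.exists_lift_of_finite_of_injective_of_surjective
    (Subtype.val : S → X) continuous_subtype_val Subtype.val_injective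
    (fun _ : ZMod 2 => ()) (fun _ => ⟨0, rfl⟩) z hz.continuous (fun _ => ()) continuous_const rfl
  exact ⟨k, (IsLocallyConstant.iff_continuous k).2 hk, fun x => congrFun h1 x⟩

variable {k L : Type} [Field k] [Field L] [Algebra k L] [CharZero L] [IsGalois k L]

theorem add_of {D : Subgroup Gal(L / k)} {θ : L} (hθ : θ ≠ 0) {a : Gal(L / k) → ZMod 2}
    (ha : ∀ x ∈ D, x θ = sg L (a x) * θ) : ∀ x ∈ D, ∀ y ∈ D, a (x * y) = a x + a y := by
  intro x hx y hy
  refine sg_inj hθ ?_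
  show sg L (a (x * y)) * θ = sg L (a x + a y) * θ
  rw [← ha _ (D.mul_mem hx hy), AlgEquiv.mul_apply, ha y hy, map_mul, map_sg, ha x hx, sg_add]
  ring

/-- if the cup product dies on the closed subgroup `D`, the norm equation has a solution in the
fixed field of `D` -/
theorem core (D : Subgroup Gal(L / k)) (hD : IsClosed (D : Set Gal(L / k))) {θ σ : L}
    (hθ : θ ≠ 0) (hσ : σ ≠ 0) {a b z : Gal(L / k) → ZMod 2} (hz : IsLocallyConstant z)
    (ha : ∀ x ∈ D, x θ = sg L (a x) * θ) (hb : ∀ x ∈ D, x σ = sg L (b x) * σ)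
    (ad : ∀ x ∈ D, ∀ y ∈ D, z (x * y) = z x + z y + a x * b y) :
    ∃ p q : L, (∀ x ∈ D, x p = p) ∧ (∀ x ∈ D, x q = q) ∧ σ ^ 2 = p ^ 2 - θ ^ 2 * q ^ 2 := by
  have am := add_of hθ ha
  have bm := add_of hσ hb
  have two : (1 + 1 : ZMod 2) = 0 := rfl
  have s2 : ∀ x ∈ D, x (σ ^ 2) = σ ^ 2 := fun x hx => by
    rw [map_pow, hb x hx, mul_pow, pow_two (sg L _), sg_sq, one_mul]
  by_cases h0 : ∀ x ∈ D, a x = 0
  · refine ⟨(σ ^ 2 + 1) / 2, (σ ^ 2 - 1) / (2 * θ), fun x hx => ?_, fun x hx => ?_, ?_⟩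
    · rw [map_div₀, map_add, s2 x hx, map_one, map_ofNat]
    · rw [map_div₀, map_sub, s2 x hx, map_one, map_mul, map_ofNat, ha x hx, h0 x hx, sg0, one_mul]
    · field_simp
      ring
  push Not at h0
  obtain ⟨τ, τD, hτ0⟩ := h0
  have hτ : a τ = 1 := (z2 _).resolve_left hτ0
  have a1 : a 1 = 0 := by simpa using am 1 D.one_mem 1 D.one_mem
  have b1 : b 1 = 0 := by simpa using bm 1 D.one_mem 1 D.one_mem
  have neg : ∀ u v : ZMod 2, 0 = u + v → v = u := by decide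
  have ai : ∀ x ∈ D, a x⁻¹ = a x := fun x hx => by
    have := am x hx x⁻¹ (D.inv_mem hx)
    rw [mul_inv_cancel, a1] at this
    exact neg _ _ this
  have bi : ∀ x ∈ D, b x⁻¹ = b x := fun x hx => by
    have := bm x hx x⁻¹ (D.inv_mem hx)
    rw [mul_inv_cancel, b1] at this
    exact neg _ _ this
  let H : Subgroup Gal(L / k) := D ⊓ MulAction.stabilizer Gal(L / k) θ
  have hH : ∀ x, x ∈ H ↔ x ∈ D ∧ a x = 0 := fun x => by
    refine and_congr_right fun hx => ?_
    change x θ = θ ↔ _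
    rw [ha x hx]
    exact ⟨fun e => sg_inj hθ (by simpa using e), fun e => by rw [e, sg0, one_mul]⟩
  have hHc : IsClosed (H : Set Gal(L / k)) := hD.inter ((lc θ).isClosed_fiber θ)
  obtain ⟨l, l0, hl⟩ := kum H hHc hz fun x hx y hy => by
    rw [ad x ((hH x).1 hx).1 y ((hH y).1 hy).1, ((hH x).1 hx).2, zero_mul, add_zero]
  have hl : ∀ x ∈ D, a x = 0 → x l = sg L (z x) * l := fun x hx e => hl x ((hH x).2 ⟨hx, e⟩)
  have τi := D.inv_mem τD
  have cD : ∀ x ∈ D, τ⁻¹ * (x * τ) ∈ D := fun x hx => D.mul_mem τi (D.mul_mem hx τD)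
  have cj : ∀ x ∈ D, a x = 0 → a (τ⁻¹ * (x * τ)) = 0 := fun x hx e => by
    rw [am _ τi _ (D.mul_mem hx τD), am _ hx _ τD, ai _ τD, hτ, e, zero_add, two]
  have cb : ∀ x ∈ D, b (τ⁻¹ * (x * τ)) = b x := fun x hx => by
    rw [bm _ τi _ (D.mul_mem hx τD), bm _ hx _ τD, bi _ τD, add_comm (b x), ← add_assoc,
      CharTwo.add_self_eq_zero, zero_add]
  have mv : ∀ (x : Gal(L / k)) (w : L), x w = τ ((τ⁻¹ * x) w) := fun x w => by
    rw [← AlgEquiv.mul_apply, mul_inv_cancel_left]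
  have h1 : ∀ x ∈ D, a x = 0 → x (τ l) = sg L (z x + b x) * τ l := fun x hx e0 => by
    have e := ad τ τD (τ⁻¹ * (x * τ)) (cD x hx)
    rw [mul_inv_cancel_left, ad x hx τ τD, e0, hτ, cb x hx, zero_mul, one_mul, add_zero] at e
    have e' : z (τ⁻¹ * (x * τ)) = z x + b x := by
      revert e
      generalize z (τ⁻¹ * (x * τ)) = u
      generalize z x = v
      generalize z τ = w
      generalize b x = t
      revert u v w t
      decide
    rw [← AlgEquiv.mul_apply, mv, hl _ (cD x hx) (cj x hx e0), map_mul, map_sg, e']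
  have h2 : τ (τ l) = sg L (b τ) * l := by
    rw [← AlgEquiv.mul_apply, hl _ (D.mul_mem τD τD) (by rw [am _ τD _ τD, hτ, two]),
      ad _ τD _ τD, hτ, CharTwo.add_self_eq_zero, zero_add, one_mul]
  have l1 : τ l ≠ 0 := (map_ne_zero τ).2 l0
  have all : ∀ w : L, (∀ x ∈ D, a x = 0 → x w = w) → τ w = w → ∀ x ∈ D, x w = w := by
    intro w h0 h1 x hx
    rcases z2 (a x) with e | e
    · exact h0 x hx e
    · rw [mv x, h0 _ (D.mul_mem τi hx) (by rw [am _ τi _ hx, ai _ τD, hτ, e, two]), h1]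
  have hu : ∀ x ∈ D, x (l * τ l / σ) = l * τ l / σ := by
    refine all _ (fun x hx e => ?_) ?_
    · have s0 : sg L (b x) ≠ 0 := left_ne_zero_of_mul_eq_one (sg_sq _)
      rw [map_div₀, map_mul, hl x hx e, h1 x hx e, hb x hx, sg_add]
      field_simp
      linear_combination sg_sq (L := L) (z x)
    · have s0 : sg L (b τ) ≠ 0 := left_ne_zero_of_mul_eq_one (sg_sq _)
      rw [map_div₀, map_mul, h2, hb τ τD]
      field_simp
  have q0 : ∀ x ∈ D, a x = 0 → x (l ^ 2) = l ^ 2 := fun x hx e => by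
    rw [map_pow, hl x hx e, mul_pow, pow_two (sg L _), sg_sq, one_mul]
  have q1 : ∀ x ∈ D, a x = 0 → x (τ l ^ 2) = τ l ^ 2 := fun x hx e => by
    rw [map_pow, h1 x hx e, mul_pow, pow_two (sg L _), sg_sq, one_mul]
  have q2 : τ (τ l ^ 2) = l ^ 2 := by
    rw [map_pow, h2, mul_pow, pow_two (sg L _), sg_sq, one_mul]
  have hp : ∀ x ∈ D, x ((l ^ 2 + τ l ^ 2) / 2) = (l ^ 2 + τ l ^ 2) / 2 := by
    refine all _ (fun x hx e => ?_) ?_
    · rw [map_div₀, map_add, q0 x hx e, q1 x hx e, map_ofNat]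
    · rw [map_div₀, map_add, q2, map_pow, map_ofNat, add_comm]
  have hq : ∀ x ∈ D, x ((l ^ 2 - τ l ^ 2) / (2 * θ)) = (l ^ 2 - τ l ^ 2) / (2 * θ) := by
    refine all _ (fun x hx e => ?_) ?_
    · rw [map_div₀, map_sub, q0 x hx e, q1 x hx e, map_mul, map_ofNat, ha x hx, e, sg0, one_mul]
    · rw [map_div₀, map_sub, q2, map_pow, map_mul, map_ofNat, ha τ τD, hτ, sg1, neg_one_mul,
        mul_neg, div_neg, ← neg_div, neg_sub]
  refine ⟨(l ^ 2 + τ l ^ 2) / 2 / (l * τ l / σ), (l ^ 2 - τ l ^ 2) / (2 * θ) / (l * τ l / σ),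
    fun x hx => by rw [map_div₀, hp x hx, hu x hx],
    fun x hx => by rw [map_div₀, hq x hx, hu x hx], ?_⟩
  field_simp
  ring

/-- the same for functions on the subgroup -/
theorem cob_norm (D : Subgroup Gal(L / k)) (hD : IsClosed (D : Set Gal(L / k))) {θ σ : L}
    (hθ : θ ≠ 0) (hσ : σ ≠ 0) {a b : D → ZMod 2}
    (ha : ∀ x : D, x.1 θ = sg L (a x) * θ) (hb : ∀ x : D, x.1 σ = sg L (b x) * σ)
    (h : L2c.cup a b ∈ Cob (ZMod 2) D) :
    ∃ p q : L, (∀ x ∈ D, x p = p) ∧ (∀ x ∈ D, x q = q) ∧ σ ^ 2 = p ^ 2 - θ ^ 2 * q ^ 2 := by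
  classical
  obtain ⟨z, hz, ad⟩ := h
  obtain ⟨w, hw, e⟩ := ext_lc (S := (D : Set Gal(L / k))) hD hz
  refine core D hD hθ hσ (a := fun g => if h : g ∈ D then a ⟨g, h⟩ else 0)
    (b := fun g => if h : g ∈ D then b ⟨g, h⟩ else 0) hw (fun x hx => ?_) (fun x hx => ?_)
    fun x hx y hy => ?_
  · rw [dif_pos hx]; exact ha ⟨x, hx⟩
  · rw [dif_pos hx]; exact hb ⟨x, hx⟩
  · rw [dif_pos hx, dif_pos hy]
    exact (e ⟨x * y, D.mul_mem hx hy⟩).trans ((ad ⟨x, hx⟩ ⟨y, hy⟩).trans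
      (by rw [← e ⟨x, hx⟩, ← e ⟨y, hy⟩]; rfl))

/-- a norm equation with a solution in the fixed field of `D` kills the cup product on `D` -/
theorem norm_cob [IsAlgClosed L] (D : Subgroup Gal(L / k)) {θ σ : L} (hθ : θ ≠ 0) (h0 : σ ≠ 0)
    {a b : D → ZMod 2} (ha : ∀ x : D, x.1 θ = sg L (a x) * θ)
    (hb : ∀ x : D, x.1 σ = sg L (b x) * σ) {p q : L} (hp : ∀ x ∈ D, x p = p)
    (hq : ∀ x ∈ D, x q = q) (e : σ ^ 2 = p ^ 2 - θ ^ 2 * q ^ 2) :
    L2c.cup b a ∈ Cob (ZMod 2) D := by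
  obtain ⟨y, hy⟩ := IsAlgClosed.exists_pow_nat_eq (p + q * θ) two_pos
  have y0 : y ≠ 0 := fun h => pow_ne_zero 2 h0 (by
    rw [h] at hy
    linear_combination e - (p - q * θ) * hy)
  let Y : ZMod 2 → L := fun t => if t = 0 then y else σ / y
  have Y0 : Y 0 = y := rfl
  have Y1 : Y 1 = σ / y := rfl
  have Yn : ∀ t, Y t ≠ 0 := fun t => by
    rcases z2 t with rfl | rfl
    exacts [y0, div_ne_zero h0 y0]
  have ex : ∀ x : D, ∃ c, x.1 y = sg L c * Y (a x) := fun x => pm (by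
    rw [← map_pow, hy, map_add, map_mul, hp _ x.2, hq _ x.2, ha]
    rcases z2 (a x) with h | h <;> rw [h]
    · rw [Y0, hy, sg0, one_mul]
    · rw [Y1, sg1, div_pow, hy, eq_div_iff (hy ▸ pow_ne_zero 2 y0), e]; ring)
  choose z hz using ex
  have hY : ∀ (x : D) t, x.1 (Y t) = sg L (z x + b x * t) * Y (a x + t) := fun x t => by
    rcases z2 t with rfl | rfl
    · rw [Y0, hz, mul_zero, add_zero, add_zero]
    · have s2 := sg_sq (L := L) (z x)
      have s0 : sg L (z x) ≠ 0 := left_ne_zero_of_mul_eq_one s2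
      rw [Y1, map_div₀, hz, hb, mul_one, sg_add]
      rcases z2 (a x) with h | h <;> rw [h]
      · rw [zero_add, Y0, Y1]
        field_simp
        linear_combination -sg L (b x) * s2
      · rw [show (1 + 1 : ZMod 2) = 0 from rfl, Y0, Y1]
        field_simp
        linear_combination -sg L (b x) * s2
  have am : ∀ x w : D, a (x * w) = a x + a w := fun x w => by
    refine sg_inj hθ ?_
    show sg L (a (x * w)) * θ = sg L (a x + a w) * θ
    rw [← ha, Subgroup.coe_mul, AlgEquiv.mul_apply, ha w, map_mul, map_sg, ha x, sg_add]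
    ring
  refine ⟨z, ?_, fun x w => sg_inj (Yn (a (x * w))) ?_⟩
  · refine (IsLocallyConstant.iff_eventually_eq _).2 fun x => ?_
    filter_upwards [((lc y).comp_continuous continuous_subtype_val).eventually_eq x,
      ((lc θ).comp_continuous continuous_subtype_val).eventually_eq x] with w h1 h2
    have h1' : w.1 y = x.1 y := h1
    have h2' : w.1 θ = x.1 θ := h2
    rw [ha, ha] at h2'
    rw [hz, hz, sg_inj hθ h2'] at h1'
    exact sg_inj (Yn _) h1'
  · show sg L _ * _ = sg L (z x + z w + b x * a w) * _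
    rw [← hz, Subgroup.coe_mul, AlgEquiv.mul_apply, hz w, map_mul, map_sg, hY, am, sg_add, sg_add,
      sg_add]
    ring

/-- a Kummer generator of a character of a closed subgroup -/
theorem kum' (D : Subgroup Gal(L / k)) (hD : IsClosed (D : Set Gal(L / k))) {a : D → ZMod 2}
    (ha : a ∈ Hm (ZMod 2) D) : ∃ θ : L, θ ≠ 0 ∧ ∀ x : D, x.1 θ = sg L (a x) * θ := by
  obtain ⟨w, hw, e⟩ := ext_lc (S := (D : Set Gal(L / k))) hD ha.1
  obtain ⟨l, l0, hl⟩ := kum D hD hw fun x hx y hy =>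
    (e ⟨x * y, D.mul_mem hx hy⟩).trans ((ha.2 ⟨x, hx⟩ ⟨y, hy⟩).trans
      (by rw [← e ⟨x, hx⟩, ← e ⟨y, hy⟩]))
  exact ⟨l, l0, fun x => by rw [hl x.1 x.2]; exact congrArg (fun t => sg L t * l) (e x)⟩

end Vale.Agent.P022E.GW.Hn
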