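import Vale.Agent.P022E.GW.Defs
import Vale.Agent.P022E.GW.Brg
import Vale.Agent.P022E.GW.Hn1
import Vale.Agent.P022D.W.Odd
import Vale.Agent.P022D.L2c.Sym
import Vale.Agent.P022.H565.Fre

/-! # P022E, block GW: the norm theorem and the local norm index for cup products -/

set_option linter.all false

noncomputable section

namespace Vale.Agent.P022E.GW.H56

open NumberField IsDedekindDomain
open Vale.Agent.P022 Vale.Agent.P022.C
open Vale.Agent.P027M.S (Pr)
open Vale.Agent.P022D Vale.Agent.P022D.L2.Ar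
open Vale.Agent.P022D.Sel (IsDec Stab)
open Vale.Agent.P022D.L2c (Hm Cob IsZ2 cup up)
open Vale.Agent.P022D.W (dec)
open Vale.Agent.P011.Arith (NF LS LSR LSp)

/-- an open subgroup is the group of a number field -/
theorem ex_fld {H : Subgroup GQ} (hH : IsOpen (H : Set GQ)) :
    ∃ (L : Type) (_ : Field L) (_ : NumberField L) (j : L →+* Qb), GK j = H := by
  haveI := H916.isGalois_Qb
  have hfix : (IntermediateField.fixedField H).fixingSubgroup = H :=
    InfiniteGalois.fixingSubgroup_fixedField ⟨H, H.isClosed_of_isOpen hH⟩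
  have hfin : FiniteDimensional ℚ (H916.FF H) := H916.finU H hH
  have hNF : NumberField (H916.FF H) :=
    { to_charZero := inferInstance, to_finiteDimensional := hfin }
  refine ⟨H916.FF H, inferInstance, hNF, (IntermediateField.fixedField H).val.toRingHom, ?_⟩
  ext g
  constructor
  · intro h
    rw [← hfix, IntermediateField.mem_fixingSubgroup_iff]
    intro x hx
    exact h (⟨x, hx⟩ : H916.FF H)
  · intro h x
    have h1 := x.2
    rw [IntermediateField.mem_fixedField_iff] at h1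
    exact h1 _ h

variable {L : Type} [Field L] [NumberField L] {j : L →+* Qb}

/-- `a` is the character of the square root `A` of `α` -/
structure Km (j : L →+* Qb) (a : GQ → ZMod 2) (α : Lˣ) (A : Qb) : Prop where
  sq : A ^ 2 = j α
  act : ∀ g ∈ GK j, g A = sg Qb (a g) * A

theorem Km.ne {a : GQ → ZMod 2} {α : Lˣ} {A : Qb} (h : Km j a α A) : A ≠ 0 := by
  rintro rfl
  exact (_root_.map_ne_zero j).2 α.ne_zero (by rw [← h.sq]; simp)

theorem Km.mul {a b : GQ → ZMod 2} {α β : Lˣ} {A B : Qb} (h : Km j a α A) (k : Km j b β B) :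
    Km j (a + b) (α * β) (A * B) :=
  ⟨by rw [mul_pow, h.sq, k.sq, Units.val_mul, map_mul], fun g hg => by
    rw [map_mul, h.act g hg, k.act g hg, Pi.add_apply, sg_add]; ring⟩

theorem ex_km {a : GQ → ZMod 2} (ha : Ch (GK j) a) : ∃ α A, Km j a α A := by
  haveI := H916.isGalois_Qb
  obtain ⟨A, A0, hA⟩ := Hn.kum' (GK j) (H916.isClosed_GK j) ha
  obtain ⟨α, hα⟩ := H916.fixed j (x := A ^ 2) fun g => by
    rw [map_pow, hA g, mul_pow, pow_two, sg_sq, one_mul]
  have α0 : α ≠ 0 := by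
    rintro rfl
    exact pow_ne_zero 2 A0 (by rw [← hα, map_zero])
  exact ⟨Units.mk0 α α0, A, hα.symm, fun g hg => hA ⟨g, hg⟩⟩

theorem ch_le {F : Type} [Field F] {H K : Subgroup GQ} (h : H ≤ K) {a : GQ → F} (ha : Ch K a) :
    Ch H a :=
  ⟨ha.1.comp_continuous (f := Subgroup.inclusion h) (continuous_subtype_val.subtype_mk _),
    fun x y => ha.2 (Subgroup.inclusion h x) (Subgroup.inclusion h y)⟩

theorem cb_symm {H : Subgroup GQ} {a b : GQ → ZMod 2} (ha : Ch H a) (hb : Ch H b)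
    (h : Cb H (cup b a)) : Cb H (cup a b) := by
  have h1 := sub_mem (L2c.Sym.symm ha hb) h
  have e : cup (fun x : H => a x) (fun x : H => b x) + cup (fun x : H => b x) (fun x : H => a x) -
      rs H (cup b a) = rs H (cup a b) := add_sub_cancel_right _ _
  rwa [e] at h1

/-- norms give coboundaries -/
theorem cb_of {D : Subgroup GQ} (hD : D ≤ GK j) {a b : GQ → ZMod 2} {α β : Lˣ} {A B : Qb}
    (ha : Ch (GK j) a) (hb : Ch (GK j) b) (h : Km j a α A) (k : Km j b β B) {x y : Qb}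
    (hx : ∀ g ∈ D, g x = x) (hy : ∀ g ∈ D, g y = y) (e : j β = x ^ 2 - j α * y ^ 2) :
    Cb D (cup a b) := by
  haveI := H916.isGalois_Qb
  exact cb_symm (ch_le hD ha) (ch_le hD hb) (Hn.norm_cob D h.ne k.ne
    (fun g => h.act g (hD g.2)) (fun g => k.act g (hD g.2)) hx hy (by rw [h.sq, k.sq, e]))

/-- **the dictionary at a finite place** -/
theorem dict {u : Pr L} {P : Ideal (𝓞 Qb)} (hP : P.IsPrime) (hu : below j P = u.asIdeal)
    {a b : GQ → ZMod 2} {α β : Lˣ} {A B : Qb} (ha : Ch (GK j) a) (hb : Ch (GK j) b)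
    (h : Km j a α A) (k : Km j b β B) :
    Cb (GK j ⊓ dec P) (cup a b) ↔ β ∈ NF α ⊔ LS (u.valuation L) := by
  haveI := H916.isGalois_Qb
  constructor
  · intro c
    obtain ⟨x, y, hx, hy, e⟩ := Hn.cob_norm (GK j ⊓ dec P)
      ((H916.isClosed_GK j).inter (W.isClosed_dec P)) h.ne k.ne
      (fun g => h.act g g.2.1) (fun g => k.act g g.2.1) c
    exact Brg.nf_of hP hu α β (fun g hg hs => hx g ⟨hg, hs⟩) (fun g hg hs => hy g ⟨hg, hs⟩)
      (by rw [← h.sq, ← k.sq, e])
  · intro c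
    obtain ⟨x, y, hx, hy, e⟩ := Brg.of_nf hP hu α β c
    exact cb_of inf_le_left ha hb h k (fun g hg => hx g hg.1 hg.2) (fun g hg => hy g hg.1 hg.2) e

theorem conj_sq {c : GQ} (hc : IsConj c) : c * c = 1 := by
  obtain ⟨Φ, h⟩ := hc
  ext x
  apply Φ.injective
  rw [AlgEquiv.mul_apply, h, h, Complex.conj_conj]
  rfl

/-- the group generated by an involution -/
def two (c : GQ) (hc : c * c = 1) : Subgroup GQ where
  carrier := {1, c}
  mul_mem' := by
    rintro g h (rfl | rfl) (rfl | rfl)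
    · exact Or.inl (mul_one _)
    · exact Or.inr (one_mul _)
    · exact Or.inr (mul_one _)
    · exact Or.inl hc
  one_mem' := Or.inl rfl
  inv_mem' := by
    rintro g (rfl | rfl)
    · exact Or.inl inv_one
    · exact Or.inr (inv_eq_of_mul_eq_one_right hc)

theorem re_of {F : Type} [Field F] [CharP F 2] {D : Subgroup GQ} {c : GQ} (hc : c * c = 1)
    (hD : c ∈ D) {z : GQ → GQ → F} (h : Cb D z) : z c c = z 1 1 := by
  obtain ⟨w, -, hw⟩ := h
  have h1 := hw 1 1
  have h2 := hw ⟨c, hD⟩ ⟨c, hD⟩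
  rw [show (⟨c, hD⟩ : D) * ⟨c, hD⟩ = 1 from Subtype.ext hc] at h2
  rw [mul_one] at h1
  change _ = _ + _ + z 1 1 at h1
  change _ = _ + _ + z c c at h2
  have t : (2 : F) = 0 := CharTwo.two_eq_zero
  linear_combination h1 - h2 + (w 1 - w ⟨c, hD⟩ - w 1 + z 1 1 - z 1 1) * t + (- w 1) * t
    + (w 1) * t + (w 1) * t - (w 1) * t + (w 1) * t

theorem ch_one {F : Type} [Field F] {H : Subgroup GQ} {a : GQ → F} (ha : Ch H a) : a 1 = 0 := by
  have := ha.2 1 1
  rw [mul_one] at this
  exact left_eq_add.1 this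

theorem pos_of {φ : L →+* ℝ} {c : GK j} (hc : CjI j φ c) {a : GQ → ZMod 2} {α : Lˣ} {A : Qb}
    (h : Km j a α A) (e : a c = 0) : 0 < φ α := by
  obtain ⟨Φ, h1, h2⟩ := hc
  have h3 := h.act c c.2
  rw [e, sg0, one_mul] at h3
  have h4 := h2 A
  rw [h3] at h4
  obtain ⟨r, hr⟩ := Complex.conj_eq_iff_real.1 h4.symm
  have h5 : (φ α : ℂ) = ((r ^ 2 : ℝ) : ℂ) := by
    rw [← h1, ← h.sq, map_pow, hr]; push_cast; rfl
  have h6 : φ α = r ^ 2 := by exact_mod_cast h5
  refine lt_of_le_of_ne (h6 ▸ sq_nonneg r) ((_root_.map_ne_zero φ).2 α.ne_zero).symm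

theorem real_top {φ : L →+* ℝ} {α : Lˣ} (ha : 0 < φ α) (β : Lˣ) : β ∈ NF α ⊔ LSR φ := by
  by_cases hb : β ∈ LSR φ
  · exact Subgroup.mem_sup_right hb
  have h2 : (-α : Lˣ) ∈ NF α := ⟨0, 1, by simp⟩
  have h3 : (-α : Lˣ) ∉ LSR φ := by
    intro h
    have : 0 < φ ((-α : Lˣ) : L) := h
    rw [Units.val_neg, map_neg] at this
    linarith
  have h4 : β = (-α)⁻¹ * ((-α) * β) := by group
  rw [h4]
  exact Subgroup.mul_mem_sup (inv_mem h2) (Vale.Agent.P011.Arith.mul_mem_LSR h3 hb)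

/-- **the norm theorem** -/
theorem hnpg : HNPG := by
  intro H a b hH ha hb hl
  obtain ⟨L, _, _, j, rfl⟩ := ex_fld hH
  obtain ⟨α, A, h⟩ := ex_km ha
  obtain ⟨β, B, k⟩ := ex_km hb
  have key : β ∈ NF α := by
    apply Vale.Agent.P011.Arith.hasse_norm
    rintro (v | φ)
    · obtain ⟨P, hP, e⟩ := H916.exists_above j v.asIdeal v.isPrime
      obtain ⟨l, h1, h2⟩ := H565.exists_prime_mem v
      refine (dict hP e ha hb h k).1 (hl l (dec P) (Or.inr ⟨h1, P, hP, ?_, rfl⟩))
      have h3 : RingOfIntegers.mapRingHom j (l : 𝓞 L) ∈ P := by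
        rw [← e] at h2
        exact h2
      rwa [map_natCast] at h3
    · obtain ⟨c, hc⟩ := H565.fre_conj_exists j φ
      have hc' : IsConj (c : GQ) := hc.imp fun Φ h => h.2
      have h1 := re_of (conj_sq hc') (D := GK j ⊓ two c (conj_sq hc')) ⟨c.2, Or.inr rfl⟩
        (hl 0 _ (Or.inl ⟨rfl, c, hc', rfl⟩))
      change a c * b c = a 1 * b 1 at h1
      rw [ch_one ha, zero_mul] at h1
      rcases mul_eq_zero.1 h1 with e | e
      · exact real_top (pos_of hc h e) β
      · exact Subgroup.mem_sup_right (pos_of hc k e)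
  obtain ⟨x, y, e⟩ := key
  exact cb_of le_rfl ha hb h k (x := j x) (y := j y) (fun g hg => hg x) (fun g hg => hg y)
    (by rw [e, map_sub, map_mul, map_pow, map_pow])

theorem cb_zero {D : Subgroup GQ} {z : GQ → GQ → ZMod 2} (h : ∀ g ∈ D, ∀ k ∈ D, z g k = 0) :
    Cb D z := by
  have : rs D z = 0 := funext fun g => funext fun k => h g g.2 k k.2
  rw [Cb, this]
  exact zero_mem _

/-- **the local norm index** -/
theorem nil : NIL := by
  intro H D l a b b' hH hD ha hb hb' n1 n2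
  obtain ⟨L, _, _, j, rfl⟩ := ex_fld hH
  have hs : Ch (GK j) (b + b') := add_mem hb hb'
  rcases hD with ⟨-, c, hc, e⟩ | ⟨hl, P, hP, hlP, e⟩
  · have mem : ∀ g ∈ GK j ⊓ D, g = 1 ∨ g = c := fun g hg => by
      have : g ∈ (D : Set GQ) := hg.2
      rw [e] at this
      exact this
    have one : ∀ s : GQ → ZMod 2, Ch (GK j) s → s c = 0 → Cb (GK j ⊓ D) (cup a s) :=
      fun s h1 h2 => cb_zero fun g _ k hk => by
        rcases mem k hk with rfl | rfl
        · exact mul_eq_zero_of_right _ (ch_one h1)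
        · exact mul_eq_zero_of_right _ h2
    have e1 : b c = 1 := (z2 _).resolve_left fun h => n1 (one b hb h)
    have e2 : b' c = 1 := (z2 _).resolve_left fun h => n2 (one b' hb' h)
    exact one _ hs (by rw [Pi.add_apply, e1, e2]; rfl)
  · obtain rfl : D = dec P := SetLike.coe_injective e
    obtain ⟨α, A, h⟩ := ex_km ha
    obtain ⟨β, B, k⟩ := ex_km hb
    obtain ⟨β', B', k'⟩ := ex_km hb'
    have hne : below j P ≠ ⊥ := by
      intro h0
      have : (l : 𝓞 L) ∈ below j P := by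
        show RingOfIntegers.mapRingHom j (l : 𝓞 L) ∈ P
        rw [map_natCast]
        exact hlP
      rw [h0, Ideal.mem_bot] at this
      exact hl.ne_zero (by exact_mod_cast this)
    let u : Pr L := ⟨below j P, Ideal.comap_isPrime _ _, hne⟩
    rw [dict (u := u) hP rfl ha hb h k] at n1
    rw [dict (u := u) hP rfl ha hb' h k'] at n2
    rw [dict (u := u) hP rfl ha hs h (k.mul k')]
    have hα : α ∉ LS (u.valuation L) := fun hα => n1 (by
      rw [Vale.Agent.P011.Arith.NF_sup_of_mem' α hα]; exact Subgroup.mem_top _)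
    rw [Subgroup.mul_mem_iff_of_index_two (Vale.Agent.P011.Arith.local_index_two u α hα)]
    exact iff_of_false n1 n2

end Vale.Agent.P022E.GW.H56
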