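import Vale.Agent.P022D.L2c.Pol1
import Vale.Agent.P022D.L2c.Odd
import Vale.Agent.P022D.L2c.Sym

/-!
# P022, block GW: classes of degree two, index two subgroups and towers
-/

set_option linter.all false

noncomputable section

namespace Vale.Agent.P022E.GW

namespace Gy

open Vale.Agent.P022D.L2c Vale.Agent.P022D.L2c.PolP

variable {F : Type} [Field F] {X : Type} [Group X] [TopologicalSpace X]

theorem z2_one {y : X → X → F} (hy : IsZ2 y) (g : X) : y g 1 = y 1 1 := by
  have := hy.2 g 1 1
  rw [mul_one, mul_one] at this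
  linear_combination -this

theorem z2_sub {y y' : X → X → F} (hy : IsZ2 y) (hy' : IsZ2 y') : IsZ2 (y - y') :=
  ⟨hy.1.sub hy'.1, fun g h k => by
    simp only [Pi.sub_apply]
    linear_combination hy.2 g h k - hy'.2 g h k⟩

theorem z2_add {y y' : X → X → F} (hy : IsZ2 y) (hy' : IsZ2 y') : IsZ2 (y + y') :=
  ⟨hy.1.add hy'.1, fun g h k => by
    simp only [Pi.add_apply]
    linear_combination hy.2 g h k + hy'.2 g h k⟩

theorem z2_smul (c : F) {y : X → X → F} (hy : IsZ2 y) : IsZ2 (c • y) :=
  ⟨hy.1.comp (c * ·), fun g h k => by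
    simp only [Pi.smul_apply, smul_eq_mul]
    linear_combination c * hy.2 g h k⟩

theorem z2_map {K : Type} [Field K] (l : F →+ K) {y : X → X → F} (hy : IsZ2 y) :
    IsZ2 fun g h => l (y g h) :=
  ⟨hy.1.comp l, fun g h k => by rw [← map_add, ← map_add, hy.2]⟩

theorem z2_cup {a b : X → F} (ha : a ∈ Hm F X) (hb : b ∈ Hm F X) : IsZ2 (cup a b) :=
  ⟨(ha.1.comp_continuous continuous_fst).mul (hb.1.comp_continuous continuous_snd),
    fun g h k => by simp only [cup, ha.2, hb.2]; ring⟩

theorem z2_comp {Y : Type} [Group Y] [TopologicalSpace Y] (φ : Y →* X) (hc : Continuous φ)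
    {y : X → X → F} (hy : IsZ2 y) : IsZ2 fun g h => y (φ g) (φ h) :=
  ⟨hy.1.comp_continuous (f := fun p : Y × Y => (φ p.1, φ p.2))
    ((hc.comp continuous_fst).prodMk (hc.comp continuous_snd)), fun g h k => by
    simp only [map_mul]; exact hy.2 _ _ _⟩

theorem cob_comp {Y : Type} [Group Y] [TopologicalSpace Y] (φ : Y →* X) (hc : Continuous φ)
    {y : X → X → F} (hy : y ∈ Cob F X) : (fun g h => y (φ g) (φ h)) ∈ Cob F Y := by
  obtain ⟨z, hz, h⟩ := hy
  exact ⟨fun g => z (φ g), hz.comp_continuous hc, fun g k => by simp only [map_mul, h]⟩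

theorem hm_comp {Y : Type} [Group Y] [TopologicalSpace Y] (φ : Y →* X) (hc : Continuous φ)
    {a : X → F} (ha : a ∈ Hm F X) : (fun g => a (φ g)) ∈ Hm F Y :=
  ⟨ha.1.comp_continuous hc, fun g k => by simp only [map_mul, ha.2]⟩

theorem z2_rs (H : Subgroup X) {y : X → X → F} (hy : IsZ2 y) : IsZ2 (rs H y) :=
  z2_comp H.subtype continuous_subtype_val hy

theorem cob_rs (H : Subgroup X) {y : X → X → F} (hy : y ∈ Cob F X) : rs H y ∈ Cob F H :=
  cob_comp H.subtype continuous_subtype_val hy

theorem hm_rs (H : Subgroup X) {a : X → F} (ha : a ∈ Hm F X) : (fun g : H => a g) ∈ Hm F H :=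
  hm_comp H.subtype continuous_subtype_val ha

theorem inc_cont {H K : Subgroup X} (h : H ≤ K) : Continuous (Subgroup.inclusion h) :=
  continuous_subtype_val.subtype_mk _

theorem z2_le {H K : Subgroup X} (h : H ≤ K) {y : X → X → F} (hy : IsZ2 (rs K y)) :
    IsZ2 (rs H y) := z2_comp (Subgroup.inclusion h) (inc_cont h) hy

theorem cob_le {H K : Subgroup X} (h : H ≤ K) {y : X → X → F} (hy : rs K y ∈ Cob F K) :
    rs H y ∈ Cob F H := cob_comp (Subgroup.inclusion h) (inc_cont h) hy

theorem hm_le {H K : Subgroup X} (h : H ≤ K) {a : X → F} (ha : (fun g : K => a g) ∈ Hm F K) :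
    (fun g : H => a g) ∈ Hm F H := hm_comp (Subgroup.inclusion h) (inc_cont h) ha

theorem cob_z2 [IsTopologicalGroup X] {y : X → X → F} (hy : y ∈ Cob F X) : IsZ2 y := by
  obtain ⟨z, hz, h⟩ := hy
  have e : ∀ g k, y g k = z (g * k) - z g - z k := fun g k => by rw [h]; ring
  refine ⟨?_, fun g k l => by simp only [e, mul_assoc]; ring⟩
  simp only [e]
  exact ((hz.comp_continuous continuous_mul).sub (hz.comp_continuous continuous_fst)).sub
    (hz.comp_continuous continuous_snd)

theorem cob_const (c : F) : (fun _ _ : X => c) ∈ Cob F X :=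
  ⟨fun _ => -c, IsLocallyConstant.const _, fun _ _ => by ring⟩

/-- the character `e` with values in `F` -/
def ue (F : Type) [Field F] [CharP F 2] (e : X → ZMod 2) : X → F := fun g => up F (e g)

theorem ue_hm [CharP F 2] {e : X → ZMod 2} (he : e ∈ Hm (ZMod 2) X) : ue F e ∈ Hm F X :=
  Sym.hm_map (up F).toAddMonoidHom he

theorem ue_zmod (e : X → ZMod 2) : ue (ZMod 2) e = e := by
  funext g
  rcases z2 (e g) with h | h <;> simp [ue, h]

/-- **A class which dies on the kernel of `e` is a cup product with `e`.** -/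
theorem gys [IsTopologicalGroup X] [CharP F 2] {e : X → ZMod 2} (he : e ∈ Hm (ZMod 2) X)
    {H : Subgroup X} (hH : ∀ g, g ∈ H ↔ e g = 0) {y : X → X → F} (hy : IsZ2 y)
    (h : rs H y ∈ Cob F H) : ∃ b ∈ Hm F X, y - cup (ue F e) b ∈ Cob F X := by
  obtain ⟨z, hz, h⟩ := h
  by_cases e0 : ∀ g, e g = 0
  · refine ⟨0, zero_mem _, fun g => z ⟨g, (hH g).2 (e0 g)⟩,
      hz.comp_continuous (continuous_id.subtype_mk _), fun g k => ?_⟩
    simp only [Pi.sub_apply, cup, Pi.zero_apply, mul_zero, sub_zero]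
    exact h ⟨g, _⟩ ⟨k, _⟩
  obtain ⟨s, hs⟩ := not_forall.1 e0
  have hs : e s = 1 := (z2 _).resolve_left hs
  let R : X → X := fun g => rep s (e g)
  have Rc : IsLocallyConstant R := he.1.comp (rep s)
  have mem : ∀ g, g * (R g)⁻¹ ∈ H := fun g => (hH _).2 (by
    rw [he.2, hm_inv he, e_rep he hs, add_neg_cancel])
  let T : X → H := fun g => ⟨g * (R g)⁻¹, mem g⟩
  have Tc : Continuous T := (continuous_id.mul Rc.continuous.inv).subtype_mk _
  let w : X → F := fun g => z (T g) + y (T g) (R g) - y 1 1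
  have wc : IsLocallyConstant w := ((hz.comp_continuous Tc).add (hy.1.comp_continuous
    (f := fun g => ((T g : X), R g)) ((continuous_subtype_val.comp Tc).prodMk Rc.continuous))).sub
    (IsLocallyConstant.const _)
  have w1 : ∀ (u : H) k, w (u * k) = w u + w k + y u k := fun u k => by
    have a1 : R (u * k) = R k := by simp only [R, he.2, (hH u).1 u.2, zero_add]
    have a2 : R u = 1 := by simp only [R, (hH u).1 u.2, rep0]
    have a3 : T (u * k) = u * T k := Subtype.ext (by simp only [T, a1, mul_assoc]; rfl)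
    have a4 : T u = u := Subtype.ext (by simp only [T, a2, inv_one, mul_one])
    have a5 := hy.2 u (T k) (R k)
    rw [show (T k : X) * R k = k from inv_mul_cancel_right _ _] at a5
    have a6 := h u (T k)
    simp only [w, a1, a2, a3, a4, a6, rs, z2_one hy, Subgroup.coe_mul]
    linear_combination -a5
  let x : X → X → F := fun g k => y g k - (w (g * k) - w g - w k)
  have hx : IsZ2 x := z2_sub hy (cob_z2 ⟨w, wc, fun g k => by ring⟩)
  have x0 : ∀ g k, e g = 0 → x g k = 0 := fun g k hg => by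
    have := w1 ⟨g, (hH g).2 hg⟩ k
    simp only [x]
    linear_combination -this
  have x1 : ∀ g k, e g = 1 → x g k = x s k := fun g k hg => by
    have u : e (g * s⁻¹) = 0 := by rw [he.2, hm_inv he, hg, hs, add_neg_cancel]
    have := hx.2 (g * s⁻¹) s k
    rw [x0 _ _ u, x0 _ _ u, inv_mul_cancel_right] at this
    linear_combination -this
  have two : (2 : F) = 0 := CharTwo.two_eq_zero
  refine ⟨x s, ⟨hx.1.comp_continuous (f := fun k => (s, k)) (by fun_prop), fun g k => ?_⟩,
    w, wc, fun g k => ?_⟩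
  · have := hx.2 s g k
    rcases z2 (e g) with c | c
    · rw [x0 g k c, x1 (s * g) k (by rw [he.2, hs, c, add_zero])] at this
      linear_combination this
    · rw [x1 g k c, x0 (s * g) k (by rw [he.2, hs, c]; rfl)] at this
      linear_combination this - x s k * two
  · simp only [Pi.sub_apply, cup, ue]
    rcases z2 (e g) with c | c
    · have := x0 g k c
      rw [c, map_zero]
      simp only [x] at this
      linear_combination -this
    · have := x1 g k c
      rw [c, map_one, ← this]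
      simp only [x]
      ring

/-- extension by zero -/
def ex0 (U : Subgroup X) (b : U → F) : X → F := fun g => by
  classical exact if h : g ∈ U then b ⟨g, h⟩ else 0

theorem ex0_val (U : Subgroup X) (b : U → F) (u : U) : ex0 U b u = b u := dif_pos u.2

theorem ex0_rs (U : Subgroup X) (b : U → F) : (fun u : U => ex0 U b u) = b :=
  funext (ex0_val U b)

/-- the same for subgroups of one group -/
theorem gys' [IsTopologicalGroup X] [CharP F 2] {U V : Subgroup X} {e : X → ZMod 2}
    (he : (fun u : U => e u) ∈ Hm (ZMod 2) U) (hV : ∀ g, g ∈ V ↔ g ∈ U ∧ e g = 0)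
    {y : X → X → F} (hy : IsZ2 (rs U y)) (h : rs V y ∈ Cob F V) :
    ∃ b : X → F, (fun u : U => b u) ∈ Hm F U ∧ rs U (y - cup (ue F e) b) ∈ Cob F U := by
  let φ : V.subgroupOf U →* V :=
    { toFun := fun a => ⟨a.1.1, a.2⟩, map_one' := rfl, map_mul' := fun _ _ => rfl }
  obtain ⟨b, hb, k⟩ := gys he (H := V.subgroupOf U)
    (fun g => by rw [Subgroup.mem_subgroupOf, hV]; exact and_iff_right g.2) hy
    (cob_comp φ ((continuous_subtype_val.comp continuous_subtype_val).subtype_mk _) h)
  refine ⟨ex0 U b, by rwa [ex0_rs], ?_⟩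
  convert k using 1
  funext g l
  simp only [rs, Pi.sub_apply, cup, ex0_val, ue]

/-- a cocycle dies on an open normal subgroup -/
theorem split [IsTopologicalGroup X] [CompactSpace X] {y : X → X → F} (hy : IsZ2 y) :
    ∃ N : Subgroup X, N.Normal ∧ IsOpen (N : Set X) ∧ rs N y ∈ Cob F N := by
  obtain ⟨M, hM⟩ := IsTopologicalGroup.exist_openNormalSubgroup_sub_clopen_nhds_of_one
    (G := X × X) (hy.1.isClopen_fiber (y 1 1)) (show (1 : X × X) ∈ _ from rfl)
  refine ⟨M.toSubgroup.comap (MonoidHom.inl X X) ⊓ M.toSubgroup.comap (MonoidHom.inr X X),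
    Subgroup.normal_inf_normal _ _, (M.isOpen'.preimage (f := fun g => (g, 1)) (by fun_prop)).inter
      (M.isOpen'.preimage (f := fun g => (1, g)) (by fun_prop)), ?_⟩
  convert cob_const (y 1 1) using 1
  funext a b
  have := hM (M.toSubgroup.mul_mem a.2.1 b.2.2)
  show y a b = y 1 1
  simpa using this

/-- a chain of steps of index two from a normal subgroup to a subgroup of odd index -/
theorem chain {X : Type} [Group X] (N : Subgroup X) [N.Normal] [N.FiniteIndex]
    (Q : Subgroup X → Prop) (h0 : Q N)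
    (hs : ∀ V W : Subgroup X, N ≤ W → W ≤ V → W.relIndex V = 2 → Q W → Q V) :
    ∃ P, N ≤ P ∧ Odd P.index ∧ Q P := by
  haveI : Fact (Nat.Prime 2) := ⟨Nat.prime_two⟩
  let π := QuotientGroup.mk' N
  have sur : Function.Surjective π := QuotientGroup.mk'_surjective N
  have le : ∀ K : Subgroup (X ⧸ N), N ≤ K.comap π := fun K g hg => by
    rw [Subgroup.mem_comap, show π g = 1 from (QuotientGroup.eq_one_iff g).2 hg]
    exact K.one_mem
  have key : ∀ n, 2 ^ n ∣ Nat.card (X ⧸ N) →
      ∃ K : Subgroup (X ⧸ N), Nat.card K = 2 ^ n ∧ Q (K.comap π) := by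
    intro n
    induction n with
    | zero =>
      refine fun _ => ⟨⊥, by simp, ?_⟩
      rwa [MonoidHom.comap_bot, QuotientGroup.ker_mk']
    | succ n ih =>
      intro hd
      obtain ⟨K, c, q⟩ := ih (dvd_trans (pow_dvd_pow 2 n.le_succ) hd)
      obtain ⟨K', c', l⟩ := Sylow.exists_subgroup_card_pow_succ hd c
      refine ⟨K', c', hs _ _ (le K) (Subgroup.comap_mono l) ?_ q⟩
      rw [Subgroup.relIndex_comap, Subgroup.map_comap_eq_self_of_surjective sur]
      have := (K.subgroupOf K').card_mul_index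
      rw [Nat.card_congr (Subgroup.subgroupOfEquivOfLe l).toEquiv, c, c', pow_succ] at this
      exact Nat.eq_of_mul_eq_mul_left (by positivity) this
  have ne : Nat.card (X ⧸ N) ≠ 0 := Nat.card_pos.ne'
  obtain ⟨n, m, hm, e⟩ := Nat.exists_eq_two_pow_mul_odd ne
  obtain ⟨K, c, q⟩ := key n ⟨m, e⟩
  refine ⟨_, le K, ?_, q⟩
  rw [Subgroup.index_comap_of_surjective _ sur]
  have := K.card_mul_index
  rw [c, e] at this
  rwa [Nat.eq_of_mul_eq_mul_left (by positivity) this]

/-- the character of a subgroup of index two -/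
theorem ex_e [IsTopologicalGroup X] {V W : Subgroup X} (le : W ≤ V) (hW : IsOpen (W : Set X))
    (h2 : W.relIndex V = 2) : ∃ e : X → ZMod 2, (fun u : V => e u) ∈ Hm (ZMod 2) V ∧
      (∀ g, g ∈ W ↔ g ∈ V ∧ e g = 0) ∧ ∃ s ∈ V, e s = 1 := by
  classical
  refine ⟨fun g => if g ∈ W then 0 else 1, ⟨?_, fun a b => ?_⟩, fun g => ?_, ?_⟩
  · have cl : IsClopen (W : Set X) := ⟨W.isClosed_of_isOpen hW, hW⟩
    have : IsLocallyConstant fun g : X => if g ∈ W then (0 : ZMod 2) else 1 := by
      refine (IsLocallyConstant.iff_exists_open _).2 fun g => ?_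
      by_cases h : g ∈ W
      · exact ⟨W, hW, h, fun x hx => by rw [if_pos h, if_pos (show x ∈ W from hx)]⟩
      · exact ⟨(W : Set X)ᶜ, cl.compl.2, h, fun x hx => by
          rw [if_neg h, if_neg (show x ∉ W from hx)]⟩
    exact this.comp_continuous continuous_subtype_val
  · have := Subgroup.mul_mem_iff_of_index_two (H := W.subgroupOf V) h2 (a := a) (b := b)
    simp only [Subgroup.mem_subgroupOf] at this
    by_cases ha : (a : X) ∈ W <;> by_cases hb : (b : X) ∈ W <;>
      simp only [this, ha, hb, if_true, if_false, iff_true, iff_false, not_true, not_false_iff,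
        iff_self] <;> rfl
  · by_cases h : g ∈ W
    · simp [h, le h]
    · simp [h]
  · by_contra n
    push Not at n
    have : W.subgroupOf V = ⊤ := (Subgroup.eq_top_iff' _).2 fun g => by
      by_contra c
      exact n g g.2 (if_neg c)
    rw [Subgroup.relIndex, this, Subgroup.index_top] at h2
    exact absurd h2 (by norm_num)

/-- **The tower.** -/
theorem tower [IsTopologicalGroup X] [CompactSpace X] {y : X → X → F} (hy : IsZ2 y)
    (Q : Subgroup X → Prop) (h0 : ∀ V : Subgroup X, IsOpen (V : Set X) → rs V y ∈ Cob F V → Q V)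
    (hs : ∀ (V W : Subgroup X) (e : X → ZMod 2), IsOpen (V : Set X) → IsOpen (W : Set X) →
      (fun u : V => e u) ∈ Hm (ZMod 2) V → (∀ g, g ∈ W ↔ g ∈ V ∧ e g = 0) → (∃ s ∈ V, e s = 1) →
      Q W → Q V) :
    ∃ P : Subgroup X, IsOpen (P : Set X) ∧ Odd P.index ∧ Q P := by
  obtain ⟨N, hN, ho, h⟩ := split hy
  haveI : Finite (X ⧸ N) := N.quotient_finite_of_isOpen ho
  haveI : N.FiniteIndex := Subgroup.finiteIndex_of_finite_quotient
  obtain ⟨P, le, hi, q⟩ := chain N Q (h0 N ho h) fun V W l1 l2 h2 q => by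
    have oW := Subgroup.isOpen_mono l1 ho
    obtain ⟨e, a, b, c⟩ := ex_e l2 oW h2
    exact hs V W e (Subgroup.isOpen_mono l2 oW) oW a b c q
  exact ⟨P, Subgroup.isOpen_mono le ho, hi, q⟩

/-- **Locally trivial classes are trivial if this is so for the cup products.** -/
theorem hasse0 [IsTopologicalGroup X] [CompactSpace X] [CharP F 2] (𝓓 : Set (Subgroup X))
    (hn : ∀ (V : Subgroup X) (e : X → ZMod 2) (b : X → F), IsOpen (V : Set X) →
      (fun u : V => e u) ∈ Hm (ZMod 2) V → (fun u : V => b u) ∈ Hm F V →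
      (∀ D ∈ 𝓓, rs (V ⊓ D) (cup (ue F e) b) ∈ Cob F (V ⊓ D : Subgroup X)) →
      rs V (cup (ue F e) b) ∈ Cob F V)
    {y : X → X → F} (hy : IsZ2 y) (hl : ∀ D ∈ 𝓓, rs D y ∈ Cob F D) : y ∈ Cob F X := by
  obtain ⟨P, ho, hi, q⟩ := tower hy (fun V => rs V y ∈ Cob F V) (fun _ _ h => h)
    fun V W e oV oW he hW _ q => by
      obtain ⟨b, hb, k⟩ := gys' he hW (z2_rs V hy) q
      have := add_mem k (hn V e b oV he hb fun D hD => by
        have := sub_mem (cob_le (inf_le_right : V ⊓ D ≤ D) (hl D hD))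
          (cob_le (inf_le_left : V ⊓ D ≤ V) k)
        convert this using 1
        funext g l
        simp only [rs, Pi.sub_apply]
        ring)
      convert this using 1
      funext g l
      simp only [rs, Pi.sub_apply, Pi.add_apply]
      ring
  exact odd F X P ho hi y hy q

/-- reduction to the prime field -/
theorem cob_of_fun [CharP F 2] [Finite F] {y : X → X → F}
    (h : ∀ l : F →+ ZMod 2, (fun g k => l (y g k)) ∈ Cob (ZMod 2) X) : y ∈ Cob F X := by
  obtain ⟨n, e, l, he⟩ := Sym.ex_bas (F := F)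
  have : y = ∑ i, e i • fun g k => up F (l i (y g k)) := by
    funext g k
    simp only [Finset.sum_apply, Pi.smul_apply, smul_eq_mul]
    exact he _
  rw [this]
  exact Submodule.sum_mem _ fun i _ => Submodule.smul_mem _ _ (Sym.cob_up (h (l i)))

/-- the same with the hypothesis for the prime field only -/
theorem hasse [IsTopologicalGroup X] [CompactSpace X] [CharP F 2] [Finite F]
    (𝓓 : Set (Subgroup X))
    (hn : ∀ (V : Subgroup X) (e b : X → ZMod 2), IsOpen (V : Set X) →
      (fun u : V => e u) ∈ Hm (ZMod 2) V → (fun u : V => b u) ∈ Hm (ZMod 2) V →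
      (∀ D ∈ 𝓓, rs (V ⊓ D) (cup e b) ∈ Cob (ZMod 2) (V ⊓ D : Subgroup X)) →
      rs V (cup e b) ∈ Cob (ZMod 2) V)
    {y : X → X → F} (hy : IsZ2 y) (hl : ∀ D ∈ 𝓓, rs D y ∈ Cob F D) : y ∈ Cob F X :=
  cob_of_fun fun l => hasse0 𝓓 (fun V e b o he hb => by
    rw [ue_zmod]; exact hn V e b o he hb) (z2_map l hy) fun D hD => Sym.cob_map l (hl D hD)

end Gy

end Vale.Agent.P022E.GW
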