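import Vale.Agent.P022E.GW.Defs
import Vale.Agent.P022E.GW.Gys

/-!
# P022E, block GW: row HASSE
-/

set_option linter.all false

noncomputable section

namespace Vale.Agent.P022E.GW

open Vale.Agent.P022 Vale.Agent.P022.H443
open Vale.Agent.P022D.Sel (IsDec)
open Vale.Agent.P022D.L2c (Hm Cob IsZ2 cup up)

namespace Hs

variable {X : Type} [Group X] [TopologicalSpace X] (H : Subgroup X)

/-- from the ambient group to the subgroup -/
def dn {A : Subgroup X} {B : Subgroup H} (le : A ≤ H) (h : ∀ g : H, (g : X) ∈ A → g ∈ B) :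
    A →* B where
  toFun a := ⟨⟨a, le a.2⟩, h _ a.2⟩
  map_one' := rfl
  map_mul' _ _ := rfl

theorem dn_c {A : Subgroup X} {B : Subgroup H} (le : A ≤ H) (h : ∀ g : H, (g : X) ∈ A → g ∈ B) :
    Continuous (dn H le h) := (continuous_subtype_val.subtype_mk _).subtype_mk _

/-- from the subgroup to the ambient group -/
def upw {A : Subgroup X} {B : Subgroup H} (h : ∀ g : H, g ∈ B → (g : X) ∈ A) : B →* A where
  toFun b := ⟨b.1.1, h _ b.2⟩
  map_one' := rfl
  map_mul' _ _ := rfl

theorem upw_c {A : Subgroup X} {B : Subgroup H} (h : ∀ g : H, g ∈ B → (g : X) ∈ A) :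
    Continuous (upw H h) := (continuous_subtype_val.comp continuous_subtype_val).subtype_mk _

end Hs

open Hs in
theorem hasseC (hn : HNPG) : HASSE := by
  intro F _ _ _ H z ho hz hl
  haveI : CompactSpace H := isCompact_iff_compactSpace.1 (H.isClosed_of_isOpen ho).isCompact
  refine Gy.hasse (X := H) {D | ∃ (l : ℕ) (D' : Subgroup GQ), IsDec l (D' : Set GQ) ∧
    D = D'.subgroupOf H} (fun V e b oV he hb hD => ?_) hz ?_
  · have le : V.map H.subtype ≤ H := Subgroup.map_subtype_le V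
    have m1 : ∀ g : H, (g : GQ) ∈ V.map H.subtype → g ∈ V := fun g ⟨x, hx, e⟩ => by
      rwa [← show x = g from Subtype.ext e]
    have ch : ∀ a : H → ZMod 2, (fun u : V => a u) ∈ Hm (ZMod 2) V →
        Ch (V.map H.subtype) (Gy.ex0 H a) := fun a ha => by
      have := Gy.hm_comp (dn H le m1) (dn_c H le m1) ha
      have e : (fun x : V.map H.subtype => Gy.ex0 H a x) = fun g => a (dn H le m1 g) :=
        funext fun x => Gy.ex0_val H a ⟨x, le x.2⟩
      unfold Ch
      rw [e]
      exact this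
    have k := hn (V.map H.subtype) (Gy.ex0 H e) (Gy.ex0 H b)
      (ho.isOpenMap_subtype_val _ oV) (ch e he) (ch b hb) fun l D hd => by
        have le' : V.map H.subtype ⊓ D ≤ H := inf_le_left.trans le
        have m2 : ∀ g : H, (g : GQ) ∈ V.map H.subtype ⊓ D → g ∈ V ⊓ D.subgroupOf H :=
          fun g hg => ⟨m1 g hg.1, hg.2⟩
        have := Gy.cob_comp (dn H le' m2) (dn_c H le' m2) (hD _ ⟨l, D, hd, rfl⟩)
        have e' : rs (V.map H.subtype ⊓ D) (cup (Gy.ex0 H e) (Gy.ex0 H b)) = fun g h =>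
            cup e b (dn H le' m2 g) (dn H le' m2 h) := funext fun x => funext fun y => by
          show Gy.ex0 H e x * Gy.ex0 H b y = e ⟨x, le' x.2⟩ * b ⟨y, le' y.2⟩
          rw [← Gy.ex0_val H e ⟨x, le' x.2⟩, ← Gy.ex0_val H b ⟨y, le' y.2⟩]
        unfold Cb
        rw [e']
        exact this
    have m3 : ∀ g : H, g ∈ V → (g : GQ) ∈ V.map H.subtype := fun g hg => ⟨g, hg, rfl⟩
    have := Gy.cob_comp (upw H m3) (upw_c H m3) k
    have e' : (fun g h => rs (V.map H.subtype) (cup (Gy.ex0 H e) (Gy.ex0 H b)) (upw H m3 g)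
        (upw H m3 h)) = fun g h : V => cup e b g h := funext fun x => funext fun y => by
      show Gy.ex0 H e x.1 * Gy.ex0 H b y.1 = e x * b y
      rw [Gy.ex0_val, Gy.ex0_val]
    rw [e'] at this
    exact this
  · rintro _ ⟨l, D, hd, rfl⟩
    have m : ∀ g : H, g ∈ D.subgroupOf H → (g : GQ) ∈ H ⊓ D := fun g hg => ⟨g.2, hg⟩
    exact Gy.cob_comp (upw H m) (upw_c H m) (hl l D hd)

end Vale.Agent.P022E.GW
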