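import Vale.Agent.P022E.GW.Hn2
import Vale.Agent.P022E.GW.Hasse

/-! # P022E, block GW: rows HNPG and HASSE, closed -/

namespace Vale.Agent.P022E.GW

theorem hnpgC : HNPG := fun H a b hH ha hb h =>
  hnpg H a b hH ha hb fun D hD => hD.elim fun l hl => h l D hl

theorem hasseCC : HASSE := hasseC hnpgC

end Vale.Agent.P022E.GW
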