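import Vale.Agent.P022E.GW.Defs
import Vale.Agent.P022E.GW.Gys

/-!
# P022E, block GW: rows ODG, CJ, GYS
-/

set_option linter.all false

noncomputable section

namespace Vale.Agent.P022E.GW

open Vale.Agent.P022 Vale.Agent.P022.H443
open Vale.Agent.P022D.L2c (Hm Cob IsZ2 cup up)

namespace Gy

variable {F : Type} [Field F] {X : Type} [Group X] [TopologicalSpace X] [IsTopologicalGroup X]

/-- conjugation does not change a class -/
theorem cj_cob {y : X → X → F} (hy : IsZ2 y) (g : X) :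
    (fun a b => y (g * a * g⁻¹) (g * b * g⁻¹)) - y ∈ Cob F X := by
  refine ⟨fun a => y g a - y (g * a * g⁻¹) g, (hy.1.comp_continuous (f := fun a => (g, a))
    (by fun_prop)).sub (hy.1.comp_continuous (f := fun a => (g * a * g⁻¹, g)) (by fun_prop)),
    fun a b => ?_⟩
  have a1 := hy.2 (g * a * g⁻¹) (g * b * g⁻¹) g
  have a2 := hy.2 (g * a * g⁻¹) g b
  have a3 := hy.2 g a b
  rw [inv_mul_cancel_right, show g * a * g⁻¹ * (g * b * g⁻¹) = g * (a * b) * g⁻¹ by group] at a1
  rw [inv_mul_cancel_right] at a2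
  simp only [Pi.sub_apply]
  linear_combination a1 - a2 + a3

end Gy

theorem odg : ODG := by
  intro F _ _ H U z ho hi hz h
  let φ : U.subgroupOf H →* (H ⊓ U : Subgroup GQ) :=
    { toFun := fun a => ⟨a.1.1, a.1.2, a.2⟩, map_one' := rfl, map_mul' := fun _ _ => rfl }
  have := Gy.cob_comp φ ((continuous_subtype_val.comp continuous_subtype_val).subtype_mk _) h
  exact P022D.L2c.odd F H (U.subgroupOf H) (ho.preimage continuous_subtype_val) hi _ hz this

theorem cj : CJ := by
  intro F _ _ H D D' g z hg hD hz h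
  have m : ∀ a : (H ⊓ D' : Subgroup GQ), g⁻¹ * a * g ∈ H ⊓ D := fun a =>
    ⟨H.mul_mem (H.mul_mem (H.inv_mem hg) a.2.1) hg, (hD _).2 (by
      rw [show g * (g⁻¹ * a * g) * g⁻¹ = a by group]; exact a.2.2)⟩
  let φ : (H ⊓ D' : Subgroup GQ) →* (H ⊓ D : Subgroup GQ) :=
    { toFun := fun a => ⟨g⁻¹ * a * g, m a⟩
      map_one' := Subtype.ext (by simp)
      map_mul' := fun a b => Subtype.ext (by
        simp only [Subgroup.coe_mul]; group) }
  have k1 := Gy.cob_comp φ (((continuous_const.mul continuous_subtype_val).mul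
    continuous_const).subtype_mk _) h
  have k2 := Gy.cob_comp (Subgroup.inclusion (inf_le_left : H ⊓ D' ≤ H)) (Gy.inc_cont _)
    (Gy.cj_cob hz (⟨g, hg⟩ : H)⁻¹)
  have k3 := sub_mem k1 k2
  unfold Cb
  convert k3 using 1
  funext a b
  simp only [rs, Pi.sub_apply, inv_inv, Subgroup.coe_mul, Subgroup.coe_inv, Subgroup.coe_inclusion]
  exact (sub_sub_cancel _ _).symm

theorem gysC : GYS := by
  intro F _ _ H H' χ z hχ hH hz h
  exact Gy.gys' hχ hH hz h

end Vale.Agent.P022E.GW
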