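import Vale.Agent.P022E.GW.Fix

/-!
# P022E, block GW: the auxiliary prime of the reciprocity law
-/

set_option linter.all false

noncomputable section

namespace Vale.Agent.P022E.GW.OneP

open NumberField
open Vale.Agent.P022 Vale.Agent.P022.H443
open Vale.Agent.P027M.S (Inert)
open Vale.Agent.P022D.W (dec)
open Vale.Agent.P022E.GW.Kc

theorem nsq {l : ℕ} (hl : l.Prime) (h2 : l ≠ 2) :
    ∃ a : ℕ, a.Coprime l ∧ (a : ZMod l) ^ (l / 2) = -1 := by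
  haveI : Fact l.Prime := ⟨hl⟩
  obtain ⟨a, ha⟩ := FiniteField.exists_nonsquare (F := ZMod l) (by rwa [ZMod.ringChar_zmod_n])
  have a0 : a ≠ 0 := by
    rintro rfl
    exact ha ⟨0, by simp⟩
  refine ⟨a.val, ?_, ?_⟩
  · refine Nat.Coprime.symm ((Nat.Prime.coprime_iff_not_dvd hl).2 fun h => a0 ?_)
    rw [← ZMod.natCast_zmod_val a]
    exact (ZMod.natCast_eq_zero_iff _ _).2 h
  · rw [ZMod.natCast_zmod_val]
    exact (ZMod.pow_div_two_eq_neg_one_or_one l a0).resolve_left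
      fun h => ha ((ZMod.euler_criterion l a0).2 h)

theorem dir (S : Finset ℕ) (hS : ∀ l ∈ S, l.Prime ∧ l ≠ 2) (n : ℕ) :
    ∃ p : ℕ, n < p ∧ p.Prime ∧ p % 8 = 1 ∧ ∀ l ∈ S, (p : ZMod l) ^ (l / 2) = -1 := by
  classical
  have k : ∃ a q : ℕ, q ≠ 0 ∧ a.Coprime q ∧ (∀ r : ℕ, r.Prime → r ≠ 2 → r ∉ S → r.Coprime q) ∧
      ∀ p : ℕ, p ≡ a [MOD q] → p % 8 = 1 ∧ ∀ l ∈ S, (p : ZMod l) ^ (l / 2) = -1 := by
    induction S using Finset.induction_on with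
    | empty =>
      refine ⟨1, 8, by norm_num, by norm_num, fun r hr h2 _ => ?_, fun p hp => ⟨hp, by simp⟩⟩
      exact Nat.Coprime.pow_right 3 ((Nat.coprime_primes hr Nat.prime_two).2 h2)
    | insert l S hl ih =>
      obtain ⟨a, q, q0, c, hr, hp⟩ := ih fun x hx => hS x (Finset.mem_insert_of_mem hx)
      obtain ⟨lp, l2⟩ := hS l (Finset.mem_insert_self l S)
      obtain ⟨b, hb, eb⟩ := nsq lp l2
      obtain ⟨k, k1, k2⟩ := Nat.chineseRemainder (hr l lp l2 hl) b a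
      refine ⟨k, l * q, mul_ne_zero lp.ne_zero q0, Nat.Coprime.mul_right ?_ ?_,
        fun r rp r2 rS => Nat.Coprime.mul_right ?_ ?_, fun p h => ⟨?_, fun x hx => ?_⟩⟩
      · exact k1.gcd_eq.trans hb
      · exact k2.gcd_eq.trans c
      · exact (Nat.coprime_primes rp lp).2 fun e => rS (e ▸ Finset.mem_insert_self _ _)
      · exact hr r rp r2 fun e => rS (Finset.mem_insert_of_mem e)
      · exact (hp p ((h.of_mul_left l).trans k2)).1
      · rcases Finset.mem_insert.1 hx with rfl | hx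
        · rw [(ZMod.natCast_eq_natCast_iff _ _ _).2 ((h.of_mul_right q).trans k1), eb]
        · exact (hp p ((h.of_mul_left l).trans k2)).2 x hx
  obtain ⟨a, q, q0, c, -, hp⟩ := k
  obtain ⟨p, h1, h2, h3⟩ := Nat.forall_exists_prime_gt_and_modEq n q0 c
  exact ⟨p, h1, h2, hp p h3⟩

theorem cop {a b : ℕ} (h : a.Coprime b) {P : Ideal (𝓞 Qb)} (hP : P.IsPrime)
    (ha : (a : 𝓞 Qb) ∈ P) : (b : 𝓞 Qb) ∉ P := fun hb => by
  obtain ⟨x, y, e⟩ : IsCoprime (a : 𝓞 Qb) (b : 𝓞 Qb) := Nat.Coprime.cast h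
  exact hP.ne_top ((Ideal.eq_top_iff_one _).2
    (e ▸ P.add_mem (P.mul_mem_left x ha) (P.mul_mem_left y hb)))

theorem ex_rt (p : ℕ) : ∃ X : 𝓞 Qb, (X : Qb) = rt p ∧ X ^ 2 = p := by
  obtain ⟨X, hX⟩ : ∃ X : 𝓞 Qb, (X : Qb) = rt p :=
    ⟨⟨rt p, IsIntegral.of_pow (n := 2) two_pos (by
      rw [rt_sq]; exact (p : 𝓞 Qb).2)⟩, rfl⟩
  refine ⟨X, hX, RingOfIntegers.ext ?_⟩
  show (X : Qb) ^ 2 = p
  rw [hX, rt_sq]

theorem frob {p l : ℕ} (hp : p.Prime) (hpl : l ≠ p) (l2 : l ≠ 2)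
    (he : (p : ZMod l) ^ (l / 2) = -1) {P : Ideal (𝓞 Qb)} {φ : GQ} (hP : Ov l P)
    (hφ : Fb l P φ) : kq (p : Qb) φ = 1 := by
  obtain ⟨lp, hP, hl⟩ := hP
  refine (z2 _).resolve_left fun h => ?_
  obtain ⟨X, hX, e⟩ := ex_rt p
  have e1 : φ • X = X := RingOfIntegers.ext (by
    show φ (X : Qb) = X
    rw [hX]
    exact (kq_zero (rt_sq _) φ).1 h)
  have e2 := hφ X
  obtain ⟨t, ht⟩ : l ∣ p ^ (l / 2) + 1 := by
    rw [← ZMod.natCast_eq_zero_iff]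
    push_cast
    rw [he, neg_add_cancel]
  have e3 : (p : 𝓞 Qb) ^ (l / 2) + 1 = l * t := by exact_mod_cast congrArg (Nat.cast (R := 𝓞 Qb)) ht
  have e4 : X ^ l = X * (p : 𝓞 Qb) ^ (l / 2) := by
    rw [← e, ← pow_mul, ← pow_succ']
    congr 1
    have := lp.eq_two_or_odd.resolve_left l2
    omega
  rw [e1, e4] at e2
  have e5 : 2 * X ∈ P := by
    have := P.add_mem e2 (P.mul_mem_right (t * X) hl)
    rwa [show X - X * (p : 𝓞 Qb) ^ (l / 2) + l * (t * X) = 2 * X by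
      linear_combination (-X) * e3] at this
  rcases hP.mem_or_mem e5 with k | k
  · exact cop ((Nat.coprime_primes lp Nat.prime_two).2 l2) hP hl (by exact_mod_cast k)
  · exact cop ((Nat.coprime_primes lp hp).2 hpl) hP hl (e ▸ P.pow_mem_of_mem k 2 two_pos)

theorem two {p : ℕ} (h8 : p % 8 = 1) {P : Ideal (𝓞 Qb)} (hP : Ov 2 P) {g : GQ}
    (hg : g ∈ dec P) : kq (p : Qb) g = 0 := by
  obtain ⟨-, hP, hl⟩ := hP
  have hw := rt_sq (p : Qb)
  refine (kq_zero hw g).2 ((pm hw (map_natCast g p)).resolve_right fun e => ?_)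
  obtain ⟨k, hk⟩ : ∃ k : ℕ, p = 8 * k + 1 := ⟨p / 8, by omega⟩
  have hk' : (p : Qb) = 8 * k + 1 := by exact_mod_cast congrArg (Nat.cast (R := Qb)) hk
  have z1 : ((rt p - 1) / 2 : Qb) ^ 2 + (rt p - 1) / 2 - 2 * k = 0 := by
    linear_combination (1 / 4 : Qb) * hw + (1 / 4 : Qb) * hk'
  obtain ⟨Z, hZ⟩ : ∃ Z : 𝓞 Qb, (Z : Qb) = (rt p - 1) / 2 := by
    refine ⟨⟨(rt p - 1) / 2, Polynomial.X ^ 2 + (Polynomial.X - Polynomial.C (2 * k : ℤ)),
      ?_, ?_⟩, rfl⟩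
    · monicity!
    · rw [Polynomial.eval₂_add, Polynomial.eval₂_sub, Polynomial.eval₂_X_pow,
        Polynomial.eval₂_X, Polynomial.eval₂_C, eq_intCast]
      push_cast
      linear_combination z1
  have e1 : Z * (Z + 1) = 2 * k := RingOfIntegers.ext (by
    show (Z : Qb) * ((Z : Qb) + 1) = 2 * k
    rw [hZ]
    linear_combination z1)
  have e2 : g • Z = -(Z + 1) := RingOfIntegers.ext (by
    show g (Z : Qb) = -((Z : Qb) + 1)
    rw [hZ, map_div₀, map_sub, e, map_one, map_ofNat]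
    ring)
  have e3 : Z + 1 ∈ P ↔ Z ∈ P := by rw [← hg Z, e2, neg_mem_iff]
  have e4 : Z * (Z + 1) ∈ P := e1 ▸ P.mul_mem_right _ (by exact_mod_cast hl)
  have e5 : Z ∈ P := (hP.mem_or_mem e4).elim id e3.1
  have := P.sub_mem (e3.2 e5) e5
  rw [add_sub_cancel_left] at this
  exact hP.ne_top ((Ideal.eq_top_iff_one _).2 this)

theorem inf (p : ℕ) {c : GQ} (hc : IsConj c) : kq (p : Qb) c = 0 := by
  obtain ⟨φ, hφ⟩ := hc
  have hw := rt_sq (p : Qb)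
  refine (kq_zero hw c).2 (φ.injective ?_)
  rw [hφ]
  have e : φ (rt p) ^ 2 = ((Real.sqrt p : ℝ) : ℂ) ^ 2 := by
    rw [← map_pow, hw, map_natCast, ← Complex.ofReal_pow, Real.sq_sqrt (Nat.cast_nonneg p)]
    simp
  rcases sq_eq_sq_iff_eq_or_eq_neg.1 e with h | h <;> rw [h]
  · exact Complex.conj_ofReal _
  · rw [map_neg, Complex.conj_ofReal]

/-- **the auxiliary prime** -/
theorem prime (H : Subgroup GQ) (hH : IsOpen (H : Set GQ)) (S : Finset ℕ)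
    (hS : ∀ l ∈ S, l.Prime ∧ l ≠ 2) : ∃ p : ℕ, p.Prime ∧ p ≠ 2 ∧ p ∉ S ∧
    (∀ P, Ov p P → ∀ g, Inert P g → g ∈ H) ∧
    (∀ l ∈ S, ∀ P φ, Ov l P → Fb l P φ → kq (p : Qb) φ = 1) ∧
    (∀ P, Ov 2 P → ∀ g ∈ dec P, kq (p : Qb) g = 0) ∧
    (∀ c, IsConj c → kq (p : Qb) c = 0) ∧
    (∀ l P, l ≠ p → Ov l P → ∀ g, Inert P g → kq (p : Qb) g = 0) := by
  obtain ⟨n, n0, hn⟩ := Fx2.fin_ram H hH
  obtain ⟨p, h1, hp, h8, he⟩ := dir S hS (n + S.sup id)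
  have pS : p ∉ S := fun h => by
    have : p ≤ S.sup id := Finset.le_sup (f := id) h
    omega
  refine ⟨p, hp, by omega, pS, fun P hP g hg => hn P hP.2.1 (cop ?_ hP.2.1 hP.2.2) g hg,
    fun l hl P φ hP hφ => frob hp (fun e => pS (e ▸ hl)) (hS l hl).2 (he l hl) hP hφ,
    fun P hP g hg => two h8 hP hg, fun c hc => inf p hc, fun l P hl hP g hg => ?_⟩
  · exact (Nat.Prime.coprime_iff_not_dvd hp).2 (Nat.not_dvd_of_pos_of_lt (by omega) (by omega))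
  · by_cases l2 : l = 2
    · subst l2
      exact two h8 hP (P022D.W.inP_le_dec hg)
    · exact kq_unit (c := (p : 𝓞 Qb)) hP.2.1
        (by exact_mod_cast cop ((Nat.coprime_primes hP.1 Nat.prime_two).2 l2) hP.2.1 hP.2.2)
        (cop ((Nat.coprime_primes hP.1 hp).2 hl) hP.2.1 hP.2.2) hg (map_natCast g p)

end Vale.Agent.P022E.GW.OneP
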