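import Vale.Agent.P022D.Sel.Kum
import Vale.Agent.P022D.Sel.Kill
import Vale.Agent.P027M.S.Cls

/-!
# P022E, block GW: the Kummer dictionary for quadratic characters
-/

set_option linter.all false

noncomputable section

namespace Vale.Agent.P022E.GW.Kc

open NumberField IsDedekindDomain
open Vale.Agent.P022 Vale.Agent.P022.C Vale.Agent.P022.H916 Vale.Agent.P022D.Sel
open Vale.Agent.P027M.S (Pr Inert)
open Vale.Agent.P027M.S.Cls (ordv_mul ordv_zpow ordv_pow val_eq ordv_of)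

/-- a square root -/
def rt (x : Qb) : Qb := Classical.choose (IsAlgClosed.exists_pow_nat_eq x two_pos)

theorem rt_sq (x : Qb) : rt x ^ 2 = x :=
  Classical.choose_spec (IsAlgClosed.exists_pow_nat_eq x two_pos)

open Classical in
/-- the Kummer character of `x` (additive on the stabiliser of `x`) -/
def kq (x : Qb) (g : GQ) : ZMod 2 := if g (rt x) = rt x then 0 else 1

theorem z2 (a : ZMod 2) : a = 0 ∨ a = 1 := by revert a; decide

theorem z2_ext {a b : ZMod 2} (h : a = 0 ↔ b = 0) : a = b := by revert a b; decide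

theorem z2_add {a b c : ZMod 2} (h : a = 0 ↔ (b = 0 ↔ c = 0)) : a = b + c := by
  revert a b c; decide

theorem kq_zero {x w : Qb} (hw : w ^ 2 = x) (g : GQ) : kq x g = 0 ↔ g w = w := by
  have e : g (rt x) = rt x ↔ g w = w := by
    rcases sq_eq_sq_iff_eq_or_eq_neg.1 ((rt_sq x).trans hw.symm) with h | h <;> rw [h]
    rw [map_neg, neg_inj]
  rw [← e, kq]
  split_ifs with h
  · simp [h]
  · simp [h]

theorem pm {x w : Qb} (hw : w ^ 2 = x) {g : GQ} (hg : g x = x) : g w = w ∨ g w = -w :=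
  Kum.pm (by rw [hw, hg])

theorem ne_neg {w : Qb} (h : w ≠ 0) : -w ≠ w := fun e => h (by linear_combination (-1 / 2 : Qb) * e)

theorem root_ne {x w : Qb} (hx : x ≠ 0) (hw : w ^ 2 = x) : w ≠ 0 := by
  rintro rfl
  exact hx (by rw [← hw]; simp)

theorem kq_one {x w : Qb} (hx : x ≠ 0) (hw : w ^ 2 = x) {g : GQ} (hg : g x = x) :
    kq x g = 1 ↔ g w = -w := by
  have w0 := root_ne hx hw
  constructor
  · intro h
    refine (pm hw hg).resolve_left fun e => ?_
    rw [(kq_zero hw g).2 e] at h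
    exact zero_ne_one h
  · intro h
    refine (z2 _).resolve_left fun e => ne_neg w0 ?_
    rw [← h, (kq_zero hw g).1 e]

/-- `g w = ± w` -/
theorem kq_act {x w : Qb} (hw : w ^ 2 = x) {g : GQ} (hg : g x = x) :
    g w = (-1) ^ (kq x g).val * w := by
  by_cases hx : x = 0
  · have : w = 0 := pow_eq_zero_iff two_ne_zero |>.1 (hw.trans hx)
    simp [this]
  rcases z2 (kq x g) with h | h
  · rw [h, (kq_zero hw g).1 h]; simp
  · rw [h, (kq_one hx hw hg).1 h]; simp [ZMod.val_one]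

theorem kq_add {x : Qb} {g h : GQ} (hg : g x = x) (hh : h x = x) :
    kq x (g * h) = kq x g + kq x h := by
  by_cases hx : x = 0
  · have e : ∀ g : GQ, kq x g = 0 := fun g => (kq_zero (w := 0) (by simp [hx]) g).2 (map_zero g)
    rw [e, e, e, add_zero]
  have hw := rt_sq x
  have w0 := ne_neg (root_ne hx hw)
  refine z2_add ?_
  rw [kq_zero hw, kq_zero hw, kq_zero hw, AlgEquiv.mul_apply]
  rcases pm hw hg with a | a <;> rcases pm hw hh with b | b <;> simp [a, b, w0]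

theorem kq_id (x : Qb) : kq x 1 = 0 := (kq_zero (rt_sq x) 1).2 rfl

theorem kq_mul {x y : Qb} (hx : x ≠ 0) (hy : y ≠ 0) {g : GQ} (gx : g x = x) (gy : g y = y) :
    kq (x * y) g = kq x g + kq y g := by
  have hw := rt_sq x
  have hv := rt_sq y
  have w0 := ne_neg (root_ne hx hw)
  have v0 := ne_neg (root_ne hy hv)
  have u0 := ne_neg (mul_ne_zero (root_ne hx hw) (root_ne hy hv))
  refine z2_add ?_
  rw [kq_zero (w := rt x * rt y) (by rw [mul_pow, hw, hv]), kq_zero hw, kq_zero hv, map_mul]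
  rcases pm hw gx with a | a <;> rcases pm hv gy with b | b <;> simp [a, b, w0, v0, u0]

theorem kq_sq {z : Qb} {g : GQ} (h : g z = z) : kq (z ^ 2) g = 0 := (kq_zero rfl g).2 h

theorem kq_mul_sq {x z : Qb} (hz : z ≠ 0) {g : GQ} (h : g z = z) : kq (x * z ^ 2) g = kq x g := by
  refine z2_ext ?_
  rw [kq_zero (w := rt x * z) (by rw [mul_pow, rt_sq]), kq_zero (rt_sq x), map_mul, h,
    mul_left_inj' hz]

theorem kq_conj (x : Qb) (h g : GQ) : kq (h x) (h * g * h⁻¹) = kq x g := by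
  refine z2_ext ?_
  rw [kq_zero (w := h (rt x)) (by rw [← map_pow, rt_sq]), kq_zero (rt_sq x), ← AlgEquiv.mul_apply,
    inv_mul_cancel_right, AlgEquiv.mul_apply, h.injective.eq_iff]

theorem kq_mul_stab (x : Qb) (g : GQ) {u : GQ} (hu : u ∈ MulAction.stabilizer GQ (rt x)) :
    kq x (g * u) = kq x g := by
  have e : u (rt x) = rt x := hu
  refine z2_ext ?_
  rw [kq_zero (rt_sq x), kq_zero (rt_sq x), AlgEquiv.mul_apply, e]

theorem stab_open (w : Qb) : IsOpen (MulAction.stabilizer GQ w : Set GQ) :=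
  stabilizer_isOpen_of_isIntegral w

theorem kq_lc (x : Qb) : IsLocallyConstant (kq x) := by
  refine (IsLocallyConstant.iff_exists_open _).2 fun g => ⟨(fun u => g⁻¹ * u) ⁻¹'
    (MulAction.stabilizer GQ (rt x)), (stab_open _).preimage (by fun_prop), by simp, fun y hy => ?_⟩
  rw [← kq_mul_stab x g hy, mul_inv_cancel_left]

theorem kq_opn (x : Qb) : ∃ U : Subgroup GQ, IsOpen (U : Set GQ) ∧ ∀ σ ∈ U, kq x σ = 0 :=
  ⟨_, stab_open (rt x), fun σ h => (kq_zero (rt_sq x) σ).2 h⟩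

/-- an element outside a closed subgroup moves some fixed element -/
theorem sep (V : Subgroup GQ) (hc : IsClosed (V : Set GQ)) {s : GQ} (hs : s ∉ V) :
    ∃ θ : Qb, (∀ v ∈ V, v θ = θ) ∧ s θ ≠ θ := by
  haveI := P027M.S.KumAux.gal
  have h : (IntermediateField.fixedField V).fixingSubgroup = V :=
    InfiniteGalois.fixingSubgroup_fixedField (k := ℚ) (K := Qb) ⟨V, hc⟩
  by_contra hcon
  push Not at hcon
  apply hs
  have : s ∈ (IntermediateField.fixedField V).fixingSubgroup := by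
    rw [IntermediateField.mem_fixingSubgroup_iff]
    intro x hx
    rw [IntermediateField.mem_fixedField_iff] at hx
    exact hcon x hx
  rwa [h] at this

/-- **Kummer theory** for any subgroup: a character with closed kernel has a generator -/
theorem kq_surj (Δ : Subgroup GQ) (φ : GQ → ZMod 2)
    (ha : ∀ g ∈ Δ, ∀ h ∈ Δ, φ (g * h) = φ g + φ h) (hc : IsClosed {g : GQ | g ∈ Δ ∧ φ g = 0}) :
    ∃ x : Qb, x ≠ 0 ∧ (∀ g ∈ Δ, g x = x) ∧ ∀ g ∈ Δ, φ g = kq x g := by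
  have p1 : φ 1 = 0 := by
    have := ha 1 Δ.one_mem 1 Δ.one_mem
    rw [one_mul] at this
    exact left_eq_add.1 this
  have pi : ∀ g ∈ Δ, φ g⁻¹ = φ g := fun g hg => by
    have := ha g hg g⁻¹ (Δ.inv_mem hg)
    rw [mul_inv_cancel, p1] at this
    revert this
    generalize φ g = a
    generalize φ g⁻¹ = b
    revert a b
    decide
  by_cases h : ∃ s ∈ Δ, φ s = 1
  swap
  · refine ⟨1, one_ne_zero, fun g _ => map_one g, fun g hg => ?_⟩
    rw [(z2 _).resolve_right fun e => h ⟨g, hg, e⟩, (kq_zero (w := 1) (by simp) g).2 (map_one g)]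
  obtain ⟨s, hs, s1⟩ := h
  let H : Subgroup GQ :=
    { carrier := {g : GQ | g ∈ Δ ∧ φ g = 0}
      mul_mem' := fun {a b} x y => ⟨Δ.mul_mem x.1 y.1, by rw [ha a x.1 b y.1, x.2, y.2, add_zero]⟩
      one_mem' := ⟨Δ.one_mem, p1⟩
      inv_mem' := fun {a} x => ⟨Δ.inv_mem x.1, by rw [pi a x.1, x.2]⟩ }
  obtain ⟨θ, t1, t2⟩ := sep H hc (s := s) fun k => by
    have := k.2
    rw [s1] at this
    exact one_ne_zero this
  have two : ∀ g ∈ Δ, φ g = 1 → ∀ g' ∈ Δ, φ g' = 1 → g * g' ∈ H := fun g a b g' c d =>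
    ⟨Δ.mul_mem a c, by rw [ha g a g' c, b, d]; rfl⟩
  have a1 : ∀ g ∈ Δ, φ g = 1 → g θ = s θ := fun g hg e => by
    have := congrArg s (t1 _ (two s⁻¹ (Δ.inv_mem hs) (by rw [pi s hs, s1]) g hg e))
    rwa [← AlgEquiv.mul_apply, ← mul_assoc, mul_inv_cancel, one_mul] at this
  have a2 : ∀ g ∈ Δ, φ g = 0 → g (θ - s θ) = θ - s θ := fun g hg e => by
    rw [map_sub, t1 g ⟨hg, e⟩, ← AlgEquiv.mul_apply,
      a1 _ (Δ.mul_mem hg hs) (by rw [ha g hg s hs, e, s1, zero_add])]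
  have a3 : ∀ g ∈ Δ, φ g = 1 → g (θ - s θ) = -(θ - s θ) := fun g hg e => by
    rw [map_sub, a1 g hg e, ← AlgEquiv.mul_apply, t1 _ (two g hg e s hs s1), neg_sub]
  have w0 : θ - s θ ≠ 0 := sub_ne_zero.2 t2.symm
  have fx : ∀ g ∈ Δ, g ((θ - s θ) ^ 2) = (θ - s θ) ^ 2 := fun g hg => by
    rw [map_pow]
    rcases z2 (φ g) with e | e
    · rw [a2 g hg e]
    · rw [a3 g hg e, neg_sq]
  refine ⟨_, pow_ne_zero 2 w0, fx, fun g hg => ?_⟩
  rcases z2 (φ g) with e | e
  · rw [e, (kq_zero rfl g).2 (a2 g hg e)]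
  · rw [e, (kq_one (pow_ne_zero 2 w0) rfl (fx g hg)).2 (a3 g hg e)]

/-- the same for a closed subgroup and a function which is locally constant on it -/
theorem kq_surj' (Δ : Subgroup GQ) (hΔ : IsClosed (Δ : Set GQ)) (φ : Δ → ZMod 2)
    (hl : IsLocallyConstant φ) (ha : ∀ g h, φ (g * h) = φ g + φ h) :
    ∃ x : Qb, x ≠ 0 ∧ (∀ g ∈ Δ, g x = x) ∧ ∀ g : Δ, φ g = kq x g := by
  classical
  obtain ⟨x, h0, h1, h2⟩ := kq_surj Δ (fun g => if h : g ∈ Δ then φ ⟨g, h⟩ else 0)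
    (fun g hg h hh => by
      simp only [dif_pos hg, dif_pos hh, dif_pos (Δ.mul_mem hg hh)]
      exact ha ⟨g, hg⟩ ⟨h, hh⟩) (by
      have := hΔ.isClosedEmbedding_subtypeVal.isClosedMap _ (hl.isClopen_fiber 0).1
      refine Eq.mp (congrArg IsClosed (Set.ext fun g => ⟨?_, ?_⟩)) this
      · rintro ⟨⟨g, a⟩, b, rfl⟩
        exact ⟨a, (dif_pos a).trans b⟩
      · rintro ⟨a, b⟩
        exact ⟨⟨g, a⟩, (dif_pos a).symm.trans b, rfl⟩)
  exact ⟨x, h0, h1, fun g => by simpa using h2 g g.2⟩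

/-- units at an odd prime give unramified characters -/
theorem kq_unit {P : Ideal (𝓞 Qb)} (hP : P.IsPrime) (h2 : (2 : 𝓞 Qb) ∉ P) {c : 𝓞 Qb} (hc : c ∉ P)
    {g : GQ} (hg : Inert P g) (gc : g (c : Qb) = c) : kq (c : Qb) g = 0 := by
  obtain ⟨X, hX⟩ : ∃ X : 𝓞 Qb, (X : Qb) = rt c :=
    ⟨⟨rt c, IsIntegral.of_pow (n := 2) two_pos (by rw [rt_sq]; exact c.2)⟩, rfl⟩
  have e1 : X ^ 2 = c := RingOfIntegers.ext (by
    show (X : Qb) ^ 2 = c
    rw [hX, rt_sq])
  refine (kq_zero (rt_sq _) g).2 ((pm (rt_sq _) gc).resolve_right fun e => ?_)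
  have e2 : g • X = -X := RingOfIntegers.ext (by
    show g (X : Qb) = -(X : Qb)
    rw [hX, e])
  have e3 := hg X
  rw [e2, show -X - X = -(2 * X) by ring, neg_mem_iff] at e3
  rcases hP.mem_or_mem e3 with k | k
  · exact h2 k
  · exact hc (e1 ▸ P.pow_mem_of_mem k 2 two_pos)

section field

variable {L : Type} [Field L] [NumberField L] (j : L →+* Qb)

theorem kq_addL (y : L) {g h : GQ} (hg : g ∈ GK j) (hh : h ∈ GK j) :
    kq (j y) (g * h) = kq (j y) g + kq (j y) h := kq_add (hg y) (hh y)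

theorem kq_mulL {y z : L} (hy : y ≠ 0) (hz : z ≠ 0) {g : GQ} (hg : g ∈ GK j) :
    kq (j (y * z)) g = kq (j y) g + kq (j z) g := by
  rw [map_mul]
  exact kq_mul ((map_ne_zero j).2 hy) ((map_ne_zero j).2 hz) (hg y) (hg z)

theorem kq_sqL (y : L) {z : L} (hz : z ≠ 0) {g : GQ} (hg : g ∈ GK j) :
    kq (j (y * z ^ 2)) g = kq (j y) g := by
  rw [map_mul, map_pow]
  exact kq_mul_sq ((map_ne_zero j).2 hz) (hg z)

theorem kq_oneL (g : GQ) : kq (j 1) g = 0 := (kq_zero (w := 1) (by simp) g).2 (map_one g)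

theorem kq_powL {y : L} (hy : y ≠ 0) (n : ℕ) {g : GQ} (hg : g ∈ GK j) :
    kq (j (y ^ n)) g = n * kq (j y) g := by
  induction n with
  | zero => rw [pow_zero, kq_oneL]; simp
  | succ n ih => rw [pow_succ, kq_mulL j (pow_ne_zero n hy) hy hg, ih]; push_cast; ring

theorem kq_conjL {h : GQ} {τ : L → L} (hτ : ∀ y, j (τ y) = h (j y)) (y : L) (g : GQ) :
    kq (j (τ y)) (h * g * h⁻¹) = kq (j y) g := by
  rw [hτ, kq_conj]

/-- the character is trivial iff the element is a square -/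
theorem kq_triv (y : L) : (∀ g ∈ GK j, kq (j y) g = 0) ↔ ∃ z : L, y = z ^ 2 := by
  constructor
  · intro h
    obtain ⟨z, hz⟩ := fixed j (x := rt (j y)) fun g => (kq_zero (rt_sq _) _).1 (h g g.2)
    exact ⟨z, j.injective (by rw [map_pow, hz, rt_sq])⟩
  · rintro ⟨z, rfl⟩ g hg
    rw [map_pow]
    exact kq_sq (hg z)

/-- every quadratic character of `GK j` has a generator in `L` -/
theorem kq_surjL (φ : GQ → ZMod 2) (ha : ∀ g ∈ GK j, ∀ h ∈ GK j, φ (g * h) = φ g + φ h)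
    (ho : ∃ U : Subgroup GQ, IsOpen (U : Set GQ) ∧ ∀ σ ∈ U, σ ∈ GK j → φ σ = 0) :
    ∃ y : L, y ≠ 0 ∧ ∀ g ∈ GK j, φ g = kq (j y) g := by
  obtain ⟨U, hU, h0⟩ := ho
  have op : ∀ a : ZMod 2, IsOpen {g : GQ | g ∈ GK j ∧ φ g = a} := fun a => by
    refine isOpen_iff_forall_mem_open.2 fun g hg => ⟨(fun u => g⁻¹ * u) ⁻¹' (U ∩ GK j), ?_,
      (hU.inter (isOpen_GK j)).preimage (by fun_prop), by simp [U.one_mem, (GK j).one_mem]⟩
    intro u hu
    have e : u = g * (g⁻¹ * u) := by group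
    exact ⟨e ▸ (GK j).mul_mem hg.1 hu.2, by rw [e, ha g hg.1 _ hu.2, h0 _ hu.1 hu.2, hg.2, add_zero]⟩
  obtain ⟨x, x0, x1, x2⟩ := kq_surj (GK j) φ ha (by
    have := (isClosed_GK j).inter (op 1).isClosed_compl
    refine Eq.mp (congrArg IsClosed (Set.ext fun g => ⟨?_, ?_⟩)) this
    · rintro ⟨a, b⟩
      exact ⟨a, (z2 _).resolve_right fun c => b ⟨a, c⟩⟩
    · rintro ⟨a, b⟩
      exact ⟨a, fun c => zero_ne_one (b.symm.trans c.2)⟩)
  obtain ⟨y, rfl⟩ := fixed j (x := x) fun g => x1 g g.2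
  exact ⟨y, (map_ne_zero j).1 x0, x2⟩

/-- even valuation at an odd prime: unramified -/
theorem kq_even {y : L} (hy : y ≠ 0) (v : Pr L) {P : Ideal (𝓞 Qb)} (hP : P.IsPrime)
    (hv : below j P = v.asIdeal) (h2 : (2 : 𝓞 Qb) ∉ P) (he : Even (ordv v y)) {g : GQ}
    (hg : g ∈ GK j) (hi : Inert P g) : kq (j y) g = 0 := by
  obtain ⟨k, hk⟩ := he
  obtain ⟨π, hπ⟩ := v.valuation_exists_uniformizer L
  have π0 : π ≠ 0 := by
    rintro rfl
    rw [map_zero] at hπ
    exact WithZero.exp_ne_zero hπ.symm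
  have oπ : ordv v π = 1 := ordv_of hπ
  have z0 : π ^ (-k) ≠ 0 := zpow_ne_zero _ π0
  have y1 : v.valuation L (y * (π ^ (-k)) ^ 2) = 1 := by
    rw [val_eq v (mul_ne_zero hy (pow_ne_zero _ z0)), ordv_mul v hy (pow_ne_zero _ z0),
      ordv_pow v z0, ordv_zpow v π0, oπ, hk]
    simp [two_mul]
  obtain ⟨n, d, hn⟩ := v.exists_primeCompl_mul_eq_of_integer _ y1.le
  have dv : v.valuation L (algebraMap (𝓞 L) L d) = 1 := by
    rw [HeightOneSpectrum.valuation_of_algebraMap]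
    exact (HeightOneSpectrum.intValuation_eq_one_iff).2 d.2
  have nv : n ∉ v.asIdeal := by
    have := congrArg (v.valuation L) hn
    rw [map_mul, y1, dv, one_mul, HeightOneSpectrum.valuation_of_algebraMap] at this
    exact (HeightOneSpectrum.intValuation_eq_one_iff).1 this.symm
  have d0 : algebraMap (𝓞 L) L d ≠ 0 := by
    intro e
    rw [e] at dv
    simp at dv
  have hc : RingOfIntegers.mapRingHom j (n * d) ∉ P := fun e => by
    have : n * (d : 𝓞 L) ∈ v.asIdeal := hv.le e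
    rcases v.isPrime.mem_or_mem this with a | a
    · exact nv a
    · exact d.2 a
  have e : j (y * (π ^ (-k) * algebraMap (𝓞 L) L d) ^ 2) =
      ((RingOfIntegers.mapRingHom j (n * d) : 𝓞 Qb) : Qb) := by
    change _ = j (algebraMap (𝓞 L) L (n * d))
    rw [map_mul (algebraMap (𝓞 L) L), ← hn]
    congr 1
    ring
  rw [← kq_sqL j y (mul_ne_zero z0 d0) hg, e]
  exact kq_unit hP h2 hc hi (by rw [← e]; exact hg _)

/-- unramified: even valuation -/
theorem even_of {y : L} (hy : y ≠ 0) (v : Pr L) {P : Ideal (𝓞 Qb)} (hP : P.IsPrime)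
    (hv : below j P = v.asIdeal) (h : ∀ g ∈ GK j, Inert P g → kq (j y) g = 0) :
    Even (ordv v y) := by
  have hb := rt_sq (j y)
  set b := rt (j y)
  have hnm : ∀ g ∈ GK j, ∀ u ∈ GK j ⊓ MulAction.stabilizer GQ b,
      g * u * g⁻¹ ∈ GK j ⊓ MulAction.stabilizer GQ b := by
    intro g hg u hu
    refine ⟨(GK j).mul_mem ((GK j).mul_mem hg hu.1) ((GK j).inv_mem hg), ?_⟩
    have u1 : u b = b := hu.2
    have u2 : u (g⁻¹ b) = g⁻¹ b := by
      rcases pm hb ((GK j).inv_mem hg y) with e | e <;> rw [e]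
      · exact u1
      · rw [map_neg, u1]
    show (g * u * g⁻¹) b = b
    rw [AlgEquiv.mul_apply, AlgEquiv.mul_apply, u2, ← AlgEquiv.mul_apply, mul_inv_cancel]
    rfl
  obtain ⟨M, _, _, _, _, jM, ρ, D, hM, hker⟩ := exists_fld j (GK j ⊓ MulAction.stabilizer GQ b)
    ((isOpen_GK j).inter (stab_open b)) inf_le_left hnm
  obtain ⟨b', hb'⟩ : ∃ b', jM b' = b := fixed jM fun g =>
    (show (g : GQ) ∈ GK j ⊓ MulAction.stabilizer GQ b from hM ▸ g.2).2
  have hne : below jM P ≠ ⊥ := fun h0 => v.ne_bot (by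
    rw [← hv, ← D.below_comap P, h0]
    exact Ideal.comap_bot_of_injective _ (FaithfulSMul.algebraMap_injective _ _))
  let v' : Pr M := ⟨below jM P, Ideal.IsPrime.comap _, hne⟩
  have hin : ∀ g : GK j, (∀ x : 𝓞 Qb, (g : GQ) • x - x ∈ P) → ρ g = 1 := fun g hg =>
    (hker g).2 ⟨g.2, (kq_zero hb _).1 (h g g.2 hg)⟩
  have key := H269.UNRV L M v v' ((D.below_comap P).trans hv)
    (fun g hg => D.inertia_eq_bot hP hin hg) y
  have b0 : b' ≠ 0 := by
    rintro rfl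
    exact root_ne ((map_ne_zero j).2 hy) hb (by rw [← hb', map_zero])
  have e : algebraMap L M y = b' ^ 2 := jM.injective (by rw [map_pow, hb', hb, D.comp])
  rw [e, ordv_pow v' b0] at key
  exact ⟨ordv v' b', by rw [← key]; push_cast; ring⟩

/-- the ramification of the character at an odd prime only depends on the parity -/
theorem kq_par {y z : L} (hy : y ≠ 0) (hz : z ≠ 0) (v : Pr L) {P : Ideal (𝓞 Qb)} (hP : P.IsPrime)
    (hv : below j P = v.asIdeal) (h2 : (2 : 𝓞 Qb) ∉ P) (he : Even (ordv v y + ordv v z)) {g : GQ}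
    (hg : g ∈ GK j) (hi : Inert P g) : kq (j y) g = kq (j z) g := by
  have := kq_even j (mul_ne_zero hy hz) v hP hv h2 (by rwa [ordv_mul v hy hz]) hg hi
  rw [kq_mulL j hy hz hg] at this
  revert this
  generalize kq (j y) g = a
  generalize kq (j z) g = b
  revert a b
  decide

theorem ex_ram {y : L} (hy : y ≠ 0) (v : Pr L) {P : Ideal (𝓞 Qb)} (hP : P.IsPrime)
    (hv : below j P = v.asIdeal) (ho : Odd (ordv v y)) :
    ∃ g ∈ GK j, Inert P g ∧ kq (j y) g = 1 := by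
  by_contra h
  exact (Int.not_even_iff_odd.2 ho) (even_of j hy v hP hv fun g a b =>
    (z2 _).resolve_right fun c => h ⟨g, a, b, c⟩)

/-- a prime of `Qb` above `v` -/
theorem ex_above (v : Pr L) : ∃ P : Ideal (𝓞 Qb), P.IsPrime ∧ below j P = v.asIdeal := by
  letI : Algebra L Qb := j.toAlgebra
  letI : Algebra (𝓞 L) (𝓞 Qb) := (RingOfIntegers.mapRingHom j).toAlgebra
  haveI : Algebra.IsIntegral (𝓞 L) (𝓞 Qb) := ⟨fun x => IsIntegral.tower_top (R := ℤ)
    (RingOfIntegers.isIntegral x)⟩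
  have := v.isPrime
  obtain ⟨P, hP, h⟩ := Ideal.exists_ideal_over_prime_of_isIntegral_of_isDomain (S := 𝓞 Qb)
    v.asIdeal (by
      rw [(RingHom.injective_iff_ker_eq_bot _).1 fun a b e => RingOfIntegers.ext (j.injective
        (congrArg (fun z : 𝓞 Qb => (z : Qb)) e))]
      exact bot_le)
  exact ⟨P, hP, h⟩

/-- the prime below a prime which contains a rational prime -/
theorem ex_below {l : ℕ} (hl : l ≠ 0) {P : Ideal (𝓞 Qb)} (hP : P.IsPrime) (h : (l : 𝓞 Qb) ∈ P) :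
    ∃ v : Pr L, below j P = v.asIdeal ∧ (l : 𝓞 L) ∈ v.asIdeal := by
  have m : (l : 𝓞 L) ∈ below j P := by
    show RingOfIntegers.mapRingHom j (l : 𝓞 L) ∈ P
    rwa [map_natCast]
  exact ⟨⟨below j P, Ideal.IsPrime.comap _, fun e => by
    rw [e, Ideal.mem_bot] at m
    exact hl (by exact_mod_cast m)⟩, rfl, m⟩

theorem nat_mem {v : Pr L} {P : Ideal (𝓞 Qb)} (hv : below j P = v.asIdeal) (l : ℕ) :
    (l : 𝓞 L) ∈ v.asIdeal ↔ (l : 𝓞 Qb) ∈ P := by
  rw [← hv]
  show RingOfIntegers.mapRingHom j (l : 𝓞 L) ∈ P ↔ _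
  rw [map_natCast]

theorem prime_mem (v : Pr L) : ∃ l : ℕ, l.Prime ∧ (l : 𝓞 L) ∈ v.asIdeal := by
  have h1 : Finite (𝓞 L ⧸ v.asIdeal) := Ideal.finiteQuotientOfFreeOfNeBot _ v.ne_bot
  have := v.isPrime
  obtain ⟨l, hl⟩ := CharP.exists (𝓞 L ⧸ v.asIdeal)
  refine ⟨l, CharP.char_is_prime (𝓞 L ⧸ v.asIdeal) l, ?_⟩
  rw [← Ideal.Quotient.eq_zero_iff_mem, map_natCast]
  exact CharP.cast_eq_zero _ l

theorem two_not {A : Finset ℕ} (h2 : 2 ∈ A) {v : Pr L} (hv : v ∉ ov L A) {P : Ideal (𝓞 Qb)}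
    (hb : below j P = v.asIdeal) : (2 : 𝓞 Qb) ∉ P := fun h =>
  hv ⟨2, h2, two_ne_zero, (nat_mem j hb 2).2 (by exact_mod_cast h)⟩

/-- two primes of `ℚ` in the same prime -/
theorem not_ov {A : Finset ℕ} (hA : ∀ l ∈ A, l = 0 ∨ l.Prime) {l : ℕ} (hl : l.Prime) (h : l ∉ A)
    {v : Pr L} (hv : (l : 𝓞 L) ∈ v.asIdeal) : v ∉ ov L A := by
  rintro ⟨p, hp, p0, e⟩
  have hp' := (hA p hp).resolve_left p0
  have c : IsCoprime (l : 𝓞 L) (p : 𝓞 L) := Nat.Coprime.cast
    ((Nat.coprime_primes hl hp').2 fun k => h (k ▸ hp))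
  obtain ⟨a, b, hab⟩ := c
  exact v.isPrime.ne_top ((Ideal.eq_top_iff_one _).2
    (hab ▸ v.asIdeal.add_mem (v.asIdeal.mul_mem_left a hv) (v.asIdeal.mul_mem_left b e)))

/-- units outside `A` give characters which are unramified outside `A` -/
theorem kq_US {A : Finset ℕ} (h2 : 2 ∈ A) (hA : ∀ l ∈ A, l = 0 ∨ l.Prime) (u : US L A) {l : ℕ}
    (hl : l.Prime) (hn : l ∉ A) {P : Ideal (𝓞 Qb)} (hP : P.IsPrime) (h : (l : 𝓞 Qb) ∈ P) {g : GQ}
    (hg : g ∈ GK j) (hi : Inert P g) : kq (j (el u)) g = 0 := by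
  obtain ⟨v, hv, m⟩ := ex_below j hl.ne_zero hP h
  have o := not_ov hA hl hn m
  refine kq_even j (KillAux.el_ne u) v hP hv (two_not j h2 o hv) ?_ hg hi
  rw [ordv, KillAux.el_val u v o]
  simp

theorem fin_ord {y : L} (hy : y ≠ 0) : {v : Pr L | ordv v y ≠ 0}.Finite := by
  obtain ⟨n, d, hd, rfl⟩ := IsFractionRing.div_surjective (A := 𝓞 L) y
  have n0 : n ≠ 0 := by
    rintro rfl
    simp at hy
  have d0 : d ≠ 0 := nonZeroDivisors.ne_zero hd
  have k : ∀ a : 𝓞 L, a ≠ 0 → {v : Pr L | a ∈ v.asIdeal}.Finite := fun a ha =>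
    (Ideal.finite_factors (I := Ideal.span {a}) (by simpa using ha)).subset fun v hv =>
      Ideal.dvd_span_singleton.2 hv
  refine ((k n n0).union (k d d0)).subset fun v hv => ?_
  by_contra c
  rw [Set.mem_union, not_or] at c
  apply hv
  rw [ordv, map_div₀, HeightOneSpectrum.valuation_of_algebraMap,
    HeightOneSpectrum.valuation_of_algebraMap, HeightOneSpectrum.intValuation_eq_one_iff.2 c.1,
    HeightOneSpectrum.intValuation_eq_one_iff.2 c.2]
  simp

open Classical in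
omit j in
/-- prescribed valuations outside `A` -/
theorem ex_ord {A : Finset ℕ} (hB : Big L A) (S : Finset (Pr L)) (d : Pr L → ℤ) :
    ∃ y : L, y ≠ 0 ∧ ∀ v ∉ ov L A, ordv v y = if v ∈ S then d v else 0 := by
  classical
  induction S using Finset.induction_on with
  | empty => exact ⟨1, one_ne_zero, fun v _ => by simp [ordv]⟩
  | insert w S hw ih =>
    obtain ⟨y, y0, hy⟩ := ih
    by_cases h : w ∈ ov L A
    · refine ⟨y, y0, fun v hv => ?_⟩
      have : v ≠ w := fun e => hv (e ▸ h)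
      simp [hy v hv, this]
    · obtain ⟨π, π0, p1, p2⟩ := hB w h
      refine ⟨y * π ^ d w, mul_ne_zero y0 (zpow_ne_zero _ π0), fun v hv => ?_⟩
      rw [ordv_mul v y0 (zpow_ne_zero _ π0), ordv_zpow v π0, hy v hv]
      by_cases e : v = w
      · subst e
        simp [p1, hw]
      · simp [p2 v hv e, e]

omit j in
/-- even valuations outside `A`: a unit up to squares -/
theorem ex_unit {A : Finset ℕ} (hB : Big L A) {y : L} (hy : y ≠ 0)
    (h : ∀ v ∉ ov L A, Even (ordv v y)) : ∃ (u : US L A) (z : L), z ≠ 0 ∧ el u = y * z ^ 2 := by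
  obtain ⟨z, z0, hz⟩ := ex_ord hB (fin_ord hy).toFinset fun v => -(ordv v y / 2)
  obtain ⟨u, hu⟩ := KillAux.mk_el (A := A) (y * z ^ 2) (mul_ne_zero hy (pow_ne_zero _ z0))
    fun v hv => by
      rw [val_eq v (mul_ne_zero hy (pow_ne_zero _ z0)), ordv_mul v hy (pow_ne_zero _ z0),
        ordv_pow v z0, hz v hv]
      obtain ⟨k, hk⟩ := h v hv
      split_ifs with c
      · rw [show ordv v y + ((2 : ℕ) : ℤ) * -(ordv v y / 2) = 0 by omega]
        simp
      · rw [Set.Finite.mem_toFinset, Set.mem_setOf_eq, not_not] at c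
        simp [c]
  exact ⟨u, z, z0, hu⟩

/-- **the characters which are unramified outside `A` come from units** -/
theorem kq_surjU {A : Finset ℕ} (hB : Big L A) (φ : GQ → ZMod 2)
    (ha : ∀ g ∈ GK j, ∀ h ∈ GK j, φ (g * h) = φ g + φ h)
    (ho : ∃ U : Subgroup GQ, IsOpen (U : Set GQ) ∧ ∀ σ ∈ U, σ ∈ GK j → φ σ = 0)
    (hu : ∀ l : ℕ, l.Prime → l ∉ A → ∀ P : Ideal (𝓞 Qb), P.IsPrime → (l : 𝓞 Qb) ∈ P →
      ∀ g ∈ GK j, Inert P g → φ g = 0) :
    ∃ u : US L A, ∀ g ∈ GK j, φ g = kq (j (el u)) g := by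
  obtain ⟨y, y0, hy⟩ := kq_surjL j φ ha ho
  obtain ⟨u, z, z0, e⟩ := ex_unit hB y0 fun v hv => by
    obtain ⟨P, hP, hb⟩ := ex_above j v
    obtain ⟨l, hl, m⟩ := prime_mem v
    exact even_of j y0 v hP hb fun g a b => (hy g a).symm.trans
      (hu l hl (fun k => hv ⟨l, k, hl.ne_zero, m⟩) P hP ((nat_mem j hb l).1 m) g a b)
  exact ⟨u, fun g hg => by rw [e, kq_sqL j y z0 hg, hy g hg]⟩

/-- the Kummer map on the units is additive -/
theorem kq_el_add {A : Finset ℕ} (u u' : US L A) {g : GQ} (hg : g ∈ GK j) :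
    kq (j (el (u + u'))) g = kq (j (el u)) g + kq (j (el u')) g := by
  rw [el_add, kq_mulL j (KillAux.el_ne u) (KillAux.el_ne u') hg]

/-- its kernel consists of the squares -/
theorem kq_el_triv {A : Finset ℕ} (u : US L A) :
    (∀ g ∈ GK j, kq (j (el u)) g = 0) ↔ ∃ w : US L A, u = 2 • w := by
  rw [kq_triv]
  constructor
  · rintro ⟨z, hz⟩
    have z0 : z ≠ 0 := by
      rintro rfl
      exact KillAux.el_ne u (by rw [hz]; simp)
    obtain ⟨c, hc⟩ := KillAux.mk_el (A := A) z z0 fun v hv => by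
      have h := KillAux.el_val u v hv
      rw [hz, map_pow] at h
      rcases lt_trichotomy (v.valuation L z) 1 with h' | h' | h'
      · exact absurd h (pow_lt_one₀ zero_le' h' two_ne_zero).ne
      · exact h'
      · exact absurd h (one_lt_pow₀ h' two_ne_zero).ne'
    exact ⟨c, KillAux.el_inj (by rw [KillAux.el_nsmul, hc, hz])⟩
  · rintro ⟨w, rfl⟩
    exact ⟨el w, KillAux.el_nsmul w 2⟩

end field

end Vale.Agent.P022E.GW.Kc
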