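import Vale.Agent.P022E.GW.Defs
import Vale.Agent.P022E.GW.Brg
import Vale.Agent.P022E.GW.Kc

/-! # P022, block GW: adjustment by norms above `p`, local squares -/

set_option linter.all false

noncomputable section

namespace Vale.Agent.P022E.GW.OneQ

open NumberField IsDedekindDomain
open Vale.Agent.P022 Vale.Agent.P022.H443
open Vale.Agent.P022.C (ordv)
open Vale.Agent.P027M.S (Pr)
open Vale.Agent.P027M.S.Cls (ordv_mul ordv_zpow ordv_pow val_eq ordv_of)
open Vale.Agent.P022D.W (dec)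
open Vale.Agent.P022E.GW.Kc (kq)

variable {K : Type} [Field K] [NumberField K]

theorem half (v : Pr K) {y : K} (hy : y ≠ 0) (he : Even (ordv v y)) :
    ∃ x : K, v.valuation K (y * x ^ 2) = 1 := by
  obtain ⟨π, hπ⟩ := v.valuation_exists_uniformizer K
  obtain ⟨k, hk⟩ := he
  have h0 : π ≠ 0 := by
    rintro rfl
    rw [map_zero] at hπ
    exact WithZero.exp_ne_zero hπ.symm
  have h1 : ordv v π = 1 := ordv_of hπ
  have h2 : π ^ (-k) ≠ 0 := zpow_ne_zero _ h0
  refine ⟨π ^ (-k), ?_⟩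
  rw [val_eq v (mul_ne_zero hy (pow_ne_zero 2 h2)), ordv_mul v hy (pow_ne_zero 2 h2),
    ordv_pow v h2, ordv_zpow v h0, h1, hk]
  have e : -(k + k + ((2 : ℕ) : ℤ) * (-k * 1)) = 0 := by push_cast; ring
  rw [e, WithZero.exp_zero]

theorem adj (p : ℕ) (hp : p.Prime) (ho : ∀ v ∈ P022D.Sel.ov K {p}, Odd (ordv v (p : K))) (b : K)
    (hb : b ≠ 0) : ∃ s t : K, s ^ 2 - p * t ^ 2 ≠ 0 ∧
      ∀ v ∈ P022D.Sel.ov K {p}, v.valuation K (b * (s ^ 2 - p * t ^ 2)) = 1 := by
  classical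
  have p0 : (p : K) ≠ 0 := Nat.cast_ne_zero.2 hp.ne_zero
  have h1 : ∀ v : Pr K, ∃ s t : K, v ∈ P022D.Sel.ov K {p} →
      v.valuation K (b * (s ^ 2 - p * t ^ 2)) = 1 := by
    intro v
    by_cases hv : v ∈ P022D.Sel.ov K {p}
    · rcases Int.even_or_odd (ordv v b) with h | h
      · obtain ⟨x, hx⟩ := half v hb h
        exact ⟨x, 0, fun _ => by rw [← hx]; congr 1; ring⟩
      · obtain ⟨x, hx⟩ := half v (mul_ne_zero hb p0)
          (by rw [ordv_mul v hb p0]; exact h.add_odd (ho v hv))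
        exact ⟨0, x, fun _ => by rw [← hx, ← Valuation.map_neg]; congr 1; ring⟩
    · exact ⟨0, 0, fun h => absurd h hv⟩
  choose s t hst using h1
  choose γ g0 hγ using fun v : Pr K => Brg.small (v.valuation K) b one_ne_zero (s v)
  choose δ d0 hδ using fun v : Pr K => Brg.small (v.valuation K) (b * p) one_ne_zero (t v)
  have hf : (P022D.Sel.ov K {p}).Finite :=
    (Ideal.finite_factors (I := Ideal.span {(p : 𝓞 K)}) (by
      rw [Ne, Ideal.zero_eq_bot, Ideal.span_singleton_eq_bot]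
      exact Nat.cast_ne_zero.2 hp.ne_zero)).subset (by
      rintro v ⟨l, hl, -, h⟩
      rw [Finset.mem_singleton.1 hl] at h
      exact Ideal.dvd_span_singleton.2 h)
  obtain ⟨S, hS, -⟩ := Vale.Agent.P011.Arith.approxVal hf.toFinset s γ (fun v _ => g0 v)
    (fun _ => 0) one_pos
  obtain ⟨T, hT, -⟩ := Vale.Agent.P011.Arith.approxVal hf.toFinset t δ (fun v _ => d0 v)
    (fun _ => 0) one_pos
  have key : ∀ v ∈ P022D.Sel.ov K {p}, v.valuation K (b * (S ^ 2 - p * T ^ 2)) = 1 := by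
    intro v hv
    have a1 := hγ v S (by rw [Valuation.map_sub_swap]; exact hS v (hf.mem_toFinset.2 hv))
    have a2 := hδ v T (by rw [Valuation.map_sub_swap]; exact hT v (hf.mem_toFinset.2 hv))
    have e : b * (S ^ 2 - p * T ^ 2) = b * (s v ^ 2 - p * t v ^ 2) +
        (b * (S ^ 2 - s v ^ 2) - b * p * (T ^ 2 - t v ^ 2)) := by ring
    rw [e, Valuation.map_add_eq_of_lt_left, hst v hv]
    rw [hst v hv]
    exact Valuation.map_sub_lt _ a1 a2
  by_cases h0 : S ^ 2 - p * T ^ 2 = 0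
  · refine ⟨1, 0, by simp, fun v hv => ?_⟩
    have := key v hv
    rw [h0, mul_zero, map_zero] at this
    exact absurd this zero_ne_one
  · exact ⟨S, T, h0, key⟩

theorem sq (j : K →+* Qb) {P : Ideal (𝓞 Qb)} {v : Pr K} (hP : P.IsPrime)
    (hv : below j P = v.asIdeal) (y : K) (hy : v.valuation K y = 1)
    (h : ∀ g ∈ GK j, g ∈ dec P → kq (j y) g = 0) : P022D.Sel.Sq v y := by
  have y0 : y ≠ 0 := by
    rintro rfl
    rw [map_zero] at hy
    exact zero_ne_one hy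
  obtain ⟨z, hz⟩ := (Brg.ls_iff hP hv (Units.mk0 y y0) (Kc.rt_sq (j y))).2
    fun g hg hs => (Kc.kq_zero (Kc.rt_sq _) g).1 (h g hg hs)
  have h1 : v.valuation K (y / (z : K) ^ 2 - 1) < 1 :=
    lt_of_lt_of_le hz (Vale.Agent.P011.Arith.val_four_le _)
  have z0 : (z : K) ^ 2 ≠ 0 := pow_ne_zero 2 z.ne_zero
  have h2 : v.valuation K (y / (z : K) ^ 2) = 1 := by
    have e : y / (z : K) ^ 2 = 1 + (y / (z : K) ^ 2 - 1) := by ring
    rw [e, Valuation.map_one_add_of_lt _ h1]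
  have h3 : v.valuation K ((z : K) ^ 2) = 1 := by
    rw [map_div₀, hy, one_div, inv_eq_one] at h2
    exact h2
  refine ⟨hy, z, ?_⟩
  have e : y - (z : K) ^ 2 = (y / (z : K) ^ 2 - 1) * (z : K) ^ 2 := by field_simp
  rw [e, map_mul, h3, mul_one]
  exact h1

end Vale.Agent.P022E.GW.OneQ
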