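import Vale.Agent.P022E.GW.OneG
import Vale.Agent.P022E.GW.OneP
import Vale.Agent.P022E.GW.OneQ
import Vale.Agent.P022E.GW.Odg
import Vale.Agent.P022E.GW.Hnpg

/-!
# P022, block GW: the reciprocity statement, closed
-/

set_option linter.all false

namespace Vale.Agent.P022E.GW

theorem oneC : ONE :=
  One.one hasseCC gysC cj (fun H hH S hS => OneP.prime H hH S hS)
    (fun K _ _ p hp ho b hb => OneQ.adj p hp ho b hb)
    (fun K _ _ j P v hP hv y hy h => OneQ.sq j hP hv y hy h) One.gn

end Vale.Agent.P022E.GW
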