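import Vale.Agent.P022E.GW.Defs
import Vale.Agent.P022D.Sel.Adm
import Vale.Agent.P027M.S.Loc

/-!
# P022E, block GW: reciprocity for `ad`
-/

set_option linter.all false

noncomputable section

namespace Vale.Agent.P022E.GW

open NumberField
open Vale.Agent.P022 Vale.Agent.P022.H443
open Vale.Agent.P027M.S (Inert mx)
open Vale.Agent.P022D.Sel (M2 IsDec TanP Stab)
open Vale.Agent.P022D.Sel.AdmA (mx_mul mx_inv conj_conj stab_conj)
open Vale.Agent.P022D.L2c (Hm Cob IsZ2 cup up)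
open Vale.Agent.P022D.W (dec dec_gen phi_mem inP_le_dec)
open scoped Pointwise

namespace RecP

/-- functions which are invariant under an open subgroup are locally constant -/
theorem lc {α : Type} {f : GQ → α} (U : Subgroup GQ) (hU : IsOpen (U : Set GQ))
    (h : ∀ g, ∀ σ ∈ U, f (g * σ) = f g) : IsLocallyConstant f :=
  (IsLocallyConstant.iff_exists_open _).2 fun x => ⟨(fun y => x⁻¹ * y) ⁻¹' U,
    hU.preimage (by fun_prop), by simp [U.one_mem], fun y hy => by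
      rw [← h x _ hy, mul_inv_cancel_left]⟩

variable {F : Type} [Field F]

/-- an unramified character which is not zero on the Frobenius element -/
theorem ex_u [CharP F 2] {q : ℕ} {P : Ideal (𝓞 Qb)} (h : Ov q P) (h2 : q ≠ 2) {φ : GQ}
    (hφ : Fb q P φ) : ∃ (u : GQ → F) (U : Subgroup GQ), IsOpen (U : Set GQ) ∧
      (∀ σ ∈ U, u σ = 0) ∧ (∀ g k, u (g * k) = u g + u k) ∧ (∀ g, Inert P g → u g = 0) ∧
      u φ = 1 := by
  classical
  obtain ⟨hq, hP, hqP⟩ := h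
  haveI : Fact q.Prime := ⟨hq⟩
  obtain ⟨a, ha⟩ := FiniteField.exists_nonsquare (F := ZMod q) (by rwa [ZMod.ringChar_zmod_n])
  obtain ⟨d, rfl⟩ := ZMod.intCast_surjective a
  have d0 : (d : ZMod q) ≠ 0 := fun e => ha (e ▸ IsSquare.zero)
  have nm : ∀ c : ℤ, (c : ZMod q) ≠ 0 → (c : 𝓞 Qb) ∉ P := fun c hc =>
    P027M.S.Loc.not_mem hP hqP ((Nat.prime_iff_prime_int.1 hq).coprime_iff_not_dvd.2
      fun k => hc ((ZMod.intCast_zmod_eq_zero_iff_dvd c q).2 k))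
  have t2 : (2 : 𝓞 Qb) ∉ P := by
    exact_mod_cast P027M.S.Loc.not_mem hP hqP (c := 2) (Nat.isCoprime_iff_coprime.2
      ((Nat.coprime_primes hq Nat.prime_two).2 h2))
  obtain ⟨w, hw⟩ := IsAlgClosed.exists_pow_nat_eq (d : Qb) two_pos
  obtain ⟨W, rfl⟩ : ∃ W : 𝓞 Qb, (W : Qb) = w :=
    ⟨⟨w, IsIntegral.of_pow (n := 2) two_pos (by rw [hw]; exact isIntegral_intCast d)⟩, rfl⟩
  have hW : W ^ 2 = d := RingOfIntegers.ext (by simpa using hw)
  have WP : W ∉ P := fun k => nm d d0 (hW ▸ P.pow_mem_of_mem k 2 two_pos)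
  have ne : -W ≠ W := fun e => by
    have : 2 * W ∈ P := by rw [show 2 * W = 0 by linear_combination -e]; exact P.zero_mem
    exact (hP.mem_or_mem this).elim t2 WP
  have pm : ∀ g : GQ, g • W = W ∨ g • W = -W := fun g =>
    sq_eq_sq_iff_eq_or_eq_neg.1 (by
      rw [← smul_pow', hW]; exact map_intCast (MulSemiringAction.toRingHom GQ (𝓞 Qb) g) d)
  have two : (1 : F) + 1 = 0 := CharTwo.add_self_eq_zero 1
  refine ⟨fun g => if g • W = W then 0 else 1, MulAction.stabilizer GQ (W : Qb),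
    stabilizer_isOpen_of_isIntegral _,
    fun σ hσ => if_pos (RingOfIntegers.ext (MulAction.mem_stabilizer_iff.1 hσ)),
    fun g k => ?_, fun g hg => if_pos ?_, if_neg fun e => ?_⟩
  · rcases pm g with a | a <;> rcases pm k with b | b <;>
      simp only [mul_smul, a, b, smul_neg, neg_neg, ne, if_true, if_false, add_zero, zero_add, two]
  · refine (pm g).resolve_right fun e => ?_
    have := hg W
    rw [e, show -W - W = -(2 * W) by ring, neg_mem_iff] at this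
    exact (hP.mem_or_mem this).elim t2 WP
  · have k := hφ W
    obtain ⟨n, hn⟩ := hq.odd_of_ne_two h2
    rw [e, show W - W ^ q = W * (1 - (W ^ 2) ^ n) by rw [hn]; ring, hW] at k
    refine nm (1 - d ^ n) (fun z => ha ((ZMod.euler_criterion q d0).2 ?_))
      (by push_cast; exact (hP.mem_or_mem k).resolve_left WP)
    push_cast at z
    rw [show q / 2 = n by omega]
    linear_combination -z

variable {ρ : GQ →* GL (Fin 2) F}

theorem mx1 {g : GQ} (h : ρ g = 1) : mx ρ g = 1 := by simp only [mx, h, Units.val_one]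

theorem mx1' {g : GQ} (h : ρ g = 1) : mx ρ g⁻¹ = 1 := mx1 (by rw [map_inv, h, inv_one])

theorem mx_inv' (g : GQ) : mx ρ g⁻¹ * mx ρ g = 1 := by
  have := mx_inv (ρ := ρ) g⁻¹
  rwa [inv_inv] at this

theorem tr_ad (g : GQ) (a b : M2 F) :
    (mx ρ g * a * mx ρ g⁻¹ * (mx ρ g * b * mx ρ g⁻¹)).trace = (a * b).trace := by
  rw [show mx ρ g * a * mx ρ g⁻¹ * (mx ρ g * b * mx ρ g⁻¹) =
    mx ρ g * (a * (mx ρ g⁻¹ * mx ρ g) * b) * mx ρ g⁻¹ by simp only [mul_assoc], mx_inv', mul_one,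
    Matrix.trace_mul_cycle, mx_inv', one_mul]

/-- the cup product -/
def zz (ρ : GQ →* GL (Fin 2) F) (c y : GQ → M2 F) (g h : GQ) : F :=
  (c g * (mx ρ g * y h * mx ρ g⁻¹)).trace

/-- cocycles -/
def Cc (ρ : GQ →* GL (Fin 2) F) (c : GQ → M2 F) : Prop :=
  ∀ g h, c (g * h) = c g + mx ρ g * c h * mx ρ g⁻¹

theorem Cc.lc {c : GQ → M2 F} (hc : Cc ρ c) (ho : Op c) : IsLocallyConstant c := by
  obtain ⟨U, hU, h⟩ := ho
  exact RecP.lc U hU fun g σ hσ => by rw [hc, h σ hσ, mul_zero, zero_mul, add_zero]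

theorem Cc.pow [CharP F 2] {y : GQ → M2 F} (hy : Cc ρ y) {g : GQ} (hg : ρ g = 1) (n : ℕ) :
    y (g ^ n) = (n : F) • y g := by
  induction n with
  | zero =>
    have := hy 1 1
    rw [mul_one, mx1 (map_one ρ), mx1' (map_one ρ), one_mul, mul_one] at this
    simpa using left_eq_add.1 this
  | succ n ih =>
    rw [pow_succ', hy, mx1 hg, mx1' hg, one_mul, mul_one, ih]
    push_cast
    rw [add_smul, one_smul, add_comm]

theorem z2 {c y : GQ → M2 F} (ho : IsOpen {g : GQ | ρ g = 1}) (hc : Cc ρ c) (oc : Op c)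
    (hy : Cc ρ y) (oy : Op y) : IsZ2 (zz ρ c y) := by
  have l1 : IsLocallyConstant (mx ρ) :=
    lc ρ.ker ho fun g σ hσ => by rw [mx_mul, mx1 hσ, mul_one]
  refine ⟨?_, fun g h k => ?_⟩
  · exact (((hc.lc oc).comp_continuous continuous_fst).mul
      (((l1.comp_continuous continuous_fst).mul ((hy.lc oy).comp_continuous continuous_snd)).mul
        (l1.comp_continuous continuous_fst.inv))).comp Matrix.trace
  · have e := tr_ad (ρ := ρ) g (c h) (mx ρ h * y k * mx ρ h⁻¹)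
    simp only [zz, hc g h, hy h k, mul_inv_rev, mx_mul, mul_add, add_mul, Matrix.trace_add,
      mul_assoc] at e ⊢
    rw [e]
    ring

theorem z2_le {z : GQ → GQ → F} (hz : IsZ2 z) (H : Subgroup GQ) : Z2 H z :=
  ⟨hz.1.comp_continuous (f := fun p : H × H => ((p.1 : GQ), (p.2 : GQ))) (by fun_prop),
    fun g h k => hz.2 g h k⟩

theorem cb_of {c y : GQ → M2 F} (hy : Cc ρ y) (oy : Op y) (H : Subgroup GQ) (b : M2 F)
    (hb : ∀ g ∈ H, c g = b - mx ρ g * b * mx ρ g⁻¹) : Cb H (zz ρ c y) := by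
  refine ⟨fun g => (b * y g).trace,
    ((hy.lc oy).comp fun m => (b * m).trace).comp_continuous continuous_subtype_val,
    fun g h => ?_⟩
  simp only [rs, zz, Subgroup.coe_mul, hy g h, hb g g.2, sub_mul, mul_add, Matrix.trace_add,
    Matrix.trace_sub, tr_ad]
  ring

theorem cob {c : GQ → M2 F} (hc : Cc ρ c) {g t g' : GQ} (e : g * t = t * g') {a : M2 F}
    (ha : c g' = a - mx ρ g' * a * mx ρ g'⁻¹) :
    c g = (c t + mx ρ t * a * mx ρ t⁻¹) - mx ρ g * (c t + mx ρ t * a * mx ρ t⁻¹) * mx ρ g⁻¹ := by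
  have e1 : mx ρ t * mx ρ g' = mx ρ g * mx ρ t := by rw [← mx_mul, ← mx_mul, e]
  have e2 : mx ρ g'⁻¹ * mx ρ t⁻¹ = mx ρ t⁻¹ * mx ρ g⁻¹ := by
    rw [← mx_mul, ← mx_mul, ← mul_inv_rev, ← mul_inv_rev, e]
  have e3 : mx ρ t * (mx ρ g' * a * mx ρ g'⁻¹) * mx ρ t⁻¹ =
      mx ρ g * (mx ρ t * a * mx ρ t⁻¹) * mx ρ g⁻¹ := by
    calc _ = mx ρ t * mx ρ g' * a * (mx ρ g'⁻¹ * mx ρ t⁻¹) := by simp only [mul_assoc]
      _ = _ := by rw [e1, e2]; simp only [mul_assoc]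
  rw [P022D.Sel.AdmA.cnj hc e, ha, mul_sub, sub_mul, e3, mul_add, add_mul]
  abel

theorem ch_of {a : GQ → F} (H : Subgroup GQ) (hl : IsLocallyConstant a)
    (ha : ∀ g ∈ H, ∀ k ∈ H, a (g * k) = a g + a k) : Ch H a :=
  ⟨hl.comp_continuous continuous_subtype_val, fun g k => ha g g.2 k k.2⟩

/-- the local computation at an auxiliary prime -/
theorem loc [CharP F 2] (hO : ODG) {c y : GQ → M2 F} (ho : IsOpen {g : GQ | ρ g = 1})
    (hc : Cc ρ c) (oc : Op c) (hy : Cc ρ y) (oy : Op y) {q m : ℕ} {P : Ideal (𝓞 Qb)} {φ : GQ}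
    (h : Ov q P) (h2 : q ≠ 2) (hφ : Fb q P φ) (hm : Odd m) (h1 : ρ (φ ^ m) = 1)
    (ur : ∀ g, Inert P g → ρ g = 1) (uy : ∀ g, Inert P g → y g = 0) :
    ∃ u : GQ → F, Ch (dec P) u ∧ Ch (dec P) (fun g => (c g * y (φ ^ m)).trace) ∧
      (∀ g, Inert P g → u g = 0) ∧ u φ = 1 ∧
      Cb (dec P) (zz ρ c y - cup u fun g => (c g * y (φ ^ m)).trace) := by
  obtain ⟨u, U, oU, u0, ua, ui, u1⟩ := ex_u (F := F) h h2 hφ
  obtain ⟨V, oV, y0⟩ := id oy
  have lu : IsLocallyConstant u := lc U oU fun g σ hσ => by rw [ua, u0 σ hσ, add_zero]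
  have gen : ∀ g ∈ dec P, ∃ k : ℕ, ρ g = ρ (φ ^ k) ∧ y g = y (φ ^ k) ∧ u g = k := by
    intro g hg
    obtain ⟨k, s, v, hs, hv, rfl⟩ := dec_gen h.1 h.2.1 h.2.2 hφ hg (ρ.ker ⊓ (U ⊓ V))
      (ho.inter (oU.inter oV))
    have v1 : ρ v = 1 := hv.1
    refine ⟨k, by rw [map_mul, map_mul, v1, ur s hs, one_mul, mul_one], ?_, ?_⟩
    · rw [hy, uy s hs, mul_zero, zero_mul, add_zero, hy, y0 v hv.2.2, mx1 v1, mx1' v1, zero_add,
        one_mul, mul_one]
    · rw [ua, ua, ui s hs, u0 v hv.2.1, zero_add, add_zero]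
      clear hg
      induction k with
      | zero => simpa using ui 1 (inP P).one_mem
      | succ k ih => rw [pow_succ, ua, ih, u1]; push_cast; rfl
  have fx : ∀ g ∈ dec P, mx ρ g * y (φ ^ m) * mx ρ g⁻¹ = y (φ ^ m) := by
    intro g hg
    obtain ⟨k, e, -⟩ := gen g hg
    have e1 : mx ρ g = mx ρ (φ ^ k) := by simp only [mx, e]
    have e2 : mx ρ g⁻¹ = mx ρ (φ ^ k)⁻¹ := by simp only [mx, map_inv, e]
    have a := hy (φ ^ k) (φ ^ m)
    rw [← pow_add, add_comm k, pow_add, hy, mx1 h1, mx1' h1, one_mul, mul_one, add_comm] at a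
    rw [e1, e2]
    exact (add_left_cancel a).symm
  have cψ : Ch (dec P) fun g => (c g * y (φ ^ m)).trace := by
    refine ch_of _ ((hc.lc oc).comp fun x => (x * y (φ ^ m)).trace) fun g hg k hk => ?_
    rw [hc, add_mul, Matrix.trace_add, ← tr_ad (ρ := ρ) g (c k), fx g hg]
  have cu : Ch (dec P) u := ch_of _ lu fun g _ k _ => ua g k
  have two : (2 : F) = 0 := CharTwo.two_eq_zero
  have mo : (m : F) = 1 := by
    obtain ⟨i, rfl⟩ := hm
    push_cast
    rw [two, zero_mul, zero_add]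
  refine ⟨u, cu, cψ, ui, u1, hO F (dec P) ρ.ker _ ho ?_ ?_ ?_⟩
  · have e : (dec P).map ρ = Subgroup.zpowers (ρ φ) := by
      refine le_antisymm ?_ (Subgroup.zpowers_le.2 ⟨φ, phi_mem h.1 h.2.1 hφ, rfl⟩)
      rintro _ ⟨g, hg, rfl⟩
      obtain ⟨k, e, -⟩ := gen g hg
      rw [e, map_pow]
      exact Subgroup.npow_mem_zpowers _ _
    rw [Subgroup.relIndex_ker, e, Nat.card_zpowers]
    exact hm.of_dvd_nat (orderOf_dvd_of_pow_eq_one (by rw [← map_pow, h1]))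
  · have a := z2_le (z2 ho hc oc hy oy) (dec P)
    refine ⟨a.1.sub ((cu.1.comp_continuous continuous_fst).mul
      (cψ.1.comp_continuous continuous_snd)), fun g k l => ?_⟩
    have a1 := a.2 g k l
    have a2 := cu.2 g k
    have a3 := cψ.2 k l
    simp only [rs, Pi.sub_apply, cup] at a1 a2 a3 ⊢
    rw [a2, a3]
    linear_combination a1
  · refine ⟨fun g => u g * (c g * y (φ ^ m)).trace, (lu.mul ((hc.lc oc).comp fun x =>
      (x * y (φ ^ m)).trace)).comp_continuous continuous_subtype_val, fun g k => ?_⟩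
    have g1 : ρ g = 1 := g.2.2
    obtain ⟨n, e1, e2, e3⟩ := gen k k.2.1
    have e4 : y k = u k • y (φ ^ m) := by
      have b1 := hy.pow (e1 ▸ k.2.2 : ρ (φ ^ n) = 1) m
      rw [mo, one_smul, ← pow_mul, mul_comm, pow_mul, hy.pow h1] at b1
      rw [e2, e3, b1]
    have a3 : (c (g * k : GQ) * y (φ ^ m)).trace = (c g * y (φ ^ m)).trace +
      (c k * y (φ ^ m)).trace := cψ.2 ⟨g, g.2.1⟩ ⟨k, k.2.1⟩
    simp only [rs, Pi.sub_apply, cup, zz, Subgroup.coe_mul, ua, a3, mx1 g1, mx1' g1, one_mul,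
      mul_one, e4, mul_smul_comm, Matrix.trace_smul, smul_eq_mul]
    linear_combination u g * (c k * y (φ ^ m)).trace * two

end RecP

open RecP in
theorem rec0 (h1 : ONE) (h2 : UNR) (h3 : ODG) : REC := by
  classical
  intro F _ _ _ ρ T Q D P τ φ m c y a ho h0 hT2 hD ur hQ hc hy
  have cy : Cc ρ y := fun g h => hy.1 g trivial h trivial
  have cc : Cc ρ c := hc.coc
  have oy : Op y := hy.2.2.1
  have oc : Op c := hc.opn
  have zz2 := z2 ho cc oc cy oy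
  have q2 : ∀ q ∈ Q, q ≠ 2 := fun q hq e => (hQ q hq).1 (e ▸ hT2)
  choose u k1 k2 k3 k4 k5 using fun q : Q => loc h3 ho cc oc cy oy (hQ q q.2).2.1 (q2 q q.2)
    (hQ q q.2).2.2.2.1 (hQ q q.2).2.2.2.2.1 (hQ q q.2).2.2.2.2.2
    (ur q (hQ q q.2).1 _ (hQ q q.2).2.1) (hy.2.2.2 q (hQ q q.2).1 _ (hQ q q.2).2.1)
  rw [← Finset.sum_coe_sort Q]
  refine h1 F ⊤ (zz ρ c y) Q (fun q => q) (fun q => P q) (fun q => τ q) (fun q => φ q) u
    (fun q g => (c g * y (φ q ^ m q)).trace) isOpen_univ (z2_le zz2 ⊤)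
    (fun q => ⟨(hQ q q.2).2.1, q2 q q.2, (hQ q q.2).2.2.1, (hQ q q.2).2.2.2.1, le_top⟩)
    (fun i j g _ hg => ?_) (fun q => ⟨k1 q, k2 q, k3 q, k4 q, k5 q⟩) (fun D' hD' => ?_)
    fun p P' hp hn => ?_
  · by_contra ne
    obtain ⟨a1, a2, a3⟩ := (hQ i i.2).2.1
    obtain ⟨b1, b2, b3⟩ := (hQ j j.2).2.1
    have e := (hg _).1 a3
    rw [show g • ((i : ℕ) : 𝓞 Qb) = (i : ℕ) from
      map_natCast (MulSemiringAction.toRingHom GQ (𝓞 Qb) g) _] at e
    refine P027M.S.Loc.not_mem b2 b3 (c := (i : ℕ)) (Nat.isCoprime_iff_coprime.2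
      ((Nat.coprime_primes b1 a1).2 fun k => ne (Subtype.ext k.symm))) (by exact_mod_cast e)
  · obtain ⟨-, c₀, k, e0⟩ | ⟨lp, -⟩ := hD'
    swap
    · exact absurd lp Nat.not_prime_zero
    obtain ⟨-, c₁, k1, e⟩ | ⟨lp, -⟩ := hD 0 h0
    swap
    · exact absurd lp Nat.not_prime_zero
    obtain ⟨t, ht⟩ := conj_conj k k1
    refine cb_of cy oy _ (c t + mx ρ t * a 0 * mx ρ t⁻¹) fun g hg => ?_
    have hg' : g ∈ ({1, c₀} : Set GQ) := e0 ▸ hg.2
    rcases hg' with rfl | rfl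
    · exact cob cc (g' := 1) (by group) (hc.loc 0 h0 1 (by rw [e]; exact Or.inl rfl))
    · exact cob cc ht (hc.loc 0 h0 c₁ (by rw [e]; exact Or.inr rfl))
  · by_cases hT : p ∈ T
    · obtain ⟨e, -⟩ | ⟨lp, P₀, p0, p1, e⟩ := hD p hT
      · exact absurd e hp.1.ne_zero
      obtain ⟨t, rfl⟩ := P027M.F.Tra.trans lp p0 hp.2.1 p1 hp.2.2
      exact cb_of cy oy _ (c t + mx ρ t * a p * mx ρ t⁻¹) fun g hg =>
        cob cc (g' := t⁻¹ * g * t) (by group) (hc.loc p hT _ (by rw [e]; exact stab_conj hg.2))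
    have hq : p ∉ Q := fun hq => by
      obtain ⟨a1, a2, a3⟩ := (hQ p hq).2.1
      obtain ⟨t, rfl⟩ := P027M.F.Tra.trans a1 a2 hp.2.1 a3 hp.2.2
      exact hn ⟨p, hq⟩ t trivial fun x => Ideal.smul_mem_pointwise_smul_iff.symm
    refine h2 F ⊤ p P' _ isOpen_univ hp (z2_le zz2 _) fun g _ h _ i _ hi => ?_
    have r1 := ur p hT P' hp i hi
    have c1 := hc.unr p hp.1 hT hq P' hp.2.1 hp.2.2 i hi
    have y1 := hy.2.2.2 p hT P' hp i hi
    simp only [zz, cc g i, cy h i, c1, y1, mul_inv_rev, mx_mul, mx1 r1, mx1' r1, mul_zero,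
      zero_mul, add_zero, mul_one, one_mul, and_self]

end Vale.Agent.P022E.GW
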