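import Vale.Agent.P022E.GW.SelH58

/-!
# P022E, block GW: the output of the block
-/

set_option linter.all false

noncomputable section

namespace Vale.Agent.P022E.GW.H58

open NumberField Matrix
open Vale.Agent.P022 Vale.Agent.P022E.Sel Vale.Agent.P022E.GW.Kl
open Vale.Agent.P027M.S (Inert mx)

theorem selH (hR : REC) (hL : LB) (hT : TAU) {F : Type} [Field F] [Finite F] [CharP F 2]
    {ρ : GQ →* GL (Fin 2) F} {H : Subgroup GQ} {T : Finset ℕ} {D : ℕ → Set GQ} (hD : Dh ρ H)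
    (hy : Hyp ρ T D) : ∃ (r : ℕ) (σ : Fin r → GQ) (U : Subgroup GQ), IsOpen (U : Set GQ) ∧
      U.Normal ∧ (∀ g ∈ U, ρ g = 1) ∧ (∀ i, σ i ∈ Ginf ∧ (mx ρ (σ i)).trace ≠ 0) ∧
      ∀ q : Fin r → ℕ, Function.Injective q → (∀ i, Aux ρ U T (σ i) (q i)) →
        Tan ρ T (Finset.univ.image q) D (2 * r + 5) := by
  classical
  haveI := Fintype.ofFinite F
  haveI := fin_fx (ρ := ρ) T D
  have h1 := hL F ρ T D hy
  rw [← Module.finrank_eq_rank F (Fx ρ T D ⊤)] at h1
  obtain ⟨s, hs1, hs2⟩ := le_rank_iff_exists_linearIndependent_finset.1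
    (show ((Module.finrank F (Fx ρ T D ⊤) + 3 : ℕ) : Cardinal) ≤ _ by exact_mod_cast h1)
  let Y' : Submodule F (H1 ρ T ⊤) := Submodule.span F (s : Set (H1 ρ T ⊤))
  let Y : Submodule F (GQ → M2 F) := Y'.map (H1 ρ T ⊤).subtype
  haveI : Module.Finite F Y' := Module.Finite.span_of_finite F s.finite_toSet
  haveI : Module.Finite F Y := Module.Finite.map _ _
  have hYr : Module.finrank F Y = Module.finrank F (Fx ρ T D ⊤) + 3 := by
    rw [Submodule.finrank_map_subtype_eq, finrank_span_finset_eq_card hs2, hs1]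
  have hY : ∀ y ∈ Y, y ∈ H1 ρ T ⊤ := by
    rintro _ ⟨y, -, rfl⟩
    exact y.2
  have hco : ∀ y ∈ Y, Co ρ y := fun y h g k => (hY y h).1 g trivial k trivial
  obtain ⟨r, σ, hσ, hk⟩ := kill hD Y fun y h => ⟨hco y h, (hY y h).2.2.1⟩
  obtain ⟨U, hU, hn, hUρ, hUY⟩ := ex_U hD.opn Y fun y h => (hY y h).2.2.1
  refine ⟨r, σ, U, hU, hn, hUρ, hσ, fun q hq ha Z hZ => ?_⟩
  choose hp hA φ m hφ hm hu ns using ha
  choose P hP hqP hF using hφ
  have ov : ∀ i, Ov (q i) (P i) := fun i => ⟨hp i, hP i, hqP i⟩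
  choose τ hτ hc using fun i => hT F ρ (q i) (P i) (φ i) (ov i) (fun e => hA i (e ▸ hy.h2))
    (hF i) (hy.unr _ (hA i) _ (ov i))
  have e1 : ∀ i, ρ (σ i ^ m i) = ρ (φ i) := fun i => by
    have := hUρ _ (hu i)
    rw [map_mul, map_inv, inv_mul_eq_one] at this
    exact this.symm
  have e2 : ∀ i, mx ρ (σ i ^ m i) = mx ρ (φ i) := fun i => congrArg Units.val (e1 i)
  have e3 : ∀ y ∈ Y, ∀ i, y (σ i ^ m i) = y (φ i) := fun y h i => by
    have := hco y h (φ i) ((φ i)⁻¹ * σ i ^ m i)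
    rwa [mul_inv_cancel_left, hUY y h _ (hu i), mul_zero, zero_mul, add_zero] at this
  have hodd : Odd (Fintype.card F - 1) := by
    obtain ⟨n, -, h⟩ := FiniteField.card F 2
    rw [h]
    exact Nat.Even.sub_odd (Nat.one_le_two_pow) (Nat.even_pow.2 ⟨even_two, n.ne_zero⟩) odd_one
  have e4 : ∀ i, ρ (φ i ^ (Fintype.card F - 1)) = 1 := fun i => by
    obtain ⟨a, b, h1, h2⟩ := hD.eig (σ i)
    have h3 : ρ (σ i) ^ (Fintype.card F - 1) = 1 := Units.ext (by
      rw [Units.val_pow_eq_pow_val]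
      exact pow_card h1 h2 (hD.det _) (hσ i).2)
    rw [map_pow, ← e1, map_pow, ← pow_mul, mul_comm, pow_mul, h3, one_pow]
  let W : Fin r → Submodule F (M2 F) := fun i => Submodule.span F {1, mx ρ (φ i)}
  haveI : ∀ i, Module.Finite F (W i) := fun i => inferInstance
  have cm : ∀ z ∈ Z, ∀ i, z.1 (τ i) * mx ρ (φ i) = mx ρ (φ i) * z.1 (τ i) := fun z hz i => by
    have := (hc i z.1 (hZ z hz).coc (hZ z hz).opn).1
    conv_lhs => rw [← this]
    rw [mul_assoc, mi, mul_one]
  let f : Z →ₗ[F] (∀ i, W i) :=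
    { toFun := fun z i => ⟨z.1.1 (τ i), by
        obtain ⟨s, t, e⟩ := cent (ns i) (cm z.1 z.2 i).symm
        exact Submodule.mem_span_pair.2 ⟨s, t, e.symm⟩⟩
      map_add' := fun _ _ => rfl
      map_smul' := fun _ _ => rfl }
  let g : Y →ₗ[F] Module.Dual F (∀ i, W i) := LinearMap.mk₂ F
    (fun y w => ∑ i, ((w i).1 * y.1 (φ i)).trace)
    (fun a b w => by simp only [Submodule.coe_add, Pi.add_apply, mul_add, trace_add,
      Finset.sum_add_distrib])
    (fun c a w => by simp only [Submodule.coe_smul, Pi.smul_apply, Matrix.mul_smul, trace_smul,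
      Finset.smul_sum])
    (fun a v w => by simp only [Submodule.coe_add, Pi.add_apply, add_mul, trace_add,
      Finset.sum_add_distrib])
    (fun c a w => by simp only [Submodule.coe_smul, Pi.smul_apply, Matrix.smul_mul, trace_smul,
      Finset.smul_sum])
  have hg : ∀ y w, g y w = ∑ i, ((w i).1 * y.1 (φ i)).trace := fun _ _ => rfl
  have main := cnt f g (k := Module.finrank F (Fx ρ T D ⊤) + 3) (e := 5) (fun z y => ?_) ?_
    hYr.ge ?_
  · refine main.trans (Nat.cast_le.2 (Nat.add_le_add_right ?_ 5))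
    rw [Module.finrank_pi_fintype]
    refine (Finset.sum_le_card_nsmul _ _ 2 fun i _ => ?_).trans (by simp [mul_comm])
    refine (finrank_span_le_card _).trans ?_
    rw [Set.toFinset_insert, Set.toFinset_singleton]
    exact Finset.card_le_two
  · have h := hR F ρ T (Finset.univ.image q) D (Function.extend q P fun _ => ⊥)
      (Function.extend q τ fun _ => 1) (Function.extend q φ fun _ => 1)
      (fun _ => Fintype.card F - 1) z.1.1 y.1 z.1.2 hD.opn hy.h0 hy.h2 hy.dec hy.unr (by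
        intro x hx
        obtain ⟨i, -, rfl⟩ := Finset.mem_image.1 hx
        rw [hq.extend_apply, hq.extend_apply, hq.extend_apply]
        exact ⟨hA i, ov i, hτ i, hF i, hodd, e4 i⟩) (hZ z.1 z.2) (hY y.1 y.2)
    rw [Finset.sum_image fun a _ b _ e => hq e] at h
    rw [hg, ← h]
    refine Finset.sum_congr rfl fun i _ => ?_
    have o : ((Fintype.card F - 1 : ℕ) : F) = 1 := by
      obtain ⟨k, hk⟩ := hodd
      rw [hk]
      push_cast
      rw [CharTwo.two_eq_zero, zero_mul, zero_add]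
    rw [hq.extend_apply, hq.extend_apply, trace_mul_comm (z.1.1 (τ i)),
      tr_pow (hco y.1 y.2) _ (cm z.1 z.2 i), o, one_mul, trace_mul_comm]
    rfl
  · rw [(Submodule.equivMapOfInjective _ Z.injective_subtype _).rank_eq]
    refine (ker_le hy _ ?_).trans (le_of_eq ?_)
    · rintro _ ⟨z, hz, rfl⟩
      have t := hZ z.1 z.2
      refine ⟨t.coc, t.opn, fun l hl hlT _ P' hP' hlP' x hx => ?_, t.loc, t.zero⟩
      by_cases hl' : l ∈ Finset.univ.image q
      · obtain ⟨i, -, rfl⟩ := Finset.mem_image.1 hl'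
        exact (hc i z.1.1 t.coc t.opn).2 (congrArg Subtype.val (congrFun hz i)) P'
          ⟨hl, hP', hlP'⟩ x hx
      · exact t.unr l hl hlT hl' P' hP' hlP' x hx
    · rw [← Module.finrank_eq_rank F (Fx ρ T D ⊤), add_comm]
      simp
  · rw [(Submodule.equivMapOfInjective _ Y.injective_subtype _).rank_eq]
    refine hk _ (Submodule.map_subtype_le _ _) ?_
    rintro _ ⟨y, hy0, rfl⟩ i
    have k : ∀ w : W i, (w.1 * y.1 (φ i)).trace = 0 := fun w => by
      have := LinearMap.congr_fun (LinearMap.mem_ker.1 hy0) (Pi.single i w)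
      rw [hg, Finset.sum_eq_single i (fun j _ hj => by
        rw [Pi.single_eq_of_ne hj]; simp) (by simp), Pi.single_eq_same] at this
      exact this
    refine of_pow (hco y.1 y.2) (hm i) (fun h => ns i ?_) ?_ ?_
    · unfold P022D.Sel.Sc at h ⊢
      rwa [e2] at h
    · have := k ⟨1, Submodule.subset_span (by simp)⟩
      rw [one_mul] at this
      exact (congrArg trace (e3 y.1 y.2 i)).trans this
    · have := k ⟨mx ρ (φ i), Submodule.subset_span (by simp)⟩
      rw [trace_mul_comm] at this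
      rw [e2]
      exact (congrArg (fun x => trace (x * mx ρ (φ i))) (e3 y.1 y.2 i)).trans this

/-- **SEL** -/
theorem sel_of (hR : REC) (hL : LB) (hT : TAU) : SEL := Bor.sel_of_std <| by
  intro F _ _ _ ρ H T D hD hs h0 h2 hd
  obtain ⟨A, D', hTA, hDD, hy⟩ := hyp0 hD.opn hs h0 h2 hd
  obtain ⟨r, σ, U, a, b, c, d, e⟩ := selH hR hL hT hD hy
  refine ⟨r, σ, U, A, a, b, c, hTA, d, fun q hq ha => Enl.enls' hD.opn A hTA
    (fun l hl hlT => ⟨?_, fun h => ?_, hy.dec l hl⟩) hDD (e q hq ha)⟩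
  · rcases hy.dec l hl with h | h
    · exact absurd (h.1 ▸ h0) hlT
    · exact h.1
  · obtain ⟨i, -, rfl⟩ := Finset.mem_image.1 h
    exact (ha i).2.1 hl

end Vale.Agent.P022E.GW.H58
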