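import Vale.Agent.P022E.GW.Defs
import Vale.Agent.P022E.GW.Gys

/-!
# P022E, block GW: the local symbols span a line
-/

set_option linter.all false

noncomputable section

namespace Vale.Agent.P022E.GW

open Vale.Agent.P022
open Vale.Agent.P022D.Sel (IsDec)
open Vale.Agent.P022D.L2c (Hm Cob IsZ2 cup up)

namespace Syl

section

variable {K : Type} [Field K]

variable (K) in
/-- the cochains which are coboundaries on `V` -/
def CS (V : Subgroup GQ) : Submodule K (GQ → GQ → K) :=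
  (Cob K V).comap
    ({ toFun := rs V
       map_add' := fun _ _ => rfl
       map_smul' := fun _ _ => rfl } : (GQ → GQ → K) →ₗ[K] (V → V → K))

theorem mem_CS {V : Subgroup GQ} {z : GQ → GQ → K} : z ∈ CS K V ↔ Cb V z := Iff.rfl

variable (K) in
/-- conjugation of a cochain -/
def cc (g : GQ) : (GQ → GQ → K) →ₗ[K] (GQ → GQ → K) where
  toFun z x y := z (g * x * g⁻¹) (g * y * g⁻¹)
  map_add' _ _ := rfl
  map_smul' _ _ := rfl

/-- conjugation between subgroups -/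
def cm (g : GQ) {V V' : Subgroup GQ} (h : ∀ x ∈ V, g * x * g⁻¹ ∈ V') : V →* V' where
  toFun x := ⟨g * x * g⁻¹, h x x.2⟩
  map_one' := Subtype.ext (by simp)
  map_mul' x y := Subtype.ext (by
    show g * ((x : GQ) * y) * g⁻¹ = g * x * g⁻¹ * (g * y * g⁻¹)
    group)

theorem cm_cont (g : GQ) {V V' : Subgroup GQ} (h : ∀ x ∈ V, g * x * g⁻¹ ∈ V') :
    Continuous (cm g h) :=
  Continuous.subtype_mk ((continuous_const.mul continuous_subtype_val).mul continuous_const) _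

theorem cb_cc (g : GQ) {V V' : Subgroup GQ} (h : ∀ x ∈ V, g * x * g⁻¹ ∈ V') {z : GQ → GQ → K}
    (hz : Cb V' z) : Cb V (cc K g z) := Gy.cob_comp (cm g h) (cm_cont g h) hz

theorem ch_cc (g : GQ) {V V' : Subgroup GQ} (h : ∀ x ∈ V, g * x * g⁻¹ ∈ V') {a : GQ → K}
    (ha : Ch V' a) : Ch V fun x => a (g * x * g⁻¹) := Gy.hm_comp (cm g h) (cm_cont g h) ha

theorem cb_iff (g : GQ) {V V' : Subgroup GQ} (h : ∀ x, x ∈ V ↔ g * x * g⁻¹ ∈ V')
    {z : GQ → GQ → K} : Cb V (cc K g z) ↔ Cb V' z := by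
  refine ⟨fun hz => ?_, cb_cc g fun x => (h x).1⟩
  have e : cc K g⁻¹ (cc K g z) = z := by
    funext x y
    show z _ _ = _
    congr 1 <;> group
  refine e ▸ cb_cc g⁻¹ (fun x hx => (h _).2 ?_) hz
  rwa [show g * (g⁻¹ * x * g⁻¹⁻¹) * g⁻¹ = x by group]

theorem cb_left {V : Subgroup GQ} {y z : GQ → GQ → K} (h : Cb V z) : Cb V (y + z) ↔ Cb V y :=
  Submodule.add_mem_iff_left (CS K V) h

theorem cb_right {V : Subgroup GQ} {y z : GQ → GQ → K} (h : Cb V y) : Cb V (y + z) ↔ Cb V z :=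
  Submodule.add_mem_iff_right (CS K V) h

theorem ch_le {V V' : Subgroup GQ} (h : V ≤ V') {a : GQ → K} (ha : Ch V' a) : Ch V a :=
  Gy.hm_le h ha

end

/-- the index of the norms is at most two -/
def N (H V : Subgroup GQ) : Prop := ∀ a b b' : GQ → ZMod 2, Ch H a → Ch H b → Ch H b' →
  ¬ Cb V (cup a b) → ¬ Cb V (cup a b') → Cb V (cup a (b + b'))

theorem agree {H V : Subgroup GQ} (le : V ≤ H) (hN : N H V) {a b a' b' : GQ → ZMod 2}
    (ha : Ch H a) (hb : Ch H b) (ha' : Ch H a') (hb' : Ch H b') (h : ¬ Cb V (cup a b))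
    (h' : ¬ Cb V (cup a' b')) : Cb V (cup a b + cup a' b') := by
  have sy : ∀ {a c : GQ → ZMod 2}, Ch H a → Ch H c → cup a c + cup c a ∈ CS (ZMod 2) V :=
    fun ha hc => P022D.L2c.Sym.symm (ch_le le ha) (ch_le le hc)
  have tr : ∀ {f g h : GQ → GQ → ZMod 2}, Cb V (f + g) → Cb V (g + h) → Cb V (f + h) :=
    fun a b => P022D.L2c.Sym.tr (g := rs V _) a b
  obtain ⟨c, hc, h1, h2⟩ : ∃ c, Ch H c ∧ ¬ Cb V (cup a c) ∧ ¬ Cb V (cup a' c) := by
    by_cases k : Cb V (cup a' b)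
    · by_cases k' : Cb V (cup a b')
      · refine ⟨b + b', add_mem (S := Submodule _ _) hb hb', ?_, ?_⟩
        · rw [P022D.L2c.Sym.cup_add]
          exact fun m => h ((cb_left k').1 m)
        · rw [P022D.L2c.Sym.cup_add]
          exact fun m => h' ((cb_right k).1 m)
      · exact ⟨b', hb', k', h'⟩
    · exact ⟨b, hb, h, k⟩
  have h3 : ¬ Cb V (cup c a) := fun m => h1 ((cb_left m).1 (sy ha hc))
  have h4 : ¬ Cb V (cup c a') := fun m => h2 ((cb_left m).1 (sy ha' hc))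
  have s1 := hN a b c ha hb hc h h1
  have s2 := hN c a a' hc ha ha' h3 h4
  have s3 := hN a' c b' ha' hc hb' h2 h'
  rw [P022D.L2c.Sym.cup_add] at s1 s2 s3
  exact tr (tr (tr (tr s1 (sy ha hc)) s2) (sy hc ha')) s3

theorem N.cj {H V V' : Subgroup GQ} (hN : N H V) {g : GQ} (hH : ∀ x ∈ H, g * x * g⁻¹ ∈ H)
    (h : ∀ x, x ∈ V ↔ g * x * g⁻¹ ∈ V') : N H V' := fun a b b' ha hb hb' h1 h2 =>
  (cb_iff g h).1 (hN _ _ _ (ch_cc g hH ha) (ch_cc g hH hb) (ch_cc g hH hb')
    (fun m => h1 ((cb_iff g h).1 m)) fun m => h2 ((cb_iff g h).1 m))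

variable (F : Type) [Field F] [CharP F 2]

/-- a symbol of the prime field -/
def us (a b : GQ → ZMod 2) : GQ → GQ → F := fun x y => up F (cup a b x y)

theorem ex (H V : Subgroup GQ) (le : V ≤ H) : ∃ f : (GQ → GQ → F) →ₗ[F] F,
    (∀ z, Cb V z → f z = 0) ∧ (N H V → ∀ a b, Ch H a → Ch H b → ¬ Cb V (cup a b) →
      f (us F a b) = 1) := by
  by_cases h : ∃ a b : GQ → ZMod 2, Ch H a ∧ Ch H b ∧ ¬ Cb V (cup a b)
  · obtain ⟨a0, b0, ha0, hb0, h0⟩ := h
    have h1 : us F a0 b0 ∉ CS F V := fun m => h0 (P022D.L2c.sym0 F V (rs V (cup a0 b0)) m)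
    obtain ⟨f, f1, f2⟩ := Submodule.exists_le_ker_of_notMem h1
    refine ⟨(f (us F a0 b0))⁻¹ • f, fun z hz => ?_, fun hN a b ha hb hn => ?_⟩
    · rw [LinearMap.smul_apply, LinearMap.mem_ker.1 (f2 hz), smul_zero]
    · have e : us F a b - us F a0 b0 ∈ CS F V :=
        P022D.L2c.Sym.up_sub (F := F) (f := rs V (cup a b)) (g := rs V (cup a0 b0))
          (agree le hN ha hb ha0 hb0 hn h0)
      have e' := LinearMap.mem_ker.1 (f2 e)
      rw [map_sub, sub_eq_zero] at e'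
      rw [LinearMap.smul_apply, e', smul_eq_mul, inv_mul_cancel₀ f1]
  · exact ⟨0, fun _ _ => rfl, fun _ a b ha hb hn => absurd ⟨a, b, ha, hb, hn⟩ h⟩

variable {F}

theorem cb_us {V : Subgroup GQ} {a b : GQ → ZMod 2} (h : Cb V (cup a b)) : Cb V (us F a b) :=
  P022D.L2c.Sym.cob_up (F := F) h

theorem ind [Finite F] {H : Subgroup GQ} (M : Submodule F (GQ → GQ → F))
    (h : ∀ a b, Ch H a → Ch H b → us F a b ∈ M) : Sy F H ≤ M := by
  refine Submodule.span_le.2 ?_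
  rintro _ ⟨b, c, hb, hc, rfl⟩
  obtain ⟨n, e, l, he⟩ := P022D.L2c.Sym.ex_bas (F := F)
  have : cup b c = ∑ i, ∑ j, (e i * e j) • us F (fun x => l i (b x)) fun x => l j (c x) := by
    funext x y
    simp only [Finset.sum_apply, Pi.smul_apply, smul_eq_mul, us, cup, map_mul]
    calc b x * c y = (∑ i, e i * up F (l i (b x))) * ∑ j, e j * up F (l j (c y)) := by
          rw [← he, ← he]
      _ = _ := by
          rw [Finset.sum_mul_sum]
          exact Finset.sum_congr rfl fun i _ => Finset.sum_congr rfl fun j _ => by ring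
  rw [this]
  exact Submodule.sum_mem _ fun i _ => Submodule.sum_mem _ fun j _ => Submodule.smul_mem _ _
    (h _ _ (P022D.L2c.Sym.hm_map _ hb) (P022D.L2c.Sym.hm_map _ hc))

end Syl

open Syl in
/-- **row SYL** -/
theorem syl (hN : NIL) : SYL := by
  intro F _ _ _ H hH
  choose f f0 f1 using fun D : Subgroup GQ => ex F H (H ⊓ D) inf_le_left
  refine ⟨f, fun l D hD => ?_⟩
  have n : N H (H ⊓ D) := fun a b b' => hN H D l a b b' hH hD
  refine ⟨fun z hz => ⟨fun e => ?_, f0 D z⟩, fun g D' h1 h2 z hz => ?_⟩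
  · by_cases h : ∃ a b : GQ → ZMod 2, Ch H a ∧ Ch H b ∧ ¬ Cb (H ⊓ D) (cup a b)
    · obtain ⟨a0, b0, ha0, hb0, h0⟩ := h
      have k := ind ((CS F (H ⊓ D)).comap (LinearMap.id - (f D).smulRight (us F a0 b0)))
        (fun a b ha hb => ?_) hz
      · rwa [Submodule.mem_comap, LinearMap.sub_apply, LinearMap.smulRight_apply, e, zero_smul,
          sub_zero] at k
      · rw [Submodule.mem_comap, LinearMap.sub_apply, LinearMap.smulRight_apply]
        by_cases c : Cb (H ⊓ D) (cup a b)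
        · rw [f0 D _ (cb_us c), zero_smul, sub_zero]
          exact cb_us c
        · rw [f1 D n a b ha hb c, one_smul]
          exact P022D.L2c.Sym.up_sub (F := F) (f := rs _ (cup a b)) (g := rs _ (cup a0 b0))
            (agree inf_le_left n ha hb ha0 hb0 c h0)
    · exact ind (CS F (H ⊓ D)) (fun a b ha hb => cb_us (by_contra fun c => h ⟨a, b, ha, hb, c⟩)) hz
  · have h3 : ∀ x, x ∈ H ⊓ D ↔ g * x * g⁻¹ ∈ H ⊓ D' := fun x => and_congr (h1 x) (h2 x)
    have hH' : ∀ x ∈ H, g * x * g⁻¹ ∈ H := fun x => (h1 x).1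
    refine ind (LinearMap.eqLocus ((f D).comp (cc F g)) (f D')) (fun a b ha hb => ?_) hz
    show f D (us F (fun x => a (g * x * g⁻¹)) fun x => b (g * x * g⁻¹)) = f D' (us F a b)
    by_cases c : Cb (H ⊓ D') (cup a b)
    · rw [f0 D' _ (cb_us c)]
      exact f0 D _ (cb_us ((cb_iff g h3).2 c))
    · rw [f1 D' (n.cj hH' h3) a b ha hb c]
      exact f1 D n _ _ (ch_cc g hH' ha) (ch_cc g hH' hb) fun m => c ((cb_iff g h3).1 m)

end Vale.Agent.P022E.GW
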