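import Vale.Agent.P022D.W.Tame
import Vale.Agent.P022D.L2c.Defs
import Vale.Agent.P022D.Sel.Open

/-!
# P022, non solvable case, block GW: characters of tame inertia, the tame symbol
-/

set_option linter.all false

noncomputable section

namespace Vale.Agent.P022E.GW.Rc

open NumberField
open Vale.Agent.P022 Vale.Agent.P022.H443 Vale.Agent.P022D.W Vale.Agent.P022D.L2c

variable {F : Type} [Field F]

/-- a locally constant function on a subgroup is constant near `1` -/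
theorem near {D : Subgroup GQ} {z : D → F} (hz : IsLocallyConstant z) :
    ∃ U : Subgroup GQ, IsOpen (U : Set GQ) ∧ U.Normal ∧ ∀ g : D, (g : GQ) ∈ U → z g = z 1 := by
  have := galQb
  obtain ⟨W, hW, e⟩ := isOpen_induced_iff.1 (hz.isOpen_fiber (z 1))
  have h1 : (1 : GQ) ∈ W := by
    have : (1 : D) ∈ Subtype.val ⁻¹' W := by rw [e]; rfl
    exact this
  obtain ⟨U, hU⟩ := ProfiniteGrp.exist_openNormalSubgroup_sub_open_nhds_of_one hW h1
  refine ⟨U.toOpenSubgroup.toSubgroup, U.toOpenSubgroup.isOpen, U.isNormal', fun g hg => ?_⟩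
  have : g ∈ Subtype.val ⁻¹' W := hU hg
  rw [e] at this
  exact this

theorem add_pow {D : Subgroup GQ} {a : GQ → F} (ha : ∀ s ∈ D, ∀ t ∈ D, a (s * t) = a s + a t)
    {s : GQ} (hs : s ∈ D) (n : ℕ) : a (s ^ n) = n * a s := by
  induction n with
  | zero =>
    have := ha 1 D.one_mem 1 D.one_mem
    rw [mul_one] at this
    simpa using left_eq_add.1 this
  | succ n ih => rw [pow_succ, ha _ (D.pow_mem hs n) _ hs, ih]; push_cast; ring

/-- characters of an open subgroup of the inertia group at an odd prime are proportional -/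
theorem ti [CharP F 2] {l : ℕ} (hl : l.Prime) (h2 : l ≠ 2) {P : Ideal (𝓞 Qb)} (hP : P.IsPrime)
    (hPl : (l : 𝓞 Qb) ∈ P) {I : Subgroup GQ} (hI : I ≤ inP P) (U : Subgroup GQ) [U.Normal]
    (hU : IsOpen (U : Set GQ)) : ∃ t ∈ I, ∀ s ∈ I, ∃ n : ℕ, ∀ a : GQ → F,
      (∀ s ∈ I, ∀ t ∈ I, a (s * t) = a s + a t) → (∀ s ∈ I, s ∈ U → a s = 0) → a s = n * a t := by
  obtain ⟨k, _, _, χ, hfin, h1, -, -⟩ := chi_data U hU hl h2 hP hPl
  let χ' := χ.toHomUnits.comp (Subgroup.inclusion hI)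
  have hfin' : Finite χ'.range := by
    have := hfin.to_subtype
    refine Finite.of_injective (β := Set.range χ)
      (fun x => ⟨(x.1 : k), by obtain ⟨g, hg⟩ := x.2; exact ⟨_, by rw [← hg]; rfl⟩⟩) ?_
    intro x y h
    exact Subtype.ext (Units.ext (Subtype.ext_iff.1 h))
  have hc : IsCyclic χ'.range := isCyclic_of_injective_ringHom
    ((Units.coeHom k).comp χ'.range.subtype) (fun x y h => Subtype.ext (Units.ext h))
  obtain ⟨⟨_, τ, rfl⟩, hτ⟩ := IsCyclic.exists_monoid_generator (α := χ'.range)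
  refine ⟨τ, τ.2, fun g hg => ?_⟩
  obtain ⟨n, hn⟩ := hτ ⟨χ' ⟨g, hg⟩, _, rfl⟩
  have hn' : χ' τ ^ n = χ' ⟨g, hg⟩ := congrArg Subtype.val hn
  refine ⟨n, fun a ha h0 => ?_⟩
  have e : χ' ((τ ^ n)⁻¹ * ⟨g, hg⟩) = 1 := by rw [map_mul, map_inv, map_pow, hn', inv_mul_cancel]
  have e' : χ (Subgroup.inclusion hI ((τ ^ n)⁻¹ * (⟨g, hg⟩ : I))) = 1 := congrArg Units.val e
  obtain ⟨m, ⟨i, hi⟩, hm⟩ := h1 _ e'
  have hp : ((τ : GQ) ^ n)⁻¹ * g ∈ I := ((τ ^ n)⁻¹ * ⟨g, hg⟩ : I).2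
  have e1 := h0 _ (I.pow_mem hp m) hm
  have t0 : (2 : F) = 0 := by exact_mod_cast CharP.cast_eq_zero F 2
  rw [add_pow ha hp, hi] at e1
  push_cast at e1
  rw [t0, zero_mul, zero_add, one_mul] at e1
  have e2 := ha _ (I.pow_mem τ.2 n) _ hp
  rw [mul_inv_cancel_left, e1, add_zero, add_pow ha τ.2] at e2
  exact e2

/-- extension by zero -/
def ext0 {D : Subgroup GQ} (z : D → F) (g : GQ) : F := by
  classical exact if h : g ∈ D then z ⟨g, h⟩ else 0

theorem ext0_of {D : Subgroup GQ} (z : D → F) {g : GQ} (h : g ∈ D) : ext0 z g = z ⟨g, h⟩ := by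
  unfold ext0; rw [dif_pos h]

/-- **the tame symbol**: `u` unramified -/
theorem tame [CharP F 2] {l : ℕ} (hl : l.Prime) (h2 : l ≠ 2) {P : Ideal (𝓞 Qb)} (hP : P.IsPrime)
    (hPl : (l : 𝓞 Qb) ∈ P) {D : Subgroup GQ} (hD : D ≤ dec P) {u b : D → F} (hb : b ∈ Hm F D)
    (hu : ∀ s : D, (s : GQ) ∈ inP P → u s = 0) (h : cup u b ∈ Cob F D) (φ s : D)
    (hs : (s : GQ) ∈ inP P) : u φ * b s = 0 := by
  obtain ⟨z, hz, h⟩ := h
  obtain ⟨U, o1, n1, hU⟩ := near hz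
  obtain ⟨V, o2, n2, hV⟩ := near hb.1
  have z1 : z 1 = 0 := by
    have := h 1 1
    rw [mul_one, cup, hu 1 (inP P).one_mem, zero_mul, add_zero] at this
    exact left_eq_add.1 this
  have b1 : b 1 = 0 := by
    have := hb.2 1 1
    rw [mul_one] at this
    exact left_eq_add.1 this
  obtain ⟨t, ht, k⟩ := ti (F := F) hl h2 hP hPl (I := D ⊓ inP P) inf_le_right (U ⊓ V)
    (o1.inter o2)
  have az : ∀ s ∈ D ⊓ inP P, ∀ t ∈ D ⊓ inP P, ext0 z (s * t) = ext0 z s + ext0 z t := by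
    intro s hs t ht
    rw [ext0_of z hs.1, ext0_of z ht.1, ext0_of z (D.mul_mem hs.1 ht.1)]
    have := h ⟨s, hs.1⟩ ⟨t, ht.1⟩
    rw [cup, hu ⟨s, hs.1⟩ hs.2, zero_mul, add_zero] at this
    exact this
  have ab : ∀ s ∈ D ⊓ inP P, ∀ t ∈ D ⊓ inP P, ext0 b (s * t) = ext0 b s + ext0 b t := by
    intro s hs t ht
    rw [ext0_of b hs.1, ext0_of b ht.1, ext0_of b (D.mul_mem hs.1 ht.1)]
    exact hb.2 ⟨s, hs.1⟩ ⟨t, ht.1⟩
  have zz : ∀ s ∈ D ⊓ inP P, s ∈ U ⊓ V → ext0 z s = 0 := fun s hs h' => by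
    rw [ext0_of z hs.1, hU _ h'.1, z1]
  have bb : ∀ s ∈ D ⊓ inP P, s ∈ U ⊓ V → ext0 b s = 0 := fun s hs h' => by
    rw [ext0_of b hs.1, hV _ h'.2, b1]
  have hs' : ((φ * s * φ⁻¹ : D) : GQ) ∈ inP P := conj_inP (hD φ.2) hs
  obtain ⟨n, hn⟩ := k s ⟨s.2, hs⟩
  obtain ⟨m, hm⟩ := k _ ⟨(φ * s * φ⁻¹ : D).2, hs'⟩
  have e1 := hn _ az zz
  have e2 := hn _ ab bb
  have e3 := hm _ az zz
  have e4 := hm _ ab bb
  rw [ext0_of _ s.2] at e1 e2
  rw [ext0_of _ (φ * s * φ⁻¹ : D).2] at e3 e4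
  have f1 := h φ s
  have f2 := h (φ * s * φ⁻¹) φ
  have f3 := hb.2 φ s
  have f4 := hb.2 (φ * s * φ⁻¹) φ
  rw [inv_mul_cancel_right] at f2 f4
  rw [cup] at f1 f2
  rw [hu _ hs', zero_mul, add_zero] at f2
  have g1 : z (φ * s * φ⁻¹) = z s + u φ * b s := by linear_combination f1 - f2
  have g2 : b (φ * s * φ⁻¹) = b s := by linear_combination f3 - f4
  have g3 : u φ * b s * b s = 0 := by
    have : z (φ * s * φ⁻¹) * b s = z s * b (φ * s * φ⁻¹) := by
      erw [e1, e2, e3, e4]; ring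
    rw [g1, g2] at this
    linear_combination this
  rcases mul_eq_zero.1 g3 with h0 | h0
  · exact h0
  · rw [h0, mul_zero]

/-- conjugation acts trivially -/
theorem conj {X : Type} [Group X] [TopologicalSpace X] [IsTopologicalGroup X] {y : X → X → F}
    (hy : IsZ2 y) (g : X) : (fun a b => y (g * a * g⁻¹) (g * b * g⁻¹)) - y ∈ Cob F X := by
  refine ⟨fun a => y g a - y (g * a * g⁻¹) g, ?_, fun a b => ?_⟩
  · exact (hy.1.comp_continuous (f := fun a : X => (g, a)) (by fun_prop)).sub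
      (hy.1.comp_continuous (f := fun a : X => (g * a * g⁻¹, g)) (by fun_prop))
  · have h1 := hy.2 g a b
    have h2 := hy.2 (g * a * g⁻¹) g b
    have h3 := hy.2 (g * a * g⁻¹) (g * b * g⁻¹) g
    have e1 : g * a * g⁻¹ * g = g * a := by group
    have e2 : g * b * g⁻¹ * g = g * b := by group
    have e3 : g * a * g⁻¹ * (g * b * g⁻¹) = g * (a * b) * g⁻¹ := by group
    rw [e1] at h2
    rw [e2, e3] at h3
    simp only [Pi.sub_apply]
    linear_combination h1 - h2 + h3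

end Vale.Agent.P022E.GW.Rc
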