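import Vale.Agent.P022E.GW.Defs
import Vale.Agent.P022E.GW.RecA
import Vale.Agent.P022E.GW.Kc
import Vale.Agent.P027M.S.Loc

/-!
# P022E, block GW: generators of the tame inertia modulo squares
-/

set_option linter.all false

noncomputable section

namespace Vale.Agent.P022E.GW.Tg

open NumberField
open Vale.Agent.P022 Vale.Agent.P022.H443
open Vale.Agent.P027M.S (Pr Inert mx)
open Vale.Agent.P027M.S.Loc (jQ mem_GK belowQ ordvQ)
open Vale.Agent.P022D.Sel (M2 opn_core)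
open Vale.Agent.P022D.L2c (up)
open Vale.Agent.P022D.W (dec conj_inP phi_mem)
open scoped Pointwise

variable {q : ℕ} {P : Ideal (𝓞 Qb)} {F : Type} [Field F]

theorem q_ne (h : Ov q P) : (q : Qb) ≠ 0 := by exact_mod_cast h.1.ne_zero

theorem gn_iff (h : Ov q P) {τ : GQ} : Gn q P τ ↔ Inert P τ ∧ Kc.kq (q : Qb) τ = 1 :=
  ⟨fun k => ⟨k.1, (Kc.kq_one (q_ne h) (Kc.rt_sq _) (map_natCast τ q)).2 (k.2 _ (Kc.rt_sq _))⟩,
    fun k => ⟨k.1, fun w hw => (Kc.kq_one (q_ne h) hw (map_natCast τ q)).1 k.2⟩⟩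

/-- `q` is ramified in `ℚ(√q)` -/
theorem ex_gn' (h : Ov q P) : ∃ τ, Gn q P τ := by
  obtain ⟨hl, hP, hq⟩ := id h
  let v : Pr ℚ := ⟨below jQ P, Ideal.IsPrime.comap _, by
    rw [belowQ hP hl hq, Ne, Ideal.span_singleton_eq_bot]
    exact_mod_cast hl.ne_zero⟩
  have e := ordvQ v hl (belowQ hP hl hq) (c := (q : ℤ)) (by exact_mod_cast hl.ne_zero)
  rw [padicValInt.self hl.one_lt, Int.cast_natCast] at e
  obtain ⟨g, -, gi, g1⟩ := Kc.ex_ram jQ (y := (q : ℚ)) (by exact_mod_cast hl.ne_zero) v hP rfl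
    (by rw [e]; exact odd_one)
  rw [map_natCast] at g1
  exact ⟨g, (gn_iff h).2 ⟨gi, g1⟩⟩

theorem ex_gn (h : Ov q P) (h2 : q ≠ 2) : ∃ τ, Gn q P τ := ex_gn' h

/-- conjugates of a generator by the decomposition group -/
theorem gn_conj (h : Ov q P) {g τ : GQ} (hg : g ∈ dec P) (hτ : Gn q P τ) :
    Gn q P (g * τ * g⁻¹) := by
  refine (gn_iff h).2 ⟨conj_inP hg hτ.1, ?_⟩
  have := Kc.kq_conj (q : Qb) g τ
  rw [map_natCast] at this
  rw [this]
  exact ((gn_iff h).1 hτ).2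

/-- a character of the inertia group is determined by its value at a generator -/
theorem mult [CharP F 2] (h : Ov q P) (h2 : q ≠ 2) {τ : GQ} (hτ : Gn q P τ) {a : GQ → F}
    (ha : ∀ s, Inert P s → ∀ t, Inert P t → a (s * t) = a s + a t)
    (ho : ∃ U : Subgroup GQ, IsOpen (U : Set GQ) ∧ ∀ σ ∈ U, Inert P σ → a σ = 0) {s : GQ}
    (hs : Inert P s) : a s = up F (Kc.kq (q : Qb) s) * a τ := by
  obtain ⟨U, hU, h0⟩ := ho
  obtain ⟨V, hV, k0⟩ := Kc.kq_opn (q : Qb)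
  obtain ⟨t, -, k⟩ := Rc.ti (F := F) h.1 h2 h.2.1 h.2.2 (I := inP P) le_rfl (U ⊓ V).normalCore
    (opn_core _ (hU.inter hV))
  have a0 : ∀ s ∈ inP P, s ∈ (U ⊓ V).normalCore → a s = 0 := fun s hs m =>
    h0 s ((U ⊓ V).normalCore_le m).1 hs
  have b1 : ∀ s ∈ inP P, ∀ t ∈ inP P, up F (Kc.kq (q : Qb) (s * t)) =
      up F (Kc.kq (q : Qb) s) + up F (Kc.kq (q : Qb) t) := fun s _ t _ => by
    rw [Kc.kq_add (map_natCast s q) (map_natCast t q), map_add]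
  have b0 : ∀ s ∈ inP P, s ∈ (U ⊓ V).normalCore → up F (Kc.kq (q : Qb) s) = 0 := fun s _ m => by
    rw [k0 s ((U ⊓ V).normalCore_le m).2, map_zero]
  obtain ⟨n, hn⟩ := k s hs
  obtain ⟨m, hm⟩ := k τ hτ.1
  have e1 := hn a ha a0
  have e2 := hn _ b1 b0
  have e3 := hm a ha a0
  have e4 := hm _ b1 b0
  rw [((gn_iff h).1 hτ).2, map_one] at e4
  rw [e1, e2, e3]
  linear_combination (n * a t) * e4

theorem inert_conj {t g : GQ} (hg : Inert (t • P) g) : Inert P (t⁻¹ * g * t) := fun x => by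
  have := hg (t • x)
  rw [Ideal.mem_pointwise_smul_iff_inv_smul_mem, smul_sub, inv_smul_smul] at this
  rwa [mul_smul, mul_smul]

/-- transitivity on the primes above `q` -/
theorem trans (h : Ov q P) {P' : Ideal (𝓞 Qb)} (h' : Ov q P') : ∃ t : GQ, P' = t • P := by
  obtain ⟨g, hg⟩ := H916.exists_smul jQ h.2.1 h'.2.1
    ((belowQ h.2.1 h.1 h.2.2).trans (belowQ h'.2.1 h.1 h'.2.2).symm)
  exact ⟨g, hg⟩

variable {ρ : GQ →* GL (Fin 2) F} {c : GQ → M2 F}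

theorem mx_one {g : GQ} (h : ρ g = 1) : mx ρ g = 1 ∧ mx ρ g⁻¹ = 1 := by
  simp only [mx, map_inv, h, inv_one, Units.val_one, and_self]

/-- conjugation of an element of the kernel -/
theorem c_conj (hc : ∀ g h, c (g * h) = c g + mx ρ g * c h * mx ρ g⁻¹) (t : GQ) {s : GQ}
    (hs : ρ s = 1) : c (t * s * t⁻¹) = mx ρ t * c s * mx ρ t⁻¹ := by
  have e : ρ (t * s * t⁻¹) = 1 := by rw [map_mul, map_mul, hs, map_inv, mul_one, mul_inv_cancel]
  have h1 := hc (t * s * t⁻¹) t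
  rw [inv_mul_cancel_right, hc t s, (mx_one e).1, (mx_one e).2, one_mul, mul_one, add_comm] at h1
  exact (add_right_cancel h1).symm

/-- the values of a cocycle on the inertia group -/
theorem val [CharP F 2] (h : Ov q P) (h2 : q ≠ 2) {τ : GQ} (hτ : Gn q P τ)
    (hu : ∀ g, Inert P g → ρ g = 1) (hc : ∀ g h, c (g * h) = c g + mx ρ g * c h * mx ρ g⁻¹)
    (ho : Op c) {s : GQ} (hs : Inert P s) : c s = up F (Kc.kq (q : Qb) s) • c τ := by
  ext i j
  rw [Matrix.smul_apply, smul_eq_mul]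
  refine mult h h2 hτ (a := fun g => c g i j) (fun s hs t _ => ?_)
    (ho.imp fun U hU => ⟨hU.1, fun σ m _ => by rw [hU.2 σ m]; rfl⟩) hs
  rw [hc, (mx_one (hu s hs)).1, (mx_one (hu s hs)).2, one_mul, mul_one, Matrix.add_apply]

/-- the value at a generator is invariant under the decomposition group -/
theorem tau_dec [CharP F 2] (h : Ov q P) (h2 : q ≠ 2) {φ τ : GQ} (hφ : φ ∈ dec P) (hτ : Gn q P τ)
    (hu : ∀ g, Inert P g → ρ g = 1) (hc : ∀ g h, c (g * h) = c g + mx ρ g * c h * mx ρ g⁻¹)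
    (ho : Op c) : mx ρ φ * c τ * mx ρ φ⁻¹ = c τ := by
  have k := gn_conj h hφ hτ
  rw [← c_conj hc φ (hu τ hτ.1), val h h2 hτ hu hc ho k.1, ((gn_iff h).1 k).2, map_one, one_smul]

/-- **the value of a cocycle at a generator of the tame inertia** -/
theorem tau [CharP F 2] (h : Ov q P) (h2 : q ≠ 2) {φ τ : GQ} (hφ : Fb q P φ) (hτ : Gn q P τ)
    (hu : ∀ g, Inert P g → ρ g = 1) (hc : ∀ g h, c (g * h) = c g + mx ρ g * c h * mx ρ g⁻¹)
    (ho : Op c) : mx ρ φ * c τ * mx ρ φ⁻¹ = c τ ∧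
      (c τ = 0 → ∀ P', Ov q P' → ∀ g, Inert P' g → c g = 0) := by
  refine ⟨tau_dec h h2 (phi_mem h.1 h.2.1 hφ) hτ hu hc ho, fun h0 P' h' g hg => ?_⟩
  obtain ⟨t, rfl⟩ := trans h h'
  have k := inert_conj hg
  have e := c_conj hc t (hu _ k)
  rw [val h h2 hτ hu hc ho k, h0, smul_zero, mul_zero, zero_mul] at e
  rw [← e]
  congr 1
  group

end Vale.Agent.P022E.GW.Tg
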