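import Vale.Agent.P022D.W.Odd
import Vale.Agent.P022D.L2c.Defs

/-!
# P022E, block GW: unramified two cocycles on a decomposition group are coboundaries
-/

set_option linter.all false

open NumberField

noncomputable section

namespace Vale.Agent.P022E.GW.Unr

open Vale.Agent.P022 Vale.Agent.P022.H443 Vale.Agent.P022D.W Vale.Agent.P022D.L2c

section grp

variable {X F : Type} [Group X] [TopologicalSpace X] [Field F] [CharP F 2]

theorem z2_left {f : X → X → F} (hf : IsZ2 f) (g : X) : f 1 g = f 1 1 := by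
  have h := hf.2 1 1 g
  rw [one_mul, one_mul] at h
  exact add_left_cancel h

theorem z2_right {f : X → X → F} (hf : IsZ2 f) (g : X) : f g 1 = f 1 1 := by
  have h := hf.2 g 1 1
  rw [mul_one, mul_one] at h
  exact (add_right_cancel h).symm

/-- a cocycle inflated from a cyclic group of order `n` dies on a cyclic group of order `2 n` -/
theorem cyc {f : X → X → F} (hf : IsZ2 f) {n : ℕ} (hn : n ≠ 0) (c : X → ZMod (2 * n))
    (hc : ∀ g h, c (g * h) = c g + c h) (lc : IsLocallyConstant c)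
    (inv : ∀ u, (c u = 0 ∨ c u = n) → ∀ g h, f (g * u) h = f g h ∧ f g (h * u) = f g h)
    (ex : ∃ u, c u = n) : f ∈ Cob F X := by
  classical
  have two : (2 : F) = 0 := CharP.cast_eq_zero F 2
  haveI : NeZero (2 * n) := ⟨by omega⟩
  let c' : X →* Multiplicative (ZMod (2 * n)) :=
    MonoidHom.mk' (fun g => Multiplicative.ofAdd (c g)) fun g h => by rw [hc, ofAdd_add]
  obtain ⟨⟨_, ψ, rfl⟩, hψ⟩ := IsCyclic.exists_monoid_generator (α := c'.range)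
  have gen : ∀ g, ∃ k : ℕ, c g = k • c ψ := fun g => by
    obtain ⟨k, hk⟩ := hψ ⟨c' g, g, rfl⟩
    exact ⟨k, (congrArg (fun z : c'.range => Multiplicative.toAdd z.1) hk).symm⟩
  have cpow : ∀ k : ℕ, c (ψ ^ k) = k • c ψ := fun k =>
    congrArg Multiplicative.toAdd (map_pow c' ψ k)
  have cinv : ∀ g, c g⁻¹ = - c g := fun g => congrArg Multiplicative.toAdd (map_inv c' g)
  have n0 : (n : ZMod (2 * n)) ≠ 0 := fun h => by
    have := Nat.le_of_dvd (Nat.pos_of_ne_zero hn) ((ZMod.natCast_eq_zero_iff _ _).1 h)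
    omega
  have ev : 2 ∣ addOrderOf (c ψ) := by
    obtain ⟨u, hu⟩ := ex
    obtain ⟨k, hk⟩ := gen u
    have h2 : addOrderOf (n : ZMod (2 * n)) = 2 := by
      haveI : Fact (Nat.Prime 2) := ⟨Nat.prime_two⟩
      refine addOrderOf_eq_prime ?_ n0
      rw [nsmul_eq_mul, ← Nat.cast_mul, ZMod.natCast_self]
    have h3 : addOrderOf (k • c ψ) ∣ addOrderOf (c ψ) := addOrderOf_smul_dvd k
    rwa [← hk, hu, h2] at h3
  obtain ⟨o, ho⟩ := ev
  have co : c (ψ ^ o) = 0 ∨ c (ψ ^ o) = n := by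
    have h1 : - c (ψ ^ o) = c (ψ ^ o) := by
      rw [neg_eq_iff_add_eq_zero, cpow, ← add_nsmul, ← two_mul, ← ho, addOrderOf_nsmul_eq_zero]
    rcases (ZMod.neg_eq_self_iff _).1 h1 with h | h
    · exact Or.inl h
    · right
      rw [← ZMod.natCast_zmod_val (c (ψ ^ o)), Nat.eq_of_mul_eq_mul_left two_pos h]
  let s : ℕ → F := fun k => f 1 1 + ∑ j ∈ Finset.range k, f (ψ ^ j) ψ
  have sadd : ∀ k l, s (k + l) = s k + s l + f (ψ ^ k) (ψ ^ l) := by
    intro k l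
    induction l with
    | zero =>
      simp only [s, add_zero, pow_zero, Finset.range_zero, Finset.sum_empty, z2_right hf]
      linear_combination (- f 1 1) * two
    | succ l ih =>
      have h := hf.2 (ψ ^ k) (ψ ^ l) ψ
      rw [← pow_succ, ← pow_add] at h
      simp only [s, ← add_assoc k l 1, Finset.sum_range_succ] at ih ⊢
      linear_combination ih - h
  have so : ∀ k, s (k + o) = s k + s o + f 1 1 := fun k => by
    have h := (inv _ co (ψ ^ k) 1).2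
    rw [one_mul] at h
    rw [sadd, h, z2_right hf]
  have per : ∀ j k, s (k + addOrderOf (c ψ) * j) = s k := by
    intro j k
    induction j with
    | zero => simp
    | succ j ih =>
      rw [mul_add, mul_one, ← add_assoc, ho, two_mul o, ← add_assoc, so, so, ← two_mul o, ← ho, ih]
      linear_combination (s o + f 1 1) * two
  have cg : ∀ k l : ℕ, k • c ψ = l • c ψ → s k = s l := by
    intro k l h
    have h1 : k % addOrderOf (c ψ) = l % addOrderOf (c ψ) := nsmul_eq_nsmul_iff_modEq.1 h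
    rw [← Nat.mod_add_div k (addOrderOf (c ψ)), ← Nat.mod_add_div l (addOrderOf (c ψ)), per, per,
      h1]
  let κ : ZMod (2 * n) → ℕ := fun x => if h : ∃ k : ℕ, x = k • c ψ then h.choose else 0
  have hκ : ∀ g, c g = κ (c g) • c ψ := fun g => by
    simp only [κ, dif_pos (gen g)]
    exact (gen g).choose_spec
  refine ⟨fun g => s (κ (c g)), lc.comp fun x => s (κ x), fun g h => ?_⟩
  have e : ∀ g, c ((ψ ^ κ (c g))⁻¹ * g) = 0 := fun g => by
    rw [hc, cinv, cpow, ← hκ, neg_add_cancel]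
  have e1 := (inv _ (Or.inl (e g)) (ψ ^ κ (c g)) h).1
  have e2 := (inv _ (Or.inl (e h)) (ψ ^ κ (c g)) (ψ ^ κ (c h))).2
  rw [mul_inv_cancel_left] at e1 e2
  show s _ = s _ + s _ + f g h
  rw [e1, e2, ← sadd]
  refine cg _ _ ?_
  rw [← hκ, hc, add_nsmul, ← hκ, ← hκ]

end grp

/-- roots of unity of order prime to `P` are distinct modulo `P` -/
theorem root_inj {R : Type} [CommRing R] [IsDomain R] {P : Ideal R} (hP : P.IsPrime) {m : ℕ}
    (hm : (m : R) ∉ P) {x y : R} (hx : x ^ m = 1) (hy : y ^ m = 1) (h : x - y ∈ P) : x = y := by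
  by_contra hne
  have h0 := geom_sum₂_mul x y m
  rw [hx, hy, sub_self] at h0
  have h1 := (mul_eq_zero.1 h0).resolve_right (sub_ne_zero.2 hne)
  have h2 := congrArg (Ideal.Quotient.mk P) h1
  have h3 : Ideal.Quotient.mk P x = Ideal.Quotient.mk P y := Ideal.Quotient.eq.2 h
  simp only [map_sum, map_mul, map_pow, h3, map_zero] at h2
  rw [geom_sum₂_self, ← map_natCast (Ideal.Quotient.mk P), ← map_pow, ← map_mul,
    Ideal.Quotient.eq_zero_iff_mem] at h2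
  have h4 := hP.mem_of_pow_mem _ ((hP.mem_or_mem h2).resolve_left hm)
  have m0 : m ≠ 0 := fun e => hm (by rw [e, Nat.cast_zero]; exact P.zero_mem)
  have h5 := Ideal.pow_mem_of_mem P h4 m (Nat.pos_of_ne_zero m0)
  rw [hy] at h5
  exact hP.ne_top ((Ideal.eq_top_iff_one P).2 h5)

variable {l : ℕ} {P : Ideal (𝓞 Qb)}

/-- **the degree modulo `N`** on a decomposition group -/
theorem deg (hl : l.Prime) (hP : P.IsPrime) (hPl : (l : 𝓞 Qb) ∈ P) {φ : GQ}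
    (hφ : ∀ x : 𝓞 Qb, φ • x - x ^ l ∈ P) {N : ℕ} (hN : N ≠ 0) :
    ∃ (δ : GQ → ZMod N) (V : Subgroup GQ), IsOpen (V : Set GQ) ∧
      (∀ g ∈ dec P, ∀ h ∈ dec P, δ (g * h) = δ g + δ h) ∧ δ φ = 1 ∧ (∀ s ∈ inP P, δ s = 0) ∧
      ∀ v ∈ V, v ∈ dec P → δ v = 0 := by
  classical
  have := algQb
  obtain ⟨m, hm⟩ : ∃ m, l ^ N = m + 1 := ⟨l ^ N - 1, (Nat.sub_add_cancel (Nat.one_le_pow _ _ hl.pos)).symm⟩
  have hlt : 1 < l ^ N := Nat.one_lt_pow hN hl.one_lt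
  have m0 : m ≠ 0 := by omega
  haveI : NeZero m := ⟨m0⟩
  have mP : (m : 𝓞 Qb) ∉ P := fun h => by
    have h1 := Ideal.pow_mem_of_mem P hPl N (Nat.pos_of_ne_zero hN)
    rw [← Nat.cast_pow, hm, Nat.cast_add, Nat.cast_one] at h1
    exact hP.ne_top ((Ideal.eq_top_iff_one P).2 (by simpa using P.sub_mem h1 h))
  obtain ⟨z, hz⟩ := HasEnoughRootsOfUnity.exists_primitiveRoot Qb m
  let ζ : 𝓞 Qb := ⟨z, hz.isIntegral (Nat.pos_of_ne_zero m0)⟩
  have hζ : IsPrimitiveRoot ζ m := IsPrimitiveRoot.of_map_of_injective (f := algebraMap (𝓞 Qb) Qb)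
    hz RingOfIntegers.coe_injective
  have cop : Nat.Coprime l m := by
    refine Nat.Coprime.coprime_dvd_left (dvd_pow_self l hN) ?_
    rw [hm]
    simp
  have ord : orderOf (ZMod.unitOfCoprime l cop) = N := by
    refine (orderOf_eq_iff (Nat.pos_of_ne_zero hN)).2 ⟨Units.ext ?_, fun j hj j0 h => ?_⟩
    · rw [Units.val_pow_eq_pow_val, ZMod.coe_unitOfCoprime, ← Nat.cast_pow, hm]
      simp
    · have h1 := congrArg Units.val h
      rw [Units.val_pow_eq_pow_val, ZMod.coe_unitOfCoprime, ← Nat.cast_pow, Units.val_one,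
        ← Nat.cast_one, ZMod.natCast_eq_natCast_iff] at h1
      have h2 : 1 < l ^ j := Nat.one_lt_pow j0.ne' hl.one_lt
      have h3 : l ^ j < l ^ N := Nat.pow_lt_pow_right hl.one_lt hj
      have h4 := Nat.le_of_dvd (by omega) ((Nat.modEq_iff_dvd' h2.le).1 h1.symm)
      omega
  have key : ∀ j k : ℕ, ζ ^ l ^ j = ζ ^ l ^ k → (j : ZMod N) = k := by
    intro j k h
    have h1 : l ^ j ≡ l ^ k [MOD m] := by
      rw [hζ.eq_orderOf]
      exact (hζ.isOfFinOrder m0).pow_eq_pow_iff_modEq.1 h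
    rw [ZMod.natCast_eq_natCast_iff, ← ord]
    refine pow_eq_pow_iff_modEq.1 (Units.ext ?_)
    rw [Units.val_pow_eq_pow_val, Units.val_pow_eq_pow_val, ZMod.coe_unitOfCoprime,
      ← Nat.cast_pow, ← Nat.cast_pow]
    exact (ZMod.natCast_eq_natCast_iff _ _ _).2 h1
  have r1 : ∀ g : GQ, (g • ζ) ^ m = 1 := fun g => by rw [← smul_pow', hζ.pow_eq_one, smul_one]
  have r2 : ∀ a : ℕ, (ζ ^ a) ^ m = 1 := fun a => by
    rw [← pow_mul, mul_comm, pow_mul, hζ.pow_eq_one, one_pow]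
  have hI : ∀ s ∈ inP P, s • ζ = ζ := fun s hs => root_inj hP mP (r1 s) hζ.pow_eq_one (hs ζ)
  have hF : ∀ k : ℕ, (φ ^ k) • ζ = ζ ^ l ^ k := fun k =>
    root_inj hP mP (r1 _) (r2 _) (phi_pow hl hP hφ k ζ)
  have ho : IsOpen ((MulAction.stabilizer GQ z : Subgroup GQ) : Set GQ) :=
    stabilizer_isOpen_of_isIntegral z
  have hV : ∀ v ∈ MulAction.stabilizer GQ z, v • ζ = ζ := fun v hv =>
    RingOfIntegers.ext (MulAction.mem_stabilizer_iff.1 hv)
  have ex : ∀ g ∈ dec P, ∃ k : ℕ, g • ζ = ζ ^ l ^ k := fun g hg => by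
    obtain ⟨k, s, u, hs, hu, rfl⟩ := dec_gen hl hP hPl hφ hg _ ho
    exact ⟨k, by rw [mul_smul, mul_smul, hI s hs, hF, smul_pow', hV u hu]⟩
  let δ : GQ → ZMod N := fun g => if h : ∃ k : ℕ, g • ζ = ζ ^ l ^ k then (h.choose : ℕ) else 0
  have hδ : ∀ (g : GQ) (k : ℕ), g • ζ = ζ ^ l ^ k → δ g = k := fun g k h => by
    have h' : ∃ k : ℕ, g • ζ = ζ ^ l ^ k := ⟨k, h⟩
    simp only [δ, dif_pos h']
    exact key _ _ (h'.choose_spec.symm.trans h)
  refine ⟨δ, _, ho, fun g hg h hh => ?_, ?_, fun s hs => ?_, fun v hv _ => ?_⟩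
  · obtain ⟨j, hj⟩ := ex g hg
    obtain ⟨k, hk⟩ := ex h hh
    rw [hδ g j hj, hδ h k hk, ← Nat.cast_add]
    refine hδ _ _ ?_
    rw [mul_smul, hk, smul_pow', hj, ← pow_mul, ← pow_add]
  · rw [← Nat.cast_one]
    exact hδ _ _ (by rw [← hF, pow_one])
  · rw [← Nat.cast_zero]
    exact hδ _ _ (by rw [hI s hs, pow_zero, pow_one])
  · rw [← Nat.cast_zero]
    exact hδ _ _ (by rw [hV v hv, pow_zero, pow_one])

/-- an additive function which vanishes on an open subgroup is locally constant -/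
theorem lc_of {A : Type} [AddGroup A] (X V : Subgroup GQ) (hV : IsOpen (V : Set GQ)) (c : X → A)
    (hc : ∀ g h, c (g * h) = c g + c h) (h0 : ∀ v : X, v.1 ∈ V → c v = 0) :
    IsLocallyConstant c := by
  refine (IsLocallyConstant.iff_eventually_eq c).2 fun g => ?_
  have ho : IsOpen ((fun x : X => (g.1⁻¹ * x.1 : GQ)) ⁻¹' (V : Set GQ)) :=
    hV.preimage (continuous_const.mul continuous_subtype_val)
  filter_upwards [ho.mem_nhds (show g ∈ _ by simp [V.one_mem])] with x hx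
  have h := hc g (g⁻¹ * x)
  rwa [mul_inv_cancel_left, h0 (g⁻¹ * x) hx, add_zero] at h

/-- uniform local constancy on a closed subgroup -/
theorem unif {A : Type} (X : Subgroup GQ) (hX : IsClosed (X : Set GQ)) (f : X → X → A)
    (hf : IsLocallyConstant fun p : X × X => f p.1 p.2) :
    ∃ W : Subgroup GQ, IsOpen (W : Set GQ) ∧ W.Normal ∧
      ∀ v : X, v.1 ∈ W → ∀ g h, f (g * v) h = f g h ∧ f g (h * v) = f g h := by
  have := galQb
  haveI : CompactSpace X := isCompact_iff_compactSpace.1 hX.isCompact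
  have h1 : ∀ᶠ v : X in nhds 1, ∀ p ∈ (Set.univ : Set (X × X)),
      f (p.1 * v) p.2 = f p.1 p.2 ∧ f p.1 (p.2 * v) = f p.1 p.2 := by
    refine isCompact_univ.eventually_forall_of_forall_eventually fun p _ => ?_
    have a0 : IsLocallyConstant fun z : X × X × X => f z.2.1 z.2.2 :=
      hf.comp_continuous (f := fun z : X × X × X => (z.2.1, z.2.2)) (by fun_prop)
    have a1 : IsLocallyConstant fun z : X × X × X => f (z.2.1 * z.1) z.2.2 :=
      hf.comp_continuous (f := fun z : X × X × X => (z.2.1 * z.1, z.2.2)) (by fun_prop)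
    have a2 : IsLocallyConstant fun z : X × X × X => f z.2.1 (z.2.2 * z.1) :=
      hf.comp_continuous (f := fun z : X × X × X => (z.2.1, z.2.2 * z.1)) (by fun_prop)
    filter_upwards [a0.eventually_eq (1, p), a1.eventually_eq (1, p), a2.eventually_eq (1, p)]
      with z b0 b1 b2
    simp only [mul_one] at b1 b2
    exact ⟨b1.trans b0.symm, b2.trans b0.symm⟩
  obtain ⟨S, hS, hsub⟩ := (mem_nhds_subtype _ _ _).1 h1
  obtain ⟨O, hO, ho, h1O⟩ := mem_nhds_iff.1 hS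
  obtain ⟨W, hW⟩ := ProfiniteGrp.exist_openNormalSubgroup_sub_open_nhds_of_one ho h1O
  exact ⟨W.toSubgroup, W.isOpen', W.isNormal', fun v hv g h =>
    hsub (show v.1 ∈ S from hO (hW hv)) (g, h) trivial⟩

theorem closed {U : Subgroup GQ} (hU : IsOpen (U : Set GQ)) (P : Ideal (𝓞 Qb)) :
    IsClosed ((U ⊓ dec P : Subgroup GQ) : Set GQ) :=
  (U.isClosed_of_isOpen hU).inter (isClosed_dec P)

theorem ex_pow {W : Subgroup GQ} (hW : IsOpen (W : Set GQ)) (φ : GQ) :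
    ∃ n : ℕ, n ≠ 0 ∧ φ ^ n ∈ W := by
  have := galQb
  haveI : Finite (GQ ⧸ W) := W.quotient_finite_of_isOpen hW
  obtain ⟨n, h0, -, h⟩ := W.exists_pow_mem_of_index_ne_zero Subgroup.index_ne_zero_of_finite φ
  exact ⟨n, h0.ne', h⟩

theorem dpow (hl : l.Prime) (hP : P.IsPrime) {φ : GQ} (hφ : ∀ x : 𝓞 Qb, φ • x - x ^ l ∈ P)
    {N : ℕ} {δ : GQ → ZMod N} (h1 : ∀ g ∈ dec P, ∀ h ∈ dec P, δ (g * h) = δ g + δ h)
    (h2 : δ φ = 1) (h3 : ∀ s ∈ inP P, δ s = 0) (k : ℕ) : δ (φ ^ k) = k := by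
  have hφd := phi_mem hl hP hφ
  induction k with
  | zero => rw [pow_zero, Nat.cast_zero]; exact h3 1 (inP P).one_mem
  | succ k ih => rw [pow_succ, h1 _ ((dec P).pow_mem hφd k) _ hφd, ih, h2, Nat.cast_succ]

/-- the elements of degree divisible by `n` lie in `W I` if `φ ^ n ∈ W` -/
theorem split (hl : l.Prime) (hP : P.IsPrime) (hPl : (l : 𝓞 Qb) ∈ P) {φ : GQ}
    (hφ : ∀ x : 𝓞 Qb, φ • x - x ^ l ∈ P) {N n : ℕ} (hn : n ∣ N) {δ : GQ → ZMod N}
    {V W : Subgroup GQ} (hV : IsOpen (V : Set GQ)) (hW : IsOpen (W : Set GQ))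
    (h1 : ∀ g ∈ dec P, ∀ h ∈ dec P, δ (g * h) = δ g + δ h) (h2 : δ φ = 1)
    (h3 : ∀ s ∈ inP P, δ s = 0) (h4 : ∀ v ∈ V, v ∈ dec P → δ v = 0) (h5 : φ ^ n ∈ W) {g : GQ}
    (hg : g ∈ dec P) {j : ℕ} (hj : δ g = (n * j : ℕ)) :
    ∃ v ∈ W, ∃ s ∈ inP P, g = v * s := by
  have hφd := phi_mem hl hP hφ
  obtain ⟨k, s, u, hs, hu, rfl⟩ := dec_gen hl hP hPl hφ hg (W ⊓ V) (hW.inter hV)
  have hk := dpow hl hP hφ h1 h2 h3
  have hud : u ∈ dec P := ((dec P).mul_mem_cancel_right ((dec P).pow_mem hφd k)).1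
    (((dec P).mul_mem_cancel_right (inP_le_dec hs)).1 hg)
  rw [h1 _ ((dec P).mul_mem hud ((dec P).pow_mem hφd k)) _ (inP_le_dec hs),
    h1 _ hud _ ((dec P).pow_mem hφd k), h3 s hs, h4 u hu.2 hud, hk, zero_add, add_zero,
    ZMod.natCast_eq_natCast_iff] at hj
  obtain ⟨i, rfl⟩ : n ∣ k := ((hj.of_dvd hn).dvd_iff dvd_rfl).2 (dvd_mul_right n j)
  exact ⟨_, W.mul_mem hu.1 (by rw [pow_mul]; exact W.pow_mem h5 i), s, hs, rfl⟩

/-- **UNR**: a cocycle on a decomposition group which is invariant under inertia is a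
coboundary -/
theorem unr {F : Type} [Field F] [CharP F 2] (hl : l.Prime) (hP : P.IsPrime)
    (hPl : (l : 𝓞 Qb) ∈ P) {U : Subgroup GQ} (hU : IsOpen (U : Set GQ))
    {f : (U ⊓ dec P : Subgroup GQ) → (U ⊓ dec P : Subgroup GQ) → F} (hf : IsZ2 f)
    (hI : ∀ s : (U ⊓ dec P : Subgroup GQ), s.1 ∈ inP P → ∀ g h,
      f (g * s) h = f g h ∧ f g (h * s) = f g h) : f ∈ Cob F (U ⊓ dec P : Subgroup GQ) := by
  obtain ⟨φ, hφ⟩ := exists_phi hl hP hPl
  obtain ⟨W, hW, -, hWf⟩ := unif _ (closed hU P) f hf.1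
  obtain ⟨n, hn, hφn⟩ := ex_pow (W := W ⊓ U) (hW.inter hU) φ
  obtain ⟨δ, V, hV, h1, h2, h3, h4⟩ := deg hl hP hPl hφ (N := 2 * n) (by omega)
  have hφd := phi_mem hl hP hφ
  refine cyc hf hn (fun g => δ g.1) (fun g h => h1 _ g.2.2 _ h.2.2)
    (lc_of _ V hV _ (fun g h => h1 _ g.2.2 _ h.2.2) fun v hv => h4 _ hv v.2.2) (fun u hu g h => ?_)
    ⟨⟨φ ^ n, hφn.2, (dec P).pow_mem hφd n⟩, ?_⟩
  · obtain ⟨j, hj⟩ : ∃ j : ℕ, δ u.1 = (n * j : ℕ) :=
      hu.elim (fun e => ⟨0, by rw [mul_zero, Nat.cast_zero]; exact e⟩)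
        fun e => ⟨1, by rw [mul_one]; exact e⟩
    obtain ⟨v, hv, s, hs, e⟩ := split hl hP hPl hφ (dvd_mul_left n 2) hV (hW.inter hU) h1 h2 h3 h4
      hφn u.2.2 hj
    have hvd : v ∈ dec P := ((dec P).mul_mem_cancel_right (inP_le_dec hs)).1 (e ▸ u.2.2)
    have hsU : s ∈ U := (U.mul_mem_cancel_left hv.2).1 (e ▸ u.2.1)
    have e' : u = (⟨v, hv.2, hvd⟩ : (U ⊓ dec P : Subgroup GQ)) * ⟨s, hsU, inP_le_dec hs⟩ :=
      Subtype.ext e
    rw [e', ← mul_assoc, ← mul_assoc, (hI _ hs _ _).1, (hI _ hs _ _).2]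
    exact hWf _ hv.1 g h
  · exact dpow hl hP hφ h1 h2 h3 n

/-- a Frobenius element `ψ` of the fixed field of `U`: it generates `U ⊓ dec P` modulo inertia -/
theorem gen (hl : l.Prime) (hP : P.IsPrime) (hPl : (l : 𝓞 Qb) ∈ P) {φ : GQ}
    (hφ : ∀ x : 𝓞 Qb, φ • x - x ^ l ∈ P) {U : Subgroup GQ} (hU : IsOpen (U : Set GQ)) :
    ∃ (f : ℕ) (ψ : (U ⊓ dec P : Subgroup GQ)), f ≠ 0 ∧ (φ ^ f)⁻¹ * ψ.1 ∈ inP P ∧
      ∀ W : Subgroup GQ, IsOpen (W : Set GQ) → ∀ g : (U ⊓ dec P : Subgroup GQ),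
        ∃ (k : ℕ) (v s : (U ⊓ dec P : Subgroup GQ)), v.1 ∈ W ∧ s.1 ∈ inP P ∧
          g = v * ψ ^ k * s := by
  classical
  have hφd := phi_mem hl hP hφ
  have hex : ∃ f : ℕ, f ≠ 0 ∧ ∃ s ∈ inP P, φ ^ f * s ∈ U := by
    obtain ⟨n, hn, h⟩ := ex_pow hU φ
    exact ⟨n, hn, 1, (inP P).one_mem, by rwa [mul_one]⟩
  obtain ⟨f0, s0, hs0, hU0⟩ := Nat.find_spec hex
  have hmin := fun m => Nat.find_min hex (m := m)
  generalize Nat.find hex = f at f0 hU0 hmin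
  have hψd : φ ^ f * s0 ∈ dec P := (dec P).mul_mem ((dec P).pow_mem hφd f) (inP_le_dec hs0)
  have hp : ∀ k : ℕ, (φ ^ (f * k))⁻¹ * (φ ^ f * s0) ^ k ∈ inP P := fun k => by
    induction k with
    | zero => simp [(inP P).one_mem]
    | succ k ih =>
      have h := (inP P).mul_mem (conj_inP ((dec P).inv_mem ((dec P).pow_mem hφd f)) ih) hs0
      have e : (φ ^ (f * (k + 1)))⁻¹ * (φ ^ f * s0) ^ (k + 1) =
          (φ ^ f)⁻¹ * ((φ ^ (f * k))⁻¹ * (φ ^ f * s0) ^ k) * (φ ^ f)⁻¹⁻¹ * s0 := by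
        rw [pow_succ, mul_add, mul_one, pow_add]
        group
      rwa [e]
  refine ⟨f, ⟨φ ^ f * s0, hU0, hψd⟩, f0, by simpa using hs0, fun W hW g => ?_⟩
  obtain ⟨k, s, u, hs, hu, e⟩ := dec_gen hl hP hPl hφ g.2.2 (W ⊓ U) (hW.inter hU)
  have hud : u ∈ dec P := ((dec P).mul_mem_cancel_right ((dec P).pow_mem hφd k)).1
    (((dec P).mul_mem_cancel_right (inP_le_dec hs)).1 (e ▸ g.2.2))
  have h1 : φ ^ k * s ∈ U := (U.mul_mem_cancel_left hu.2).1 (by rw [← mul_assoc, ← e]; exact g.2.1)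
  have h2 : ((φ ^ f * s0) ^ (k / f))⁻¹ * (φ ^ k * s) ∈ U :=
    U.mul_mem (U.inv_mem (U.pow_mem hU0 _)) h1
  have h3 : (φ ^ (k % f))⁻¹ * (((φ ^ f * s0) ^ (k / f))⁻¹ * (φ ^ k * s)) ∈ inP P := by
    have h := (inP P).mul_mem (conj_inP ((dec P).inv_mem ((dec P).pow_mem hφd (k % f)))
      ((inP P).inv_mem (hp (k / f)))) hs
    have e' : φ ^ k = φ ^ (f * (k / f)) * φ ^ (k % f) := by rw [← pow_add, Nat.div_add_mod]
    rw [e']
    generalize (φ ^ f * s0) ^ (k / f) = a at h ⊢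
    generalize φ ^ (f * (k / f)) = b at h ⊢
    generalize φ ^ (k % f) = c at h ⊢
    have e'' : c⁻¹ * (a⁻¹ * (b * c * s)) = c⁻¹ * (b⁻¹ * a)⁻¹ * c⁻¹⁻¹ * s := by group
    rwa [e'']
  have h4 : k % f = 0 := by
    by_contra h
    exact hmin _ (Nat.mod_lt _ (Nat.pos_of_ne_zero f0)) ⟨h, _, h3, by rwa [mul_inv_cancel_left]⟩
  rw [h4, pow_zero, inv_one, one_mul] at h3
  refine ⟨k / f, ⟨u, hu.2, hud⟩, ⟨_, h2, inP_le_dec h3⟩, hu.1, h3, Subtype.ext ?_⟩
  show g.1 = u * (φ ^ f * s0) ^ (k / f) * (((φ ^ f * s0) ^ (k / f))⁻¹ * (φ ^ k * s))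
  rw [e]
  group

/-- **the unramified quadratic character**; every unramified character is a multiple of it -/
theorem ex_u (hl : l.Prime) (hP : P.IsPrime) (hPl : (l : 𝓞 Qb) ∈ P) {φ : GQ}
    (hφ : ∀ x : 𝓞 Qb, φ • x - x ^ l ∈ P) {U : Subgroup GQ} (hU : IsOpen (U : Set GQ)) :
    ∃ (f : ℕ) (ψ : (U ⊓ dec P : Subgroup GQ)) (u : (U ⊓ dec P : Subgroup GQ) → ZMod 2),
      f ≠ 0 ∧ (φ ^ f)⁻¹ * ψ.1 ∈ inP P ∧ u ∈ Hm (ZMod 2) (U ⊓ dec P : Subgroup GQ) ∧ u ψ = 1 ∧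
      (∀ s : (U ⊓ dec P : Subgroup GQ), s.1 ∈ inP P → u s = 0) ∧
      ∀ (F : Type) [Field F] [CharP F 2], ∀ b ∈ Hm F (U ⊓ dec P : Subgroup GQ),
        (∀ s : (U ⊓ dec P : Subgroup GQ), s.1 ∈ inP P → b s = 0) →
        ∀ g, b g = up F (u g) * b ψ := by
  classical
  obtain ⟨f, ψ, f0, hψ, hg⟩ := gen hl hP hPl hφ hU
  obtain ⟨δ, V, hV, h1, h2, h3, h4⟩ := deg hl hP hPl hφ (N := f * 2) (by omega)
  have hφd := phi_mem hl hP hφ
  have dψ : δ ψ.1 = f := by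
    rw [← mul_inv_cancel_left (φ ^ f) ψ.1, h1 _ ((dec P).pow_mem hφd f) _ (inP_le_dec hψ),
      dpow hl hP hφ h1 h2 h3, h3 _ hψ, add_zero]
  have dk : ∀ k : ℕ, δ (ψ ^ k).1 = (f * k : ℕ) := fun k => by
    induction k with
    | zero => rw [pow_zero, mul_zero, Nat.cast_zero]; exact h3 1 (inP P).one_mem
    | succ k ih =>
      rw [pow_succ, Subgroup.coe_mul, h1 _ (ψ ^ k).2.2 _ ψ.2.2, ih, dψ, mul_add, mul_one,
        Nat.cast_add]
  have dg : ∀ (k : ℕ) (v s : (U ⊓ dec P : Subgroup GQ)), v.1 ∈ V → s.1 ∈ inP P →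
      δ (v * ψ ^ k * s).1 = (f * k : ℕ) := fun k v s hv hs => by
    rw [Subgroup.coe_mul, h1 _ (v * ψ ^ k).2.2 _ s.2.2, Subgroup.coe_mul, h1 _ v.2.2 _ (ψ ^ k).2.2,
      h4 _ hv v.2.2, h3 _ hs, dk, zero_add, add_zero]
  let u : (U ⊓ dec P : Subgroup GQ) → ZMod 2 := fun g => if δ g.1 = 0 then 0 else 1
  have hu : ∀ (g : (U ⊓ dec P : Subgroup GQ)) (k : ℕ), δ g.1 = (f * k : ℕ) → u g = k := by
    intro g k h
    have e : δ g.1 = 0 ↔ (k : ZMod 2) = 0 := by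
      rw [h, ZMod.natCast_eq_zero_iff, ZMod.natCast_eq_zero_iff,
        Nat.mul_dvd_mul_iff_left (Nat.pos_of_ne_zero f0)]
    simp only [u, e]
    generalize (k : ZMod 2) = x
    revert x
    decide
  have ex : ∀ g : (U ⊓ dec P : Subgroup GQ), ∃ k : ℕ, δ g.1 = (f * k : ℕ) := fun g => by
    obtain ⟨k, v, s, hv, hs, rfl⟩ := hg V hV g
    exact ⟨k, dg k v s hv hs⟩
  have ua : ∀ g h, u (g * h) = u g + u h := fun g h => by
    obtain ⟨j, hj⟩ := ex g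
    obtain ⟨k, hk⟩ := ex h
    rw [hu g j hj, hu h k hk, ← Nat.cast_add]
    exact hu _ _ (by rw [Subgroup.coe_mul, h1 _ g.2.2 _ h.2.2, hj, hk, mul_add, Nat.cast_add])
  refine ⟨f, ψ, u, f0, hψ, ⟨lc_of _ V hV u ua fun v hv => if_pos (h4 _ hv v.2.2), ua⟩, ?_,
    fun s hs => if_pos (h3 _ hs), fun F _ _ b hb hI g => ?_⟩
  · rw [← Nat.cast_one]
    exact hu _ _ (by rw [mul_one, dψ])
  · obtain ⟨W, hW, -, hWb⟩ := unif _ (closed hU P) (fun g _ => b g)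
      (hb.1.comp_continuous continuous_fst)
    obtain ⟨k, v, s, hv, hs, rfl⟩ := hg (W ⊓ V) (hW.inter hV) g
    have b1 : b 1 = 0 := by simpa using hb.2 1 1
    have bv : b v = 0 := by
      have h := (hWb v hv.1 1 1).1
      rwa [one_mul, b1] at h
    have bk : ∀ k : ℕ, b (ψ ^ k) = k * b ψ := fun k => by
      induction k with
      | zero => simp [b1]
      | succ k ih => rw [pow_succ, hb.2, ih, Nat.cast_succ, add_mul, one_mul]
    rw [hu _ k (dg k v s hv.2 hs), hb.2, hb.2, bv, hI s hs, bk, map_natCast, zero_add, add_zero]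

end Vale.Agent.P022E.GW.Unr
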