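import Vale.Agent.P022E.GW.Defs
import Vale.Agent.P022E.GW.Unr

/-!
# P022E, block GW: row UNR
-/

set_option linter.all false

namespace Vale.Agent.P022E.GW

/-- **row UNR** -/
theorem unrC : UNR := fun _ _ _ _ _ _ _ hH hP hz hI =>
  Unr.unr hP.1 hP.2.1 hP.2.2 hH hz fun s hs g h => hI g.1 g.2 h.1 h.2 s.1 s.2.1 hs

end Vale.Agent.P022E.GW
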