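import Vale.Agent.P022E.GW.Odg
import Vale.Agent.P022E.GW.Hnpg
import Vale.Agent.P022E.GW.HnH56
import Vale.Agent.P022E.GW.Syl
import Vale.Agent.P022E.GW.UnrC
import Vale.Agent.P022E.GW.Rec
import Vale.Agent.P022E.GW.OneC
import Vale.Agent.P022E.GW.ChrC
import Vale.Agent.P022E.GW.Desc
import Vale.Agent.P022E.GW.SelH58b
import Vale.Agent.P022E.GW.TauG

/-!
# P022E, block GW: the closed rows
-/

namespace Vale.Agent.P022E.GW

theorem sylC : SYL := syl H56.nil

theorem recC : REC := rec0 oneC unrC odg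

theorem tau0 : H58.TAU := fun F _ _ ρ q P φ h h2 hφ hu => by
  obtain ⟨τ, hτ⟩ := Tg.ex_gn h h2
  exact ⟨τ, hτ, fun c hc ho => Tg.tau h h2 hφ hτ hu hc ho⟩

theorem sel_lbb (h : LBB) : Sel.SEL := H58.sel_of recC (desc h) tau0

end Vale.Agent.P022E.GW
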