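import Vale.Agent.P022E.Gp.All

/-!
# P022E, block GW: the Borel subgroup and the unipotent subgroup of a big image
-/

set_option linter.all false

noncomputable section

namespace Vale.Agent.P022E.GW.Bor

open Matrix Vale.Agent.P022E.Gp

variable {X F : Type} [Group X] [Field F] (ρ : X →* GL (Fin 2) F)

theorem inv_e (g : GL (Fin 2) F) (h : g.1 1 0 = 0) : (g⁻¹).1 1 0 = 0 := by
  simp [Matrix.inv_def, Matrix.adjugate_fin_two, h]

theorem mul_e (g h : GL (Fin 2) F) (i j : Fin 2) :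
    (g * h).1 i j = g.1 i 0 * h.1 0 j + g.1 i 1 * h.1 1 j := by
  simp [Matrix.mul_apply, Fin.sum_univ_two]

/-- the preimage of the upper triangular matrices -/
def GB : Subgroup X where
  carrier := {g | (ρ g).1 1 0 = 0}
  mul_mem' {a b} ha hb := by
    have ha : (ρ a).1 1 0 = 0 := ha
    have hb : (ρ b).1 1 0 = 0 := hb
    show (ρ (a * b)).1 1 0 = 0
    rw [map_mul, mul_e, ha, hb]; simp
  one_mem' := by show (ρ 1).1 1 0 = 0; simp
  inv_mem' {a} ha := by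
    show (ρ a⁻¹).1 1 0 = 0
    rw [map_inv]; exact inv_e _ ha

/-- the preimage of the upper unipotent matrices -/
def GP : Subgroup X := (Up F).comap ρ

variable {ρ}

theorem mem_GB {g : X} : g ∈ GB ρ ↔ (ρ g).1 1 0 = 0 := Iff.rfl

theorem mem_GP' {g : X} : g ∈ GP ρ ↔ ∃ a, uu a = ρ g := Iff.rfl

theorem mem_GP {g : X} : g ∈ GP ρ ↔ (ρ g).1 1 0 = 0 ∧ (ρ g).1 0 0 = 1 ∧ (ρ g).1 1 1 = 1 := by
  refine ⟨?_, fun ⟨a, b, c⟩ => ⟨(ρ g).1 0 1, ?_⟩⟩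
  · rintro ⟨a, h⟩
    rw [← h]; simp [uu]
  · ext i j; fin_cases i <;> fin_cases j <;> simp [uu, a, b, c]

theorem ker_le : ρ.ker ≤ GP ρ := fun g h => ⟨0, by rw [uu_zero, (MonoidHom.mem_ker.1 h)]⟩

theorem le : GP ρ ≤ GB ρ := fun g h => (mem_GP.1 h).1

theorem e00 {g h : X} (a : h ∈ GB ρ) : (ρ (g * h)).1 0 0 = (ρ g).1 0 0 * (ρ h).1 0 0 := by
  rw [map_mul, mul_e, mem_GB.1 a]; simp

theorem e11 {g h : X} (a : g ∈ GB ρ) : (ρ (g * h)).1 1 1 = (ρ g).1 1 1 * (ρ h).1 1 1 := by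
  rw [map_mul, mul_e, mem_GB.1 a]; simp

theorem e01 (g h : X) :
    (ρ (g * h)).1 0 1 = (ρ g).1 0 0 * (ρ h).1 0 1 + (ρ g).1 0 1 * (ρ h).1 1 1 := by
  rw [map_mul, mul_e]

variable (ρ) in
/-- the upper left entry -/
def dg : GB ρ →* Fˣ := MonoidHom.toHomUnits
  { toFun := fun g => (ρ g.1).1 0 0
    map_one' := by simp
    map_mul' := fun g h => e00 h.2 }

theorem dg_val (g : GB ρ) : (dg ρ g : F) = (ρ g.1).1 0 0 := rfl

theorem ne00 {g : X} (h : g ∈ GB ρ) : (ρ g).1 0 0 ≠ 0 := (dg ρ ⟨g, h⟩).ne_zero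

theorem nrm {g p : X} (hg : g ∈ GB ρ) (hp : p ∈ GP ρ) : g * p * g⁻¹ ∈ GP ρ := by
  have hi := (GB ρ).inv_mem hg
  obtain ⟨a, b, c⟩ := mem_GP.1 hp
  refine mem_GP.2 ⟨(GB ρ).mul_mem ((GB ρ).mul_mem hg a) hi, ?_, ?_⟩
  · rw [e00 hi, e00 a, b, mul_one, ← e00 hi]; simp
  · rw [e11 ((GB ρ).mul_mem hg a), e11 hg, c, mul_one, ← e11 hg]; simp

theorem nrm' : ((GP ρ).subgroupOf (GB ρ)).Normal :=
  ⟨fun p hp g => nrm g.2 hp⟩

/-- trivial intersections -/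
theorem ti {g p : X} (hg : g ∉ GB ρ) (hp : p ∈ GP ρ) (h : g⁻¹ * p * g ∈ GB ρ) : ρ p = 1 := by
  obtain ⟨a, e⟩ := hp
  have k : p * g = g * (g⁻¹ * p * g) := by group
  have k0 := congrArg (fun x => (ρ x).1 0 0) k
  have k1 := congrArg (fun x => (ρ x).1 1 0) k
  simp only [map_mul ρ p g, map_mul ρ g, mul_e, ← e, mem_GB.1 h] at k0 k1
  simp [uu] at k0 k1
  have g0 : (ρ g).1 1 0 ≠ 0 := hg
  have k2 : (ρ (g⁻¹ * p * g)).1 0 0 = 1 := by
    have := mul_left_cancel₀ g0 ((mul_one _).trans (by simpa using k1))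
    simpa using this.symm
  have : a = 0 := by
    have k3 : a * (ρ g).1 1 0 = 0 := by
      have k2' := k2
      simp at k2'
      rw [k2'] at k0
      simpa using k0
    exact (mul_eq_zero.1 k3).resolve_right g0
  rw [← e, this, uu_zero]

variable [CharP F 2] (S : Std ρ.range)
include S

theorem det (g : X) : (ρ g).1.det = 1 := S.sl.det _ ⟨g, rfl⟩

theorem d01 {g : X} (h : g ∈ GB ρ) : (ρ g).1 0 0 * (ρ g).1 1 1 = 1 := by
  have := det S g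
  rw [Matrix.det_fin_two, mem_GB.1 h] at this
  simpa using this

theorem e11_eq {g : X} (h : g ∈ GB ρ) : (ρ g).1 1 1 = ((ρ g).1 0 0)⁻¹ :=
  eq_inv_of_mul_eq_one_right (d01 S h)

theorem mem_P {g : X} (h : g ∈ GB ρ) : g ∈ GP ρ ↔ (ρ g).1 0 0 = 1 := by
  rw [mem_GP]
  exact ⟨fun k => k.2.1, fun k => ⟨h, k, by rw [e11_eq S h, k, inv_one]⟩⟩

theorem dg_ker : (dg ρ).ker = (GP ρ).subgroupOf (GB ρ) := by
  ext g
  rw [MonoidHom.mem_ker, Subgroup.mem_subgroupOf, mem_P S g.2, Units.ext_iff]; rfl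

theorem odd : Odd (GP ρ).index := by
  rw [GP, Subgroup.index_comap]; exact S.idx

theorem oddB : Odd (GB ρ).index :=
  (odd S).of_dvd_nat (Subgroup.index_dvd_of_le le)

theorem odd_rel : Odd ((GP ρ).relIndex (GB ρ)) :=
  (odd S).of_dvd_nat (Subgroup.relIndex_dvd_index_of_le le)

theorem ker_idx : ρ.ker.index ≠ 0 := by
  rw [Subgroup.index_ker]
  haveI := S.sl.fin
  exact Nat.card_pos.ne'

theorem uni : ∃ g : X, ∃ a : F, a ≠ 0 ∧ ρ g = uu a := by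
  obtain ⟨a, -, a0, -, -, ⟨g, h⟩, -⟩ := S.two
  exact ⟨g, a, a0, h⟩

theorem low : ∃ g : X, ∃ b : F, b ≠ 0 ∧ ρ g = ll b := by
  obtain ⟨b, b0, ⟨g, h⟩⟩ := S.low
  exact ⟨g, b, b0, h⟩

/-- a non trivial diagonal element -/
theorem dia : ∃ t : X, ∃ s : F, s ≠ 0 ∧ s ^ 2 ≠ 1 ∧ (ρ t).1 = !![s, 0; 0, s⁻¹] := by
  obtain ⟨a, a', a0, a1, n, ha, ha'⟩ := S.two
  obtain ⟨_, ⟨t, rfl⟩, s, s0, e, k⟩ := tor F _ S a a' a0 a1 ha ha'
  exact ⟨t, s, s0, fun h => n (by rw [← k, h, one_mul]), e⟩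

/-- the quotient is cyclic of odd order, generated by `h` -/
theorem gen : ∃ h ∈ GB ρ, (ρ h).1 0 0 ^ 2 ≠ 1 ∧
    ∀ g ∈ GB ρ, ∃ k : ℕ, ∃ p ∈ GP ρ, g = h ^ k * p := by
  haveI : Finite (dg ρ).range := by
    apply Nat.finite_of_card_ne_zero
    rw [← Subgroup.index_ker, dg_ker S]
    exact fun e => by simpa [show (GP ρ).relIndex (GB ρ) = 0 from e] using odd_rel S
  haveI : IsCyclic (dg ρ).range := isCyclic_of_subgroup_isDomain
    ((Units.coeHom F).comp (dg ρ).range.subtype) (Units.val_injective.comp Subtype.val_injective)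
  obtain ⟨⟨_, h, rfl⟩, k⟩ := IsCyclic.exists_monoid_generator (α := (dg ρ).range)
  have K : ∀ g ∈ GB ρ, ∃ k : ℕ, ∃ p ∈ GP ρ, g = h.1 ^ k * p := fun g hg => by
    obtain ⟨n, e⟩ := k ⟨_, ⟨g, hg⟩, rfl⟩
    have e : dg ρ h ^ n = dg ρ ⟨g, hg⟩ := congrArg Subtype.val e
    have : (h ^ n)⁻¹ * ⟨g, hg⟩ ∈ (dg ρ).ker := by
      rw [MonoidHom.mem_ker, map_mul, map_inv, map_pow, e, inv_mul_cancel]
    rw [dg_ker S] at this
    exact ⟨n, _, this, by simp⟩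
  refine ⟨h.1, h.2, fun e => ?_, K⟩
  obtain ⟨t, s, s0, s1, et⟩ := dia S
  have tb : t ∈ GB ρ := by rw [mem_GB, et]; simp
  obtain ⟨n, p, hp, r⟩ := K t tb
  have : dg ρ ⟨t, tb⟩ = dg ρ h ^ n * dg ρ ⟨p, le hp⟩ := by
    rw [← map_pow, ← map_mul]; congr 1; exact Subtype.ext r
  have := congrArg (fun x : Fˣ => (x : F) ^ 2) this
  simp only [Units.val_mul, Units.val_pow_eq_pow_val, dg_val, et, (mem_GP.1 hp).2.1] at this
  rw [mul_one, ← pow_mul, mul_comm, pow_mul, e] at this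
  exact s1 (by simpa using this)

/-- the invariants of the Borel subgroup are the scalars -/
theorem invB (m : Matrix (Fin 2) (Fin 2) F) (h : ∀ g ∈ GB ρ, (ρ g).1 * m * (ρ g⁻¹).1 = m) :
    ∃ c : F, m = c • (1 : Matrix (Fin 2) (Fin 2) F) := by
  have k : ∀ g ∈ GB ρ, (ρ g).1 * m = m * (ρ g).1 := fun g hg => by
    conv_rhs => rw [← h g hg, mul_assoc, ← Units.val_mul, ← map_mul]
    simp
  obtain ⟨u, a, a0, eu⟩ := uni S
  obtain ⟨t, s, s0, s1, et⟩ := dia S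
  have k1 := k u (by rw [mem_GB, eu]; simp [uu])
  have k2 := k t (by rw [mem_GB, et]; simp)
  rw [eu] at k1
  rw [et] at k2
  have a1 := congrFun (congrFun k1 0) 0
  have a2 := congrFun (congrFun k1 0) 1
  have a3 := congrFun (congrFun k2 0) 1
  simp [uu, Matrix.mul_apply, Fin.sum_univ_two, a0] at a1 a2 a3
  have b1 : m 0 1 = 0 := by
    by_contra n
    apply s1
    field_simp at a3
    exact a3
  have b2 : m 1 1 = m 0 0 := mul_left_cancel₀ a0 (by linear_combination a2)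
  refine ⟨m 0 0, ?_⟩
  ext i j; fin_cases i <;> fin_cases j <;> simp [a1, b1, b2]

theorem invG (m : Matrix (Fin 2) (Fin 2) F) (h : ∀ g ∈ GB ρ, (ρ g).1 * m * (ρ g⁻¹).1 = m)
    (g : X) : (ρ g).1 * m * (ρ g⁻¹).1 = m := by
  obtain ⟨c, rfl⟩ := invB S m h
  rw [mul_smul_comm, smul_mul_assoc, mul_one, ← Units.val_mul, ← map_mul]; simp

end Vale.Agent.P022E.GW.Bor
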