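import Vale.Agent.P022E.GW.Defs
import Vale.Agent.P022E.GW.Kc
import Vale.Agent.P022D.Sel.Open

/-!
# P022E, block GW: removal of the ramification outside a big set
-/

set_option linter.all false

noncomputable section

namespace Vale.Agent.P022E.GW

open NumberField IsDedekindDomain
open Vale.Agent.P022 Vale.Agent.P022.C Vale.Agent.P022.H443 Vale.Agent.P022.H916
open Vale.Agent.P027M.S (Pr Inert)
open Vale.Agent.P022D.Sel (Big ov)
open Vale.Agent.P022D.L2c (Hm up)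
open Vale.Agent.P022E.GW.Kc
open Pointwise

/-- removal of the ramification outside a big set of primes -/
def FIX2 : Prop := ∀ (F : Type) [Field F] [Finite F] [CharP F 2] (H : Subgroup GQ) (T : Finset ℕ)
  (w : GQ → F), Bg H T → 2 ∈ T → (∀ l ∈ T, l = 0 ∨ l.Prime) →
  (∃ U : Subgroup GQ, IsOpen (U : Set GQ) ∧ ∀ σ ∈ H ⊓ U, w σ = 0) →
  (∀ l ∉ T, ∀ P : Ideal (𝓞 Qb), Ov l P → ∀ i ∈ H, Inert P i →
    (∀ i' ∈ H, Inert P i' → w (i * i') = w i + w i') ∧ ∀ g ∈ H, w (g * i * g⁻¹) = w i) →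
  ∃ b : GQ → F, Ch H b ∧ ∀ l ∉ T, ∀ P : Ideal (𝓞 Qb), Ov l P → ∀ i ∈ H, Inert P i → b i = w i

namespace Fx2

/-- **finitely many primes ramify** -/
theorem fin_ram (U : Subgroup GQ) (hU : IsOpen (U : Set GQ)) : ∃ n : ℕ, n ≠ 0 ∧
    ∀ P : Ideal (𝓞 Qb), P.IsPrime → (n : 𝓞 Qb) ∉ P → ∀ g, Inert P g → g ∈ U := by
  classical
  haveI := H916.isGalois_Qb
  haveI := H916.isAlg_Qb
  haveI : Finite (GQ ⧸ U) := Subgroup.quotient_finite_of_isOpen U hU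
  haveI := Fintype.ofFinite (GQ ⧸ U)
  have k : ∀ c : GQ ⧸ U, ∃ n : ℕ, n ≠ 0 ∧ ∀ P : Ideal (𝓞 Qb), ∀ g : GQ, (g : GQ ⧸ U) = c →
      g ∉ U → Inert P g → (n : 𝓞 Qb) ∈ P := fun c => by
    obtain ⟨s, rfl⟩ := QuotientGroup.mk_surjective c
    by_cases hs : s ∈ U
    · refine ⟨1, one_ne_zero, fun P g e hg _ => (hg ?_).elim⟩
      have := QuotientGroup.eq.1 e
      exact (U.inv_mem_iff).1 ((U.mul_mem_cancel_right hs).1 this)
    obtain ⟨θ, t1, t2⟩ := sep U (U.isClosed_of_isOpen hU) hs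
    haveI : Algebra.IsAlgebraic ℤ Qb :=
      (IsFractionRing.comap_isAlgebraic_iff (A := ℤ) (K := ℚ) (C := Qb)).2 inferInstance
    obtain ⟨y, y0, hy⟩ := (Algebra.IsAlgebraic.isAlgebraic (R := ℤ) θ).exists_integral_multiple
    let X : 𝓞 Qb := ⟨y • θ, hy⟩
    have d0 : s • X - X ≠ 0 := fun e => t2 (by
      have e1 : s (y • θ) = y • θ := congrArg (fun z : 𝓞 Qb => (z : Qb)) (sub_eq_zero.1 e)
      rw [map_zsmul] at e1
      exact smul_right_injective Qb y0 e1)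
    obtain ⟨m, hm, m0⟩ := Submodule.exists_mem_ne_zero_of_ne_bot
      (Ideal.comap_ne_bot_of_integral_mem (R := ℤ) (I := Ideal.span {s • X - X}) d0
        (Ideal.mem_span_singleton_self _) (RingOfIntegers.isIntegral _))
    refine ⟨m.natAbs, Int.natAbs_ne_zero.2 m0, fun P g e _ hi => ?_⟩
    have e1 : g • X = s • X := RingOfIntegers.ext (by
      show g (y • θ) = s (y • θ)
      have := t1 _ (QuotientGroup.eq.1 e)
      have e3 := congrArg g this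
      rw [← AlgEquiv.mul_apply, mul_inv_cancel_left] at e3
      rw [map_zsmul, map_zsmul, e3])
    have e2 : (m : 𝓞 Qb) ∈ P := (Ideal.span_singleton_le_iff_mem P).2 (e1 ▸ hi X) hm
    rcases Int.natAbs_eq m with h | h
    · rwa [h, Int.cast_natCast] at e2
    · rwa [h, Int.cast_neg, neg_mem_iff, Int.cast_natCast] at e2
  choose n n0 hn using k
  refine ⟨∏ c, n c, Finset.prod_ne_zero_iff.2 fun c _ => n0 c, fun P hP h g hi => ?_⟩
  by_contra hg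
  obtain ⟨t, ht⟩ := Finset.dvd_prod_of_mem n (Finset.mem_univ (g : GQ ⧸ U))
  rw [ht, Nat.cast_mul] at h
  exact h (P.mul_mem_right _ (hn _ P g rfl hg hi))

/-- the tame quotient of `H ⊓ I` is cyclic -/
theorem cyc (H U : Subgroup GQ) [hn : U.Normal] (hU : IsOpen (U : Set GQ)) {l : ℕ}
    {P : Ideal (𝓞 Qb)} (h : Ov l P) (h2 : l ≠ 2) : ∃ τ ∈ H ⊓ inP P, ∀ g ∈ H ⊓ inP P,
      ∃ n : ℕ, P022D.W.OddMod U ((τ ^ n)⁻¹ * g) := by
  obtain ⟨k, _, _, χ, hfin, h1, -, -⟩ := P022D.W.chi_data U hU h.1 h2 h.2.1 h.2.2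
  let ι := Subgroup.inclusion (inf_le_right : H ⊓ inP P ≤ inP P)
  let χ' := χ.toHomUnits.comp ι
  have hfin' : Finite χ'.range := by
    have := hfin.to_subtype
    refine Finite.of_injective (β := Set.range χ)
      (fun x => ⟨(x.1 : k), by obtain ⟨g, hg⟩ := x.2; exact ⟨ι g, by rw [← hg]; rfl⟩⟩) ?_
    intro x y h
    exact Subtype.ext (Units.ext (Subtype.ext_iff.1 h))
  have hc : IsCyclic χ'.range := isCyclic_of_injective_ringHom
    ((Units.coeHom k).comp χ'.range.subtype) (fun x y h => Subtype.ext (Units.ext h))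
  obtain ⟨⟨_, τ, rfl⟩, hτ⟩ := IsCyclic.exists_monoid_generator (α := χ'.range)
  refine ⟨τ, τ.2, fun g hg => ?_⟩
  obtain ⟨n, hn⟩ := hτ ⟨χ' ⟨g, hg⟩, _, rfl⟩
  have hn' : χ' τ ^ n = χ' ⟨g, hg⟩ := congrArg Subtype.val hn
  have : χ' ((τ ^ n)⁻¹ * (⟨g, hg⟩ : ↥(H ⊓ inP P))) = 1 := by
    rw [map_mul, map_inv, map_pow, hn', inv_mul_cancel]
  exact ⟨n, h1 (ι ((τ ^ n)⁻¹ * (⟨g, hg⟩ : ↥(H ⊓ inP P)))) (congrArg Units.val this)⟩

variable {F : Type} [Field F] [CharP F 2]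

theorem add_pow {Δ : Subgroup GQ} {w : GQ → F} (ha : ∀ g ∈ Δ, ∀ h ∈ Δ, w (g * h) = w g + w h)
    {g : GQ} (hg : g ∈ Δ) (n : ℕ) : w (g ^ n) = n * w g := by
  induction n with
  | zero =>
    have := ha 1 Δ.one_mem 1 Δ.one_mem
    rw [one_mul] at this
    rw [pow_zero, left_eq_add.1 this, Nat.cast_zero, zero_mul]
  | succ n ih => rw [pow_succ, ha _ (Δ.pow_mem hg n) _ hg, ih]; push_cast; ring

theorem val_cyc {Δ U : Subgroup GQ} {w : GQ → F} (ha : ∀ g ∈ Δ, ∀ h ∈ Δ, w (g * h) = w g + w h)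
    (h0 : ∀ g ∈ Δ, g ∈ U → w g = 0) {τ g : GQ} (hτ : τ ∈ Δ) (hg : g ∈ Δ) {n : ℕ}
    (h : P022D.W.OddMod U ((τ ^ n)⁻¹ * g)) : w g = n * w τ := by
  obtain ⟨m, ⟨k, rfl⟩, e⟩ := h
  have x : (τ ^ n)⁻¹ * g ∈ Δ := Δ.mul_mem (Δ.inv_mem (Δ.pow_mem hτ n)) hg
  have e1 := h0 _ (Δ.pow_mem x _) e
  rw [add_pow ha x, Nat.cast_add, Nat.cast_mul, Nat.cast_ofNat, CharTwo.two_eq_zero, zero_mul,
    zero_add, Nat.cast_one, one_mul] at e1
  rw [← add_pow ha hτ, ← add_zero (w (τ ^ n)), ← e1, ← ha _ (Δ.pow_mem hτ n) _ x,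
    mul_inv_cancel_left]

/-- **the tame characters form a line** -/
theorem line {H : Subgroup GQ} {l : ℕ} {P : Ideal (𝓞 Qb)} (h : Ov l P) (h2 : l ≠ 2) {w : GQ → F}
    (ha : ∀ g ∈ H ⊓ inP P, ∀ h ∈ H ⊓ inP P, w (g * h) = w g + w h)
    (ho : ∃ U : Subgroup GQ, IsOpen (U : Set GQ) ∧ ∀ σ ∈ H ⊓ U, w σ = 0) {x : Qb}
    (hx : ∀ g ∈ H ⊓ inP P, g x = x) {i₀ : GQ} (h0 : i₀ ∈ H ⊓ inP P) (h1 : kq x i₀ = 1) :
    ∀ g ∈ H ⊓ inP P, w g = w i₀ * up F (kq x g) := by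
  obtain ⟨U, hU, hw⟩ := ho
  obtain ⟨V, hV, hk⟩ := kq_opn x
  have hW := P022D.Sel.opn_core (U ⊓ V) (hU.inter hV)
  have hle : (U ⊓ V).normalCore ≤ U ⊓ V := Subgroup.normalCore_le _
  obtain ⟨τ, hτ, hc⟩ := cyc H (U ⊓ V).normalCore hW h h2
  have a1 : ∀ g ∈ H ⊓ inP P, ∃ n : ℕ, w g = n * w τ ∧ kq x g = n * kq x τ := fun g hg => by
    obtain ⟨n, hn⟩ := hc g hg
    exact ⟨n, val_cyc ha (fun g a b => hw g ⟨a.1, (hle b).1⟩) hτ hg hn,
      val_cyc (fun a p b q => kq_add (hx a p) (hx b q)) (fun g _ b => hk g (hle b).2) hτ hg hn⟩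
  obtain ⟨n0, b1, b2⟩ := a1 i₀ h0
  have t1 : kq x τ = 1 := (z2 _).resolve_left fun e => by
    rw [e, mul_zero, h1] at b2
    exact one_ne_zero b2
  intro g hg
  obtain ⟨n, c1, c2⟩ := a1 g hg
  rw [t1, mul_one] at b2 c2
  have u0 : (n0 : F) = 1 := by rw [← map_natCast (up F), ← b2, h1, map_one]
  rw [c1, c2, b1, u0, map_natCast, one_mul, mul_comm]

theorem inert_conj {P : Ideal (𝓞 Qb)} {g i : GQ} (h : Inert (g • P) i) :
    Inert P (g⁻¹ * i * g) := fun x => by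
  have := Ideal.mem_pointwise_smul_iff_inv_smul_mem.1 (h (g • x))
  rwa [smul_sub, inv_smul_smul, ← mul_smul, ← mul_smul] at this

end Fx2

open Fx2

/-- **row FIX** (for sets of primes) -/
theorem fix2 : FIX2 := by
  classical
  rintro F _ _ _ H T w ⟨L, _, _, j, rfl, hB⟩ h2 hT ho hw
  obtain ⟨U, hU, hU0⟩ := ho
  obtain ⟨n, n0, hn⟩ := fin_ram U hU
  have fin : {v : Pr L | (n : 𝓞 L) ∈ v.asIdeal ∧ v ∉ ov L T}.Finite :=
    (Ideal.finite_factors (I := Ideal.span {(n : 𝓞 L)}) (by simpa using n0)).subset fun v hv =>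
      Ideal.dvd_span_singleton.2 hv.1
  choose Pv p1 p2 using ex_above j
  choose! π π0 o1 o2 using hB
  have k : ∀ v : Pr L, v ∉ ov L T → ∃ c : F, ∀ g ∈ GK j, Inert (Pv v) g →
      w g = c * up F (kq (j (π v)) g) := fun v hv => by
    obtain ⟨l, hl, m⟩ := prime_mem v
    have lT : l ∉ T := fun k => hv ⟨l, k, hl.ne_zero, m⟩
    have hO : Ov l (Pv v) := ⟨hl, p1 v, (nat_mem j (p2 v) l).1 m⟩
    obtain ⟨i₀, a1, a2, a3⟩ := ex_ram j (π0 v hv) v (p1 v) (p2 v) (by rw [o1 v hv]; exact odd_one)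
    exact ⟨w i₀, fun g b1 b2 => line hO (fun e => lT (e ▸ h2))
      (fun a p b q => (hw l lT _ hO a p.1 p.2).1 b q.1 q.2) ⟨U, hU, hU0⟩
      (fun g p => p.1 _) ⟨a1, a2⟩ a3 g ⟨b1, b2⟩⟩
  choose! c hc using k
  refine ⟨fun g => ∑ v ∈ fin.toFinset, c v * up F (kq (j (π v)) g), ?_, ?_⟩
  · have e : (fun x : GK j => ∑ v ∈ fin.toFinset, c v * up F (kq (j (π v)) x)) =
        ∑ v ∈ fin.toFinset, c v • fun x : GK j => up F (kq (j (π v)) x) := by
      funext x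
      simp [Finset.sum_apply]
    show _ ∈ Hm F (GK j)
    rw [e]
    refine Submodule.sum_mem _ fun v _ => Submodule.smul_mem _ _ ⟨?_, fun x y => ?_⟩
    · exact ((kq_lc _).comp_continuous continuous_subtype_val).comp (up F)
    · show up F (kq _ (x * y : GQ)) = _
      rw [kq_addL j _ x.2 y.2, map_add]
  · intro l lT P hO i hi hI
    obtain ⟨v, hv, m⟩ := ex_below j hO.1.ne_zero hO.2.1 hO.2.2
    have o := not_ov hT hO.1 lT m
    have z : ∀ v' ∈ fin.toFinset, v' ≠ v → c v' * up F (kq (j (π v')) i) = 0 := fun v' a b => by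
      have a' := (fin.mem_toFinset.1 a).2
      rw [kq_even j (π0 v' a') v hO.2.1 hv (two_not j h2 o hv)
        (by rw [o2 v' a' v o b.symm]; exact Even.zero) hi hI, map_zero, mul_zero]
    by_cases hS : v ∈ fin.toFinset
    · show ∑ v ∈ fin.toFinset, _ = _
      rw [Finset.sum_eq_single_of_mem v hS z]
      obtain ⟨g, rfl⟩ := exists_smul j (p1 v) hO.2.1 ((p2 v).trans hv.symm)
      have g1 := (GK j).inv_mem g.2
      have e1 := (hw l lT _ hO i hi hI).2 _ g1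
      have e2 := kq_conj (j (π v)) (g : GQ)⁻¹ i
      rw [inv_inv] at e1 e2
      rw [g1 (π v)] at e2
      rw [← e1, hc v o _ ((GK j).mul_mem ((GK j).mul_mem g1 hi) g.2) (inert_conj hI), e2]
    · show ∑ v ∈ fin.toFinset, _ = _
      rw [Finset.sum_eq_zero fun v' a => z v' a fun e => hS (e ▸ a)]
      refine (hU0 i ⟨hi, hn P hO.2.1 (fun e => hS (fin.mem_toFinset.2 ⟨?_, o⟩)) i hI⟩).symm
      exact (nat_mem j hv n).2 e

end Vale.Agent.P022E.GW
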