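import Vale.Agent.P022E.GW.ObsH35
import Vale.Agent.P022E.GW.Lift
import Vale.Agent.P022E.GW.All0

/-!
# P022E, block GW: all rows are closed
-/

set_option linter.all false

noncomputable section

namespace Vale.Agent.P022E.GW.Al

open Vale.Agent.P022
open Vale.Agent.P027M.S (Inert mx)
open Vale.Agent.P022E.GW.Fb Vale.Agent.P022E.GW.H35

variable {F : Type} [Field F] [Finite F] {ρ : GQ →* GL (Fin 2) F}

theorem fn_fin (θ : GQ → F) (T : Finset ℕ) (D : ℕ → Set GQ) :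
    Module.rank F (FN ρ θ T D) < Cardinal.aleph0 := by
  let φ : FN ρ θ T D →ₗ[F] (T × ρ.range → F) :=
    { toFun := fun f p => f.1 p.1 (Classical.choose p.2.2)
      map_add' := fun _ _ => rfl
      map_smul' := fun _ _ => rfl }
  refine (φ.rank_le_of_injective ((injective_iff_map_eq_zero _).2 fun f hf => ?_)).trans_lt
    (Module.rank_lt_aleph0 F _)
  refine Subtype.ext (funext fun l => ?_)
  by_cases hl : l ∈ T
  swap
  · exact f.2.1.1 l hl
  funext g
  let x : ρ.range := ⟨ρ g, g, rfl⟩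
  have e : ρ (Classical.choose x.2) = ρ g := Classical.choose_spec x.2
  have k : f.1 l (Classical.choose x.2) = 0 := congrFun hf (⟨l, hl⟩, x)
  have m : g * (Classical.choose x.2)⁻¹ ∈ GB ρ := (uni (Bor.ker_le (ρ := ρ) (by
    rw [MonoidHom.mem_ker, map_mul, map_inv, e, mul_inv_cancel]))).1
  have := f.2.1.2.1 l _ m (Classical.choose x.2)
  rwa [inv_mul_cancel_right, k, mul_zero] at this

/-- **the lower bound over the field of the upper triangular subgroup** -/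
theorem lbb (hH : HASSE) (hS : SYL) (h1 : ONE) (hU : UNR) (hO : ODG) (hC : CHR) :
    LBB := by
  intro F _ _ _ ρ T D H
  have hd : ∀ g, (mx ρ g).det = 1 := Bor.det H.std
  have oB : IsOpen (GB ρ : Set GQ) := Subgroup.isOpen_mono (H₁ := ρ.ker)
    (fun x hx => (uni (Bor.ker_le (ρ := ρ) hx)).1) H.opn
  obtain ⟨K, k1, k2, k3⟩ := obs hH hS h1 hU hO H
  have c0 := Lf.cnt0 H K fun k hk => ⟨(k1 hk).1, (k1 hk).2, k2 k hk⟩
  obtain ⟨h, hh, h2, -⟩ := Bor.gen H.std
  have u0 : ∀ g, ρ g = 1 → ch ρ g = 1 := fun g e => by rw [ch, mx1 e]; simp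
  have u1 : ∀ g, ρ g = 1 → ci ρ g = 1 := fun g e => by rw [ci, mx1 e]; simp
  have c1 := (hC F (GB ρ) (fun _ => 1) T D oB rfl (fun _ _ _ _ => (mul_one _).symm)
    ⟨⊤, isOpen_univ, fun _ _ => rfl⟩ H.h0 H.h2 H.dec fun _ _ _ _ _ _ _ => rfl).1
  have c2 := (hC F (GB ρ) (ch ρ) T D oB (u0 1 (map_one ρ))
    (fun g _ k hk => by rw [ch, ch, ch, ← mul_pow]; exact congrArg (· ^ 2) (Bor.e00 (ρ := ρ) hk))
    ⟨ρ.ker, H.opn, u0⟩ H.h0 H.h2 H.dec fun l hl P hP g _ k => u0 g (H.unr l hl P hP g k)).2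
    ⟨h, hh, h2⟩
  have c3 := (hC F (GB ρ) (ci ρ) T D oB (u1 1 (map_one ρ))
    (fun g hg k _ => by rw [ci, ci, ci, ← mul_pow]; exact congrArg (· ^ 2) (Bor.e11 (ρ := ρ) hg))
    ⟨ρ.ker, H.opn, u1⟩ H.h0 H.h2 H.dec fun l hl P hP g _ k => u1 g (H.unr l hl P hP g k)).2
    ⟨h, hh, fun e => h2 (by
      have := ch_ci hd hh
      rwa [e, mul_one] at this)⟩
  have c4 := fxb hd T D
  have fin := Cardinal.add_lt_aleph0 (fn_fin (ρ := ρ) (fun _ => 1) T D) (fn_fin (ρ := ρ) (ch ρ) T D)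
  rw [← Cardinal.add_le_add_iff_of_lt_aleph0 fin]
  calc _ = Module.rank F (Fx ρ T D (GB ρ)) + Module.rank F (FN ρ (fun _ => 1) T D) +
        Module.rank F (FN ρ (ch ρ) T D) + 3 := by ring
    _ ≤ _ := add_le_add c4 le_rfl
    _ = Module.rank F (Ft (fun _ => (1 : F)) T D (GB ρ)) +
        (Module.rank F (Ft (ch ρ) T D (GB ρ)) + 1) +
        ((Module.rank F (Ft (ci ρ) T D (GB ρ)) + 1) +
          Module.rank F (Ft (fun _ => (1 : F)) T D (GB ρ)) + 1) := by ring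
    _ ≤ _ := add_le_add (add_le_add c1 c2) ((add_le_add (add_le_add c3 c1) le_rfl).trans k3)
    _ = Module.rank F (Zt (fun _ => (1 : F)) T (GB ρ)) + Module.rank F (Zt (ch ρ) T (GB ρ)) +
        Module.rank F K + (Module.rank F (FN ρ (fun _ => 1) T D) +
          Module.rank F (FN ρ (ch ρ) T D)) := by ring
    _ ≤ _ := add_le_add c0 le_rfl

end Vale.Agent.P022E.GW.Al

namespace Vale.Agent.P022E.GW

theorem lbbC : LBB := Al.lbb hasseCC sylC oneC unrC odg chrC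

theorem lbC : LB := desc lbbC

theorem selC : Sel.SEL := sel_lbb lbbC

end Vale.Agent.P022E.GW
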