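import Vale.Agent.P022E.GW.Obs89
import Vale.Agent.P022E.GW.Lift

/-!
# P022E, block GW: the lower bound over the field of the upper triangular subgroup
-/

set_option linter.all false

noncomputable section

namespace Vale.Agent.P022E.GW.H89

open Vale.Agent.P022
open Vale.Agent.P027M.S (Inert mx)
open Vale.Agent.P022E.GW.Fb (ch ci Ns FN Sup)

theorem lbb (hH : HASSE) (hS : SYL) (hone : ONE) (hC : CHR) : LBB := by
  intro F _ _ _ ρ T D h
  have hd := Bor.det h.std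
  obtain ⟨K, hK, r1⟩ := obs hH hS hone h
  have r2 := Lf.cnt0 h K hK
  have r3 := Fb.fxb hd T D
  obtain ⟨t, ht, t1, -⟩ := Bor.gen h.std
  have m1 : mx ρ 1 = 1 := by simp [mx]
  have mk : ∀ g, ρ g = 1 → mx ρ g = 1 := fun g k => by simp [mx, k]
  have c1 := (hC F (GB ρ) (fun _ => 1) T D (opB h) rfl (fun _ _ _ _ => (one_mul _).symm)
    ⟨⊤, isOpen_univ, fun _ _ => rfl⟩ h.h0 h.h2 h.dec fun _ _ _ _ _ _ _ => rfl).1
  have c2 := (hC F (GB ρ) (ch ρ) T D (opB h) (by simp [ch, m1])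
    (fun g _ k hk => by
      have e : mx ρ (g * k) 0 0 = mx ρ g 0 0 * mx ρ k 0 0 := Bor.e00 hk
      simp only [ch, e, mul_pow])
    ⟨ρ.ker, h.opn, fun g k => by simp [ch, mk g k]⟩ h.h0 h.h2 h.dec
    fun l hl P hP g _ k => by simp [ch, mk g (h.unr l hl P hP g k)]).2 ⟨t, ht, t1⟩
  have c3 := (hC F (GB ρ) (ci ρ) T D (opB h) (by simp [ci, m1])
    (fun g hg k _ => by
      have e : mx ρ (g * k) 1 1 = mx ρ g 1 1 * mx ρ k 1 1 := Bor.e11 hg
      simp only [ci, e, mul_pow])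
    ⟨ρ.ker, h.opn, fun g k => by simp [ci, mk g k]⟩ h.h0 h.h2 h.dec
    fun l hl P hP g _ k => by simp [ci, mk g (h.unr l hl P hP g k)]).2
      ⟨t, ht, fun e => t1 (by
        have := Fb.ch_ci hd ht
        rwa [e, mul_one] at this)⟩
  have i0 : (GB ρ).index ≠ 0 := (Bor.oddB h.std).pos.ne'
  have f1 : Module.rank F (FN ρ (fun _ => 1) T D) < Cardinal.aleph0 :=
    (Submodule.rank_mono inf_le_left).trans_lt (ft_fin i0 fun _ _ => one_ne_zero)
  have f2 : Module.rank F (FN ρ (ch ρ) T D) < Cardinal.aleph0 :=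
    (Submodule.rank_mono inf_le_left).trans_lt
      (ft_fin i0 fun _ k => left_ne_zero_of_mul_eq_one (Fb.ch_ci hd k))
  rw [← Cardinal.add_le_add_iff_of_lt_aleph0 (Cardinal.add_lt_aleph0 f1 f2)]
  change Module.rank F (Zt (fun _ => (1 : F)) T (GB ρ)) + Module.rank F (Zt (ch ρ) T (GB ρ)) +
    Module.rank F K ≤ _ at r2
  generalize Module.rank F (Fx ρ T D (GB ρ)) = x at *
  generalize Module.rank F (FN ρ (fun _ => 1) T D) = n1 at *
  generalize Module.rank F (FN ρ (ch ρ) T D) = n2 at *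
  generalize Module.rank F (Ft (fun _ => (1 : F)) T D (GB ρ)) = a1 at *
  generalize Module.rank F (Ft (ch ρ) T D (GB ρ)) = a2 at *
  generalize Module.rank F (Ft (ci ρ) T D (GB ρ)) = a3 at *
  generalize Module.rank F (Zt (fun _ => (1 : F)) T (GB ρ)) = z1 at *
  generalize Module.rank F (Zt (ch ρ) T (GB ρ)) = z2 at *
  generalize Module.rank F (Zt (ci ρ) T (GB ρ)) = z3 at *
  calc x + 3 + (n1 + n2) = x + n1 + n2 + 3 := by ring
    _ ≤ a1 + a1 + a2 + a3 + 3 := add_le_add r3 le_rfl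
    _ = a1 + (a2 + 1) + (a3 + 1 + a1 + 1) := by ring
    _ ≤ z1 + z2 + (z3 + z1 + 1) :=
      add_le_add (add_le_add c1 c2) (add_le_add (add_le_add c3 c1) le_rfl)
    _ ≤ z1 + z2 + (Module.rank F K + n1 + n2) := add_le_add le_rfl r1
    _ = z1 + z2 + Module.rank F K + (n1 + n2) := by ring
    _ ≤ _ := add_le_add r2 le_rfl

end Vale.Agent.P022E.GW.H89
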