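import Vale.Agent.P022E.GW.All0
import Vale.Agent.P022E.GW.Lbb89

/-!
# P022E, block GW: the closed statements
-/

namespace Vale.Agent.P022E.GW.H89

theorem lbbC : LBB := lbb hasseCC sylC oneC chrC

theorem selC : Sel.SEL := sel_lbb lbbC

end Vale.Agent.P022E.GW.H89
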