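import Vale.Agent.P022E.Sel.Defs
import Vale.Agent.P022E.GW.Bor

/-!
# P022E, block GW: reduction to the standard position
-/

set_option linter.all false

noncomputable section

namespace Vale.Agent.P022E.GW.Bor

open Vale.Agent.P022 Vale.Agent.P022E.Sel
open Vale.Agent.P027M.S (mx)

variable {F : Type} [Field F] (w : GL (Fin 2) F) (ρ : GQ →* GL (Fin 2) F)

/-- the conjugate representation -/
def cj : GQ →* GL (Fin 2) F := (MulAut.conj w).toMonoidHom.comp ρ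

theorem cj_apply (g : GQ) : cj w ρ g = w * ρ g * w⁻¹ := rfl

theorem mx_cj (g : GQ) : mx (cj w ρ) g = w.1 * mx ρ g * (w⁻¹).1 := rfl

theorem cj_one {g : GQ} : cj w ρ g = 1 ↔ ρ g = 1 := by
  rw [cj_apply, mul_inv_eq_one, mul_eq_left]

theorem cj_range : (cj w ρ).range = ρ.range.map (MulAut.conj w).toMonoidHom :=
  MonoidHom.range_comp _ _

theorem tr_cj (g : GQ) : (mx (cj w ρ) g).trace = (mx ρ g).trace := by
  rw [mx_cj, Matrix.trace_mul_comm, ← mul_assoc, ← Units.val_mul]; simp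

theorem det_cj (g : GQ) : (mx (cj w ρ) g).det = (mx ρ g).det := by
  rw [mx_cj, Matrix.det_mul_comm, ← mul_assoc, ← Units.val_mul]; simp

theorem ad_cj (g : GQ) (m : M2 F) :
    mx (cj w ρ) g * (w.1 * m * (w⁻¹).1) * mx (cj w ρ) g⁻¹ =
      w.1 * (mx ρ g * m * mx ρ g⁻¹) * (w⁻¹).1 := by
  simp only [mx_cj, mul_assoc, Units.inv_mul_cancel_left]

theorem sc_iff {ρ : GQ →* GL (Fin 2) F} {g : GQ} : Sc ρ g ↔ ∃ c : F, mx ρ g = c • 1 := by
  refine ⟨fun ⟨a, b, c⟩ => ⟨mx ρ g 0 0, ?_⟩, fun ⟨c, h⟩ => ?_⟩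
  · ext i j; fin_cases i <;> fin_cases j <;> simp [a, b, c]
  · simp [Sc, h]

theorem sc_cj {g : GQ} (h : Sc (cj w ρ) g) : Sc ρ g := by
  obtain ⟨c, h⟩ := sc_iff.1 h
  refine sc_iff.2 ⟨c, ?_⟩
  have : mx ρ g = (w⁻¹).1 * mx (cj w ρ) g * w.1 := by
    simp only [mx_cj, mul_assoc, Units.inv_mul_cancel_left, Units.inv_mul, mul_one]
  rw [this, h, mul_smul_comm, smul_mul_assoc, mul_one, Units.inv_mul]

variable {ρ}

theorem aux_cj {U : Subgroup GQ} {A : Finset ℕ} {σ : GQ} {q : ℕ} (h : Aux ρ U A σ q) :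
    Aux (cj w ρ) U A σ q := by
  obtain ⟨a, b, φ, m, c, d, e, f⟩ := h
  exact ⟨a, b, φ, m, c, d, e, fun k => f (sc_cj w ρ k)⟩

theorem dh_cj {H : Subgroup GQ} (h : Dh ρ H) : Dh (cj w ρ) H where
  opn := by simpa only [cj_one] using h.opn
  det g := by rw [det_cj, h.det]
  eig g := by rw [det_cj, tr_cj]; exact h.eig g
  nsv := fun s => h.nsv <| by
    rw [cj_range] at s
    haveI : Group.IsSolvable (ρ.range.map (MulAut.conj w).toMonoidHom) := s
    exact Group.isSolvable_of_isSolvable_injective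
      (f := (ρ.range.equivMapOfInjective (MulAut.conj w).toMonoidHom
        (MulAut.conj w).injective).toMonoidHom)
      (MulEquiv.injective _)

theorem tanP_cj {T Q : Finset ℕ} {D : ℕ → Set GQ} {c : GQ → M2 F} {a : ℕ → M2 F}
    (h : TanP ρ T Q D c a) :
    TanP (cj w ρ) T Q D (fun g => w.1 * c g * (w⁻¹).1) (fun l => w.1 * a l * (w⁻¹).1) where
  coc g k := by rw [ad_cj, h.coc, mul_add, add_mul]
  opn := h.opn.imp fun U k => ⟨k.1, fun σ s => by simp only [k.2 σ s, mul_zero, zero_mul]⟩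
  unr l a b c P d e g f := by simp only [h.unr l a b c P d e g f, mul_zero, zero_mul]
  loc l a g b := by rw [ad_cj, h.loc l a g b, mul_sub, sub_mul]
  zero l a := by simp only [h.zero l a, mul_zero, zero_mul]

/-- conjugation of matrices -/
def cm : M2 F →ₗ[F] M2 F where
  toFun m := w.1 * m * (w⁻¹).1
  map_add' a b := by rw [mul_add, add_mul]
  map_smul' r a := by rw [mul_smul_comm, smul_mul_assoc]; rfl

theorem cm_inj : Function.Injective (cm w) := fun a b h =>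
  (Units.mul_right_inj w).1 ((Units.mul_left_inj w⁻¹).1 h)

theorem tan_cj {T Q : Finset ℕ} {D : ℕ → Set GQ} {N : ℕ} (h : Tan (cj w ρ) T Q D N) :
    Tan ρ T Q D N := fun Z hZ => by
  let f := ((cm w).compLeft GQ).prodMap ((cm w).compLeft ℕ)
  have i : Function.Injective f := fun a b e => Prod.ext
    (funext fun g => cm_inj w (congrFun (congrArg Prod.fst e) g))
    (funext fun g => cm_inj w (congrFun (congrArg Prod.snd e) g))
  rw [(Submodule.equivMapOfInjective f i Z).rank_eq]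
  refine h _ ?_
  rintro _ ⟨z, hz, rfl⟩
  exact tanP_cj w (hZ z hz)

theorem ex_std [Finite F] [CharP F 2] {H : Subgroup GQ} (h : Dh ρ H) :
    ∃ w, Gp.Std (cj w ρ).range := by
  obtain ⟨w, k⟩ := Gp.std0 F ρ.range ⟨inferInstance, by rintro _ ⟨g, rfl⟩; exact h.det g⟩ h.nsv
  exact ⟨w, by rwa [cj_range]⟩

/-- the statement in the standard position -/
def SELS : Prop := ∀ (F : Type) [Field F] [Finite F] [CharP F 2] (ρ : GQ →* GL (Fin 2) F)
  (H : Subgroup GQ) (T : Finset ℕ) (D : ℕ → Set GQ), Dh ρ H → Gp.Std ρ.range → 0 ∈ T → 2 ∈ T →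
  (∀ l ∈ T, IsDec l (D l)) →
  ∃ (r : ℕ) (σ : Fin r → GQ) (U : Subgroup GQ) (A : Finset ℕ), IsOpen (U : Set GQ) ∧ U.Normal ∧
    (∀ g ∈ U, ρ g = 1) ∧ T ⊆ A ∧ (∀ i, σ i ∈ Ginf ∧ (mx ρ (σ i)).trace ≠ 0) ∧
    ∀ q : Fin r → ℕ, Function.Injective q → (∀ i, Aux ρ U A (σ i) (q i)) →
      Tan ρ T (Finset.univ.image q) D (2 * r + 5)

theorem sel_of_std (h : SELS) : SEL := fun F _ _ _ ρ H T D d h0 h2 hD => by
  obtain ⟨w, s⟩ := ex_std d
  obtain ⟨r, σ, U, A, a, b, c, e, f, k⟩ := h F (cj w ρ) H T D (dh_cj w d) s h0 h2 hD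
  exact ⟨r, σ, U, A, a, b, fun g hg => (cj_one w ρ).1 (c g hg), e,
    fun i => ⟨(f i).1, tr_cj w ρ _ ▸ (f i).2⟩,
    fun q i x => tan_cj w (k q i fun j => aux_cj w (x j))⟩

end Vale.Agent.P022E.GW.Bor
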