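import Vale.Agent.P022E.GW.Defs
import Vale.Agent.P022D.Sel.Kill
import Vale.Agent.P022D.Sel.Inj
import Vale.Agent.P022D.L2c.Sym
import Vale.Agent.P022D.W.Tame
import Vale.Agent.P011.Arith.Hasse4
import Vale.Agent.P027M.S.Kum

/-!
# P022, block GW: the local norm index for global quadratic characters
-/

set_option linter.all false

noncomputable section

namespace Vale.Agent.P022E.GW.Ni

open NumberField IsDedekindDomain
open Vale.Agent.P022 Vale.Agent.P022D Vale.Agent.P022D.L2c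

/-- the sign -/
def sg (a : ZMod 2) : Qb := if a = 0 then 1 else -1

theorem sg_zero : sg 0 = 1 := if_pos rfl

theorem sg_one : sg 1 = -1 := if_neg (by decide)

theorem sg_add (a b : ZMod 2) : sg (a + b) = sg a * sg b := by
  rcases Sym.z2 a with rfl | rfl <;> rcases Sym.z2 b with rfl | rfl
  · simp [sg_zero]
  · simp [sg_zero]
  · simp [sg_zero]
  · rw [show (1 + 1 : ZMod 2) = 0 from rfl, sg_zero, sg_one]; norm_num

theorem sg_sq (a : ZMod 2) : sg a * sg a = 1 := by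
  rw [← sg_add, CharTwo.add_self_eq_zero, sg_zero]

theorem sg_inj {a b : ZMod 2} (h : sg a = sg b) : a = b := by
  rcases Sym.z2 a with rfl | rfl <;> rcases Sym.z2 b with rfl | rfl
  · rfl
  · rw [sg_zero, sg_one] at h; norm_num at h
  · rw [sg_zero, sg_one] at h; norm_num at h
  · rfl

theorem map_sg (g : GQ) (a : ZMod 2) : g (sg a) = sg a := by
  rcases Sym.z2 a with rfl | rfl
  · rw [sg_zero, map_one]
  · rw [sg_one, map_neg, map_one]

theorem lc_app (u : Qb) : IsLocallyConstant fun g : GQ => g u := by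
  haveI : Algebra.IsAlgebraic ℚ Qb := AlgebraicClosure.isAlgebraic ℚ
  have h : IsOpen ((MulAction.stabilizer GQ u : Subgroup GQ) : Set GQ) :=
    stabilizer_isOpen_of_isIntegral u
  refine (IsLocallyConstant.iff_exists_open _).2 fun g => ⟨(fun x => g⁻¹ * x) ⁻¹' _,
    h.preimage (continuous_const.mul continuous_id), by simp, fun x hx => ?_⟩
  have e : (g⁻¹ * x) u = u := hx
  have := congrArg g e
  rwa [← AlgEquiv.mul_apply, mul_inv_cancel_left] at this

/-- `w` is a Kummer generator of `a` -/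
def Km (Δ : Subgroup GQ) (a : Δ → ZMod 2) (w : Qb) : Prop :=
  w ≠ 0 ∧ ∀ g : Δ, (g : GQ) w = sg (a g) * w

/-- restriction -/
def rs {Δ Γ : Subgroup GQ} (h : Δ ≤ Γ) {R : Type} (a : Γ → R) : Δ → R := fun x => a ⟨x, h x.2⟩

theorem rs_hm {Δ Γ : Subgroup GQ} (h : Δ ≤ Γ) {R : Type} [Field R] {a : Γ → R}
    (ha : a ∈ Hm R Γ) : rs h a ∈ Hm R Δ :=
  ⟨ha.1.comp_continuous (continuous_subtype_val.subtype_mk _),
    fun x y => ha.2 ⟨x, h x.2⟩ ⟨y, h y.2⟩⟩

theorem Km.rs {Δ Γ : Subgroup GQ} (h : Δ ≤ Γ) {a : Γ → ZMod 2} {w : Qb} (k : Km Γ a w) :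
    Km Δ (rs h a) w := ⟨k.1, fun g => k.2 ⟨g, h g.2⟩⟩

theorem Km.mul {Δ : Subgroup GQ} {a b : Δ → ZMod 2} {w u : Qb} (k : Km Δ a w) (l : Km Δ b u) :
    Km Δ (a + b) (w * u) := ⟨mul_ne_zero k.1 l.1, fun g => by
  rw [map_mul, k.2, l.2, Pi.add_apply, sg_add]; ring⟩

theorem Km.sq {Δ : Subgroup GQ} {a : Δ → ZMod 2} {w : Qb} (k : Km Δ a w) (g : GQ) (hg : g ∈ Δ) :
    g (w ^ 2) = w ^ 2 := by
  rw [map_pow, k.2 ⟨g, hg⟩, mul_pow, pow_two (sg _), sg_sq, one_mul]

theorem Km.zero {Δ : Subgroup GQ} {a : Δ → ZMod 2} {w : Qb} (k : Km Δ a w) (g : Δ) :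
    a g = 0 ↔ (g : GQ) w = w := by
  rw [k.2]
  refine ⟨fun h => by rw [h, sg_zero, one_mul], fun h => sg_inj ?_⟩
  rw [sg_zero]
  exact mul_right_cancel₀ k.1 (by rw [h, one_mul])

theorem Km.uniq {Δ : Subgroup GQ} {a b : Δ → ZMod 2} {w : Qb} (k : Km Δ a w) (l : Km Δ b w) :
    a = b := funext fun g => sg_inj (mul_right_cancel₀ k.1 (by rw [← k.2, l.2]))

/-- the character of a square root -/
theorem ex_km (Δ : Subgroup GQ) {w : Qb} (w0 : w ≠ 0) (h : ∀ g ∈ Δ, g (w ^ 2) = w ^ 2) :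
    ∃ a ∈ Hm (ZMod 2) Δ, Km Δ a w := by
  classical
  have k : Km Δ (fun g => if (g : GQ) w = w then 0 else 1) w := ⟨w0, fun g => by
    beta_reduce
    split_ifs with e
    · rw [sg_zero, one_mul, e]
    · rw [sg_one, neg_one_mul]
      exact (sq_eq_sq_iff_eq_or_eq_neg.1 (by rw [← map_pow, h g g.2])).resolve_left e⟩
  have l : IsLocallyConstant (fun g : Δ => if (g : GQ) w = w then (0 : ZMod 2) else 1) :=
    ((lc_app w).comp_continuous continuous_subtype_val).comp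
      (fun x => if x = w then (0 : ZMod 2) else 1)
  generalize (fun g : Δ => if (g : GQ) w = w then (0 : ZMod 2) else 1) = a at k l
  refine ⟨a, ⟨l, fun x y => sg_inj (mul_right_cancel₀ w0 ?_)⟩, k⟩
  rw [← k.2, sg_add, Subgroup.coe_mul, AlgEquiv.mul_apply, k.2 y, map_mul, map_sg, k.2 x]
  ring

/-- Kummer theory -/
theorem kum {Γ : Subgroup GQ} (hΓ : IsOpen (Γ : Set GQ)) {a : Γ → ZMod 2}
    (ha : a ∈ Hm (ZMod 2) Γ) : ∃ w, Km Γ a w := by
  by_cases h0 : ∀ g, a g = 0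
  · exact ⟨1, one_ne_zero, fun g => by rw [h0, sg_zero, map_one, one_mul]⟩
  obtain ⟨s, hs⟩ := not_forall.1 h0
  have hs1 := (Sym.z2 _).resolve_left hs
  have a1 : a 1 = 0 := by
    have := ha.2 1 1
    rw [mul_one] at this
    exact left_eq_add.1 this
  have ai : ∀ x, a x⁻¹ = a x := fun x => by
    have := ha.2 x x⁻¹
    rw [mul_inv_cancel, a1] at this
    rw [← neg_eq_iff_add_eq_zero.2 this.symm, CharTwo.neg_eq]
  let H : Subgroup Γ :=
    { carrier := {g | a g = 0}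
      mul_mem' := fun {x y} hx hy => by
        show a (x * y) = 0
        rw [ha.2, hx, hy, add_zero]
      one_mem' := a1
      inv_mem' := fun {x} hx => (ai x).trans hx }
  have hH : IsOpen (H.map Γ.subtype : Set GQ) :=
    hΓ.isOpenMap_subtype_val _ (ha.1 {0})
  have hm : ∀ g : Γ, (g : GQ) ∈ H.map Γ.subtype ↔ a g = 0 := fun g =>
    Subgroup.mem_map_iff_mem Subtype.val_injective
  obtain ⟨θ, t1, t2⟩ := P027M.S.KumAux.sep _ hH (fun h => hs ((hm s).1 h))
  have f0 : ∀ g : Γ, a g = 0 → (g : GQ) θ = θ := fun g h => t1 _ ((hm g).2 h)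
  have f1 : ∀ g : Γ, a g = 1 → (g : GQ) θ = (s : GQ) θ := fun g h => by
    have := congrArg (s : GQ) (f0 (s⁻¹ * g) (by rw [ha.2, ai, h, hs1]; rfl))
    rwa [← AlgEquiv.mul_apply, Subgroup.coe_mul, Subgroup.coe_inv, mul_inv_cancel_left] at this
  refine ⟨θ - (s : GQ) θ, sub_ne_zero.2 t2.symm, fun g => ?_⟩
  rw [map_sub, ← AlgEquiv.mul_apply, ← Subgroup.coe_mul]
  rcases Sym.z2 (a g) with h | h
  · rw [f0 g h, f1 (g * s) (by rw [ha.2, h, hs1, zero_add]), h, sg_zero, one_mul]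
  · rw [f1 g h, f0 (g * s) (by rw [ha.2, h, hs1]; rfl), h, sg_one]; ring

/-- the symbol of a norm is trivial -/
theorem cob_of_norm {Δ : Subgroup GQ} {a b : Δ → ZMod 2} (ha : a ∈ Hm (ZMod 2) Δ)
    (hb : b ∈ Hm (ZMod 2) Δ) {p q x y : Qb} (ka : Km Δ a p) (kb : Km Δ b q)
    (hx : ∀ g ∈ Δ, g x = x) (hy : ∀ g ∈ Δ, g y = y) (e : q ^ 2 = x ^ 2 - p ^ 2 * y ^ 2) :
    cup a b ∈ Cob (ZMod 2) Δ := by
  classical
  obtain ⟨u, hu⟩ := IsAlgClosed.exists_pow_nat_eq (x + p * y) two_pos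
  have q0 := kb.1
  have u0 : u ≠ 0 := by
    rintro rfl
    refine pow_ne_zero 2 q0 ?_
    rw [e]
    linear_combination (-(x - p * y)) * hu
  let U : ZMod 2 → Qb := fun i => if i = 0 then u else q / u
  have U0 : U 0 = u := if_pos rfl
  have U1 : U 1 = q / u := if_neg (by decide)
  have Un : ∀ i, U i ≠ 0 := fun i => by
    rcases Sym.z2 i with rfl | rfl
    · rwa [U0]
    · rw [U1]; exact div_ne_zero q0 u0
  have U2 : ∀ i, U i ^ 2 = x + sg i * p * y := fun i => by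
    rcases Sym.z2 i with rfl | rfl
    · rw [U0, hu, sg_zero, one_mul]
    · rw [U1, sg_one, div_pow, e, div_eq_iff (pow_ne_zero 2 u0), hu]; ring
  have U3 : ∀ i, U i * U (1 + i) = q := fun i => by
    rcases Sym.z2 i with rfl | rfl
    · rw [add_zero, U0, U1]; field_simp
    · rw [show (1 + 1 : ZMod 2) = 0 from rfl, U0, U1]; field_simp
  let z : Δ → ZMod 2 := fun g => if (g : GQ) u = U (a g) then 0 else 1
  have hz : ∀ g : Δ, (g : GQ) u = sg (z g) * U (a g) := fun g => by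
    simp only [z]
    split_ifs with k
    · rw [sg_zero, one_mul, k]
    · rw [sg_one, neg_one_mul]
      refine (sq_eq_sq_iff_eq_or_eq_neg.1 ?_).resolve_left k
      rw [← map_pow, hu, U2, map_add, map_mul, hx _ g.2, hy _ g.2, ka.2]
  have hU : ∀ (g : Δ) i, (g : GQ) (U i) = sg (z g + b g * i) * U (i + a g) := fun g i => by
    rcases Sym.z2 i with rfl | rfl
    · rw [U0, hz, mul_zero, add_zero, zero_add]
    · rw [U1, map_div₀, hz, kb.2, mul_one, sg_add, ← U3 (a g),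
        div_eq_iff (mul_ne_zero (left_ne_zero_of_mul_eq_one (sg_sq _)) (Un _))]
      linear_combination (-(sg (b g) * U (a g) * U (1 + a g))) * sg_sq (z g)
  have key : cup b a ∈ Cob (ZMod 2) Δ := by
    refine ⟨z, (((lc_app u).comp_continuous continuous_subtype_val).prodMk ha.1).comp
      (fun t : Qb × ZMod 2 => if t.1 = U t.2 then (0 : ZMod 2) else 1), fun g h => ?_⟩
    refine sg_inj (mul_right_cancel₀ (Un (a (g * h))) ?_)
    rw [← hz, Subgroup.coe_mul, AlgEquiv.mul_apply, hz h, map_mul, map_sg, hU, ha.2,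
      add_comm (a h), cup, sg_add, sg_add, sg_add]
    ring
  exact (Submodule.add_mem_iff_left _ key).1 (Sym.symm ha hb)

variable {K : Type} [Field K] [NumberField K]

/-- local squares -/
theorem ls_fix (j : K →+* Qb) {P : Ideal (𝓞 Qb)} (hP : P.IsPrime)
    {v : HeightOneSpectrum (𝓞 K)} (hv : below j P = v.asIdeal) {s : Kˣ}
    (hs : s ∈ P011.Arith.LS (v.valuation K)) {w : Qb} (hw : w ^ 2 = j s) {g : GQ}
    (hg : g ∈ GK j) (hd : g ∈ W.dec P) : g w = w := by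
  obtain ⟨y, hy⟩ := hs
  have hgw : (g w) ^ 2 = w ^ 2 := by rw [← map_pow, hw, hg]
  refine (sq_eq_sq_iff_eq_or_eq_neg.1 hgw).resolve_right fun h => ?_
  set e : K := ((s : K) / (y : K) ^ 2 - 1) / 4 with he
  have h4 : v.valuation K 4 ≠ 0 := (Valuation.ne_zero_iff _).2 (by norm_num)
  have e1 : v.valuation K e < 1 := by
    rw [he, map_div₀, div_lt_one₀ (zero_lt_iff.2 h4)]
    exact hy
  obtain ⟨n, d, e2⟩ := v.exists_primeCompl_mul_eq_of_integer e e1.le
  have vd : v.valuation K (algebraMap (𝓞 K) K d) = 1 :=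
    (HeightOneSpectrum.valuation_eq_one_iff_notMem v).2 d.2
  have hn : n ∈ v.asIdeal := by
    rw [← HeightOneSpectrum.valuation_lt_one_iff_mem (K := K)]
    show v.valuation K (algebraMap (𝓞 K) K n) < 1
    rw [← e2, map_mul, vd, mul_one]
    exact e1
  let J := RingOfIntegers.mapRingHom j
  have hJ : ∀ r : 𝓞 K, ((J r : 𝓞 Qb) : Qb) = j (algebraMap (𝓞 K) K r) := fun r => rfl
  have hm : ∀ r : 𝓞 K, J r ∈ P ↔ r ∈ v.asIdeal := fun r => by
    rw [← hv]; rfl
  have y0 : j (y : K) ≠ 0 := (map_ne_zero j).2 y.ne_zero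
  let Z0 : Qb := (J d : Qb) * (w / j y - 1) / 2
  have hZ : Z0 * (Z0 + (J d : Qb)) = (J d : Qb) * (J n : Qb) := by
    have : (J n : Qb) = ((w / j y) ^ 2 - 1) / 4 * (J d : Qb) := by
      rw [hJ, hJ, ← e2, map_mul, he, map_div₀, map_sub, map_div₀, map_pow, ← hw, map_one,
        map_ofNat, div_pow]
    rw [this]
    simp only [Z0]
    ring
  have hint : IsIntegral ℤ Z0 := by
    have : IsIntegral (𝓞 Qb) Z0 := ⟨Polynomial.X ^ 2 + (Polynomial.C (J d) * Polynomial.X -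
      Polynomial.C (J d * J n)), Polynomial.monic_X_pow_add (by
        refine lt_of_le_of_lt (Polynomial.degree_sub_le _ _) (max_lt ?_ ?_)
        · exact lt_of_le_of_lt (Polynomial.degree_C_mul_X_le _) (by norm_num)
        · exact lt_of_le_of_lt Polynomial.degree_C_le (by norm_num)), by
      simp only [Polynomial.eval₂_add, Polynomial.eval₂_sub, Polynomial.eval₂_mul,
        Polynomial.eval₂_X_pow, Polynomial.eval₂_C, Polynomial.eval₂_X, map_mul]
      show Z0 ^ 2 + ((J d : Qb) * Z0 - (J d : Qb) * (J n : Qb)) = 0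
      linear_combination hZ⟩
    exact isIntegral_trans (A := 𝓞 Qb) _ this
  let Z : 𝓞 Qb := ⟨Z0, hint⟩
  have gd : g • J d = J d := Subtype.ext (hg _)
  have gZ : g • Z = -(Z + J d) := by
    apply Subtype.ext
    show g Z0 = -(Z0 + (J d : Qb))
    simp only [Z0]
    rw [map_div₀, map_mul, map_sub, map_div₀, h, hg, hJ, hg, map_one, map_ofNat]
    ring
  have hp : Z * (Z + J d) ∈ P := by
    have : Z * (Z + J d) = J d * J n := Subtype.ext hZ
    rw [this]
    exact P.mul_mem_left _ ((hm n).2 hn)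
  have hb : Z ∈ P ↔ Z + J d ∈ P := by rw [← hd Z, gZ, neg_mem_iff]
  have h1 : Z ∈ P := (hP.mem_or_mem hp).elim id hb.2
  exact d.2 ((hm _).1 ((Submodule.add_mem_iff_right _ h1).1 (hb.1 h1)))

/-- a global Kummer generator -/
theorem kumK (j : K →+* Qb) {a : GK j → ZMod 2} (ha : a ∈ Hm (ZMod 2) (GK j)) :
    ∃ (α : Kˣ) (w : Qb), w ^ 2 = j α ∧ Km (GK j) a w := by
  obtain ⟨w, k⟩ := kum (P022D.Sel.Inj.opnGK j) ha
  obtain ⟨α, e⟩ := P022D.Sel.KillAux.fix_range j _ k.sq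
  refine ⟨Units.mk0 α ?_, w, e.symm, k⟩
  rintro rfl
  exact pow_ne_zero 2 k.1 (by rw [← e, map_zero])

/-- the easy half of the local dictionary -/
theorem cob_of_loc (j : K →+* Qb) {P : Ideal (𝓞 Qb)} (hP : P.IsPrime)
    {v : HeightOneSpectrum (𝓞 K)} (hv : below j P = v.asIdeal) {Δ : Subgroup GQ} (h1 : Δ ≤ GK j)
    (h2 : Δ ≤ W.dec P) {a b : Δ → ZMod 2} (ha : a ∈ Hm (ZMod 2) Δ) (hb : b ∈ Hm (ZMod 2) Δ)
    {α β : Kˣ} {p q : Qb} (hp : p ^ 2 = j α) (hq : q ^ 2 = j β) (ka : Km Δ a p) (kb : Km Δ b q)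
    (h : β ∈ P011.Arith.NF α ⊔ P011.Arith.LS (v.valuation K)) : cup a b ∈ Cob (ZMod 2) Δ := by
  obtain ⟨n, ⟨x, y, hn⟩, s, hs, rfl⟩ := Subgroup.mem_sup.1 h
  obtain ⟨t, ht⟩ := IsAlgClosed.exists_pow_nat_eq (j s) two_pos
  have ft : ∀ g ∈ Δ, g t = t := fun g hg => ls_fix j hP hv hs ht (h1 hg) (h2 hg)
  refine cob_of_norm ha hb ka kb (x := j x * t) (y := j y * t)
    (fun g hg => by rw [map_mul, h1 hg, ft g hg]) (fun g hg => by rw [map_mul, h1 hg, ft g hg]) ?_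
  rw [hq, hp, Units.val_mul, map_mul, hn, ← ht, map_sub, map_mul, map_pow, map_pow]
  ring

/-- **the norm index at a finite place** -/
theorem ni_fin (j : K →+* Qb) {P : Ideal (𝓞 Qb)} (hP : P.IsPrime) (hP0 : below j P ≠ ⊥)
    {Δ : Subgroup GQ} (h1 : Δ ≤ GK j) (h2 : Δ ≤ W.dec P) {a b b' : GK j → ZMod 2}
    (ha : a ∈ Hm (ZMod 2) (GK j)) (hb : b ∈ Hm (ZMod 2) (GK j)) (hb' : b' ∈ Hm (ZMod 2) (GK j))
    (k : cup (rs h1 a) (rs h1 b) ∉ Cob (ZMod 2) Δ) (k' : cup (rs h1 a) (rs h1 b') ∉ Cob (ZMod 2) Δ) :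
    cup (rs h1 a) (rs h1 b + rs h1 b') ∈ Cob (ZMod 2) Δ := by
  let v : HeightOneSpectrum (𝓞 K) := ⟨below j P, Ideal.IsPrime.comap _, hP0⟩
  obtain ⟨α, p, hp, ka⟩ := kumK j ha
  obtain ⟨β, q, hq, kb⟩ := kumK j hb
  obtain ⟨β', q', hq', kb'⟩ := kumK j hb'
  have n0 : α ∉ P011.Arith.LS (v.valuation K) := fun h => Sym.cup_ne k (funext fun g =>
    ((ka.rs h1).zero g).2 (ls_fix j hP (v := v) rfl h hp (h1 g.2) (h2 g.2)))
  have c := fun {b : Δ → ZMod 2} (hb : b ∈ Hm (ZMod 2) Δ) {β : Kˣ} {q : Qb} (hq : q ^ 2 = j β)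
    (kb : Km Δ b q) => cob_of_loc j hP (v := v) rfl h1 h2 (rs_hm h1 ha) hb hp hq (ka.rs h1) kb
  refine c (add_mem (rs_hm h1 hb) (rs_hm h1 hb')) (β := β * β')
    (by rw [mul_pow, hq, hq', Units.val_mul, map_mul]) ((kb.rs h1).mul (kb'.rs h1)) ?_
  rw [Subgroup.mul_mem_iff_of_index_two (P011.Arith.local_index_two v α n0)]
  exact iff_of_false (fun h => k (c (rs_hm h1 hb) hq (kb.rs h1) h))
    fun h => k' (c (rs_hm h1 hb') hq' (kb'.rs h1) h)

/-- the field of an open subgroup -/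
theorem ex_fld {H : Subgroup GQ} (hH : IsOpen (H : Set GQ)) :
    ∃ (K : Type) (_ : Field K) (_ : NumberField K) (j : K →+* Qb), GK j = H := by
  haveI := P022D.Sel.Inj.gal
  have e : (IntermediateField.fixedField H).fixingSubgroup = H :=
    InfiniteGalois.fixingSubgroup_fixedField (k := ℚ) (K := Qb) ⟨H, H.isClosed_of_isOpen hH⟩
  haveI : FiniteDimensional ℚ (IntermediateField.fixedField H) :=
    (InfiniteGalois.isOpen_iff_finite _).1 (by rw [e]; exact hH)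
  refine ⟨IntermediateField.fixedField H, inferInstance, ⟨⟩, algebraMap _ Qb, ?_⟩
  ext g
  rw [← e, IntermediateField.mem_fixingSubgroup_iff, e]
  exact ⟨fun h x hx => h ⟨x, hx⟩, fun h x => h x.1 x.2⟩

theorem below_ne (j : K →+* Qb) {P : Ideal (𝓞 Qb)} {l : ℕ} (hl : l ≠ 0) (h : (l : 𝓞 Qb) ∈ P) :
    below j P ≠ ⊥ := fun e => by
  have : (l : 𝓞 K) ∈ below j P := by
    rw [below, Ideal.mem_comap, map_natCast]; exact h
  rw [e, Ideal.mem_bot] at this
  exact hl (by exact_mod_cast this)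

end Vale.Agent.P022E.GW.Ni

namespace Vale.Agent.P022E.GW

open Vale.Agent.P022 Vale.Agent.P022D Vale.Agent.P022D.L2c

/-- **the local norm index is at most two** -/
theorem nil72 : NIL := by
  intro H D l a b b' hH hD ha hb hb' k k'
  rcases hD with ⟨-, c, -, e⟩ | ⟨hl, P, hP, hlP, e⟩
  · have one : ∀ {a : GQ → ZMod 2}, Ch H a → a 1 = 0 := fun {a} ha => by
      have := ha.2 1 1
      rw [mul_one] at this
      exact left_eq_add.1 this
    have cs : ∀ x : (H ⊓ D : Subgroup GQ), (x : GQ) = 1 ∨ (x : GQ) = c := fun x => by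
      have : (x : GQ) ∈ (D : Set GQ) := x.2.2
      rwa [e] at this
    have z : ∀ {b : GQ → ZMod 2}, Ch H b → b c = 0 → Cb (H ⊓ D) (cup a b) := fun {b} hb h => by
      have : rs (H ⊓ D) (cup a b) = 0 := by
        funext x y
        show a x * b y = 0
        rcases cs y with r | r
        · rw [r, one hb, mul_zero]
        · rw [r, h, mul_zero]
      rw [Cb, this]
      exact zero_mem _
    refine z (add_mem hb hb') ?_
    rw [Pi.add_apply, (Sym.z2 _).resolve_left fun h => k (z hb h),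
      (Sym.z2 _).resolve_left fun h => k' (z hb' h)]
    rfl
  · obtain ⟨K, _, _, j, rfl⟩ := Ni.ex_fld hH
    exact Ni.ni_fin j hP (Ni.below_ne j hl.ne_zero hlP) (Δ := GK j ⊓ D) inf_le_left
      (fun g hg => by
        have : g ∈ (D : Set GQ) := hg.2
        rwa [e] at this) ha hb hb' k k'

end Vale.Agent.P022E.GW
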