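import Vale.Agent.P022E.GW.Defs
import Vale.Agent.P022E.GW.Kc
import Vale.Agent.P022E.GW.Ni
import Vale.Agent.P022D.Sel.Alg
import Vale.Agent.P022D.Sel.Gen
import Vale.Agent.P022D.Sel.Open
import Vale.Agent.P022D.Sel.Pl
import Vale.Agent.P022D.Sel.Pli
import Vale.Agent.P022D.Sel.Unit1
import Vale.Agent.P022D.Sel.Unitx

/-!
# P022E, block GW: the number of cocycles of a character
-/

set_option linter.all false

noncomputable section

namespace Vale.Agent.P022E.GW.H53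

open NumberField
open Vale.Agent.P022 Vale.Agent.P022.H916 Vale.Agent.P022D.Sel
open Vale.Agent.P027M.S (Inert)
open Vale.Agent.P022D.L2c (up)
open Kc

variable {F : Type} [Field F]

/-- finitely many characters of order two which separate `E / 2` span the dual -/
theorem span_top [CharP F 2] {E ι : Type} [AddCommGroup E] [Fintype ι]
    (e : ι → E →+ ZMod 2) (h : ∀ y, (∀ i, e i y = 0) → ∃ w, y = 2 • w) (l : E →+ F) :
    ∃ a : ι → F, ∀ y, l y = ∑ i, a i * up F (e i y) := by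
  classical
  letI : Algebra (ZMod 2) F := ZMod.algebra F 2
  let κ : E →+ (ι → ZMod 2) := AddMonoidHom.pi e
  let R : Submodule (ZMod 2) (ι → ZMod 2) := AddSubgroup.toZModSubmodule 2 κ.range
  let κ' : E →+ R := κ.codRestrict R fun y => ⟨y, rfl⟩
  have hs : Function.Surjective κ' := by
    rintro ⟨_, y, rfl⟩
    exact ⟨y, rfl⟩
  let l0 : R →+ F := κ'.liftOfSurjective hs ⟨l, fun y hy => by
    obtain ⟨w, rfl⟩ := h y fun i => congrFun (congrArg Subtype.val hy) i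
    rw [AddMonoidHom.mem_ker, two_nsmul, map_add]
    exact CharTwo.add_self_eq_zero _⟩
  obtain ⟨l1, h1⟩ := (l0.toZModLinearMap 2).exists_extend
  refine ⟨fun i => l1 (Pi.single i 1), fun y => ?_⟩
  have e1 : l y = l1 (κ y) :=
    ((AddMonoidHom.liftOfRightInverse_comp_apply κ' _ (Function.rightInverse_surjInv hs) _
      y).symm.trans (LinearMap.congr_fun h1 (κ' y)).symm)
  rw [e1, pi_eq_sum_univ' (κ y), map_sum]
  refine Finset.sum_congr rfl fun i _ => ?_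
  rw [map_smul, Algebra.smul_def, mul_comm]
  rfl

theorem rank_dual {V : Type} [AddCommGroup V] [Module F V] [Module.Finite F V] (s : V →ₗ[F] V) :
    Module.rank F (LinearMap.ker s) ≤ Module.rank F (LinearMap.ker s.dualMap) := by
  rw [← Module.finrank_eq_rank, ← Module.finrank_eq_rank, Nat.cast_le]
  have h1 := s.finrank_range_add_finrank_ker
  have h2 := s.dualMap.finrank_range_add_finrank_ker
  rw [LinearMap.finrank_range_dualMap_eq_finrank_range, Subspace.dual_finrank_eq] at h2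
  omega

theorem ind_inv (Γ : Subgroup GQ) (h : GQ) {x : F} (hx : x ≠ 0) (D : Set GQ) :
    Module.rank F (Ind F Γ h x D) ≤ Module.rank F (Ind F Γ h x⁻¹ D) := by
  classical
  let k : GQ → Set (GQ → F) := fun g => {f | f ∈ Ind F Γ h x D ∧ f g ≠ 0}
  let v : Set (GQ → F) → GQ → F := fun S => if hS : S.Nonempty then hS.some else 0
  have hv : ∀ g, v (k g) ∈ Ind F Γ h x D := fun g => by
    by_cases hS : (k g).Nonempty
    · simp only [v, dif_pos hS]
      exact hS.some_mem.1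
    · simp only [v, dif_neg hS]
      exact zero_mem _
  have hv' : ∀ g, (k g).Nonempty → v (k g) g ≠ 0 := fun g hS => by
    simp only [v, dif_pos hS]
    exact hS.some_mem.2
  have k1 : ∀ γ ∈ Γ, ∀ g, k (γ * g) = k g := fun γ hγ g => Set.ext fun f =>
    and_congr_right fun hf => by rw [hf.1 γ hγ g]
  have k2 : ∀ g, k (h * g) = k g := fun g => Set.ext fun f =>
    and_congr_right fun hf => by rw [hf.2.1 g, mul_ne_zero_iff, and_iff_right hx]
  have k3 : ∀ d ∈ D, ∀ g, k (g * d) = k g := fun d hd g => Set.ext fun f =>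
    and_congr_right fun hf => by rw [hf.2.2 d hd g]
  let Φ : Ind F Γ h x D →ₗ[F] Ind F Γ h x⁻¹ D :=
    { toFun := fun f => ⟨fun g => f.1 g * ((v (k g) g)⁻¹ * (v (k g) g)⁻¹), fun γ hγ g => by
          simp only [k1 γ hγ g, f.2.1 γ hγ g, (hv g).1 γ hγ g], fun g => by
          simp only [k2 g, f.2.2.1 g, (hv g).2.1 g, mul_inv]
          linear_combination (f.1 g * x⁻¹ * (v (k g) g)⁻¹ * (v (k g) g)⁻¹) * mul_inv_cancel₀ hx,
        fun d hd g => by simp only [k3 d hd g, f.2.2.2 d hd g, (hv g).2.2 d hd g]⟩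
      map_add' := fun a b => Subtype.ext (funext fun g => add_mul _ _ _)
      map_smul' := fun c a => Subtype.ext (funext fun g => mul_assoc _ _ _) }
  refine Φ.rank_le_of_injective ((injective_iff_map_eq_zero Φ).2 fun f hf =>
    Subtype.ext (funext fun g => ?_))
  by_contra hn
  have h0 := inv_ne_zero (hv' g ⟨f.1, f.2, hn⟩)
  exact mul_ne_zero hn (mul_ne_zero h0 h0) (congrFun (congrArg Subtype.val hf) g)

theorem rank_sum {V : Type} [AddCommGroup V] [Module F V] (S : ℕ → Submodule F V)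
    (T : Finset ℕ) : ∀ W : Submodule F (ℕ → V), (∀ f ∈ W, (∀ l ∉ T, f l = 0) ∧ ∀ l, f l ∈ S l) →
    Module.rank F W ≤ ∑ l ∈ T, Module.rank F (S l) := by
  induction T using Finset.induction_on with
  | empty =>
    intro W hW
    rw [(Submodule.eq_bot_iff W).2 fun f hf => funext fun l =>
      (hW f hf).1 l (Finset.notMem_empty l), rank_bot]
    exact zero_le
  | insert p T hp ih =>
    intro W hW
    let π : W →ₗ[F] S p :=
      { toFun := fun f => ⟨f.1 p, (hW _ f.2).2 p⟩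
        map_add' := fun _ _ => rfl
        map_smul' := fun _ _ => rfl }
    rw [Finset.sum_insert hp, ← π.rank_range_add_rank_ker,
      (Submodule.equivMapOfInjective _ W.subtype_injective (LinearMap.ker π)).rank_eq]
    refine add_le_add (Submodule.rank_le _) (ih _ ?_)
    rintro _ ⟨f, hf, rfl⟩
    refine ⟨fun l hl => ?_, (hW _ f.2).2⟩
    by_cases e : l = p
    · rw [e]
      exact congrArg Subtype.val (LinearMap.mem_ker.1 hf)
    · exact (hW _ f.2).1 l fun k => (Finset.mem_insert.1 k).elim e hl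

/-- from the eigenfunctionals on the units to the cocycles -/
theorem core [CharP F 2] {L : Type} [Field L] [NumberField L] (j : L →+* Qb) (τ : L ≃+* L)
    {H : Subgroup GQ} {θ : GQ → F} {T : Finset ℕ} {h : GQ} (hh : h ∈ H)
    (hτ : ∀ y, j (τ y) = h (j y)) (hΓ : ∀ g, g ∈ GK j ↔ g ∈ H ∧ θ g = 1) (h1 : θ 1 = 1)
    (hm : ∀ g ∈ H, ∀ h ∈ H, θ (g * h) = θ g * θ h)
    (hgen : ∀ g ∈ H, ∃ i : ℕ, g * (h ^ i)⁻¹ ∈ GK j) (hx : θ h ≠ 1 ∨ h = 1) (h2 : 2 ∈ T)
    (hT : ∀ l ∈ T, l = 0 ∨ l.Prime)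
    (hu : ∀ l ∉ T, ∀ P : Ideal (𝓞 Qb), Ov l P → ∀ g ∈ H, Inert P g → θ g = 1) :
    ∃ (W : Type) (_ : AddCommGroup W) (_ : Module F W) (Φ : W →ₗ[F] Zt θ T H),
      Function.Injective Φ ∧ (∀ w, (Φ w).1 h = 0) ∧
      Module.rank F (X F (tU τ T) (θ h)⁻¹) ≤ Module.rank F W := by
  classical
  have x0 : θ h ≠ 0 := left_ne_zero_of_mul_eq_one
    ((hm h hh _ (H.inv_mem hh)).symm.trans (by rw [mul_inv_cancel, h1]))
  have hp : ∀ i : ℕ, θ (h ^ i) = θ h ^ i := fun i => by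
    induction i with
    | zero => rw [pow_zero, pow_zero, h1]
    | succ i ih => rw [pow_succ, pow_succ, hm _ (H.pow_mem hh i) _ hh, ih]
  have hcj : ∀ σ ∈ GK j, h * σ * h⁻¹ ∈ GK j := fun σ hσ y => by
    rw [AlgEquiv.mul_apply, AlgEquiv.mul_apply, ← τ.apply_symm_apply y, hτ, ← AlgEquiv.mul_apply h⁻¹,
      inv_mul_cancel, AlgEquiv.one_apply, hσ]
  obtain ⟨U, hU, hUn, hUle, hUf⟩ := opn L j T
  let e0 : GK j → US L T →+ ZMod 2 := fun g =>
    AddMonoidHom.mk' (fun y => kq (j (el y)) g) fun y z => kq_el_add j y z g.2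
  let e : GQ → US L T →+ F := fun g =>
    if hg : g ∈ GK j then (up F).toAddMonoidHom.comp (e0 ⟨g, hg⟩) else 0
  have he : ∀ g ∈ GK j, ∀ y, e g y = up F (kq (j (el y)) g) := fun g hg y => by
    simp only [e, dif_pos hg]
    rfl
  have eadd : ∀ g ∈ GK j, ∀ g' ∈ GK j, e (g * g') = e g + e g' := fun g hg g' hg' => by
    refine AddMonoidHom.ext fun y => ?_
    rw [AddMonoidHom.add_apply, he _ ((GK j).mul_mem hg hg'), he g hg, he g' hg',
      kq_addL j _ hg hg', map_add]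
  have eU : ∀ g ∈ U, ∀ y : US L T, kq (j (el y)) g = 0 := fun g hg y =>
    (kq_zero (rt_sq _) g).2 (hUf g hg y _ (rt_sq _))
  haveI := isGalois_Qb
  haveI : Finite (GQ ⧸ U) := Subgroup.quotient_finite_of_isOpen U hU
  haveI : Finite (GK j ⧸ U.subgroupOf (GK j)) := by
    haveI : U.FiniteIndex := Subgroup.finiteIndex_of_finite_quotient
    infer_instance
  haveI := Fintype.ofFinite (GK j ⧸ U.subgroupOf (GK j))
  have hsp : ∀ l : US L T →+ F, ∃ a : GK j ⧸ U.subgroupOf (GK j) → F,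
      l = ∑ i, a i • e (i.out : GK j) := fun l => by
    obtain ⟨a, ha⟩ := span_top (fun i : GK j ⧸ U.subgroupOf (GK j) => e0 i.out) (fun y hy =>
      (kq_el_triv j y).1 fun g hg => by
        obtain ⟨u, hu⟩ := QuotientGroup.mk_out_eq_mul (U.subgroupOf (GK j)) ⟨g, hg⟩
        have k : kq (j (el y)) _ = 0 := hy (QuotientGroup.mk ⟨g, hg⟩)
        rwa [hu, Subgroup.coe_mul, kq_addL j _ hg u.1.2, eU u.1.1 u.2, add_zero] at k) l
    refine ⟨a, AddMonoidHom.ext fun y => ?_⟩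
    rw [ha, AddMonoidHom.finset_sum_apply]
    refine Finset.sum_congr rfl fun i _ => ?_
    rw [AddMonoidHom.smul_apply, he _ (i.out).2]
    rfl
  haveI : Module.Finite F (US L T →+ F) := by
    refine ⟨⟨Finset.univ.image fun i : GK j ⧸ U.subgroupOf (GK j) => e (i.out : GK j), ?_⟩⟩
    rw [eq_top_iff]
    intro l _
    obtain ⟨a, rfl⟩ := hsp l
    exact Submodule.sum_mem _ fun i _ => Submodule.smul_mem _ _ (Submodule.subset_span (by simp))
  let s : (US L T →+ F) →ₗ[F] (US L T →+ F) :=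
    { toFun := fun l => l.comp (tU τ T) - (θ h)⁻¹ • l
      map_add' := fun a b => by
        refine AddMonoidHom.ext fun y => ?_
        simp only [AddMonoidHom.sub_apply, AddMonoidHom.add_apply, AddMonoidHom.comp_apply,
          AddMonoidHom.smul_apply, smul_eq_mul]
        ring
      map_smul' := fun c a => by
        refine AddMonoidHom.ext fun y => ?_
        simp only [AddMonoidHom.sub_apply, AddMonoidHom.comp_apply, AddMonoidHom.smul_apply,
          smul_eq_mul, RingHom.id_apply]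
        ring }
  have hX : X F (tU τ T) (θ h)⁻¹ = LinearMap.ker s := Submodule.ext fun l =>
    ⟨fun hl => AddMonoidHom.ext fun y => sub_eq_zero.2 (hl y),
      fun hl y => sub_eq_zero.1 (DFunLike.congr_fun (LinearMap.mem_ker.1 hl) y)⟩
  have eqv : ∀ Λ : LinearMap.ker s.dualMap, ∀ σ ∈ GK j,
      Λ.1 (e (h * σ * h⁻¹)) = θ h * Λ.1 (e σ) := fun Λ σ hσ => by
    have k : Λ.1 (_ - _) = 0 := DFunLike.congr_fun (LinearMap.mem_ker.1 Λ.2) (e (h * σ * h⁻¹))
    have k' : (e (h * σ * h⁻¹)).comp (tU τ T) = e σ := AddMonoidHom.ext fun y => by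
      rw [AddMonoidHom.comp_apply, he _ (hcj σ hσ), he σ hσ, el_tU, kq_conjL j hτ]
    rw [k', map_sub, map_smul, smul_eq_mul] at k
    linear_combination (-θ h) * k - Λ.1 (e (h * σ * h⁻¹)) * mul_inv_cancel₀ x0
  have hcp : ∀ i : ℕ, ∀ σ ∈ GK j, h ^ i * σ * (h ^ i)⁻¹ ∈ GK j ∧
      ∀ Λ : LinearMap.ker s.dualMap, Λ.1 (e (h ^ i * σ * (h ^ i)⁻¹)) = θ h ^ i * Λ.1 (e σ) := by
    intro i σ hσ
    induction i with
    | zero => simpa using hσ
    | succ i ih =>
      rw [show h ^ (i + 1) * σ * (h ^ (i + 1))⁻¹ = h * (h ^ i * σ * (h ^ i)⁻¹) * h⁻¹ by group]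
      exact ⟨hcj _ ih.1, fun Λ => by rw [eqv Λ _ ih.1, ih.2, pow_succ']; ring⟩
  have e1 : e 1 = 0 := by
    have := eadd 1 (one_mem _) 1 (one_mem _)
    rw [mul_one] at this
    exact left_eq_add.1 this
  have wd : ∀ (Λ : LinearMap.ker s.dualMap) (g : GQ) (a b : ℕ), g * (h ^ a)⁻¹ ∈ GK j →
      g * (h ^ b)⁻¹ ∈ GK j → Λ.1 (e (g * (h ^ a)⁻¹)) = Λ.1 (e (g * (h ^ b)⁻¹)) := by
    intro Λ g a b ha hb
    have hδ : h ^ b * (h ^ a)⁻¹ ∈ GK j := by
      simpa [mul_assoc] using (GK j).mul_mem ((GK j).inv_mem hb) ha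
    have k : Λ.1 (e (h ^ b * (h ^ a)⁻¹)) = 0 := by
      rcases hx with hx | rfl
      · have := eqv Λ _ hδ
        rw [show h * (h ^ b * (h ^ a)⁻¹) * h⁻¹ = h ^ b * (h ^ a)⁻¹ by group] at this
        exact (mul_eq_zero.1 (show (θ h - 1) * _ = 0 by linear_combination -this)).resolve_left
          (sub_ne_zero.2 hx)
      · simp [e1]
    rw [show g * (h ^ a)⁻¹ = g * (h ^ b)⁻¹ * (h ^ b * (h ^ a)⁻¹) by group, eadd _ hb _ hδ, map_add,
      k, add_zero]
  choose! n hn using hgen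
  let c : LinearMap.ker s.dualMap → GQ → F := fun Λ g =>
    if g ∈ H then Λ.1 (e (g * (h ^ n g)⁻¹)) else 0
  have hc : ∀ Λ, ∀ g ∈ H, ∀ a : ℕ, g * (h ^ a)⁻¹ ∈ GK j → c Λ g = Λ.1 (e (g * (h ^ a)⁻¹)) :=
    fun Λ g hg a ha => (if_pos hg).trans (wd Λ g _ _ (hn g hg) ha)
  have hc0 : ∀ Λ, ∀ g ∈ GK j, c Λ g = Λ.1 (e g) := fun Λ g hg => by
    simpa using hc Λ g ((hΓ g).1 hg).1 0 (by simpa using hg)
  have hcZ : ∀ Λ, c Λ ∈ Zt θ T H := fun Λ => by
    refine ⟨fun g hg g' hg' => ?_, fun g hg => if_neg hg, ⟨U, hU, fun σ hσ => ?_⟩,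
      fun l hl P hP g hg => ?_⟩
    · have k := hcp (n g) _ (hn g' hg')
      have k1 : g * g' * (h ^ (n g' + n g))⁻¹ =
          g * (h ^ n g)⁻¹ * (h ^ n g * (g' * (h ^ n g')⁻¹) * (h ^ n g)⁻¹) := by group
      have k2 : θ g = θ h ^ n g := by
        rw [← hp, ← one_mul (θ (h ^ n g)), ← ((hΓ _).1 (hn g hg)).2,
          ← hm _ ((hΓ _).1 (hn g hg)).1 _ (H.pow_mem hh _), inv_mul_cancel_right]
      rw [hc Λ _ (H.mul_mem hg hg') (n g' + n g) (k1 ▸ (GK j).mul_mem (hn g hg) k.1), k1,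
        eadd _ (hn g hg) _ k.1, map_add, k.2, hc Λ g hg _ (hn g hg), hc Λ g' hg' _ (hn g' hg'), k2]
    · rw [hc0 Λ σ (hUle hσ), show e σ = 0 from AddMonoidHom.ext fun y => by
        rw [he σ (hUle hσ), eU σ hσ, map_zero]; rfl, map_zero]
    · by_cases k : g ∈ H
      · have k' := (hΓ g).2 ⟨k, hu l hl P hP g k hg⟩
        rw [hc0 Λ g k', show e g = 0 from AddMonoidHom.ext fun y => by
          rw [he g k', kq_US j h2 hT y hP.1 hl hP.2.1 hP.2.2 k' hg, map_zero]; rfl, map_zero]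
      · exact if_neg k
  refine ⟨LinearMap.ker s.dualMap, inferInstance, inferInstance,
    { toFun := fun Λ => ⟨c Λ, hcZ Λ⟩
      map_add' := fun a b => Subtype.ext (funext fun g => ?_)
      map_smul' := fun r a => Subtype.ext (funext fun g => ?_) },
    (injective_iff_map_eq_zero _).2 fun Λ hΛ => Subtype.ext (LinearMap.ext fun l => ?_),
    fun Λ => ?_, hX ▸ rank_dual s⟩
  · by_cases hg : g ∈ H <;> simp [c, hg]
  · by_cases hg : g ∈ H <;> simp [c, hg]
  · obtain ⟨a, rfl⟩ := hsp l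
    rw [map_sum]
    refine Finset.sum_eq_zero fun i _ => ?_
    rw [map_smul, ← hc0 Λ _ (i.out).2,
      show c Λ _ = 0 from congrFun (congrArg Subtype.val hΛ) _, smul_zero]
  · show c Λ h = 0
    rw [hc Λ h hh 1 (by simpa using one_mem _), pow_one, mul_inv_cancel, e1, map_zero]

theorem low {K L : Type} [Field K] [Field L] [NumberField L] [Algebra K L] (j : L →+* Qb)
    (τ : L ≃ₐ[K] L) {H : Subgroup GQ} {θ : GQ → F} {T : Finset ℕ} {D : ℕ → Set GQ} {h : GQ}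
    (hh : h ∈ H) (hτ : ∀ y, j (τ y) = h (j y)) (hΓ : ∀ g, g ∈ GK j ↔ g ∈ H ∧ θ g = 1)
    (x0 : θ h ≠ 0) (h0 : 0 ∈ T) (hD : ∀ l ∈ T, IsDec l (D l)) :
    Module.rank F (Ft θ T D H) ≤ Module.rank F (E F (mv τ.toRingEquiv) (θ h)⁻¹ (ov L T)) +
      Module.rank F (E F (fun w : InfinitePlace L => τ • w) (θ h)⁻¹ Set.univ) := by
  refine (rank_sum (fun l => Ind F (GK j) h (θ h) (D l)) T (Ft θ T D H) fun f hf => ⟨hf.1, fun l =>
    ⟨fun γ hγ g => by rw [hf.2.1 l γ ((hΓ γ).1 hγ).1 g, ((hΓ γ).1 hγ).2, one_mul],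
      hf.2.1 l h hh, hf.2.2 l⟩⟩).trans
    ((Finset.sum_le_sum fun l _ => ind_inv _ h x0 _).trans ?_)
  rw [← Finset.sum_erase_add _ _ h0, (sum L F τ.toRingEquiv _ T fun l hl => (hD l hl).cases).2]
  refine add_le_add (le_of_eq (Finset.sum_congr rfl fun l hl => ?_))
    (pli K L F j h τ _ (D 0) hτ (hD 0 h0))
  exact (pl L F j h τ.toRingEquiv _ l (D l) hτ (Finset.ne_of_mem_erase hl)
    (hD l (Finset.mem_of_mem_erase hl))).symm

theorem chr : CHR := by
  classical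
  intro F _ _ _ H θ T D hH h1 hm ⟨U, hU, hθ⟩ h0 h2 hD hu
  have hT : ∀ l ∈ T, l = 0 ∨ l.Prime := fun l hl => (hD l hl).cases
  obtain ⟨K, _, _, jK, rfl⟩ := Ni.ex_fld hH
  by_cases hθ1 : ∀ g ∈ GK jK, θ g = 1
  · have hΓ : ∀ g, g ∈ GK jK ↔ g ∈ GK jK ∧ θ g = 1 := fun g => ⟨fun a => ⟨a, hθ1 g a⟩, And.left⟩
    obtain ⟨W, _, _, Φ, k1, -, k2⟩ := core jK (1 : K ≃ₐ[K] K).toRingEquiv (one_mem _)
      (fun _ => rfl) hΓ h1 hm (fun g hg => ⟨0, by simpa using hg⟩) (Or.inr rfl) h2 hT hu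
    have k3 := low jK (1 : K ≃ₐ[K] K) (one_mem _) (fun _ => rfl) hΓ (h1 ▸ one_ne_zero) h0 hD
    rw [h1, inv_one] at k2 k3
    exact ⟨k3.trans ((unit1 K F T).trans (k2.trans (Φ.rank_le_of_injective k1))),
      fun ⟨g, a, b⟩ => absurd (hθ1 g a) b⟩
  push Not at hθ1
  let ψ : GK jK →* F := ⟨⟨fun g => θ g, h1⟩, fun a b => hm _ a.2 _ b.2⟩
  let Γ : Subgroup GQ := ψ.toHomUnits.ker.map (GK jK).subtype
  have hΓ : ∀ g, g ∈ Γ ↔ g ∈ GK jK ∧ θ g = 1 := fun g =>
    ⟨by rintro ⟨a, ha, rfl⟩; exact ⟨a.2, congrArg Units.val (MonoidHom.mem_ker.1 ha)⟩,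
      fun a => ⟨⟨g, a.1⟩, MonoidHom.mem_ker.2 (Units.ext a.2), rfl⟩⟩
  obtain ⟨L, _, _, _, _, jL, res, hdict, hL, hker⟩ := exists_fld jK Γ
    (Subgroup.isOpen_mono (H₁ := U ⊓ GK jK) (fun g hg => (hΓ g).2 ⟨hg.2, hθ g hg.1⟩)
      (hU.inter hH)) (fun g hg => ((hΓ g).1 hg).1) (by
      rintro g hg _ ⟨a, ha, rfl⟩
      exact ⟨_, (MonoidHom.normal_ker _).conj_mem a ha ⟨g, hg⟩, rfl⟩)
  have hfd : FiniteDimensional K L := Module.Finite.of_restrictScalars_finite ℚ K L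
  have hcard : Nat.card (L ≃ₐ[K] L) = Module.finrank K L := IsGalois.card_aut_eq_finrank K L
  let χ : (L ≃ₐ[K] L) →* F := (Units.coeHom F).comp
    (res.liftOfRightInverse (Function.surjInv hdict.surj)
    (Function.rightInverse_surjInv hdict.surj) ⟨ψ.toHomUnits, fun g hg => by
      rw [MonoidHom.mem_ker] at hg ⊢
      exact Units.ext ((hΓ g).1 ((hker g).1 hg)).2⟩)
  have hχ : ∀ g, χ (res g) = θ g := fun g => by
    simp only [χ, MonoidHom.comp_apply, MonoidHom.liftOfRightInverse_comp_apply]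
    rfl
  have hχ1 : ∀ σ, χ σ = 1 → σ = 1 := by
    intro σ hσ
    obtain ⟨g, rfl⟩ := hdict.surj σ
    rw [hχ] at hσ
    exact (hker g).2 ((hΓ g).2 ⟨g.2, hσ⟩)
  have hcyc : IsCyclic (L ≃ₐ[K] L) :=
    isCyclic_of_injective_ringHom χ ((injective_iff_map_eq_one χ).2 hχ1)
  have hodd : Odd (Module.finrank K L) := by
    rw [← hcard, ← Nat.not_even_iff_odd, even_iff_two_dvd]
    intro h2
    haveI : Fact (Nat.Prime 2) := ⟨Nat.prime_two⟩
    obtain ⟨σ, hσ⟩ := exists_prime_orderOf_dvd_card' 2 h2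
    have h1 : χ σ ^ 2 = 1 := by rw [← map_pow, ← hσ, pow_orderOf_eq_one, map_one]
    have h3 : χ σ = 1 := by
      rcases sq_eq_one_iff.1 h1 with h | h
      · exact h
      · rw [h, CharTwo.neg_eq]
    rw [hχ1 σ h3, orderOf_one] at hσ
    omega
  obtain ⟨τ, hτ⟩ := IsCyclic.exists_monoid_generator (α := L ≃ₐ[K] L)
  obtain ⟨⟨h, hh⟩, rfl⟩ := hdict.surj τ
  have hgen : ∀ g ∈ GK jK, ∃ i : ℕ, g * (h ^ i)⁻¹ ∈ GK jL := by
    intro g hg
    obtain ⟨i, hi⟩ := hτ (res ⟨g, hg⟩)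
    have k := (hker (⟨g, hg⟩ * (⟨h, hh⟩ ^ i)⁻¹)).1 (by
      rw [map_mul, map_inv, map_pow, ← hi, mul_inv_cancel])
    rw [← hL] at k
    exact ⟨i, k⟩
  have hx : θ h ≠ 1 := fun e => by
    obtain ⟨g, hg, hne⟩ := hθ1
    obtain ⟨i, hi⟩ := hτ (res ⟨g, hg⟩)
    refine hne ((hχ ⟨g, hg⟩).symm.trans ?_)
    rw [← hi, map_pow, hχ]
    exact (congrArg (· ^ i) e).trans (one_pow i)
  have hxm : θ h ^ Module.finrank K L = 1 := by
    rw [← show χ (res ⟨h, hh⟩) = θ h from hχ _, ← map_pow, ← hcard, pow_card_eq_one', map_one]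
  have x0 : θ h ≠ 0 := fun e => by
    rw [e, zero_pow hodd.pos.ne'] at hxm
    exact zero_ne_one hxm
  have hτ' : ∀ y, jL (res ⟨h, hh⟩ y) = h (jL y) := fun y => (hdict.act ⟨h, hh⟩ y).symm
  rw [← hL] at hΓ
  obtain ⟨W, _, _, Φ, k1, k0, k2⟩ := core jL (res ⟨h, hh⟩).toRingEquiv hh hτ' hΓ h1 hm hgen
    (Or.inl hx) h2 hT hu
  have k3 := ((low jL _ hh hτ' hΓ x0 h0 hD).trans (unitx (lb ext) K L F _ _ T hodd
    (by rw [inv_pow, hxm, inv_one]) (by rwa [Ne, inv_eq_one]))).trans k2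
  have hb : (fun g => if g ∈ GK jK then θ g - 1 else 0) ∈ Zt θ T (GK jK) := by
    refine ⟨fun g hg g' hg' => ?_, fun g hg => if_neg hg, ⟨U, hU, fun σ hσ => ?_⟩,
      fun l hl P hP g hg => ?_⟩
    · simp only [if_pos hg, if_pos hg', if_pos ((GK jK).mul_mem hg hg'), hm g hg g' hg']
      ring
    · simp [hθ σ hσ]
    · by_cases k : g ∈ GK jK
      · simp [hu l hl P hP g k hg]
      · exact if_neg k
  have k4 : Module.rank F W + 1 ≤ Module.rank F (Zt θ T (GK jK)) := by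
    have k5 := (Φ.coprod (LinearMap.toSpanSingleton F _ ⟨_, hb⟩)).rank_le_of_injective
      ((injective_iff_map_eq_zero _).2 fun w hw => by
        have e : (Φ w.1).1 h + w.2 * (if h ∈ GK jK then θ h - 1 else 0) = 0 :=
          congrFun (congrArg Subtype.val hw) h
        rw [k0, zero_add, if_pos hh] at e
        have e2 := (mul_eq_zero.1 e).resolve_right (sub_ne_zero.2 hx)
        rw [LinearMap.coprod_apply, e2, map_zero, add_zero] at hw
        exact Prod.ext ((injective_iff_map_eq_zero Φ).1 k1 _ hw) e2)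
    rwa [rank_prod', Module.rank_self] at k5
  exact ⟨k3.trans (le_self_add.trans k4), fun _ => (add_le_add k3 le_rfl).trans k4⟩

end Vale.Agent.P022E.GW.H53
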