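import Vale.Agent.P022E.GW.Defs
import Vale.Agent.P022E.GW.Kc
import Vale.Agent.P022E.GW.Ni
import Vale.Agent.P022D.Sel.Ker
import Vale.Agent.P022D.Sel.Alg
import Vale.Agent.P022D.Sel.Gen
import Vale.Agent.P022D.Sel.Pl
import Vale.Agent.P022D.Sel.Pli
import Vale.Agent.P022D.Sel.Unit1
import Vale.Agent.P022D.Sel.Unitx
import Vale.Agent.P022.H916.Fld

/-!
# P022E, block GW: the number of cocycles of a character
-/

set_option linter.all false

noncomputable section

namespace Vale.Agent.P022E.GW.H6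

open NumberField
open Vale.Agent.P022 Vale.Agent.P022.C
open Vale.Agent.P027M.S (Inert mx)
open Vale.Agent.P022D.Sel
open Vale.Agent.P022D.L2c (up)

variable {F : Type} [Field F]

/-- from the character to its inverse -/
theorem swap (H Γ : Subgroup GQ) (θ : GQ → F) (T : Finset ℕ) (D : ℕ → Set GQ) (h : GQ)
    (h1 : θ 1 = 1) (hm : ∀ g ∈ H, ∀ h ∈ H, θ (g * h) = θ g * θ h) (hh : h ∈ H)
    (hΓ : ∀ g ∈ Γ, g ∈ H ∧ θ g = 1) :
    Module.rank F (Ft θ T D H) ≤ ∑ l ∈ T, Module.rank F (Ind F Γ h (θ h)⁻¹ (D l)) := by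
  have inv : ∀ g ∈ H, θ g⁻¹ * θ g = 1 := fun g hg => by
    rw [← hm _ (H.inv_mem hg) _ hg, inv_mul_cancel, h1]
  have ne : ∀ g ∈ H, θ g ≠ 0 := fun g hg e => by
    have := inv g hg
    rw [e, mul_zero] at this
    exact zero_ne_one this
  let S : ℕ → Setoid GQ := fun l =>
    { r := fun g g' => ∃ η ∈ H, ∀ f ∈ Ft θ T D H, f l g' = θ η * f l g
      iseqv := ⟨fun g => ⟨1, H.one_mem, fun f _ => by rw [h1, one_mul]⟩,
        fun ⟨η, hη, e⟩ => ⟨η⁻¹, H.inv_mem hη, fun f hf => by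
          rw [e f hf, ← mul_assoc, inv η hη, one_mul]⟩,
        fun ⟨η, hη, e⟩ ⟨η', hη', e'⟩ => ⟨η' * η, H.mul_mem hη' hη, fun f hf => by
          rw [e' f hf, e f hf, hm _ hη' _ hη, mul_assoc]⟩⟩ }
  let r : ℕ → GQ → GQ := fun l g => (Quotient.mk (S l) g).out
  have hr : ∀ l g, ∃ η ∈ H, ∀ f ∈ Ft θ T D H, f l g = θ η * f l (r l g) := fun l g =>
    Quotient.exact (s := S l) (Quotient.out_eq (Quotient.mk (S l) g))
  choose η hη e using hr
  let Φ : ℕ → (ℕ → GQ → F) →ₗ[F] (GQ → F) := fun l =>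
    { toFun := fun f g => (θ (η l g))⁻¹ * f l (r l g)
      map_add' := fun a b => funext fun g => by simp only [Pi.add_apply, mul_add]
      map_smul' := fun c a => funext fun g => by
        simp only [Pi.smul_apply, smul_eq_mul, RingHom.id_apply]; ring }
  have key : ∀ l g g', ∀ γ ∈ H, (∀ f ∈ Ft θ T D H, f l g' = θ γ * f l g) →
      ∀ f ∈ Ft θ T D H, Φ l f g' = (θ γ)⁻¹ * Φ l f g := by
    intro l g g' γ hγ k f hf
    have er : r l g' = r l g :=
      congrArg Quotient.out (Quotient.sound (s := S l) ⟨γ, hγ, k⟩).symm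
    show (θ (η l g'))⁻¹ * f l (r l g') = (θ γ)⁻¹ * ((θ (η l g))⁻¹ * f l (r l g))
    have e1 := e l g' f hf
    rw [k f hf, e l g f hf, er, ← mul_assoc] at e1
    rw [er]
    by_cases z : f l (r l g) = 0
    · rw [z, mul_zero, mul_zero, mul_zero]
    · rw [← mul_right_cancel₀ z e1, mul_inv, mul_assoc]
  have := KerH.fam T Φ (fun l => Ind F Γ h (θ h)⁻¹ (D l)) 0 (Ft θ T D H) (fun f hf l _ =>
    ⟨fun γ hγ g => by
      rw [key l g (γ * g) γ (hΓ γ hγ).1 (fun f hf => hf.2.1 l γ (hΓ γ hγ).1 g) f hf,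
        (hΓ γ hγ).2, inv_one, one_mul],
    fun g => key l g (h * g) h hh (fun f hf => hf.2.1 l h hh g) f hf,
    fun d hd g => by
      rw [key l g (g * d) 1 H.one_mem (fun f hf => by rw [hf.2.2 l d hd g, h1, one_mul]) f hf,
        h1, inv_one, one_mul]⟩) (fun K hK h0 => KerH.nul K fun f hf => by
      funext l g
      by_cases hl : l ∈ T
      · have z : (θ (η l g))⁻¹ * f l (r l g) = 0 := congrFun (h0 f hf l hl) g
        rw [e l g f (hK hf), (mul_eq_zero.1 z).resolve_left (inv_ne_zero (ne _ (hη l g))),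
          mul_zero]
        rfl
      · exact congrFun ((hK hf).1 l hl) g)
  rwa [add_zero] at this

/-- extension of functionals to functions with values in `F` -/
theorem lam [Finite F] [CharP F 2] {I : Type} (k : (I → ZMod 2) →+ F) :
    ∃ lm : (I → F) →ₗ[F] F, ∀ c : I → ZMod 2, lm (fun i => up F (c i)) = k c := by
  letI : Algebra (ZMod 2) F := ZMod.algebra F 2
  haveI : Module.Finite (ZMod 2) F := Module.Finite.of_finite
  let b := Module.finBasis (ZMod 2) F
  let k' := AddMonoidHom.toZModLinearMap 2 k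
  have sm : ∀ (a : ZMod 2) (y : F), a • y = up F a * y := fun a y => Algebra.smul_def a y
  let l0 : (I → F) →+ F :=
    { toFun := fun c => ∑ i, b i * k' fun g => b.repr (c g) i
      map_zero' := Finset.sum_eq_zero fun i _ => by
        rw [show (fun g : I => b.repr ((0 : I → F) g) i) = 0 from funext fun g => by simp,
          map_zero, mul_zero]
      map_add' := fun c c' => by
        rw [← Finset.sum_add_distrib]
        refine Finset.sum_congr rfl fun i _ => ?_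
        rw [← mul_add, ← map_add]
        congr 2
        funext g
        simp }
  have l1 : ∀ (a : F) (c : I → ZMod 2), l0 (fun g => a * up F (c g)) = a * k c := by
    intro a c
    show ∑ i, b i * k' (fun g => b.repr (a * up F (c g)) i) = _
    have e : ∀ i, (fun g => b.repr (a * up F (c g)) i) = b.repr a i • c := fun i =>
      funext fun g => by
        rw [mul_comm, ← sm, map_smul]
        simp [mul_comm]
    simp only [e, map_smul]
    conv_rhs => rw [← b.sum_repr a, Finset.sum_mul]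
    refine Finset.sum_congr rfl fun i _ => ?_
    rw [mul_smul_comm, smul_mul_assoc]
    rfl
  have dec : ∀ c : I → F, c = ∑ i, fun g => b i * up F (b.repr (c g) i) := fun c =>
    funext fun g => by
      rw [Finset.sum_apply]
      conv_lhs => rw [← b.sum_repr (c g)]
      exact Finset.sum_congr rfl fun i _ => by rw [sm, mul_comm]
  refine ⟨{ toFun := l0, map_add' := l0.map_add, map_smul' := fun a c => ?_ }, fun c => ?_⟩
  · show l0 (a • c) = a * l0 c
    have e : a • c = ∑ i, fun g => a * b i * up F (b.repr (c g) i) := by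
      conv_lhs => rw [dec c, Finset.smul_sum]
      exact Finset.sum_congr rfl fun i _ => funext fun g => (mul_assoc _ _ _).symm
    rw [e, map_sum]
    conv_rhs => rw [dec c, map_sum, Finset.mul_sum]
    refine Finset.sum_congr rfl fun i _ => ?_
    rw [l1, l1, mul_assoc]
  · have := l1 1 c
    simp only [one_mul] at this
    exact this

/-- extension of an equivariant character to a cocycle -/
theorem extn (H Γ : Subgroup GQ) (θ : GQ → F) (h : GQ)
    (hm : ∀ g ∈ H, ∀ h ∈ H, θ (g * h) = θ g * θ h) (hh : h ∈ H)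
    (hΓ : ∀ g ∈ Γ, g ∈ H ∧ θ g = 1) (hn : ∀ g ∈ Γ, h * g * h⁻¹ ∈ Γ) (hx : θ h ≠ 1 ∨ h = 1)
    (k : GQ → ℕ) (hk : ∀ g ∈ H, g * (h ^ k g)⁻¹ ∈ Γ) (c : GQ → F)
    (ca : ∀ g ∈ Γ, ∀ g' ∈ Γ, c (g * g') = c g + c g')
    (ce : ∀ g ∈ Γ, c (h * g * h⁻¹) = θ h * c g) :
    (∀ g ∈ Γ, ∀ n : ℕ, c (g * h ^ n * (h ^ k (g * h ^ n))⁻¹) = c g) ∧
    ∀ g ∈ H, ∀ g' ∈ H, c (g * g' * (h ^ k (g * g'))⁻¹) =
      c (g * (h ^ k g)⁻¹) + θ g * c (g' * (h ^ k g')⁻¹) := by
  have c1 : c 1 = 0 := by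
    have := ca 1 Γ.one_mem 1 Γ.one_mem
    rw [mul_one] at this
    exact left_eq_add.1 this
  have t1 : θ 1 = 1 := (hΓ 1 Γ.one_mem).2
  have wd : ∀ g ∈ Γ, ∀ n : ℕ, c (g * h ^ n * (h ^ k (g * h ^ n))⁻¹) = c g := by
    intro g hg n
    have m := hk _ (H.mul_mem (hΓ g hg).1 (H.pow_mem hh n))
    generalize k (g * h ^ n) = a at m ⊢
    have d : h ^ n * (h ^ a)⁻¹ ∈ Γ := by
      have := Γ.mul_mem (Γ.inv_mem hg) m
      rwa [mul_assoc g, inv_mul_cancel_left] at this
    have z : c (h ^ n * (h ^ a)⁻¹) = 0 := by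
      rcases hx with hx | hx
      · have := ce _ d
        rw [show h * (h ^ n * (h ^ a)⁻¹) * h⁻¹ = h ^ n * (h ^ a)⁻¹ by group] at this
        have e : (θ h - 1) * c (h ^ n * (h ^ a)⁻¹) = 0 := by linear_combination -this
        exact (mul_eq_zero.1 e).resolve_left (sub_ne_zero.2 hx)
      · rw [hx, one_pow, one_pow, inv_one, mul_one, c1]
    rw [mul_assoc, ca g hg _ d, z, add_zero]
  have pw : ∀ n : ℕ, θ (h ^ n) = θ h ^ n ∧ ∀ g ∈ Γ, h ^ n * g * (h ^ n)⁻¹ ∈ Γ ∧
      c (h ^ n * g * (h ^ n)⁻¹) = θ h ^ n * c g := by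
    intro n
    induction n with
    | zero => exact ⟨by rw [pow_zero, pow_zero, t1], fun g hg => by simpa using hg⟩
    | succ n ih =>
      refine ⟨by rw [pow_succ, hm _ (H.pow_mem hh n) _ hh, ih.1, pow_succ], fun g hg => ?_⟩
      rw [show h ^ (n + 1) * g * (h ^ (n + 1))⁻¹ = h * (h ^ n * g * (h ^ n)⁻¹) * h⁻¹ by group]
      exact ⟨hn _ (ih.2 g hg).1, by rw [ce _ (ih.2 g hg).1, (ih.2 g hg).2, pow_succ', mul_assoc]⟩
  refine ⟨wd, fun g hg g' hg' => ?_⟩
  have m := hk g hg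
  have m' := hk g' hg'
  generalize k g = a at m ⊢
  generalize k g' = a' at m' ⊢
  obtain ⟨γ, rfl⟩ : ∃ γ, g = γ * h ^ a := ⟨g * (h ^ a)⁻¹, by group⟩
  obtain ⟨γ', rfl⟩ : ∃ γ', g' = γ' * h ^ a' := ⟨g' * (h ^ a')⁻¹, by group⟩
  rw [mul_inv_cancel_right] at m m' ⊢
  rw [mul_inv_cancel_right,
    show γ * h ^ a * (γ' * h ^ a') = γ * (h ^ a * γ' * (h ^ a)⁻¹) * h ^ (a + a') by group,
    wd _ (Γ.mul_mem m ((pw a).2 γ' m').1), ca _ m _ ((pw a).2 γ' m').1, ((pw a).2 γ' m').2,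
    hm _ (hΓ γ m).1 _ (H.pow_mem hh a), (hΓ γ m).2, one_mul, (pw a).1]

/-- the cocycles which vanish at `h` -/
def Z0 (θ : GQ → F) (T : Finset ℕ) (H : Subgroup GQ) (h : GQ) : Submodule F (GQ → F) :=
  Zt θ T H ⊓ LinearMap.ker (LinearMap.proj h)

theorem op_sum {ι : Type} (s : Finset ι) (c : ι → GQ → F) (hc : ∀ i, Op (c i)) :
    Op (∑ i ∈ s, c i) :=
  Finset.sum_induction c Op (fun _ _ => Op.add) ⟨⊤, isOpen_univ, fun _ _ => rfl⟩ fun i _ => hc i

theorem core [Finite F] [CharP F 2] {L : Type} [Field L] [NumberField L] (j : L →+* Qb)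
    (H : Subgroup GQ) (θ : GQ → F) (T : Finset ℕ) (h : GQ) (τ : L ≃+* L) (m : ℕ)
    (hm : ∀ g ∈ H, ∀ h ∈ H, θ (g * h) = θ g * θ h) (hh : h ∈ H)
    (hΓ : ∀ g, g ∈ GK j ↔ g ∈ H ∧ θ g = 1) (ho : IsOpen (GK j : Set GQ))
    (hn : ∀ g ∈ GK j, h * g * h⁻¹ ∈ GK j) (hx : θ h ≠ 1 ∨ h = 1)
    (gen : ∀ g ∈ H, ∃ k : ℕ, g * (h ^ k)⁻¹ ∈ GK j) (hj : ∀ y, j (τ y) = h (j y))
    (mo : Odd m) (xm : θ h ^ m = 1) (tm : ∀ y, τ^[m] y = y) (h2 : 2 ∈ T)
    (hT : ∀ l ∈ T, l = 0 ∨ l.Prime)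
    (hur : ∀ l ∉ T, ∀ P : Ideal (𝓞 Qb), Ov l P → ∀ g ∈ H, Inert P g → θ g = 1) :
    Module.rank F (X F (tU τ T) (θ h)⁻¹) ≤ Module.rank F (Module.Dual F (Z0 θ T H h)) := by
  classical
  have two : (2 : F) = 0 := CharP.cast_eq_zero F 2
  have x0 : θ h ≠ 0 := by
    rintro e
    rw [e, zero_pow mo.pos.ne'] at xm
    exact zero_ne_one xm
  choose! k hk using gen
  let t := tU τ T
  have ti : ∀ (i : ℕ) (u : US L T), el (t^[i] u) = τ^[i] (el u) := fun i u => by
    induction i with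
    | zero => rfl
    | succ i ih => rw [Function.iterate_succ_apply', Function.iterate_succ_apply', el_tU, ih]
  have tm' : ∀ u : US L T, t^[m] u = u := fun u =>
    Subtype.ext (Units.ext ((ti m u).trans (tm _)))
  let B : US L T →+ (GQ → ZMod 2) := AddMonoidHom.mk'
    (fun u g => if g ∈ GK j then Kc.kq (j (el u)) g else 0) fun u v => funext fun g => by
      by_cases hg : g ∈ GK j
      · simp only [Pi.add_apply, if_pos hg, Kc.kq_el_add j u v hg]
      · simp only [Pi.add_apply, if_neg hg, add_zero]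
  have B1 : ∀ u, ∀ g ∈ GK j, B u g = Kc.kq (j (el u)) g := fun u g hg => if_pos hg
  have B0 : ∀ u, ∀ g ∉ GK j, B u g = 0 := fun u g hg => if_neg hg
  let c : US L T → GQ → F := fun u =>
    ∑ i ∈ Finset.range m, θ h ^ i • fun g => up F (B (t^[i] u) g)
  have cv : ∀ u g, c u g = ∑ i ∈ Finset.range m, θ h ^ i * up F (B (t^[i] u) g) := fun u g =>
    Finset.sum_apply _ _ _
  have ca : ∀ u, ∀ g ∈ GK j, ∀ g' ∈ GK j, c u (g * g') = c u g + c u g' := fun u g hg g' hg' => by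
    rw [cv, cv, cv, ← Finset.sum_add_distrib]
    refine Finset.sum_congr rfl fun i _ => ?_
    rw [B1 _ _ hg, B1 _ _ hg', B1 _ _ ((GK j).mul_mem hg hg'), Kc.kq_addL j _ hg hg', map_add,
      mul_add]
  have ce : ∀ u, ∀ g ∈ GK j, c u (h * g * h⁻¹) = θ h * c u g := fun u g hg => by
    have e1 := Finset.sum_range_succ (fun i => θ h ^ i * up F (B (t^[i] u) (h * g * h⁻¹))) m
    rw [Finset.sum_range_succ', tm', xm, pow_zero, Function.iterate_zero_apply,
      add_left_inj] at e1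
    rw [cv, cv, ← e1, Finset.mul_sum]
    refine Finset.sum_congr rfl fun i _ => ?_
    rw [Function.iterate_succ_apply', B1 _ _ (hn g hg), B1 _ _ hg, el_tU, Kc.kq_conjL j hj,
      pow_succ', mul_assoc]
  have ex := fun u => extn H (GK j) θ h hm hh (fun g hg => (hΓ g).1 hg) hn hx k hk (c u) (ca u)
    (ce u)
  let z : US L T → GQ → F := fun u g => if g ∈ H then c u (g * (h ^ k g)⁻¹) else 0
  have z1 : ∀ u, ∀ g ∈ GK j, z u g = c u g := fun u g hg => by
    have := (ex u).1 g hg 0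
    rw [pow_zero, mul_one] at this
    exact (if_pos ((hΓ g).1 hg).1).trans this
  have zm : ∀ u, z u ∈ Z0 θ T H h := fun u => by
    refine ⟨⟨fun g hg g' hg' => ?_, fun g hg => if_neg hg, ?_, fun l hl P hP g hg => ?_⟩, ?_⟩
    · simp only [z, if_pos hg, if_pos hg', if_pos (H.mul_mem hg hg')]
      exact (ex u).2 g hg g' hg'
    · obtain ⟨V, hV, e⟩ : Op (c u) := op_sum _ _ fun i => by
        obtain ⟨V, hV, e⟩ := Kc.kq_opn (j (el (t^[i] u)))
        refine ⟨V, hV, fun σ hσ => ?_⟩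
        show θ h ^ i * up F (B (t^[i] u) σ) = 0
        by_cases hg : σ ∈ GK j
        · rw [B1 _ _ hg, e σ hσ, map_zero, mul_zero]
        · rw [B0 _ _ hg, map_zero, mul_zero]
      exact ⟨V ⊓ GK j, hV.inter ho, fun σ hσ => (z1 u σ hσ.2).trans (e σ hσ.1)⟩
    · by_cases hH : g ∈ H
      · have mg := (hΓ g).2 ⟨hH, hur l hl P hP g hH hg⟩
        rw [z1 u g mg, cv]
        refine Finset.sum_eq_zero fun i _ => ?_
        rw [B1 _ _ mg, Kc.kq_US j h2 hT _ hP.1 hl hP.2.1 hP.2.2 mg hg, map_zero, mul_zero]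
      · exact if_neg hH
    · have := (ex u).1 1 (GK j).one_mem 1
      rw [pow_one, one_mul] at this
      have c1 := ca u 1 (GK j).one_mem 1 (GK j).one_mem
      rw [mul_one] at c1
      exact (if_pos hh).trans (this.trans (left_eq_add.1 c1))
  let ζ : US L T →+ Z0 θ T H h := AddMonoidHom.mk' (fun u => ⟨z u, zm u⟩) fun u v =>
    Subtype.ext (funext fun g => by
      show z (u + v) g = z u g + z v g
      by_cases hg : g ∈ H
      · simp only [z, if_pos hg, cv, ← Finset.sum_add_distrib, iterate_map_add, map_add,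
          Pi.add_apply, mul_add]
      · simp only [z, if_neg hg, add_zero])
  let Φ : Module.Dual F (Z0 θ T H h) →ₗ[F] (US L T →+ F) :=
    { toFun := fun μ => μ.toAddMonoidHom.comp ζ
      map_add' := fun _ _ => rfl
      map_smul' := fun _ _ => rfl }
  let R : (GQ → F) →ₗ[F] (GQ → F) :=
    { toFun := fun w g => if g ∈ GK j then w g else 0
      map_add' := fun a b => funext fun g => by by_cases hg : g ∈ GK j <;> simp [hg]
      map_smul' := fun a b => funext fun g => by by_cases hg : g ∈ GK j <;> simp [hg] }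
  refine (Submodule.rank_mono fun l hl => ?_).trans (LinearMap.rank_le_domain Φ)
  obtain ⟨k0, hk0⟩ := ext0 B l fun a b e => by
    obtain ⟨w, rfl⟩ := (Kc.kq_el_triv j a).1 fun g hg => by
      rw [← B1 a g hg, e, Pi.smul_apply, two_nsmul, CharTwo.add_self_eq_zero]
    rw [map_nsmul, two_nsmul, CharTwo.add_self_eq_zero]
  obtain ⟨lm, hlm⟩ := lam k0
  refine ⟨lm ∘ₗ R ∘ₗ (Z0 θ T H h).subtype, AddMonoidHom.ext fun u => ?_⟩
  show lm (R (z u)) = l u
  have e : R (z u) = c u := funext fun g => by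
    show (if g ∈ GK j then z u g else 0) = c u g
    by_cases hg : g ∈ GK j
    · rw [if_pos hg, z1 u g hg]
    · rw [if_neg hg, cv]
      exact (Finset.sum_eq_zero fun i _ => by rw [B0 _ _ hg, map_zero, mul_zero]).symm
  have li : ∀ i : ℕ, θ h ^ i * l (t^[i] u) = l u := fun i => by
    induction i with
    | zero => rw [pow_zero, one_mul]; rfl
    | succ i ih =>
      rw [Function.iterate_succ_apply', hl, pow_succ, mul_assoc, mul_inv_cancel_left₀ x0, ih]
  rw [e, map_sum, Finset.sum_congr rfl fun i _ => (by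
    rw [map_smul, hlm, hk0, smul_eq_mul, li] : _ = l u), Finset.sum_const, Finset.card_range]
  obtain ⟨n, rfl⟩ := mo
  rw [nsmul_eq_mul, Nat.cast_add, Nat.cast_mul, Nat.cast_ofNat, two, zero_mul, zero_add,
    Nat.cast_one, one_mul]

theorem chr : CHR := by
  classical
  intro F _ _ _ H θ T D hH h1 hm ⟨U, hU, hUθ⟩ h0 h2 hD hur
  have inv : ∀ g ∈ H, θ g⁻¹ * θ g = 1 := fun g hg => by
    rw [← hm _ (H.inv_mem hg) _ hg, inv_mul_cancel, h1]
  let Γ : Subgroup GQ :=
    { carrier := {g | g ∈ H ∧ θ g = 1}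
      mul_mem' := fun {a b} ha hb =>
        ⟨H.mul_mem ha.1 hb.1, by rw [hm _ ha.1 _ hb.1, ha.2, hb.2, one_mul]⟩
      one_mem' := ⟨H.one_mem, h1⟩
      inv_mem' := fun {a} ha => ⟨H.inv_mem ha.1, by rw [← inv a ha.1, ha.2, mul_one]⟩ }
  have Γo : IsOpen (Γ : Set GQ) :=
    Subgroup.isOpen_mono (H₁ := H ⊓ U) (fun g hg => ⟨hg.1, hUθ g hg.2⟩) (hH.inter hU)
  have Γn : ∀ g ∈ H, ∀ u ∈ Γ, g * u * g⁻¹ ∈ Γ := fun g hg u hu =>
    ⟨H.mul_mem (H.mul_mem hg hu.1) (H.inv_mem hg), by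
      rw [hm _ (H.mul_mem hg hu.1) _ (H.inv_mem hg), hm _ hg _ hu.1, hu.2, mul_one, mul_comm,
        inv g hg]⟩
  obtain ⟨K, _, _, jK, rfl⟩ := Ni.ex_fld hH
  obtain ⟨L, _, _, _, _, j, res, hd, hL, hker⟩ :=
    H916.exists_fld jK Γ Γo (fun g hg => hg.1) Γn
  have hfd : FiniteDimensional K L := Module.Finite.of_restrictScalars_finite ℚ K L
  have hcard : Nat.card (L ≃ₐ[K] L) = Module.finrank K L := IsGalois.card_aut_eq_finrank K L
  let ψ : GK jK →* F :=
    { toFun := fun g => θ g, map_one' := h1, map_mul' := fun g g' => hm g g.2 g' g'.2 }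
  let χ : (L ≃ₐ[K] L) →* F := (Units.coeHom F).comp
    (res.liftOfRightInverse (Function.surjInv hd.surj)
    (Function.rightInverse_surjInv hd.surj) ⟨ψ.toHomUnits, fun g hg => by
      rw [MonoidHom.mem_ker] at hg ⊢
      exact Units.ext ((hker g).1 hg).2⟩)
  have hχ : ∀ g, χ (res g) = θ g := fun g => by
    simp only [χ, MonoidHom.comp_apply, MonoidHom.liftOfRightInverse_comp_apply]
    rfl
  have hχ1 : ∀ σ, χ σ = 1 → σ = 1 := by
    intro σ hσ
    obtain ⟨g, rfl⟩ := hd.surj σ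
    rw [hχ] at hσ
    exact (hker g).2 ⟨g.2, hσ⟩
  have hcyc : IsCyclic (L ≃ₐ[K] L) :=
    isCyclic_of_injective_ringHom χ ((injective_iff_map_eq_one χ).2 hχ1)
  have hodd : Odd (Module.finrank K L) := by
    rw [← hcard, ← Nat.not_even_iff_odd, even_iff_two_dvd]
    intro h2
    haveI : Fact (Nat.Prime 2) := ⟨Nat.prime_two⟩
    obtain ⟨σ, hσ⟩ := exists_prime_orderOf_dvd_card' 2 h2
    have h1 : χ σ ^ 2 = 1 := by rw [← map_pow, ← hσ, pow_orderOf_eq_one, map_one]
    have h3 : χ σ = 1 := by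
      rcases sq_eq_one_iff.1 h1 with h | h
      · exact h
      · rw [h, CharTwo.neg_eq]
    rw [hχ1 σ h3, orderOf_one] at hσ
    omega
  obtain ⟨τ, hτ⟩ := IsCyclic.exists_monoid_generator (α := L ≃ₐ[K] L)
  have hτm : τ ^ Module.finrank K L = 1 := by rw [← hcard, pow_card_eq_one']
  obtain ⟨h, hres, hx⟩ : ∃ h : GK jK, res h = τ ∧ (θ h ≠ 1 ∨ (h : GQ) = 1 ∧ τ = 1) := by
    by_cases e : τ = 1
    · exact ⟨1, by rw [map_one, e], Or.inr ⟨rfl, e⟩⟩
    · obtain ⟨g, hg⟩ := hd.surj τ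
      exact ⟨g, hg, Or.inl fun k => e (hχ1 τ (by rw [← hg, hχ, k]))⟩
  have gen : ∀ g ∈ GK jK, ∃ k : ℕ, g * ((h : GQ) ^ k)⁻¹ ∈ Γ := fun g hg => by
    obtain ⟨i, hi⟩ := hτ (res ⟨g, hg⟩)
    exact ⟨i, (hker (⟨g, hg⟩ * (h ^ i)⁻¹)).1 (by
      rw [map_mul, map_inv, map_pow, hres, ← hi, mul_inv_cancel])⟩
  have xm : θ h ^ Module.finrank K L = 1 := by rw [← hχ, hres, ← map_pow, hτm, map_one]
  have hj : ∀ y, j (τ y) = (h : GQ) (j y) := fun y => by rw [← hres]; exact (hd.act h y).symm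
  have hT : ∀ l ∈ T, l = 0 ∨ l.Prime := fun l hl => (hD l hl).cases
  have tm : ∀ y, (τ.toRingEquiv)^[Module.finrank K L] y = y := by
    intro y
    have e1 : ∀ i : ℕ, (τ.toRingEquiv)^[i] y = (τ ^ i) y := by
      intro i
      induction i with
      | zero => rfl
      | succ i ih => rw [Function.iterate_succ_apply', ih, pow_succ']; rfl
    rw [e1, hτm]
    rfl
  have a1 := swap (GK jK) (GK j) θ T D h h1 hm h.2 (by rw [hL]; exact fun g hg => hg)
  obtain ⟨fT, sT⟩ := sum L F τ.toRingEquiv (θ h)⁻¹ T hT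
  have a2 : ∑ l ∈ T, Module.rank F (Ind F (GK j) h (θ h)⁻¹ (D l)) ≤
      Module.rank F (E F (mv τ.toRingEquiv) (θ h)⁻¹ (ov L T)) +
        Module.rank F (E F (fun w : InfinitePlace L => τ • w) (θ h)⁻¹ Set.univ) := by
    rw [← Finset.sum_erase_add _ _ h0, sT]
    refine add_le_add (le_of_eq (Finset.sum_congr rfl fun l hl => ?_))
      (pli K L F j h τ _ (D 0) hj (hD 0 h0))
    exact (pl L F j h τ.toRingEquiv _ l (D l) hj (Finset.ne_of_mem_erase hl)
      (hD l (Finset.mem_of_mem_erase hl))).symm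
  have a3 : Module.rank F (E F (mv τ.toRingEquiv) (θ h)⁻¹ (ov L T)) +
      Module.rank F (E F (fun w : InfinitePlace L => τ • w) (θ h)⁻¹ Set.univ) ≤
      Module.rank F (X F (tU τ.toRingEquiv T) (θ h)⁻¹) := by
    rcases hx with hx | ⟨hx, e⟩
    · exact unitx (lb ext) K L F τ _ T hodd (by rw [inv_pow, xm, inv_one]) (by
        rwa [Ne, inv_eq_one])
    · have := unit1 L F T
      rw [hx, h1, inv_one, e]
      exact this
  have a4 := core j (GK jK) θ T h τ.toRingEquiv _ hm h.2 (by rw [hL]; exact fun g => Iff.rfl)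
    (by rw [hL]; exact Γo) (by rw [hL]; exact Γn h h.2) (hx.imp id And.left)
    (by rw [hL]; exact gen) hj hodd xm tm h2 hT hur
  have a5 : Module.rank F (Ft θ T D (GK jK)) ≤ Module.rank F (Z0 θ T (GK jK) h) := by
    by_cases fin : Module.Finite F (Z0 θ T (GK jK) h)
    · exact (a1.trans (a2.trans (a3.trans a4))).trans
        (Module.finBasis F (Z0 θ T (GK jK) h)).toDualEquiv.rank_eq.ge
    · refine ((a1.trans a2).trans_lt (Cardinal.add_lt_aleph0 fT ?_)).le.trans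
        (not_lt.1 fun k => fin (Module.rank_lt_aleph0_iff.1 k))
      exact Module.rank_lt_aleph0 F _
  refine ⟨a5.trans (Submodule.rank_mono inf_le_left), fun ⟨g, hg, hne⟩ => ?_⟩
  have x1 : θ h ≠ 1 := hx.resolve_right fun e => by
    obtain ⟨k, hk⟩ := gen g hg
    rw [e.1, one_pow, inv_one, mul_one] at hk
    exact hne hk.2
  let b : GQ → F := fun g => if g ∈ GK jK then θ g - 1 else 0
  have bm : b ∈ Zt θ T (GK jK) := by
    refine ⟨fun g hg g' hg' => ?_, fun g hg => if_neg hg,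
      ⟨Γ, Γo, fun σ hσ => (if_pos hσ.1).trans (by rw [hσ.2, sub_self])⟩,
      fun l hl P hP g hg => ?_⟩
    · simp only [b, if_pos hg, if_pos hg', if_pos ((GK jK).mul_mem hg hg'), hm g hg g' hg']
      ring
    · by_cases hH : g ∈ GK jK
      · exact (if_pos hH).trans (by rw [hur l hl P hP g hH hg, sub_self])
      · exact if_neg hH
  have bh : b h ≠ 0 := by
    simp only [b, if_pos h.2]
    exact sub_ne_zero.2 x1
  let f : (Z0 θ T (GK jK) h × F) →ₗ[F] Zt θ T (GK jK) :=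
    (Submodule.inclusion inf_le_left).coprod (LinearMap.toSpanSingleton F _ ⟨b, bm⟩)
  have fi : Function.Injective f := (injective_iff_map_eq_zero f).2 fun ⟨w, a⟩ e => by
    have e1 : (w : GQ → F) + a • b = 0 := congrArg Subtype.val e
    have e2 : (w : GQ → F) h + a * b h = 0 := congrFun e1 h
    rw [show (w : GQ → F) h = 0 from w.2.2, zero_add] at e2
    have a0 := (mul_eq_zero.1 e2).resolve_right bh
    rw [a0, zero_smul, add_zero] at e1
    exact Prod.ext (Subtype.ext e1) a0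
  have := LinearMap.rank_le_of_injective f fi
  rw [rank_prod', Module.rank_self] at this
  exact (add_le_add a5 le_rfl).trans this

end Vale.Agent.P022E.GW.H6
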