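import Vale.Agent.P022E.Sel.Defs
import Vale.Agent.P022E.Gp.All
import Vale.Agent.P022D.Sel.Kum
import Vale.Agent.P022D.Sel.Odd

/-!
# P022, non solvable case: regular elements kill the dual classes
-/

set_option linter.all false

noncomputable section

namespace Vale.Agent.P022E.GW.Kl

open Vale.Agent.P022 Vale.Agent.P022E.Sel Matrix
open Vale.Agent.P027M.S (mx)

variable {F : Type} [Field F] {ρ : GQ →* GL (Fin 2) F} {H : Subgroup GQ}

theorem nrm : Ginf.Normal := ⟨fun t ht g => by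
  simpa using P022D.Sel.Kum.conj_mem g⁻¹ ht⟩

theorem fin_range (h : IsOpen {g : GQ | ρ g = 1}) : Finite ρ.range := by
  have := P022D.Sel.OddP.compact_GQ
  have : Finite (GQ ⧸ ρ.ker) := Subgroup.quotient_finite_of_isOpen _ h
  exact Finite.of_equiv _ (QuotientGroup.quotientKerEquivRange ρ).toEquiv

/-- the image of `Ginf` is big -/
theorem big_inf [CharP F 2] (hD : Dh ρ H) : Gp.Big (Ginf.map ρ) := by
  have f := fin_range hD.opn
  have le : Ginf.map ρ ≤ ρ.range := Subgroup.map_le_range _ _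
  refine Gp.big0 F _ ⟨Finite.of_injective _ (Subgroup.inclusion_injective le), ?_⟩ fun hs => ?_
  · rintro _ ⟨g, -, rfl⟩
    exact hD.det g
  haveI : Group.IsSolvable (Ginf.map ρ) := hs
  have n : ((Ginf.map ρ).subgroupOf ρ.range).Normal := ⟨by
    rintro ⟨_, a⟩ ⟨t, ht, rfl⟩ ⟨_, g, rfl⟩
    exact ⟨g * t * g⁻¹, nrm.conj_mem t ht g, by simp⟩⟩
  have p : IsPGroup 2 (ρ.range ⧸ (Ginf.map ρ).subgroupOf ρ.range) := by
    intro x
    obtain ⟨⟨_, g, rfl⟩, rfl⟩ := QuotientGroup.mk_surjective x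
    obtain ⟨a, m, h1, e⟩ := Nat.exists_eq_pow_mul_and_not_dvd
      (orderOf_pos (⟨ρ g, g, rfl⟩ : ρ.range)).ne' 2 (by norm_num)
    have e2 := congrArg Subtype.val (pow_orderOf_eq_one (⟨ρ g, g, rfl⟩ : ρ.range))
    rw [e] at e2
    obtain ⟨γ, hγ, t, ht, e3⟩ := P022D.Sel.odd ρ.ker (g ^ 2 ^ a) m hD.opn
      (Nat.odd_iff.2 (by omega)) (by rw [MonoidHom.mem_ker, ← pow_mul, map_pow]; exact e2)
    refine ⟨a, ?_⟩
    rw [← QuotientGroup.mk_pow, QuotientGroup.eq_one_iff]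
    refine ⟨t, ht, ?_⟩
    have := congrArg ρ e3
    rw [map_mul, MonoidHom.mem_ker.1 hγ, one_mul, map_pow] at this
    exact this.symm
  have := Fact.mk Nat.prime_two
  have := p.isNilpotent
  exact hD.nsv (solvable_of_ker_le_range (Subgroup.inclusion le)
    (QuotientGroup.mk' ((Ginf.map ρ).subgroupOf ρ.range)) fun x hx =>
      ⟨⟨x, (QuotientGroup.eq_one_iff x).1 hx⟩, rfl⟩)

theorem mi (g : GQ) : mx ρ g⁻¹ * mx ρ g = 1 := by
  rw [mx, mx, ← Units.val_mul, ← map_mul, inv_mul_cancel, map_one, Units.val_one]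

theorem mm (g h : GQ) : mx ρ (g * h) = mx ρ g * mx ρ h := by
  simp only [mx, map_mul, Units.val_mul]

/-- the cocycle condition -/
def Co (ρ : GQ →* GL (Fin 2) F) (y : GQ → M2 F) : Prop :=
  ∀ g h, y (g * h) = y g + mx ρ g * y h * mx ρ g⁻¹

theorem shape {y : GQ → M2 F} (B : Gp.Big (Ginf.map ρ)) (hy : Co ρ y)
    (k : ∀ σ ∈ Ginf, (mx ρ σ).trace ≠ 0 → (y σ).trace = 0 ∧ (y σ * mx ρ σ).trace = 0) :
    ∃ X : M2 F, (∀ t ∈ Ginf, y t - (X - mx ρ t * X * mx ρ t⁻¹) = 0) ∧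
      ∀ g, ∃ s : F, y g - (X - mx ρ g * X * mx ρ g⁻¹) = s • 1 := by
  classical
  have k1 : ∀ γ ∈ Ginf, ρ γ = 1 → y γ = 0 := fun γ hγ e => by
    have a : ∀ σ ∈ Ginf, (mx ρ σ).trace ≠ 0 → (y γ).trace = 0 ∧ (y γ * mx ρ σ).trace = 0 := by
      intro σ hσ t
      have e1 : mx ρ (γ * σ) = mx ρ σ := by rw [mx, map_mul, e, one_mul]
      have e2 : y (γ * σ) = y γ + y σ := by simp [hy γ σ, mx, e]
      have b := k _ (Ginf.mul_mem hγ hσ) (by rwa [e1])
      rw [e1, e2, add_mul, trace_add, trace_add, (k σ hσ t).1, (k σ hσ t).2, add_zero,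
        add_zero] at b
      exact b
    obtain ⟨_, ⟨σ, hσ, rfl⟩, t⟩ := B.reg
    refine B.spn _ ?_ (a σ hσ t).1
    rintro _ ⟨σ', hσ', rfl⟩ t'
    exact (a σ' hσ' t').2
  have k2 : ∀ t ∈ Ginf, ∀ t' ∈ Ginf, ρ t = ρ t' → y t = y t' := fun t ht t' ht' e => by
    have := hy t (t⁻¹ * t')
    rw [mul_inv_cancel_left, k1 _ (Ginf.mul_mem (Ginf.inv_mem ht) ht') (by simp [e])] at this
    simpa using this.symm
  let c : GL (Fin 2) F → M2 F := fun u => if h : u ∈ Ginf.map ρ then y h.choose else 0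
  have hc : ∀ t ∈ Ginf, c (ρ t) = y t := fun t ht => by
    have h : ρ t ∈ Ginf.map ρ := ⟨t, ht, rfl⟩
    exact (dif_pos h).trans (k2 _ h.choose_spec.1 t ht h.choose_spec.2)
  obtain ⟨X, hX⟩ := B.h1 c (by
    rintro _ ⟨t, ht, rfl⟩ _ ⟨t', ht', rfl⟩
    rw [← map_mul, hc _ (Ginf.mul_mem ht ht'), hc t ht, hc t' ht', hy, ← map_inv])
  have z0 : ∀ t ∈ Ginf, y t - (X - mx ρ t * X * mx ρ t⁻¹) = 0 := fun t ht => by
    rw [← hc t ht, hX _ ⟨t, ht, rfl⟩, ← map_inv, sub_self]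
  refine ⟨X, z0, fun g => ?_⟩
  have zc : Co ρ fun g => y g - (X - mx ρ g * X * mx ρ g⁻¹) := fun g h => by
    simp only [hy g h, _root_.mul_inv_rev, mm]
    noncomm_ring
  obtain ⟨z, hz⟩ : ∃ z, z = y g - (X - mx ρ g * X * mx ρ g⁻¹) := ⟨_, rfl⟩
  have cm : ∀ t ∈ Ginf, z * mx ρ t = mx ρ t * z := fun t ht => by
    have a := zc t g
    have b := zc g (g⁻¹ * t * g)
    rw [show g * (g⁻¹ * t * g) = t * g by group] at b
    dsimp only at a b
    rw [z0 _ (P022D.Sel.Kum.conj_mem g ht), Matrix.mul_zero, Matrix.zero_mul, add_zero] at b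
    rw [b, z0 t ht, zero_add, ← hz] at a
    conv_lhs => rw [a, Matrix.mul_assoc, mi, Matrix.mul_one]
  have cz : ∀ Z : M2 F, z * Z - Z * z = 0 := fun Z => B.spn _ (by
    rintro _ ⟨t, ht, rfl⟩ -
    have := cm t ht
    rw [mx] at this
    rw [sub_mul, trace_sub, Matrix.mul_assoc, trace_mul_comm, Matrix.mul_assoc, Matrix.mul_assoc,
      this, sub_self]) (by rw [trace_sub, trace_mul_comm, sub_self])
  have e1 := cz !![1, 0; 0, 0]
  have e2 := cz !![0, 1; 0, 0]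
  have a1 := congrFun (congrFun e1 0) 1
  have a2 := congrFun (congrFun e1 1) 0
  have a3 := congrFun (congrFun e2 0) 1
  simp only [Matrix.sub_apply, Matrix.mul_apply, Fin.sum_univ_two] at a1 a2 a3
  simp [sub_eq_zero] at a1 a2 a3
  refine ⟨z 0 0, hz ▸ ?_⟩
  ext i j
  fin_cases i <;> fin_cases j <;> simp [a1, a2, a3]

theorem chr [CharP F 2] {χ : GQ → F} (h : ∀ g h, χ (g * h) = χ g + χ h) {V : Subgroup GQ}
    (hV : IsOpen (V : Set GQ)) (h1 : ∀ g ∈ V, χ g = 0) (h2 : ∀ g ∈ Ginf, χ g = 0) {i r : Qb}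
    (hi : i ^ 2 = -1) (hr : r ^ 2 = 2) {g : GQ} (gi : g i = i) (gr : g r = r) : χ g = 0 := by
  by_contra ne
  letI := ZMod.algebra F 2
  obtain ⟨l, hl⟩ : ∃ l : Module.Dual (ZMod 2) F, l (χ g) ≠ 0 := by
    by_contra k
    push Not at k
    exact ne ((Module.forall_dual_apply_eq_zero_iff (ZMod 2) _).1 k)
  have c1 : χ 1 = 0 := h1 1 V.one_mem
  let K : Subgroup GQ :=
    { carrier := {g | l (χ g) = 0}
      mul_mem' := fun {a b} (ha : l _ = 0) (hb : l _ = 0) => by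
        show l _ = 0
        rw [h, map_add, ha, hb, add_zero]
      one_mem' := by show l _ = 0; rw [c1, map_zero]
      inv_mem' := fun {a} (ha : l _ = 0) => by
        have := congrArg l (h a a⁻¹)
        rw [mul_inv_cancel, c1, map_zero, map_add, ha, zero_add] at this
        exact this.symm }
  have zm : ∀ a b : ZMod 2, a ≠ 0 → b ≠ 0 → a + b = 0 := by decide
  obtain ⟨d, w, d0, hw, f1, f2⟩ := P022D.Sel.quad K
    (Subgroup.isOpen_mono (fun g hg => show l _ = 0 by rw [h1 g hg, map_zero]) hV)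
    fun a ha b hb => show l _ = 0 by rw [h, map_add]; exact zm _ _ ha hb
  obtain ⟨e, f, z, hd⟩ := P022D.Sel.kumq d w d0 hw fun t ht =>
    f1 t (show l _ = 0 by rw [h2 t ht, map_zero])
  have e1 : w ^ 2 = (i ^ e * r ^ f * z) ^ 2 := by
    rw [hw, hd, mul_pow, mul_pow, ← pow_mul, ← pow_mul, mul_comm e, mul_comm f, pow_mul, pow_mul,
      hi, hr]
    push_cast
    rfl
  have e2 : g w = w := by
    rcases sq_eq_sq_iff_eq_or_eq_neg.1 e1 with e | e <;> rw [e] <;> simp [gi, gr]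
  have e3 : w = 0 := by linear_combination (f2 g hl - e2) / 2
  rw [e3] at hw
  exact d0 (by exact_mod_cast (by simpa using hw.symm : (d : Qb) = 0))

theorem gens {i r : Qb} (hi : i ^ 2 = -1) (hr : r ^ 2 = 2) : ∃ a b : GQ, ∀ χ : GQ → F,
    (∀ g h, χ (g * h) = χ g + χ h) → (∀ g : GQ, g i = i → g r = r → χ g = 0) → χ a = 0 →
    χ b = 0 → ∀ g, χ g = 0 := by
  have pm : ∀ (w : Qb) (g a : GQ), (∀ g : GQ, g (w ^ 2) = w ^ 2) → g w ≠ w → a w ≠ w →
      (g * a) w = w := fun w g a h h1 h2 => by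
    rw [AlgEquiv.mul_apply, (P022D.Sel.Kum.pm (h a)).resolve_left h2, map_neg,
      (P022D.Sel.Kum.pm (h g)).resolve_left h1, neg_neg]
  obtain ⟨a, ha⟩ : ∃ a : GQ, ∀ g : GQ, g i ≠ i → a i ≠ i := by
    by_cases h : ∃ g : GQ, g i ≠ i
    · exact ⟨h.choose, fun _ _ => h.choose_spec⟩
    · exact ⟨1, fun g hg => (h ⟨g, hg⟩).elim⟩
  obtain ⟨b, hb⟩ : ∃ b : GQ, ∀ g : GQ, g i = i → g r ≠ r → b i = i ∧ b r ≠ r := by
    by_cases h : ∃ g : GQ, g i = i ∧ g r ≠ r
    · exact ⟨h.choose, fun _ _ _ => h.choose_spec⟩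
    · exact ⟨1, fun g hg hg' => (h ⟨g, hg, hg'⟩).elim⟩
  refine ⟨a, b, fun χ h k ea eb => ?_⟩
  have s : ∀ g : GQ, g i = i → χ g = 0 := fun g gi => by
    by_cases gr : g r = r
    · exact k g gi gr
    have := k (g * b) (by rw [AlgEquiv.mul_apply, (hb g gi gr).1, gi])
      (pm r g b (fun g => by rw [hr, map_ofNat]) gr (hb g gi gr).2)
    rwa [h, eb, add_zero] at this
  intro g
  by_cases gi : g i = i
  · exact s g gi
  have := s (g * a) (pm i g a (fun g => by rw [hi, map_neg, map_one]) gi (ha g gi))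
  rwa [h, ea, add_zero] at this

/-- the coboundaries -/
def dd (ρ : GQ →* GL (Fin 2) F) : M2 F →ₗ[F] (GQ → M2 F) where
  toFun X := fun g => X - mx ρ g * X * mx ρ g⁻¹
  map_add' X Y := funext fun g => by simp only [Pi.add_apply]; noncomm_ring
  map_smul' s X := funext fun g => by
    simp only [Pi.smul_apply, RingHom.id_apply, smul_sub, Matrix.mul_smul, Matrix.smul_mul]

theorem dd_one : dd ρ 1 = 0 := funext fun g => by
  have := mi (ρ := ρ) g⁻¹
  rw [inv_inv] at this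
  simp only [dd, LinearMap.coe_mk, AddHom.coe_mk, Matrix.mul_one, this, sub_self, Pi.zero_apply]

theorem rank_dd : Module.rank F (LinearMap.range (dd ρ)) ≤ 3 := by
  have e := (dd ρ).rank_range_add_rank_ker
  have k : (1 : Cardinal) ≤ Module.rank F (LinearMap.ker (dd ρ)) := by
    rw [Cardinal.one_le_iff_pos, rank_pos_iff_exists_ne_zero]
    exact ⟨⟨1, dd_one⟩, fun h => one_ne_zero (congrArg Subtype.val h)⟩
  have m : Module.rank F (M2 F) = 3 + 1 := by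
    rw [rank_matrix']
    norm_num
  exact (Cardinal.add_le_add_iff_of_lt_aleph0 Cardinal.one_lt_aleph0).1
    ((add_le_add le_rfl k).trans (e.trans m).le)

/-- **the dual classes**, all regular elements -/
theorem kill0 [CharP F 2] (hD : Dh ρ H) (Y : Submodule F (GQ → M2 F))
    (hY : ∀ y ∈ Y, Co ρ y ∧ ∃ U : Subgroup GQ, IsOpen (U : Set GQ) ∧ ∀ u ∈ U, y u = 0)
    (k : ∀ y ∈ Y, ∀ σ ∈ Ginf, (mx ρ σ).trace ≠ 0 →
      (y σ).trace = 0 ∧ (y σ * mx ρ σ).trace = 0) : Module.rank F Y ≤ 5 := by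
  obtain ⟨i, hi⟩ := IsAlgClosed.exists_pow_nat_eq (-1 : Qb) two_pos
  obtain ⟨r, hr⟩ := IsAlgClosed.exists_pow_nat_eq (2 : Qb) two_pos
  obtain ⟨a, b, hab⟩ := gens (F := F) hi hr
  let S : Submodule F (GQ → M2 F) :=
    { carrier := {z | (∀ g, z g = z g 0 0 • 1) ∧ (∀ g h, z (g * h) 0 0 = z g 0 0 + z h 0 0) ∧
        ∀ g : GQ, g i = i → g r = r → z g 0 0 = 0}
      add_mem' := fun {z w} hz hw => ⟨fun g => by
          rw [Pi.add_apply, Matrix.add_apply, add_smul, ← hz.1, ← hw.1],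
        fun g h => by simp only [Pi.add_apply, Matrix.add_apply, hz.2.1, hw.2.1]; ring,
        fun g h h' => by rw [Pi.add_apply, Matrix.add_apply, hz.2.2 g h h', hw.2.2 g h h', add_zero]⟩
      zero_mem' := ⟨fun g => by simp, fun g h => by simp, fun _ _ _ => rfl⟩
      smul_mem' := fun s z hz => ⟨fun g => by
          rw [Pi.smul_apply, Matrix.smul_apply, smul_assoc, ← hz.1],
        fun g h => by simp only [Pi.smul_apply, Matrix.smul_apply, hz.2.1, smul_add],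
        fun g h h' => by rw [Pi.smul_apply, Matrix.smul_apply, hz.2.2 g h h', smul_zero]⟩ }
  have rS : Module.rank F S ≤ 2 := by
    let f : S →ₗ[F] F × F :=
      { toFun := fun z => (z.1 a 0 0, z.1 b 0 0)
        map_add' := fun _ _ => rfl
        map_smul' := fun _ _ => rfl }
    refine (f.rank_le_of_injective ((injective_iff_map_eq_zero f).2 fun z hz =>
      Subtype.ext (funext fun g => ?_))).trans (by rw [rank_prod', Module.rank_self]; norm_num)
    rw [z.2.1, hab (fun g => z.1 g 0 0) z.2.2.1 z.2.2.2 (congrArg Prod.fst hz)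
      (congrArg Prod.snd hz), zero_smul]
    rfl
  refine (Submodule.rank_mono (t := LinearMap.range (dd ρ) ⊔ S) fun y hy => ?_).trans
    ((Submodule.rank_add_le_rank_add_rank _ _).trans
      ((add_le_add rank_dd rS).trans (by norm_num)))
  obtain ⟨hc, U, hU, hU0⟩ := hY y hy
  obtain ⟨X, z0, hX⟩ := shape (big_inf hD) hc (k y hy)
  choose s hs using hX
  have e : ∀ g, (y - dd ρ X) g = s g • 1 := hs
  have e0 : ∀ g, (y - dd ρ X) g 0 0 = s g := fun g => by rw [e]; simp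
  have ad : ∀ g h, s (g * h) = s g + s h := fun g h => by
    have zc : (y - dd ρ X) (g * h) = (y - dd ρ X) g + mx ρ g * (y - dd ρ X) h * mx ρ g⁻¹ := by
      simp only [Pi.sub_apply, dd, LinearMap.coe_mk, AddHom.coe_mk, hc g h, _root_.mul_inv_rev, mm]
      noncomm_ring
    have := mi (ρ := ρ) g⁻¹
    rw [inv_inv] at this
    rw [e h, Matrix.mul_smul, Matrix.mul_one, Matrix.smul_mul, this] at zc
    rw [← e0, zc, Matrix.add_apply, e0]
    simp
  rw [← add_sub_cancel (dd ρ X) y]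
  refine Submodule.add_mem_sup ⟨X, rfl⟩ ⟨fun g => by rw [e0, e], fun g h => by rw [e0, e0, e0, ad],
    fun g gi gr => ?_⟩
  rw [e0]
  refine chr ad (V := U ⊓ ρ.ker) (hU.inter hD.opn) (fun u hu => ?_) (fun t ht => ?_) hi hr gi gr
  · rw [← e0]
    simp [dd, hU0 u hu.1, mx, MonoidHom.mem_ker.1 hu.2]
  · rw [← e0]
    exact congrFun (congrFun (z0 t ht) 0) 0

/-- **the dual classes**, finitely many regular elements -/
theorem kill [CharP F 2] (hD : Dh ρ H) (Y : Submodule F (GQ → M2 F)) [Module.Finite F Y]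
    (hY : ∀ y ∈ Y, (∀ g h, y (g * h) = y g + mx ρ g * y h * mx ρ g⁻¹) ∧
      ∃ U : Subgroup GQ, IsOpen (U : Set GQ) ∧ ∀ u ∈ U, y u = 0) :
    ∃ (r : ℕ) (σ : Fin r → GQ), (∀ i, σ i ∈ Ginf ∧ (mx ρ (σ i)).trace ≠ 0) ∧
      ∀ Y₀ ≤ Y, (∀ y ∈ Y₀, ∀ i, (y (σ i)).trace = 0 ∧ (y (σ i) * mx ρ (σ i)).trace = 0) →
        Module.rank F Y₀ ≤ 5 := by
  classical
  let W : Finset {σ : GQ // σ ∈ Ginf ∧ (mx ρ σ).trace ≠ 0} → Submodule F (GQ → M2 F) := fun s =>
    { carrier := {y | y ∈ Y ∧ ∀ σ ∈ s, (y σ.1).trace = 0 ∧ (y σ.1 * mx ρ σ.1).trace = 0}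
      add_mem' := fun {y z} hy hz => ⟨Y.add_mem hy.1 hz.1, fun σ h => by
        rw [Pi.add_apply, add_mul, trace_add, trace_add, (hy.2 σ h).1, (hy.2 σ h).2, (hz.2 σ h).1,
          (hz.2 σ h).2, add_zero]
        exact ⟨rfl, rfl⟩⟩
      zero_mem' := ⟨Y.zero_mem, fun σ h => by simp⟩
      smul_mem' := fun c y hy => ⟨Y.smul_mem c hy.1, fun σ h => by
        rw [Pi.smul_apply, Matrix.smul_mul, trace_smul, trace_smul, (hy.2 σ h).1, (hy.2 σ h).2,
          smul_zero]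
        exact ⟨rfl, rfl⟩⟩ }
  obtain ⟨s, -, hs⟩ := (measure fun s => Module.finrank F (W s)).wf.has_min Set.univ ⟨∅, trivial⟩
  have : Module.Finite F (W s) := Submodule.finiteDimensional_of_le (S₂ := Y) fun y hy => hy.1
  refine ⟨s.card, fun i => (s.equivFin.symm i).1.1, fun i => (s.equivFin.symm i).1.2,
    fun Y₀ le h => kill0 hD Y₀ (fun y hy => hY y (le hy)) fun y hy σ h1 h2 => ?_⟩
  have e : W (insert ⟨σ, h1, h2⟩ s) = W s := Submodule.eq_of_le_of_finrank_le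
    (fun z hz => ⟨hz.1, fun τ hτ => hz.2 τ (Finset.mem_insert_of_mem hτ)⟩)
    (not_lt.1 (hs _ trivial))
  have m : y ∈ W s := ⟨le hy, fun τ hτ => by
    simpa using h y hy (s.equivFin ⟨τ, hτ⟩)⟩
  rw [← e] at m
  exact m.2 _ (Finset.mem_insert_self _ _)

theorem tr_cob (σ : GQ) (m : M2 F) : (m - mx ρ σ * m * mx ρ σ⁻¹).trace = 0 ∧
    ((m - mx ρ σ * m * mx ρ σ⁻¹) * mx ρ σ).trace = 0 := by
  constructor
  · rw [trace_sub, trace_mul_comm, ← Matrix.mul_assoc, mi, Matrix.one_mul, sub_self]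
  · rw [sub_mul, trace_sub, Matrix.mul_assoc, mi, Matrix.mul_one, trace_mul_comm, sub_self]

/-- the same with local coboundaries -/
theorem kill' [CharP F 2] (hD : Dh ρ H) (Y : Submodule F (GQ → M2 F)) [Module.Finite F Y]
    (hY : ∀ y ∈ Y, (∀ g h, y (g * h) = y g + mx ρ g * y h * mx ρ g⁻¹) ∧
      ∃ U : Subgroup GQ, IsOpen (U : Set GQ) ∧ ∀ u ∈ U, y u = 0) :
    ∃ (r : ℕ) (σ : Fin r → GQ), (∀ i, σ i ∈ Ginf ∧ (mx ρ (σ i)).trace ≠ 0) ∧
      ∀ Y₀ ≤ Y, (∀ y ∈ Y₀, ∀ i, ∃ m, y (σ i) = m - mx ρ (σ i) * m * mx ρ (σ i)⁻¹) →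
        Module.rank F Y₀ ≤ 5 := by
  obtain ⟨r, σ, h1, h2⟩ := kill hD Y hY
  refine ⟨r, σ, h1, fun Y₀ le h => h2 Y₀ le fun y hy i => ?_⟩
  obtain ⟨m, e⟩ := h y hy i
  rw [e]
  exact tr_cob _ m

/-- from an odd power to the element -/
theorem of_pow [CharP F 2] {y : GQ → M2 F} (hy : Co ρ y) {σ : GQ} {m : ℕ} (hm : Odd m)
    (ns : ¬ Sc ρ (σ ^ m)) (h1 : (y (σ ^ m)).trace = 0) (h2 : (y (σ ^ m) * mx ρ (σ ^ m)).trace = 0) :
    (y σ).trace = 0 ∧ (y σ * mx ρ σ).trace = 0 := by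
  have a : ∀ (C : M2 F), C * mx ρ σ = mx ρ σ * C → ∀ n : ℕ,
      (y (σ ^ n) * C).trace = n * (y σ * C).trace := fun C hC n => by
    induction n with
    | zero =>
      have := hy 1 1
      simp only [mul_one, inv_one, mx, map_one, Units.val_one, one_mul, left_eq_add] at this
      simp [this]
    | succ n ih =>
      rw [pow_succ', hy, add_mul, trace_add, Matrix.mul_assoc, Matrix.mul_assoc, trace_mul_comm
        (mx ρ σ), Matrix.mul_assoc, Matrix.mul_assoc, hC, ← Matrix.mul_assoc (mx ρ σ⁻¹), mi,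
        Matrix.one_mul, ih]
      push_cast
      ring
  have o : (m : F) = 1 := by
    obtain ⟨k, rfl⟩ := hm
    push_cast
    rw [CharTwo.two_eq_zero, zero_mul, zero_add]
  have b : ∀ n : ℕ, ∃ s c : F, mx ρ (σ ^ n) = s • mx ρ σ + c • (1 : M2 F) := fun n => by
    induction n with
    | zero => exact ⟨0, 1, by simp [mx]⟩
    | succ n ih =>
      obtain ⟨s, c, h⟩ := ih
      refine ⟨s * (mx ρ σ).trace + c, -(s * (mx ρ σ).det), ?_⟩
      rw [pow_succ, mm, h]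
      generalize mx ρ σ = A
      ext i j
      fin_cases i <;> fin_cases j <;>
        simp [Matrix.mul_apply, Fin.sum_univ_two, trace_fin_two, det_fin_two] <;> ring
  obtain ⟨s, c, e⟩ := b m
  have t1 := a 1 (by simp) m
  rw [Matrix.mul_one, Matrix.mul_one, h1, o, one_mul] at t1
  have t2 := a (mx ρ (σ ^ m)) (by rw [← mm, ← mm, ← pow_succ, pow_succ']) m
  rw [h2, o, one_mul, e, mul_add, Matrix.mul_smul, Matrix.mul_smul, Matrix.mul_one, trace_add,
    trace_smul, trace_smul, ← t1, smul_zero, add_zero, smul_eq_mul] at t2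
  refine ⟨t1.symm, (mul_eq_zero.1 t2.symm).resolve_left fun s0 => ns ?_⟩
  rw [s0, zero_smul, zero_add] at e
  refine ⟨?_, ?_, ?_⟩ <;> rw [e] <;> simp

end Vale.Agent.P022E.GW.Kl
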