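import Vale.Agent.P022E.GW.Sha
import Vale.Agent.P022E.GW.Kill

/-!
# P022E, block GW: linear algebra for the count
-/

set_option linter.all false

noncomputable section

namespace Vale.Agent.P022E.GW.Cnt

open NumberField Module
open Vale.Agent.P022 Vale.Agent.P022D.Sel
open Vale.Agent.P027M.S (Inert mx)

variable {F : Type} [Field F]

theorem cnt {W Y : Type} [AddCommGroup W] [Module F W] [FiniteDimensional F W] [AddCommGroup Y]
    [Module F Y] [FiniteDimensional F Y] (γ : Y →ₗ[F] Dual F W) {k : ℕ}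
    (hk : finrank F γ.ker ≤ k) :
    finrank F γ.range.dualCoannihilator + finrank F Y ≤ finrank F W + k := by
  have h1 := Subspace.finrank_add_finrank_dualCoannihilator_eq γ.range
  have h2 := γ.finrank_range_add_finrank_ker
  omega

theorem cen2 {A N : M2 F} (hA : ¬ (A 0 1 = 0 ∧ A 1 0 = 0 ∧ A 0 0 = A 1 1)) (h : A * N = N * A) :
    ∃ u v : F, N = u • (1 : M2 F) + v • A := by
  have h00 := congrFun (congrFun h 0) 0
  have h01 := congrFun (congrFun h 0) 1
  have h10 := congrFun (congrFun h 1) 0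
  simp only [Matrix.mul_apply, Fin.sum_univ_two] at h00 h01 h10
  have key : ∀ v : F, v * A 0 1 = N 0 1 → v * A 1 0 = N 1 0 →
      v * (A 0 0 - A 1 1) = N 0 0 - N 1 1 → ∃ u v : F, N = u • (1 : M2 F) + v • A := by
    intro v a b c
    refine ⟨N 0 0 - v * A 0 0, v, ?_⟩
    ext i j
    fin_cases i <;> fin_cases j <;> simp [a, b]
    linear_combination c
  by_cases b : A 0 1 = 0
  · by_cases c : A 1 0 = 0
    · have d : A 0 0 - A 1 1 ≠ 0 := fun e => hA ⟨b, c, sub_eq_zero.1 e⟩
      refine key ((N 0 0 - N 1 1) / (A 0 0 - A 1 1)) ?_ ?_ (div_mul_cancel₀ _ d)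
      · field_simp
        linear_combination -h01
      · field_simp
        linear_combination h10
    · refine key (N 1 0 / A 1 0) ?_ (div_mul_cancel₀ _ c) ?_
      · field_simp
        linear_combination h00
      · field_simp
        linear_combination -h10
  · refine key (N 0 1 / A 0 1) (div_mul_cancel₀ _ b) ?_ ?_
    · field_simp
      linear_combination -h00
    · field_simp
      linear_combination h01

theorem ex_U (Y : Submodule F (GQ → M2 F)) [Module.Finite F Y] (h : ∀ y ∈ Y, Op y)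
    {V : Subgroup GQ} (hV : IsOpen (V : Set GQ)) : ∃ U : Subgroup GQ, IsOpen (U : Set GQ) ∧
      U.Normal ∧ U ≤ V ∧ ∀ y ∈ Y, ∀ u ∈ U, y u = 0 := by
  obtain ⟨s, hs⟩ : Y.FG := Module.Finite.iff_fg.1 inferInstance
  have h1 : ∀ y : s, Op (y : GQ → M2 F) := fun y => h y (hs ▸ Submodule.subset_span y.2)
  choose U hU hU0 using h1
  have ho : IsOpen ((V ⊓ ⨅ y, U y : Subgroup GQ) : Set GQ) := by
    rw [Subgroup.coe_inf, Subgroup.coe_iInf]
    exact hV.inter (isOpen_iInter_of_finite hU)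
  obtain ⟨N, hN⟩ := IsTopologicalGroup.exist_openNormalSubgroup_sub_clopen_nhds_of_one
    ⟨Subgroup.isClosed_of_isOpen _ ho, ho⟩ (V ⊓ ⨅ y, U y : Subgroup GQ).one_mem
  refine ⟨N.toSubgroup, N.isOpen, N.isNormal', fun g hg => (hN hg).1, fun y hy u hu => ?_⟩
  rw [← hs] at hy
  induction hy using Submodule.span_induction with
  | mem y hy => exact hU0 ⟨y, hy⟩ u (Subgroup.mem_iInf.1 (hN hu).2 _)
  | zero => rfl
  | add y z _ _ a b => rw [Pi.add_apply, a, b, add_zero]
  | smul r y _ a => rw [Pi.smul_apply, a, smul_zero]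

variable {ρ : GQ →* GL (Fin 2) F} {T Q : Finset ℕ} {D : ℕ → Set GQ}

theorem mx_one : mx ρ 1 = 1 := congrArg Units.val (map_one ρ)

theorem fx_fin : Module.Finite F (Fx ρ T D ⊤) := by
  let e : Fx ρ T D ⊤ →ₗ[F] (T → M2 F) :=
    { toFun := fun f l => f.1 l 1
      map_add' := fun _ _ => rfl
      map_smul' := fun _ _ => rfl }
  refine Module.Finite.of_injective e ((injective_iff_map_eq_zero e).2 fun f hf => ?_)
  refine Subtype.ext (funext fun l => ?_)
  by_cases hl : l ∈ T
  · funext g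
    have h1 : f.1 l 1 = 0 := congrFun hf ⟨l, hl⟩
    have h2 := f.2.2.1 l g trivial 1
    rw [mul_one, h1, mul_zero, zero_mul] at h2
    exact h2
  · exact f.2.1 l hl

theorem trpow {y : GQ → M2 F} (hy : ∀ g h, y (g * h) = y g + mx ρ g * y h * mx ρ g⁻¹) {σ : GQ}
    {C : M2 F} (hC : mx ρ σ * C = C * mx ρ σ) (n : ℕ) :
    (C * y (σ ^ n)).trace = n * (C * y σ).trace := by
  induction n with
  | zero =>
    have h := hy 1 1
    rw [mul_one, inv_one, mx_one, one_mul, mul_one, left_eq_add] at h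
    rw [pow_zero, h, mul_zero, Matrix.trace_zero, Nat.cast_zero, zero_mul]
  | succ n ih =>
    rw [pow_succ', hy, mul_add, Matrix.trace_add, ← Matrix.mul_assoc, ← Matrix.mul_assoc, ← hC,
      Matrix.trace_mul_comm _ (mx ρ σ⁻¹), ← Matrix.mul_assoc, ← Matrix.mul_assoc, Kl.mi,
      Matrix.one_mul, ih]
    push_cast
    ring

/-- the framed coboundaries -/
theorem ker_le (K : Submodule F ((GQ → M2 F) × (ℕ → M2 F)))
    (h : ∀ z ∈ K, TanP ρ T Q D z.1 z.2 ∧ ∃ X : M2 F, ∀ g, z.1 g = X - mx ρ g * X * mx ρ g⁻¹) :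
    Module.rank F K ≤ Module.rank F (Fx ρ T D ⊤) + 3 := by
  rw [add_comm]
  refine (KerH.step (LinearMap.fst F _ _) (LinearMap.range (Kl.dd ρ)) K
    (Module.rank F (Fx ρ T D ⊤)) (fun z hz => ?_) fun K' le h' => ?_).trans
    (add_le_add Kl.rank_dd le_rfl)
  · obtain ⟨X, hX⟩ := (h z hz).2
    exact ⟨X, (funext hX).symm⟩
  let e : ((GQ → M2 F) × (ℕ → M2 F)) →ₗ[F] (ℕ → GQ → M2 F) :=
    { toFun := fun z l g => mx ρ g * z.2 l * mx ρ g⁻¹
      map_add' := fun a b => by
        funext l g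
        simp only [Prod.snd_add, Pi.add_apply, mul_add, add_mul]
      map_smul' := fun r a => by
        funext l g
        simp only [Prod.smul_snd, Pi.smul_apply, RingHom.id_apply, mul_smul_comm, smul_mul_assoc] }
  refine (KerH.step e (Fx ρ T D ⊤) K' 0 (fun z hz => ?_) fun K'' le' h'' => ?_).trans
    (add_zero _).le
  · have ht := (h z (le hz)).1
    have h0 : z.1 = 0 := h' z hz
    refine ⟨fun l hl => funext fun g => ?_, fun l γ _ g => ?_, fun l d hd g => ?_⟩
    · change mx ρ g * z.2 l * mx ρ g⁻¹ = 0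
      rw [ht.zero l hl, mul_zero, zero_mul]
    · change mx ρ (γ * g) * z.2 l * mx ρ (γ * g)⁻¹ =
        mx ρ γ * (mx ρ g * z.2 l * mx ρ g⁻¹) * mx ρ γ⁻¹
      simp only [mul_inv_rev, Kl.mm, Matrix.mul_assoc]
    · change mx ρ (g * d) * z.2 l * mx ρ (g * d)⁻¹ = mx ρ g * z.2 l * mx ρ g⁻¹
      by_cases hl : l ∈ T
      · have h1 := ht.loc l hl d hd
        rw [h0, Pi.zero_apply, eq_comm, sub_eq_zero] at h1
        conv_rhs => rw [h1]
        simp only [mul_inv_rev, Kl.mm, Matrix.mul_assoc]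
      · simp only [ht.zero l hl, mul_zero, zero_mul]
  · refine KerH.nul K'' fun z hz => Prod.ext (h' z (le' hz)) (funext fun l => ?_)
    have h1 : mx ρ 1 * z.2 l * mx ρ 1⁻¹ = 0 := congrFun (congrFun (h'' z hz) l) 1
    rwa [inv_one, mx_one, one_mul, mul_one] at h1

end Vale.Agent.P022E.GW.Cnt
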