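import Vale.Agent.P022E.GW.Enl

/-!
# P022, non solvable case, block GW: enlarging the set of framed places, any prime
-/

set_option linter.all false

noncomputable section

namespace Vale.Agent.P022E.GW.Enl

open NumberField
open Vale.Agent.P022 Vale.Agent.P022D.Sel
open Vale.Agent.P027M.S (Inert mx)

variable {F : Type} [Field F] {ρ : GQ →* GL (Fin 2) F}

theorem mxi (g : GQ) : mx ρ g * mx ρ g⁻¹ = 1 := by
  rw [← mxm, mul_inv_cancel]; exact mx1 (map_one ρ)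

theorem mxi' (g : GQ) : mx ρ g⁻¹ * mx ρ g = 1 := by
  rw [← mxm, inv_mul_cancel]; exact mx1 (map_one ρ)

variable (ρ) in
/-- the invariants of the inertia group -/
def MI (P : Ideal (𝓞 Qb)) : Submodule F (M2 F) where
  carrier := {X | ∀ s, Inert P s → mx ρ s * X * mx ρ s⁻¹ = X}
  add_mem' {X Y} hX hY s hs := by rw [mul_add, add_mul, hX s hs, hY s hs]
  zero_mem' s _ := by simp
  smul_mem' r X hX s hs := by rw [mul_smul_comm, smul_mul_assoc, hX s hs]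

theorem MI_conj {P : Ideal (𝓞 Qb)} {φ : GQ} (hφ : Stab P φ) {X : M2 F} (hX : X ∈ MI ρ P) :
    mx ρ φ * X * mx ρ φ⁻¹ ∈ MI ρ P := by
  intro s hs
  have h1 : Inert P (φ⁻¹ * s * φ⁻¹⁻¹) :=
    P022D.W.conj_inP (g := φ⁻¹) ((P022D.W.dec P).inv_mem hφ) hs
  have h2 := hX _ h1
  have e : s * φ = φ * (φ⁻¹ * s * φ⁻¹⁻¹) := by group
  calc mx ρ s * (mx ρ φ * X * mx ρ φ⁻¹) * mx ρ s⁻¹
      = mx ρ (s * φ) * X * mx ρ (s * φ)⁻¹ := by
        rw [mul_inv_rev, mxm, mxm]; noncomm_ring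
    _ = mx ρ φ * (mx ρ (φ⁻¹ * s * φ⁻¹⁻¹) * X * mx ρ (φ⁻¹ * s * φ⁻¹⁻¹)⁻¹) * mx ρ φ⁻¹ := by
        rw [e, mul_inv_rev φ, mxm φ, mxm _ φ⁻¹]; noncomm_ring
    _ = _ := by rw [h2]

theorem coc_MI {c : GQ → M2 F} (hc : ∀ g h, c (g * h) = c g + mx ρ g * c h * mx ρ g⁻¹)
    {P : Ideal (𝓞 Qb)} (hcu : ∀ g, Inert P g → c g = 0) {φ : GQ} (hφ : Stab P φ) :
    c φ ∈ MI ρ P := by
  intro s hs
  have h1 : Inert P (φ⁻¹ * s * φ⁻¹⁻¹) :=
    P022D.W.conj_inP (g := φ⁻¹) ((P022D.W.dec P).inv_mem hφ) hs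
  have e : s * φ = φ * (φ⁻¹ * s * φ⁻¹⁻¹) := by group
  have h2 := hc s φ
  rw [e, hc, hcu _ h1, hcu s hs] at h2
  simpa using h2.symm

theorem coc_dec' (hρ : IsOpen {g : GQ | ρ g = 1}) {c : GQ → M2 F}
    (hc : ∀ g h, c (g * h) = c g + mx ρ g * c h * mx ρ g⁻¹)
    (ho : ∃ U : Subgroup GQ, IsOpen (U : Set GQ) ∧ ∀ σ ∈ U, c σ = 0)
    {l : ℕ} (hl : l.Prime) {P : Ideal (𝓞 Qb)} (hP : P.IsPrime) (hlP : (l : 𝓞 Qb) ∈ P)
    (hcu : ∀ g, Inert P g → c g = 0)
    {φ : GQ} (hφ : ∀ x : 𝓞 Qb, φ • x - x ^ l ∈ P) {X : M2 F} (hXI : X ∈ MI ρ P)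
    (hX : c φ = X - mx ρ φ * X * mx ρ φ⁻¹) {g : GQ} (hg : Stab P g) :
    c g = X - mx ρ g * X * mx ρ g⁻¹ := by
  obtain ⟨U, hU, hU0⟩ := ho
  have hV : IsOpen ((U ⊓ ρ.ker : Subgroup GQ) : Set GQ) := hU.inter hρ
  obtain ⟨k, s, u, hs, hu', rfl⟩ := P022D.W.dec_gen hl hP hlP hφ hg _ hV
  have h1 : ρ u = 1 := hu'.2
  have e1 : mx ρ (u * φ ^ k * s) * X * mx ρ (u * φ ^ k * s)⁻¹ =
      mx ρ (φ ^ k) * (mx ρ s * X * mx ρ s⁻¹) * mx ρ (φ ^ k)⁻¹ := by
    rw [mul_inv_rev, mul_inv_rev, mxm, mxm, mxm, mxm, mx1 h1, mx1' h1]; noncomm_ring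
  rw [e1, hXI s hs, hc, hcu s hs, hc, hU0 u hu'.1, mx1 h1, mx1' h1, coc_pow hc hX]
  simp

/-- **One more framed place**, ramified or not. -/
theorem enl' (hρ : IsOpen {g : GQ | ρ g = 1}) {T Q : Finset ℕ} {D D' : ℕ → Set GQ} {N l : ℕ}
    (hl : l.Prime) (hT : l ∉ T) (hQ : l ∉ Q)
    (hD : IsDec l (D' l)) (hDD : ∀ t ∈ T, D' t = D t) (h : Tan ρ (insert l T) Q D' N) :
    Tan ρ T Q D N := by
  classical
  intro Z hZ
  obtain ⟨h0, -⟩ | ⟨-, P, hP, hlP, hDl⟩ := hD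
  · exact absurd h0 hl.ne_zero
  obtain ⟨φ, hφ⟩ := P022D.W.exists_phi hl hP hlP
  have hφd : Stab P φ := P022D.W.phi_mem hl hP hφ
  let Λ : (Z × MI ρ P) →ₗ[F] MI ρ P :=
    { toFun := fun p => ⟨p.1.1.1 φ - (p.2.1 - mx ρ φ * p.2.1 * mx ρ φ⁻¹),
        (MI ρ P).sub_mem (coc_MI (hZ _ p.1.2).coc ((hZ _ p.1.2).unr l hl hT hQ P hP hlP) hφd)
          ((MI ρ P).sub_mem p.2.2 (MI_conj hφd p.2.2))⟩
      map_add' := fun p q => Subtype.ext (by
        simp only [Prod.fst_add, Prod.snd_add, Submodule.coe_add, Pi.add_apply, mul_add, add_mul]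
        abel)
      map_smul' := fun r p => Subtype.ext (by
        simp only [Prod.smul_fst, Prod.smul_snd, Submodule.coe_smul, Pi.smul_apply,
          RingHom.id_apply, smul_sub, mul_smul_comm, smul_mul_assoc]) }
  let Θ : (Z × MI ρ P) →ₗ[F] (GQ → M2 F) × (ℕ → M2 F) :=
    { toFun := fun p => (p.1.1.1, p.1.1.2 + Pi.single l p.2.1)
      map_add' := fun p q => by
        simp only [Prod.fst_add, Prod.snd_add, Submodule.coe_add, Pi.single_add, Prod.mk_add_mk]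
        congr 1
        abel
      map_smul' := fun r p => by
        simp only [Prod.smul_fst, Prod.smul_snd, Submodule.coe_smul, RingHom.id_apply,
          Prod.smul_mk, smul_add, Pi.single_smul] }
  have hΘ : Function.Injective Θ := by
    rw [← LinearMap.ker_eq_bot, LinearMap.ker_eq_bot']
    rintro ⟨⟨⟨c, a⟩, hz⟩, X, hXI⟩ hp
    have h1 : c = 0 := congrArg Prod.fst hp
    have h2 : a + Pi.single l X = 0 := congrArg Prod.snd hp
    have h3 : a l = 0 := (hZ _ hz).zero l hT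
    have h4 : X = 0 := by
      have := congrFun h2 l
      rwa [Pi.add_apply, Pi.single_eq_same, h3, zero_add] at this
    rw [h4, Pi.single_zero, add_zero] at h2
    subst h1 h2 h4
    rfl
  have hK : Module.rank F (Λ.ker.map Θ) ≤ N := by
    refine h _ ?_
    rintro _ ⟨⟨⟨⟨c, a⟩, hz⟩, X, hXI⟩, hp, rfl⟩
    have ht : TanP ρ T Q D c a := hZ _ hz
    have hX : c φ = X - mx ρ φ * X * mx ρ φ⁻¹ := sub_eq_zero.1 (congrArg Subtype.val hp)
    change TanP ρ (insert l T) Q D' c (a + Pi.single l X)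
    refine ⟨ht.coc, ht.opn, fun l' h1 h2 h3 =>
      ht.unr l' h1 (fun h => h2 (Finset.mem_insert_of_mem h)) h3, fun t htm g hg => ?_,
      fun t htm => ?_⟩
    · rcases Finset.mem_insert.1 htm with rfl | htT
      · rw [Pi.add_apply, Pi.single_eq_same, ht.zero t hT, zero_add]
        rw [hDl] at hg
        exact coc_dec' hρ ht.coc ht.opn hl hP hlP (ht.unr t hl hT hQ P hP hlP) hφ hXI hX hg
      · have hne : t ≠ l := fun e => hT (e ▸ htT)
        rw [Pi.add_apply, Pi.single_eq_of_ne hne, add_zero]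
        exact ht.loc t htT g (hDD t htT ▸ hg)
    · have hne : t ≠ l := fun e => htm (e ▸ Finset.mem_insert_self l T)
      rw [Pi.add_apply, Pi.single_eq_of_ne hne, add_zero]
      exact ht.zero t fun h => htm (Finset.mem_insert_of_mem h)
  have e1 : Module.rank F (Λ.ker.map Θ) = Module.rank F Λ.ker :=
    ((Submodule.equivMapOfInjective Θ hΘ Λ.ker).rank_eq).symm
  have e2 := Λ.rank_range_add_rank_ker
  have e3 : Module.rank F Λ.range ≤ Module.rank F (MI ρ P) := Submodule.rank_le _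
  have e4 : Module.rank F (MI ρ P) < Cardinal.aleph0 := Module.rank_lt_aleph0 F _
  rw [rank_prod'] at e2
  have e5 : Module.rank F Z + Module.rank F (MI ρ P) ≤ N + Module.rank F (MI ρ P) := by
    rw [← e2, add_comm]
    exact add_le_add (e1 ▸ hK) e3
  exact (Cardinal.add_le_add_iff_of_lt_aleph0 e4).1 e5

/-- **More framed places**, ramified or not. -/
theorem enls' (hρ : IsOpen {g : GQ | ρ g = 1}) {T Q : Finset ℕ} {D D' : ℕ → Set GQ} {N : ℕ}
    (A : Finset ℕ) (hTA : T ⊆ A) (hA : ∀ l ∈ A, l ∉ T → l.Prime ∧ l ∉ Q ∧ IsDec l (D' l))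
    (hDD : ∀ t ∈ T, D' t = D t) (h : Tan ρ A Q D' N) : Tan ρ T Q D N := by
  classical
  have key : ∀ B : Finset ℕ, B ⊆ A \ T → Tan ρ (T ∪ B) Q D' N → Tan ρ T Q D' N := by
    intro B
    induction B using Finset.induction_on with
    | empty => intro _ h; rwa [Finset.union_empty] at h
    | insert l B hlB ih =>
      intro hB h
      have hl := Finset.mem_sdiff.1 (hB (Finset.mem_insert_self l B))
      obtain ⟨h1, h2, h3⟩ := hA l hl.1 hl.2
      refine ih ((Finset.subset_insert l B).trans hB) ?_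
      rw [Finset.union_insert] at h
      exact enl' hρ h1 (by simp [hl.2, hlB]) h2 h3 (fun _ _ => rfl) h
  have h1 := key (A \ T) subset_rfl (by rwa [Finset.union_sdiff_of_subset hTA])
  intro Z hZ
  refine h1 Z fun z hz => ?_
  have ht := hZ z hz
  exact ⟨ht.coc, ht.opn, ht.unr, fun l hl g hg => ht.loc l hl g (hDD l hl ▸ hg), ht.zero⟩

/-- decomposition groups exist, extending a given family -/
theorem exD (T : Finset ℕ) (D : ℕ → Set GQ) : ∃ D' : ℕ → Set GQ, (∀ t ∈ T, D' t = D t) ∧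
    ∀ l : ℕ, l.Prime → l ∉ T → IsDec l (D' l) := by
  classical
  have h : ∀ l : ℕ, ∃ E : Set GQ, l.Prime → IsDec l E := by
    intro l
    by_cases hl : l.Prime
    · obtain ⟨g, P, hP, hlP, -⟩ := H20.exists_isFrob hl
      exact ⟨_, fun _ => Or.inr ⟨hl, P, hP, hlP, rfl⟩⟩
    · exact ⟨∅, fun h => absurd h hl⟩
  choose E hE using h
  exact ⟨fun l => if l ∈ T then D l else E l, fun t ht => if_pos ht,
    fun l hl hT => by simp only [if_neg hT]; exact hE l hl⟩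

end Vale.Agent.P022E.GW.Enl
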