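import Vale.Agent.P022E.GW.Defs
import Vale.Agent.P022E.GW.Kill
import Vale.Agent.P022E.GW.BorW
import Vale.Agent.P022E.GW.Enl2

/-!
# P022E, block GW: the count of the tangent vectors
-/

set_option linter.all false

noncomputable section

namespace Vale.Agent.P022E.GW.H32

open NumberField Matrix
open Vale.Agent.P022 Vale.Agent.P022E.Sel
open Vale.Agent.P027M.S (Inert mx)
open Vale.Agent.P022E.GW.Kl (mi mm Co dd)

/-- the value at a generator of the tame inertia group -/
def TAU : Prop := ∀ (F : Type) [Field F] [CharP F 2] (ρ : GQ →* GL (Fin 2) F) (q : ℕ)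
  (P : Ideal (𝓞 Qb)) (φ : GQ), Ov q P → q ≠ 2 → Fb q P φ → (∀ g, Inert P g → ρ g = 1) →
  ∃ τ, Gn q P τ ∧ ∀ c : GQ → M2 F, (∀ g h, c (g * h) = c g + mx ρ g * c h * mx ρ g⁻¹) → Op c →
    mx ρ φ * c τ * mx ρ φ⁻¹ = c τ ∧
      (c τ = 0 → ∀ P', Ov q P' → ∀ g, Inert P' g → c g = 0)

/-- the classes which are trivial on a big set -/
def SHA : Prop := ∀ (F : Type) [Field F] [Finite F] [CharP F 2] (ρ : GQ →* GL (Fin 2) F)
  (T : Finset ℕ) (D : ℕ → Set GQ) (c : GQ → M2 F) (a : ℕ → M2 F), Hyp ρ T D →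
  TanP ρ T ∅ D c a → ∃ m, ∀ g, c g = m - mx ρ g * m * mx ρ g⁻¹

/-- a big set exists -/
def HYP : Prop := ∀ (F : Type) [Field F] [Finite F] [CharP F 2] (ρ : GQ →* GL (Fin 2) F)
  (T : Finset ℕ) (D : ℕ → Set GQ), IsOpen {g : GQ | ρ g = 1} → Gp.Std ρ.range → 0 ∈ T → 2 ∈ T →
  (∀ l ∈ T, IsDec l (D l)) →
  ∃ (A : Finset ℕ) (D' : ℕ → Set GQ), T ⊆ A ∧ (∀ t ∈ T, D' t = D t) ∧ Hyp ρ A D'

variable {F : Type} [Field F] {ρ : GQ →* GL (Fin 2) F}

theorem comm {A X : M2 F} (hA : ¬ (A 0 1 = 0 ∧ A 1 0 = 0 ∧ A 0 0 = A 1 1)) (h : A * X = X * A) :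
    ∃ s t : F, X = s • (1 : M2 F) + t • A := by
  have a := congrFun (congrFun h 0) 0
  have b := congrFun (congrFun h 0) 1
  have c := congrFun (congrFun h 1) 0
  simp only [Matrix.mul_apply, Fin.sum_univ_two] at a b c
  have key : ∀ t : F, X 0 1 = t * A 0 1 → X 1 0 = t * A 1 0 →
      X 1 1 - X 0 0 = t * (A 1 1 - A 0 0) → ∃ s t : F, X = s • (1 : M2 F) + t • A := by
    intro t h1 h2 h3
    refine ⟨X 0 0 - t * A 0 0, t, ?_⟩
    ext i j
    fin_cases i <;> fin_cases j <;> simp [h1, h2]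
    linear_combination h3
  by_cases h1 : A 0 1 = 0
  · by_cases h2 : A 1 0 = 0
    · have h3 : A 1 1 - A 0 0 ≠ 0 := fun e => hA ⟨h1, h2, (sub_eq_zero.1 e).symm⟩
      refine key ((X 1 1 - X 0 0) / (A 1 1 - A 0 0)) ?_ ?_ (by field_simp)
      · rw [h1, mul_zero]
        refine mul_left_cancel₀ h3 ?_
        rw [h1] at b
        linear_combination -b
      · rw [h2, mul_zero]
        refine mul_left_cancel₀ h3 ?_
        rw [h2] at c
        linear_combination c
    · refine key (X 1 0 / A 1 0) ?_ (by field_simp) ?_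
      · field_simp
        linear_combination -a
      · field_simp
        linear_combination -c
  · refine key (X 0 1 / A 0 1) (by field_simp) ?_ ?_
    · field_simp
      linear_combination a
    · field_simp
      linear_combination b

theorem odd_ord [Finite F] [CharP F 2] {A : M2 F} {a b : F} (ht : A.trace = a + b)
    (hd : A.det = a * b) (h1 : A.det = 1) (h0 : A.trace ≠ 0) : ∃ n, Odd n ∧ A ^ n = 1 := by
  haveI := Fintype.ofFinite F
  have ab : a * b = 1 := hd.symm.trans h1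
  have a0 : a ≠ 0 := left_ne_zero_of_mul_eq_one ab
  have b0 : b ≠ 0 := right_ne_zero_of_mul_eq_one ab
  have ne : a - b ≠ 0 := by rwa [CharTwo.sub_eq_add, ← ht]
  have k : ∀ a b : F, A.trace = a + b → A.det = a * b → ∀ n : ℕ,
      A ^ n * (A - b • 1) = a ^ n • (A - b • 1) := by
    intro a b ht hd n
    have e : A * (A - b • 1) = a • (A - b • 1) := by
      rw [trace_fin_two] at ht
      rw [det_fin_two] at hd
      ext i j
      fin_cases i <;> fin_cases j <;> simp [Matrix.mul_apply, Fin.sum_univ_two]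
      · linear_combination A 0 0 * ht - hd
      · linear_combination A 0 1 * ht
      · linear_combination A 1 0 * ht
      · linear_combination A 1 1 * ht - hd
    induction n with
    | zero => simp
    | succ n ih => rw [pow_succ, Matrix.mul_assoc, e, Matrix.mul_smul, ih, smul_smul, pow_succ']
  refine ⟨Fintype.card F - 1, ?_, ?_⟩
  · obtain ⟨n, -, hn⟩ := FiniteField.card F 2
    rw [hn]
    exact Nat.Even.sub_odd (Nat.one_le_two_pow) ((Nat.even_pow' n.ne_zero).2 even_two) odd_one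
  · have e1 := k a b ht hd (Fintype.card F - 1)
    have e2 := k b a (by rw [ht, add_comm]) (by rw [hd, mul_comm]) (Fintype.card F - 1)
    rw [FiniteField.pow_card_sub_one_eq_one a a0, one_smul] at e1
    rw [FiniteField.pow_card_sub_one_eq_one b b0, one_smul] at e2
    have e3 : (a - b) • A ^ (Fintype.card F - 1) = (a - b) • (1 : M2 F) := by
      have e4 : (A - b • 1) - (A - a • 1) = (a - b) • (1 : M2 F) := by rw [sub_smul]; abel
      rw [← e4, ← e1, ← e2, ← Matrix.mul_sub, e4, Matrix.mul_smul, Matrix.mul_one]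
    exact smul_right_injective _ ne e3

theorem tr_pow {y : GQ → M2 F} (hy : Co ρ y) {σ : GQ} (C : M2 F) (hC : C * mx ρ σ = mx ρ σ * C)
    (n : ℕ) : (y (σ ^ n) * C).trace = n * (y σ * C).trace := by
  induction n with
  | zero =>
    have := hy 1 1
    simp only [mul_one, inv_one, mx, map_one, Units.val_one, one_mul, left_eq_add] at this
    simp [this]
  | succ n ih =>
    rw [pow_succ', hy, add_mul, trace_add, Matrix.mul_assoc, Matrix.mul_assoc, trace_mul_comm
      (mx ρ σ), Matrix.mul_assoc, Matrix.mul_assoc, hC, ← Matrix.mul_assoc (mx ρ σ⁻¹), mi,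
      Matrix.one_mul, ih]
    push_cast
    ring

theorem fx_fin (T : Finset ℕ) (D : ℕ → Set GQ) : Module.Finite F (Fx ρ T D ⊤) := by
  let e : Fx ρ T D ⊤ →ₗ[F] (T → M2 F) :=
    { toFun := fun f l => f.1 l 1
      map_add' := fun _ _ => rfl
      map_smul' := fun _ _ => rfl }
  refine Module.Finite.of_injective e ((injective_iff_map_eq_zero e).2 fun f hf => ?_)
  refine Subtype.ext (funext fun l => ?_)
  by_cases hl : l ∈ T
  · funext g
    have h := f.2.2.1 l g trivial 1
    have h0 : f.1 l 1 = 0 := congrFun hf ⟨l, hl⟩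
    rw [mul_one, h0, Matrix.mul_zero, Matrix.zero_mul] at h
    exact h
  · exact f.2.1 l hl

/-- the tangent vectors which are coboundaries -/
theorem rank_cob {T Q : Finset ℕ} {D : ℕ → Set GQ} (K : Submodule F ((GQ → M2 F) × (ℕ → M2 F)))
    (hK : ∀ z ∈ K, TanP ρ T Q D z.1 z.2 ∧ ∃ m, ∀ g, z.1 g = m - mx ρ g * m * mx ρ g⁻¹) :
    Module.rank F K ≤ Module.rank F (Fx ρ T D ⊤) + 3 := by
  let p : K →ₗ[F] (GQ → M2 F) := (LinearMap.fst F _ _).comp K.subtype
  have h1 : Module.rank F (LinearMap.range p) ≤ 3 := by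
    refine (Submodule.rank_mono ?_).trans (Kl.rank_dd (ρ := ρ))
    rintro _ ⟨z, rfl⟩
    obtain ⟨m, hm⟩ := (hK z.1 z.2).2
    exact ⟨m, (funext hm).symm⟩
  let e : LinearMap.ker p →ₗ[F] Fx ρ T D ⊤ :=
    { toFun := fun z => ⟨fun l g => mx ρ g * z.1.1.2 l * mx ρ g⁻¹, fun l hl => by
          funext g; simp [(hK _ z.1.2).1.zero l hl],
        fun l γ _ g => by simp only [_root_.mul_inv_rev, mm, Matrix.mul_assoc],
        fun l d hd g => by
          beta_reduce
          by_cases hl : l ∈ T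
          · have h := (hK _ z.1.2).1.loc l hl d hd
            have h0 : z.1.1.1 d = 0 := congrFun (LinearMap.mem_ker.1 z.2) d
            rw [h0, eq_comm, sub_eq_zero] at h
            conv_rhs => rw [h]
            simp only [_root_.mul_inv_rev, mm, Matrix.mul_assoc]
          · rw [(hK _ z.1.2).1.zero l hl]; simp⟩
      map_add' := fun z w => Subtype.ext (funext fun l => funext fun g => by
        simp only [Submodule.coe_add, Prod.snd_add, Pi.add_apply, mul_add, add_mul])
      map_smul' := fun s z => Subtype.ext (funext fun l => funext fun g => by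
        simp only [Submodule.coe_smul, Prod.smul_snd, Pi.smul_apply, RingHom.id_apply,
          mul_smul_comm, smul_mul_assoc]) }
  have h2 : Module.rank F (LinearMap.ker p) ≤ Module.rank F (Fx ρ T D ⊤) := by
    refine e.rank_le_of_injective fun z w hz => ?_
    refine Subtype.ext (Subtype.ext (Prod.ext
      ((LinearMap.mem_ker.1 z.2).trans (LinearMap.mem_ker.1 w.2).symm) (funext fun l => ?_)))
    have := congrFun (congrFun (congrArg Subtype.val hz) l) 1
    simpa [e, mx] using this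
  rw [← p.rank_range_add_rank_ker, add_comm]
  exact add_le_add h2 h1

/-- **the count** -/
theorem cnt [Finite F] [CharP F 2] (hR : REC) (hT : TAU) (hS : SHA) {H : Subgroup GQ}
    (hD : Dh ρ H) {A : Finset ℕ} {D : ℕ → Set GQ} (hy : Hyp ρ A D) (Y : Submodule F (GQ → M2 F))
    (hY : Y ≤ H1 ρ A ⊤) (hr : Module.rank F (Fx ρ A D ⊤) + 3 ≤ Module.rank F Y) {r : ℕ}
    {σ : Fin r → GQ} (hσ : ∀ i, (mx ρ (σ i)).trace ≠ 0)
    (hk : ∀ Y₀ ≤ Y, (∀ y ∈ Y₀, ∀ i, (y (σ i)).trace = 0 ∧ (y (σ i) * mx ρ (σ i)).trace = 0) →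
      Module.rank F Y₀ ≤ 5) {U : Subgroup GQ} (hU : ∀ g ∈ U, ρ g = 1)
    (hUY : ∀ y ∈ Y, ∀ g ∈ U, y g = 0) {q : Fin r → ℕ} (hq : Function.Injective q)
    (ha : ∀ i, Aux ρ U A (σ i) (q i)) : Tan ρ A (Finset.univ.image q) D (2 * r + 5) := by
  classical
  intro Z hZ
  choose hp hA φ m hF hm hu hns using ha
  choose P hP hqP hφ using hF
  have ov : ∀ i, Ov (q i) (P i) := fun i => ⟨hp i, hP i, hqP i⟩
  have q2 : ∀ i, q i ≠ 2 := fun i e => hA i (e ▸ hy.h2)
  choose τ hτ hc using fun i => hT F ρ (q i) (P i) (φ i) (ov i) (q2 i) (hφ i)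
    (hy.unr _ (hA i) _ (ov i))
  have e1 : ∀ i, ρ (σ i ^ m i) = ρ (φ i) := fun i => by
    have := hU _ (hu i)
    rwa [map_mul, map_inv, inv_mul_eq_one, eq_comm] at this
  have e2 : ∀ i, mx ρ (σ i ^ m i) = mx ρ (φ i) := fun i => congrArg Units.val (e1 i)
  have co : ∀ y ∈ Y, Co ρ y := fun y h g k => (hY h).1 g trivial k trivial
  have e3 : ∀ y ∈ Y, ∀ i, y (σ i ^ m i) = y (φ i) := fun y h i => by
    have := co y h (φ i) ((φ i)⁻¹ * σ i ^ m i)
    rwa [mul_inv_cancel_left, hUY y h _ (hu i), Matrix.mul_zero, Matrix.zero_mul, add_zero] at this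
  have od : ∀ i, ∃ n, Odd n ∧ ρ (φ i ^ n) = 1 := fun i => by
    obtain ⟨a, b, h1, h2⟩ := hD.eig (σ i)
    obtain ⟨n, hn, e⟩ := odd_ord h1 h2 (hD.det _) (hσ i)
    refine ⟨n, hn, ?_⟩
    have : ρ (σ i) ^ n = 1 := Units.ext (by rw [Units.val_pow_eq_pow_val]; exact e)
    rw [map_pow, ← e1, map_pow, ← pow_mul, mul_comm, pow_mul, this, one_pow]
  choose n hn hn1 using od
  -- the reciprocity law
  have rc : ∀ z ∈ Z, ∀ y ∈ Y, ∑ i, (z.1 (τ i) * y (φ i ^ n i)).trace = 0 := by
    intro z hz y h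
    let ι : ℕ → Fin r → Fin r := fun l i => if h : ∃ j, q j = l then h.choose else i
    rcases isEmpty_or_nonempty (Fin r) with h0 | ⟨⟨i0⟩⟩
    · exact Fintype.sum_empty _
    have hι : ∀ i, ι (q i) i0 = i := fun i => by
      have h : ∃ j, q j = q i := ⟨i, rfl⟩
      exact (dif_pos h).trans (hq h.choose_spec)
    have := hR F ρ A (Finset.univ.image q) D (fun l => P (ι l i0)) (fun l => τ (ι l i0))
      (fun l => φ (ι l i0)) (fun l => n (ι l i0)) z.1 y z.2 hy.opn hy.h0 hy.h2 hy.dec hy.unr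
      (fun l hl => by
        obtain ⟨i, -, rfl⟩ := Finset.mem_image.1 hl
        simp only [hι]
        exact ⟨hA i, ov i, hτ i, hφ i, hn i, hn1 i⟩) (hZ z hz) (hY h)
    rw [Finset.sum_image fun i _ j _ e => hq e] at this
    simpa only [hι] using this
  let V := Fin r → F × F
  let e : V →ₗ[F] (Fin r → M2 F) :=
    { toFun := fun v i => (v i).1 • (1 : M2 F) + (v i).2 • mx ρ (φ i)
      map_add' := fun v w => funext fun i => by
        simp only [V, Pi.add_apply, Prod.fst_add, Prod.snd_add, add_smul]; abel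
      map_smul' := fun s v => funext fun i => by
        simp only [V, Pi.smul_apply, Prod.smul_fst, Prod.smul_snd, RingHom.id_apply, smul_add,
          smul_smul, smul_eq_mul] }
  let t : Z →ₗ[F] (Fin r → M2 F) :=
    { toFun := fun z i => z.1.1 (τ i)
      map_add' := fun _ _ => rfl
      map_smul' := fun _ _ => rfl }
  let W : Submodule F V := (LinearMap.range t).comap e
  have cm : ∀ z ∈ Z, ∀ i, mx ρ (φ i) * z.1 (τ i) = z.1 (τ i) * mx ρ (φ i) := fun z hz i => by
    conv_rhs => rw [← (hc i z.1 (hZ z hz).coc (hZ z hz).opn).1]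
    rw [Matrix.mul_assoc, mi, Matrix.mul_one]
  have h1 : Module.rank F (LinearMap.range t) ≤ Module.rank F W := by
    refine (Submodule.rank_mono (t := W.map e) ?_).trans (rank_map_le e W)
    rintro _ ⟨z, rfl⟩
    choose s u hs using fun i => comm (hns i) (cm z.1 z.2 i)
    have : e (fun i => (s i, u i)) = t z := funext fun i => (hs i).symm
    exact ⟨_, ⟨z, this.symm⟩, this⟩
  have h2 : Module.rank F (LinearMap.ker t) ≤ Module.rank F (Fx ρ A D ⊤) + 3 := by
    rw [(Submodule.equivMapOfInjective Z.subtype Z.injective_subtype _).rank_eq]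
    refine rank_cob (Q := Finset.univ.image q) _ ?_
    rintro _ ⟨z, hz, rfl⟩
    have k := hZ z.1 z.2
    refine ⟨k, hS F ρ A D _ z.1.2 hy ⟨k.coc, k.opn, fun l hl h1 _ P' h2 h3 g hg => ?_, k.loc,
      k.zero⟩⟩
    by_cases h : l ∈ Finset.univ.image q
    · obtain ⟨i, -, rfl⟩ := Finset.mem_image.1 h
      exact (hc i _ k.coc k.opn).2 (congrFun (LinearMap.mem_ker.1 hz) i) P' ⟨hl, h2, h3⟩ g hg
    · exact k.unr l hl h1 h P' h2 h3 g hg
  let Φ : Y →ₗ[F] Module.Dual F V := LinearMap.mk₂ F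
    (fun y v => ∑ i, (y.1 (φ i) * e v i).trace)
    (fun y y' v => by
      simp only [Submodule.coe_add, Pi.add_apply, add_mul, trace_add, Finset.sum_add_distrib])
    (fun s y v => by
      simp only [Submodule.coe_smul, Pi.smul_apply, smul_mul_assoc, trace_smul, Finset.smul_sum])
    (fun y v v' => by
      simp only [map_add, Pi.add_apply, mul_add, trace_add, Finset.sum_add_distrib])
    (fun s y v => by
      simp only [map_smul, Pi.smul_apply, mul_smul_comm, trace_smul, Finset.smul_sum])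
  have h3 : LinearMap.range Φ ≤ W.dualAnnihilator := by
    rintro _ ⟨y, rfl⟩
    refine (Submodule.mem_dualAnnihilator _).2 ?_
    rintro v ⟨z, hz⟩
    show ∑ i, (y.1 (φ i) * e v i).trace = 0
    refine Eq.trans (Finset.sum_congr rfl fun i _ => ?_) (rc z.1 z.2 y.1 y.2)
    have o : ((n i : ℕ) : F) = 1 := by
      obtain ⟨k, hk⟩ := hn i
      rw [hk]
      push_cast
      rw [CharTwo.two_eq_zero, zero_mul, zero_add]
    rw [trace_mul_comm (z.1.1 (τ i)), tr_pow (co _ y.2) _ (cm _ z.2 i).symm, o, one_mul, ← hz]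
    rfl
  have h4 : Module.rank F (LinearMap.ker Φ) ≤ 5 := by
    rw [(Submodule.equivMapOfInjective Y.subtype Y.injective_subtype _).rank_eq]
    refine hk _ (Submodule.map_subtype_le _ _) ?_
    rintro _ ⟨y, h, rfl⟩ i
    have k : ∀ s u : F, (y.1 (φ i) * (s • (1 : M2 F) + u • mx ρ (φ i))).trace = 0 := by
      intro s u
      have := LinearMap.congr_fun (LinearMap.mem_ker.1 h) (Pi.single i (s, u) : V)
      simp only [Φ, LinearMap.mk₂_apply, LinearMap.zero_apply] at this
      rw [Finset.sum_eq_single i (fun j _ hj => by simp [e, Pi.single_eq_of_ne hj])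
        (fun h => (h (Finset.mem_univ i)).elim)] at this
      simpa [e] using this
    refine Kl.of_pow (co _ y.2) (hm i) (fun h => hns i ?_) ?_ ?_
    · unfold P022D.Sel.Sc at h ⊢
      rwa [e2] at h
    · have := k 1 0
      rw [one_smul, zero_smul, add_zero, Matrix.mul_one] at this
      exact (congrArg _ (e3 _ y.2 i)).trans this
    · have := k 0 1
      rw [one_smul, zero_smul, zero_add] at this
      rw [e2]
      exact (congrArg (fun x => (x * mx ρ (φ i)).trace) (e3 _ y.2 i)).trans this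
  have h5 : Module.rank F W + Module.rank F W.dualAnnihilator = (2 * r : ℕ) := by
    rw [← Module.finrank_eq_rank, ← Module.finrank_eq_rank, ← Nat.cast_add,
      Subspace.finrank_add_finrank_dualAnnihilator_eq]
    simp [V, Module.finrank_pi_fintype, mul_comm]
  calc Module.rank F Z = _ := t.rank_range_add_rank_ker.symm
    _ ≤ Module.rank F W + Module.rank F Y := add_le_add h1 (h2.trans hr)
    _ ≤ Module.rank F W + (Module.rank F W.dualAnnihilator + 5) := by
        rw [← Φ.rank_range_add_rank_ker]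
        exact add_le_add le_rfl (add_le_add (Submodule.rank_mono h3) h4)
    _ = _ := by rw [← add_assoc, h5]; norm_cast

/-- **the block** -/
theorem sel (hR : REC) (hL : LB) (hT : TAU) (hS : SHA) (hH : HYP) : SEL := by
  refine Bor.sel_of_std fun F _ _ _ ρ H T D hD std h0 h2 hd => ?_
  obtain ⟨A, D', hTA, hDD, hy⟩ := hH F ρ T D hD.opn std h0 h2 hd
  haveI := fx_fin (ρ := ρ) A D'
  have lb := hL F ρ A D' hy
  have en : Module.rank F (Fx ρ A D' ⊤) + 3 = (Module.finrank F (Fx ρ A D' ⊤) + 3 : ℕ) := by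
    rw [← Module.finrank_eq_rank]; norm_cast
  rw [en] at lb
  obtain ⟨f, hf⟩ := exists_linearIndependent_of_le_rank lb
  have hf' := hf.map' (H1 ρ A ⊤).subtype (Submodule.ker_subtype _)
  let Y := Submodule.span F (Set.range ((H1 ρ A ⊤).subtype ∘ f))
  have hY : Y ≤ H1 ρ A ⊤ := Submodule.span_le.2 (by rintro _ ⟨i, rfl⟩; exact (f i).2)
  haveI : Module.Finite F Y := Module.Finite.span_of_finite F (Set.finite_range _)
  have hr : Module.rank F (Fx ρ A D' ⊤) + 3 ≤ Module.rank F Y := by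
    rw [en, ← Module.finrank_eq_rank, finrank_span_eq_card hf', Fintype.card_fin]
  obtain ⟨r, σ, h1, hk⟩ := Kl.kill hD Y fun y h =>
    ⟨fun g k => (hY h).1 g trivial k trivial, (hY h).2.2.1⟩
  choose V hV hV0 using fun i => (f i).2.2.2.1
  have := P022.H443.galQb
  obtain ⟨U, hU⟩ := ProfiniteGrp.exist_openNormalSubgroup_sub_open_nhds_of_one
    (U := {g : GQ | ρ g = 1} ∩ ⋂ i, (V i : Set GQ)) (hD.opn.inter (isOpen_iInter_of_finite hV))
    ⟨map_one ρ, Set.mem_iInter.2 fun i => (V i).one_mem⟩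
  refine ⟨r, σ, U.toOpenSubgroup.toSubgroup, A, U.isOpen', U.isNormal', fun g hg => (hU hg).1,
    hTA, h1, fun q hq ha => ?_⟩
  refine Enl.enls' hD.opn A hTA (fun l hl hT => ?_) hDD
    (cnt hR hT hS hD hy Y hY hr (fun i => (h1 i).2) hk (fun g hg => (hU hg).1) ?_ hq ha)
  · refine ⟨?_, fun h => ?_, hy.dec l hl⟩
    · rcases hy.dec l hl with h | h
      · exact absurd (h.1 ▸ h0) hT
      · exact h.1
    · obtain ⟨i, -, rfl⟩ := Finset.mem_image.1 h
      exact (ha i).2.1 hl
  · intro y h g hg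
    induction h using Submodule.span_induction with
    | mem x hx =>
      obtain ⟨i, rfl⟩ := hx
      exact hV0 i g (Set.mem_iInter.1 (hU hg).2 i)
    | zero => rfl
    | add x y _ _ a b => rw [Pi.add_apply, a, b, add_zero]
    | smul s x _ a => rw [Pi.smul_apply, a, smul_zero]

end Vale.Agent.P022E.GW.H32
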