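import Vale.Agent.P022E.GW.Defs
import Vale.Agent.P022E.GW.Kill

/-!
# P022, non solvable case: the final count
-/

set_option linter.all false

noncomputable section

namespace Vale.Agent.P022E.GW.H70

open Vale.Agent.P022 Vale.Agent.P022E.Sel Matrix
open Vale.Agent.P027M.S (mx)

variable {F : Type} [Field F] {ρ : GQ →* GL (Fin 2) F}

theorem split {V W : Type} [AddCommGroup V] [Module F V] [AddCommGroup W] [Module F W]
    (Z : Submodule F V) (γ : V →ₗ[F] W) : Module.rank F Z =
      Module.rank F (Z.map γ) + Module.rank F (Z ⊓ LinearMap.ker γ : Submodule F _) := by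
  have e := (γ.domRestrict Z).rank_range_add_rank_ker
  rw [LinearMap.range_domRestrict, LinearMap.ker_domRestrict] at e
  rw [← e]
  congr 1
  rw [← Submodule.map_comap_subtype]
  exact (Submodule.equivMapOfInjective _ Z.injective_subtype _).rank_eq

theorem perp {ι : Type} [Fintype ι] (R S : Submodule F (ι → F))
    (h : ∀ x ∈ R, ∀ y ∈ S, x ⬝ᵥ y = 0) :
    Module.rank F R + Module.rank F S ≤ Fintype.card ι := by
  classical
  let e := (Pi.basisFun F ι).toDualEquiv
  have k : R.map e.toLinearMap ≤ S.dualAnnihilator := by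
    rintro _ ⟨x, hx, rfl⟩
    rw [Submodule.mem_dualAnnihilator]
    intro y hy
    rw [← h x hx y hy]
    simp [e, Module.Basis.toDual_eq_equivFun, dotProduct, mul_comm, Module.Basis.toDual, Module.Basis.constr_apply_fintype]
  have a := Submodule.finrank_mono k
  rw [LinearEquiv.finrank_map_eq] at a
  have b := Subspace.finrank_add_finrank_dualAnnihilator_eq S
  rw [Module.finrank_fintype_fun_eq_card] at b
  rw [← Module.finrank_eq_rank, ← Module.finrank_eq_rank]
  exact_mod_cast (by omega : Module.finrank F R + Module.finrank F S ≤ Fintype.card ι)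

theorem cent {g : GQ} (ns : ¬ Sc ρ g) {X : M2 F} (h : mx ρ g * X * mx ρ g⁻¹ = X) :
    ∃ s t : F, X = s • 1 + t • mx ρ g := by
  have e : mx ρ g * X = X * mx ρ g := by
    conv_rhs => rw [← h, Matrix.mul_assoc, Kl.mi, Matrix.mul_one]
  unfold Sc at ns
  generalize mx ρ g = A at e ns
  have e1 := congrFun (congrFun e 0) 0
  have e2 := congrFun (congrFun e 0) 1
  have e3 := congrFun (congrFun e 1) 0
  simp only [Matrix.mul_apply, Fin.sum_univ_two] at e1 e2 e3
  have k : ∀ t : F, X 0 1 = t * A 0 1 → X 1 0 = t * A 1 0 → X 0 0 - X 1 1 = t * (A 0 0 - A 1 1) →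
      ∃ s t : F, X = s • 1 + t • A := fun t a b c => ⟨X 0 0 - t * A 0 0, t, by
    ext i j
    fin_cases i <;> fin_cases j <;> simp [a, b]
    linear_combination -c⟩
  by_cases a : A 0 1 = 0
  · by_cases b : A 1 0 = 0
    · have c : A 0 0 - A 1 1 ≠ 0 := fun c => ns ⟨a, b, sub_eq_zero.1 c⟩
      refine k ((X 0 0 - X 1 1) / (A 0 0 - A 1 1)) ?_ ?_ (by field_simp)
      · rw [a, mul_zero]
        exact (mul_eq_zero.1 (by rw [a] at e2; linear_combination e2 :
          (A 0 0 - A 1 1) * X 0 1 = 0)).resolve_left c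
      · rw [b, mul_zero]
        exact (mul_eq_zero.1 (by rw [b] at e3; linear_combination -e3 :
          (A 0 0 - A 1 1) * X 1 0 = 0)).resolve_left c
    · refine k (X 1 0 / A 1 0) ?_ (by field_simp) ?_ <;> field_simp
      · linear_combination -e1
      · linear_combination e3
  · refine k (X 0 1 / A 0 1) (by field_simp) ?_ ?_ <;> field_simp
    · linear_combination e1
    · linear_combination -e2

/-- framed coboundaries -/
theorem ker_le {A Q : Finset ℕ} {D : ℕ → Set GQ} (Z : Submodule F ((GQ → M2 F) × (ℕ → M2 F)))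
    (h : ∀ z ∈ Z, TanP ρ A Q D z.1 z.2 ∧ ∃ X : M2 F, ∀ g, z.1 g = X - mx ρ g * X * mx ρ g⁻¹) :
    Module.rank F Z ≤ Module.rank F (Fx ρ A D ⊤) + 3 := by
  rw [split Z (LinearMap.fst F _ _), add_comm]
  refine add_le_add ?_ ((Submodule.rank_mono ?_).trans (Kl.rank_dd (ρ := ρ)))
  · let f : (Z ⊓ LinearMap.ker (LinearMap.fst F (GQ → M2 F) (ℕ → M2 F)) : Submodule F _) →ₗ[F]
        Fx ρ A D ⊤ :=
      { toFun := fun z => ⟨fun l g => mx ρ g * z.1.2 l * mx ρ g⁻¹, fun l hl => funext fun g => by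
            simp [(h _ z.2.1).1.zero l hl],
          fun l γ _ g => by simp only [_root_.mul_inv_rev, Kl.mm, Matrix.mul_assoc],
          fun l d hd g => by
            by_cases hl : l ∈ A
            · have e := (h _ z.2.1).1.loc l hl d hd
              rw [show z.1.1 = 0 from z.2.2, Pi.zero_apply, eq_comm, sub_eq_zero] at e
              dsimp only
              conv_rhs => rw [e]
              simp only [_root_.mul_inv_rev, Kl.mm, Matrix.mul_assoc]
            · simp [(h _ z.2.1).1.zero l hl]⟩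
        map_add' := fun z w => Subtype.ext (funext fun l => funext fun g => by
          simp [mul_add, add_mul])
        map_smul' := fun s z => Subtype.ext (funext fun l => funext fun g => by simp) }
    refine f.rank_le_of_injective ((injective_iff_map_eq_zero f).2 fun z hz =>
      Subtype.ext (Prod.ext z.2.2 (funext fun l => ?_)))
    simpa [f, mx] using congrFun (congrFun (congrArg Subtype.val hz) l) 1
  · rintro _ ⟨z, hz, rfl⟩
    obtain ⟨X, hX⟩ := (h z hz).2
    exact ⟨X, (funext hX).symm⟩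

/-- **the count** -/
theorem cnt {A Q : Finset ℕ} {D : ℕ → Set GQ} {r : ℕ} (φ τ : Fin r → GQ)
    (Y : Submodule F (GQ → M2 F)) (ns : ∀ i, ¬ Sc ρ (φ i))
    (lb : Module.rank F (Fx ρ A D ⊤) + 3 ≤ Module.rank F Y)
    (rc : ∀ c a, TanP ρ A Q D c a → ∀ y ∈ Y, ∑ i, (c (τ i) * y (φ i)).trace = 0)
    (cm : ∀ c a, TanP ρ A Q D c a → ∀ i, mx ρ (φ i) * c (τ i) * mx ρ (φ i)⁻¹ = c (τ i))
    (sha : ∀ c a, TanP ρ A Q D c a → (∀ i, c (τ i) = 0) →
      ∃ X : M2 F, ∀ g, c g = X - mx ρ g * X * mx ρ g⁻¹)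
    (kl : ∀ Y₀ ≤ Y, (∀ y ∈ Y₀, ∀ i, (y (φ i)).trace = 0 ∧ (y (φ i) * mx ρ (φ i)).trace = 0) →
      Module.rank F Y₀ ≤ 5) : Tan ρ A Q D (2 * r + 5) := by
  intro Z hZ
  let α : ((GQ → M2 F) × (ℕ → M2 F)) →ₗ[F] (Fin r → M2 F) :=
    { toFun := fun z i => z.1 (τ i)
      map_add' := fun _ _ => rfl
      map_smul' := fun _ _ => rfl }
  let ι : (Fin r ⊕ Fin r → F) →ₗ[F] (Fin r → M2 F) :=
    { toFun := fun x i => x (.inl i) • 1 + x (.inr i) • mx ρ (φ i)
      map_add' := fun x y => funext fun i => by simp only [Pi.add_apply, add_smul]; abel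
      map_smul' := fun s x => funext fun i => by
        simp only [Pi.smul_apply, RingHom.id_apply, smul_add, smul_assoc] }
  let β : (GQ → M2 F) →ₗ[F] (Fin r ⊕ Fin r → F) :=
    { toFun := fun y => Sum.elim (fun i => (y (φ i)).trace) fun i => (y (φ i) * mx ρ (φ i)).trace
      map_add' := fun x y => funext fun i => by rcases i with i | i <;> simp [add_mul]
      map_smul' := fun s x => funext fun i => by rcases i with i | i <;> simp }
  have h1 : Module.rank F (Z.map α) ≤ Module.rank F ((Z.map α).comap ι) := by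
    refine (Submodule.rank_mono (t := ((Z.map α).comap ι).map ι) ?_).trans (rank_map_le _ _)
    rintro _ ⟨z, hz, rfl⟩
    choose s t e using fun i => cent (ns i) (cm _ _ (hZ z hz) i)
    have k : ι (Sum.elim s t) = α z := funext fun i => (e i).symm
    exact ⟨Sum.elim s t, ⟨z, hz, k.symm⟩, k⟩
  have h2 := perp ((Z.map α).comap ι) (Y.map β) (by
    rintro x ⟨z, hz, e⟩ _ ⟨y, hy, rfl⟩
    rw [← rc _ _ (hZ z hz) y hy, dotProduct, Fintype.sum_sum_type, ← Finset.sum_add_distrib]
    refine Finset.sum_congr rfl fun i _ => ?_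
    rw [show z.1 (τ i) = x (.inl i) • 1 + x (.inr i) • mx ρ (φ i) from congrFun e i, add_mul,
      Matrix.smul_mul, Matrix.smul_mul, Matrix.one_mul, trace_add, trace_smul, trace_smul,
      trace_mul_comm]
    rfl)
  have h3 := ker_le (Z ⊓ LinearMap.ker α) fun z hz =>
    ⟨hZ z hz.1, sha _ _ (hZ z hz.1) fun i => congrFun hz.2 i⟩
  have h4 := kl (Y ⊓ LinearMap.ker β) inf_le_left fun y hy i =>
    ⟨congrFun hy.2 (.inl i), congrFun hy.2 (.inr i)⟩
  rw [split Y β] at lb
  rw [split Z α]
  refine (add_le_add h1 (h3.trans (lb.trans (add_le_add le_rfl h4)))).trans ?_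
  rw [← add_assoc]
  refine (add_le_add h2 le_rfl).trans (le_of_eq ?_)
  simp [two_mul]

end Vale.Agent.P022E.GW.H70
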