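import Mathlib

/-!
# P022E, block GW: corestriction of cocycles from a subgroup of finite index
-/

set_option linter.all false

noncomputable section

open scoped MatrixGroups

namespace Vale.Agent.P022E.GW.Cor

variable {F X M : Type} [Field F] [Group X] [AddCommGroup M] [Module F M]

/-- `y` is a cocycle on `H` -/
def Z (π : Representation F X M) (H : Subgroup X) (y : X → M) : Prop :=
  ∀ g ∈ H, ∀ h ∈ H, y (g * h) = y g + π g (y h)

theorem mem (H : Subgroup X) (g : X) (x : X ⧸ H) : (g • x).out⁻¹ * g * x.out ∈ H := by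
  rw [mul_assoc, ← QuotientGroup.eq, QuotientGroup.out_eq']
  exact (MulAction.Quotient.mk_smul_out H g x).symm

variable (π : Representation F X M) (H : Subgroup X) [Fintype (X ⧸ H)]

/-- the corestriction -/
def cor : (X → M) →ₗ[F] (X → M) where
  toFun y g := ∑ x : X ⧸ H, π (g • x).out (y ((g • x).out⁻¹ * g * x.out))
  map_add' y z := by
    funext g
    simp only [Pi.add_apply, map_add, Finset.sum_add_distrib]
  map_smul' c y := by
    funext g
    simp only [Pi.smul_apply, map_smul, RingHom.id_apply, Finset.smul_sum]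

theorem cor_apply (y : X → M) (g : X) :
    cor π H y g = ∑ x : X ⧸ H, π (g • x).out (y ((g • x).out⁻¹ * g * x.out)) := rfl

variable {π H}

/-- the corestriction is a cocycle -/
theorem cor_coc {y : X → M} (hy : Z π H y) (g h : X) :
    cor π H y (g * h) = cor π H y g + π g (cor π H y h) := by
  rw [cor_apply, cor_apply, cor_apply, map_sum, ← Equiv.sum_comp (MulAction.toPerm h)
    fun x : X ⧸ H => π (g • x).out (y ((g • x).out⁻¹ * g * x.out)), ← Finset.sum_add_distrib]
  refine Finset.sum_congr rfl fun x _ => ?_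
  have e : ((g * h) • x).out⁻¹ * (g * h) * x.out =
      ((g • h • x).out⁻¹ * g * (h • x).out) * ((h • x).out⁻¹ * h * x.out) := by
    rw [mul_smul]; group
  rw [e, hy _ (mem H g _) _ (mem H h _), map_add, MulAction.toPerm_apply, mul_smul]
  congr 1
  rw [← Module.End.mul_apply, ← Module.End.mul_apply, ← map_mul, ← map_mul]
  congr 2
  group

theorem fix {g : X} (hg : ∀ k : X, k⁻¹ * g * k ∈ H) (x : X ⧸ H) : g • x = x := by
  rw [← QuotientGroup.out_eq' x, MulAction.Quotient.smul_mk, QuotientGroup.eq, smul_eq_mul]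
  have := H.inv_mem (hg x.out)
  rwa [show (x.out⁻¹ * g * x.out)⁻¹ = (g * x.out)⁻¹ * x.out by group] at this

/-- the value on an element of the core of `H` -/
theorem cor_core (y : X → M) {g : X} (hg : ∀ k : X, k⁻¹ * g * k ∈ H) :
    cor π H y g = ∑ x : X ⧸ H, π x.out (y (x.out⁻¹ * g * x.out)) := by
  rw [cor_apply]
  exact Finset.sum_congr rfl fun x _ => by rw [fix hg x]

theorem cor_zero (y : X → M) {g : X} (hg : ∀ k : X, k⁻¹ * g * k ∈ H)
    (h0 : ∀ k : X, y (k⁻¹ * g * k) = 0) : cor π H y g = 0 := by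
  rw [cor_core y hg]
  exact Finset.sum_eq_zero fun x _ => by rw [h0, map_zero]

/-- the adjoint representation -/
def ad (ρ : X →* GL (Fin 2) F) : Representation F X (Matrix (Fin 2) (Fin 2) F) where
  toFun g :=
    { toFun := fun m => (ρ g).1 * m * (ρ g⁻¹).1
      map_add' := fun a b => by rw [mul_add, add_mul]
      map_smul' := fun c a => by rw [Matrix.mul_smul, Matrix.smul_mul]; rfl }
  map_one' := by ext1 m; simp
  map_mul' g h := by
    ext1 m
    simp only [mul_inv_rev, map_mul, Units.val_mul, LinearMap.coe_mk, AddHom.coe_mk,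
      Module.End.mul_apply, mul_assoc]

theorem ad_apply (ρ : X →* GL (Fin 2) F) (g : X) (m : Matrix (Fin 2) (Fin 2) F) :
    ad ρ g m = (ρ g).1 * m * (ρ g⁻¹).1 := rfl

end Vale.Agent.P022E.GW.Cor
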