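import Mathlib

/-! P022, block GW: the kernel of the trace from `B` to `G` is an exact functor. -/

set_option linter.all false

noncomputable section

namespace Vale.Agent.P022E.GW.Ex

open Module

variable {F G : Type} [Field F] [Group G]

/-- `P` has odd index and acts freely modulo `N` on the cosets of `B` other than `B` -/
structure TI (N P B : Subgroup G) : Prop where
  le : P ≤ B
  odd : Odd P.index
  ti : ∀ g, g ∉ B → ∀ p ∈ P, g⁻¹ * p * g ∈ B → p ∈ N

section

variable {W : Type} [AddCommGroup W] [Module F W]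

/-- the vectors fixed by `H` -/
def Inv (H : Subgroup G) (ρ : Representation F G W) : Submodule F W where
  carrier := {w | ∀ h ∈ H, ρ h w = w}
  add_mem' {a b} ha hb h hh := by rw [map_add, ha h hh, hb h hh]
  zero_mem' h _ := map_zero _
  smul_mem' c a ha h hh := by rw [map_smul, ha h hh]

/-- the vectors fixed by `B` with trace zero -/
def La (B : Subgroup G) [Fintype (G ⧸ B)] (ρ : Representation F G W) : Submodule F W where
  carrier := {w | (∀ b ∈ B, ρ b w = w) ∧ ∑ x : G ⧸ B, ρ x.out w = 0}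
  add_mem' {a b} ha hb := ⟨fun h hh => by rw [map_add, ha.1 h hh, hb.1 h hh], by
    simp only [map_add, Finset.sum_add_distrib, ha.2, hb.2, add_zero]⟩
  zero_mem' := ⟨fun h _ => map_zero _, by simp only [map_zero, Finset.sum_const_zero]⟩
  smul_mem' c a ha := ⟨fun h hh => by rw [map_smul, ha.1 h hh], by
    simp only [map_smul, ← Finset.smul_sum, ha.2, smul_zero]⟩

theorem mul_ap (ρ : Representation F G W) (g h : G) (w : W) : ρ (g * h) w = ρ g (ρ h w) := by
  rw [map_mul]; rfl

theorem one_ap (ρ : Representation F G W) (w : W) : ρ 1 w = w := by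
  rw [map_one]; rfl

theorem out_smul (B : Subgroup G) (ρ : Representation F G W) {w : W} (hw : ∀ b ∈ B, ρ b w = w)
    (g : G) (x : G ⧸ B) : ρ (g • x).out w = ρ g (ρ x.out w) := by
  have e : ((g * x.out : G) : G ⧸ B) = ((g • x).out : G) := by
    rw [QuotientGroup.out_eq']
    exact MulAction.Quotient.coe_smul_out B g x
  have h := QuotientGroup.eq.1 e
  rw [← mul_ap, ← congrArg (ρ (g * x.out)) (hw _ h), ← mul_ap, mul_inv_cancel_left]

theorem out_one (B : Subgroup G) : ((1 : G) : G ⧸ B).out ∈ B := by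
  have e : ((1 : G) : G ⧸ B) = (((1 : G) : G ⧸ B).out : G) := (QuotientGroup.out_eq' _).symm
  simpa using QuotientGroup.eq.1 e

theorem smul_one (B : Subgroup G) (g : G) : g • ((1 : G) : G ⧸ B) = (g : G ⧸ B) := by
  rw [MulAction.Quotient.smul_coe, smul_eq_mul, mul_one]

theorem smul_one_mem (B : Subgroup G) {b : G} (hb : b ∈ B) : b • ((1 : G) : G ⧸ B) = (1 : G) := by
  rw [smul_one]
  exact (QuotientGroup.eq.2 (by simpa using hb)).symm

theorem odd_smul [CharP F 2] {n : ℕ} (h : Odd n) (w : W) : n • w = w := by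
  obtain ⟨k, rfl⟩ := h
  rw [← Nat.cast_smul_eq_nsmul F]
  push_cast
  rw [CharTwo.two_eq_zero, zero_mul, zero_add, one_smul]

theorem TI.oddB {N P B : Subgroup G} (h : TI N P B) : Odd B.index := by
  have := h.odd
  rw [← Subgroup.relIndex_mul_index h.le] at this
  exact (Nat.odd_mul.1 this).2

/-- the trace -/
theorem cnt [CharP F 2] {B : Subgroup G} [Fintype (G ⧸ B)] (hB : Odd B.index)
    (ρ : Representation F G W) [FiniteDimensional F W] :
    finrank F (Inv B ρ) = finrank F (Inv ⊤ ρ) + finrank F (La B ρ) := by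
  let t : Inv B ρ →ₗ[F] W := (∑ x : G ⧸ B, ρ x.out) ∘ₗ (Inv B ρ).subtype
  have ht : ∀ w : Inv B ρ, t w = ∑ x : G ⧸ B, ρ x.out w.1 := fun w => by
    simp only [t, LinearMap.comp_apply, LinearMap.sum_apply, Submodule.subtype_apply]
  have e1 : LinearMap.range t = Inv ⊤ ρ := by
    ext w
    constructor
    · rintro ⟨w, rfl⟩ g _
      rw [ht, map_sum]
      exact Fintype.sum_equiv (MulAction.toPerm g) _ _ fun x => (out_smul B ρ w.2 g x).symm
    · intro hw
      refine ⟨⟨w, fun b _ => hw b trivial⟩, ?_⟩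
      rw [ht]
      simp only [hw _ trivial, Finset.sum_const, Finset.card_univ]
      rw [← Nat.card_eq_fintype_card]
      exact odd_smul (F := F) hB w
  have e2 : (LinearMap.ker t).map (Inv B ρ).subtype = La B ρ := by
    ext w
    constructor
    · rintro ⟨w, hw, rfl⟩
      exact ⟨w.2, (ht w).symm.trans hw⟩
    · intro hw
      exact ⟨⟨w, hw.1⟩, (ht _).trans hw.2, rfl⟩
  rw [← e1, ← e2, Submodule.finrank_map_subtype_eq]
  exact t.finrank_range_add_finrank_ker.symm

end

section

variable {W V : Type} [AddCommGroup W] [Module F W] [AddCommGroup V] [Module F V]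

theorem La_map (B : Subgroup G) [Fintype (G ⧸ B)] {ρ : Representation F G W}
    {σ : Representation F G V} (π : W →ₗ[F] V) (hπ : ∀ g w, π (ρ g w) = σ g (π w)) {w : W}
    (hw : w ∈ La B ρ) : π w ∈ La B σ :=
  ⟨fun b hb => by rw [← hπ, hw.1 b hb], by
    simp only [← hπ, ← map_sum, hw.2, map_zero]⟩

theorem lift0 {N P B : Subgroup G} (h : TI N P B) [Fintype (G ⧸ B)] {ρ : Representation F G W}
    {σ : Representation F G V} (hN : ∀ n ∈ N, ∀ w, ρ n w = w) (π : W →ₗ[F] V)
    (hπ : ∀ g w, π (ρ g w) = σ g (π w)) (hs : Function.Surjective π) (f : G ⧸ B → V)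
    (hf : ∀ g x, f (g • x) = σ g (f x)) (h0 : ∑ x, f x = 0) :
    ∃ k : G ⧸ B → W, (∀ p ∈ P, ∀ x, k (p • x) = ρ p (k x)) ∧ ∑ x, k x = 0 ∧ ∀ x, π (k x) = f x := by
  classical
  choose s hs using hs
  let r : G ⧸ B → G ⧸ B := fun x => (Quotient.mk (MulAction.orbitRel P (G ⧸ B)) x).out
  have hr : ∀ x, ∃ p : P, p • r x = x := fun x => by
    have : (MulAction.orbitRel P (G ⧸ B)).r (r x) x := Quotient.mk_out (s := MulAction.orbitRel P (G ⧸ B)) x
    exact (MulAction.orbitRel P (G ⧸ B)).symm this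
  choose q hq using hr
  have hq' : ∀ x, (q x : G) • r x = x := hq
  have hr : ∀ p ∈ P, ∀ x, r (p • x) = r x := fun p hp x =>
    congrArg Quotient.out (Quotient.sound (s := MulAction.orbitRel P (G ⧸ B)) ⟨⟨p, hp⟩, rfl⟩)
  let o : G ⧸ B := (1 : G)
  have ho : ∀ p ∈ P, p • o = o := fun p hp => smul_one_mem B (h.le hp)
  have ho' : ∀ p ∈ P, ∀ x, p • x = o ↔ x = o := fun p hp x =>
    ⟨fun e => by rw [← inv_smul_smul p x, e, ho _ (inv_mem hp)], fun e => by rw [e, ho p hp]⟩
  let k0 : G ⧸ B → W := fun x => ρ (q x) (s (f (r x)))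
  have h1 : ∀ x, π (k0 x) = f x := fun x => by rw [hπ, hs, ← hf, hq']
  have h2 : ∀ p ∈ P, ∀ x, x ≠ o → k0 (p • x) = ρ p (k0 x) := fun p hp x hx => by
    have hm : ((q (p • x) : G)⁻¹ * p * q x) ∈ P :=
      mul_mem (mul_mem (inv_mem (q _).2) hp) (q x).2
    have e : ((q (p • x) : G)⁻¹ * p * q x) • r x = r x := by
      rw [mul_smul, mul_smul, hq', inv_smul_eq_iff, ← hr p hp x, hq']
    have hn : (r x).out ∉ B := fun hb => hx (by
      rw [← hq' x, ho' _ (q x).2, ← QuotientGroup.out_eq' (r x)]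
      exact (QuotientGroup.eq.2 (by simpa using hb)).symm)
    have hm' := h.ti _ hn _ hm (by
      rw [mul_assoc, ← QuotientGroup.eq, QuotientGroup.out_eq', ← smul_eq_mul,
        MulAction.Quotient.coe_smul_out, e])
    show ρ _ (s (f (r (p • x)))) = ρ p (ρ _ _)
    rw [hr p hp, ← congrArg (ρ (q (p • x))) (hN _ hm' (s (f (r x)))), ← mul_ap, ← mul_ap,
      mul_assoc, mul_inv_cancel_left]
  refine ⟨fun x => if x = o then -∑ y ∈ Finset.univ.erase o, k0 y else k0 x, fun p hp x => ?_, ?_,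
    fun x => ?_⟩
  · by_cases hx : x = o
    · simp only [hx, ho p hp, if_true, map_neg, map_sum]
      congr 1
      refine Finset.sum_bij (fun y _ => p⁻¹ • y) (fun y hy => ?_) (fun a _ b _ e => ?_)
        (fun y hy => ⟨p • y, ?_, inv_smul_smul p y⟩) fun y hy => ?_
      · simpa [ho' _ (inv_mem hp)] using hy
      · exact MulAction.injective _ e
      · simpa [ho' _ hp] using hy
      · rw [← h2 p hp _ (by simpa [ho' _ (inv_mem hp)] using hy), smul_inv_smul]
    · simp only [hx, ho' p hp, if_false]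
      exact h2 p hp x hx
  · rw [← Finset.add_sum_erase _ _ (Finset.mem_univ o), if_pos rfl, neg_add_eq_zero]
    exact Finset.sum_congr rfl fun y hy => (if_neg (Finset.ne_of_mem_erase hy)).symm
  · by_cases hx : x = o
    · simp only [hx, if_true, map_neg, map_sum, h1]
      rw [← Finset.add_sum_erase _ _ (Finset.mem_univ o)] at h0
      exact (eq_neg_of_add_eq_zero_left h0).symm
    · simp only [hx, if_false, h1]

theorem lift [CharP F 2] {N P B : Subgroup G} (h : TI N P B) [Fintype (G ⧸ B)]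
    {ρ : Representation F G W} {σ : Representation F G V} (hN : ∀ n ∈ N, ∀ w, ρ n w = w)
    (π : W →ₗ[F] V) (hπ : ∀ g w, π (ρ g w) = σ g (π w)) (hs : Function.Surjective π) {v : V}
    (hv : v ∈ La B σ) : ∃ w ∈ La B ρ, π w = v := by
  obtain ⟨k, h1, h2, h3⟩ := lift0 h hN π hπ hs (fun x => σ x.out v) (out_smul B σ hv.1) hv.2
  have : P.FiniteIndex := ⟨h.odd.pos.ne'⟩
  letI : Fintype (G ⧸ P) := Fintype.ofFinite _
  have h4 : ∀ (g : G) (z : G ⧸ P) (x : G ⧸ B), ρ (g • z).out (k ((g • z).out⁻¹ • g • x)) =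
      ρ g (ρ z.out (k (z.out⁻¹ • x))) := fun g z x => by
    have e : ((g * z.out : G) : G ⧸ P) = ((g • z).out : G) := by
      rw [QuotientGroup.out_eq']
      exact MulAction.Quotient.coe_smul_out P g z
    have hm := QuotientGroup.eq.1 e
    have e2 : z.out⁻¹ • x = ((g * z.out)⁻¹ * (g • z).out) • (g • z).out⁻¹ • g • x := by
      simp only [← mul_smul]
      congr 1
      group
    rw [e2, h1 _ hm, ← mul_ap, ← mul_ap, mul_inv_cancel_left]
  let f : G ⧸ B → W := fun x => ∑ z : G ⧸ P, ρ z.out (k (z.out⁻¹ • x))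
  have h5 : ∀ g x, f (g • x) = ρ g (f x) := fun g x => by
    simp only [f, map_sum]
    exact (Fintype.sum_equiv (MulAction.toPerm g) _ _ fun z => (h4 g z x).symm).symm
  refine ⟨f (1 : G), ⟨fun b hb => by rw [← h5, smul_one_mem B hb], ?_⟩, ?_⟩
  · simp only [← h5, smul_one, QuotientGroup.out_eq']
    simp only [f]
    rw [Finset.sum_comm]
    refine Finset.sum_eq_zero fun z _ => ?_
    rw [← map_sum, Fintype.sum_equiv (MulAction.toPerm z.out⁻¹) (fun x => k (z.out⁻¹ • x)) k
      fun _ => rfl, h2, map_zero]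
  · simp only [f, map_sum, hπ, h3, out_smul B σ hv.1, ← mul_ap, mul_inv_cancel_left,
      hv.1 _ (out_one B), Finset.sum_const, Finset.card_univ, mul_inv_cancel, one_ap]
    rw [← Nat.card_eq_fintype_card]
    exact odd_smul (F := F) h.odd v

theorem La_le_sur [CharP F 2] {N P B : Subgroup G} (h : TI N P B) [Fintype (G ⧸ B)]
    {ρ : Representation F G W} {σ : Representation F G V} (hN : ∀ n ∈ N, ∀ w, ρ n w = w)
    (π : W →ₗ[F] V) (hπ : ∀ g w, π (ρ g w) = σ g (π w)) (hs : Function.Surjective π) :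
    Module.rank F (La B σ) ≤ Module.rank F (La B ρ) :=
  LinearMap.rank_le_of_surjective (π.restrict fun w hw => La_map B π hπ hw) fun v => by
    obtain ⟨w, hw, e⟩ := lift h hN π hπ hs v.2
    exact ⟨⟨w, hw⟩, Subtype.ext e⟩

theorem ses [CharP F 2] {U : Type} [AddCommGroup U] [Module F U] {N P B : Subgroup G}
    (h : TI N P B) [Fintype (G ⧸ B)] {τ : Representation F G U}
    {ρ : Representation F G W} {σ : Representation F G V} [FiniteDimensional F W]
    (hN : ∀ n ∈ N, ∀ w, ρ n w = w) (i : U →ₗ[F] W) (hi : ∀ g u, i (τ g u) = ρ g (i u))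
    (π : W →ₗ[F] V) (hπ : ∀ g w, π (ρ g w) = σ g (π w)) (hj : Function.Injective i)
    (hs : Function.Surjective π) (he : ∀ w, π w = 0 ↔ ∃ u, i u = w) :
    finrank F (La B ρ) = finrank F (La B τ) + finrank F (La B σ) := by
  let t : La B ρ →ₗ[F] V := π ∘ₗ (La B ρ).subtype
  have e1 : LinearMap.range t = La B σ := by
    ext v
    constructor
    · rintro ⟨w, rfl⟩
      exact La_map B π hπ w.2
    · intro hv
      obtain ⟨w, hw, e⟩ := lift h hN π hπ hs hv
      exact ⟨⟨w, hw⟩, e⟩
  have e2 : (LinearMap.ker t).map (La B ρ).subtype = (La B τ).map i := by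
    ext w
    constructor
    · rintro ⟨w, hw, rfl⟩
      obtain ⟨u, hu⟩ := (he w.1).1 hw
      refine ⟨u, ⟨fun b hb => hj ?_, hj ?_⟩, hu⟩
      · rw [hi, hu, w.2.1 b hb]
      · simp only [map_sum, hi, hu, w.2.2, map_zero]
    · rintro ⟨u, hu, rfl⟩
      exact ⟨⟨i u, La_map B i hi hu⟩, (he _).2 ⟨u, rfl⟩, rfl⟩
  rw [← e1, (Submodule.equivMapOfInjective i hj (La B τ)).finrank_eq, ← e2,
    Submodule.finrank_map_subtype_eq, add_comm]
  exact t.finrank_range_add_finrank_ker.symm

end

end Vale.Agent.P022E.GW.Ex
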