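import Vale.Agent.P022E.GW.CorL
import Vale.Agent.P022E.GW.Ex1

/-!
# P022E, block GW: descent from a subgroup of odd index, group theoretic part
-/

set_option linter.all false

noncomputable section

namespace Vale.Agent.P022E.GW.Cor

open Vale.Agent.P022E.GW.Ex (TI La La_le_sur)

variable {F X M : Type} [Field F] [Group X] [TopologicalSpace X] [IsTopologicalGroup X]
  [AddCommGroup M] [Module F M]

/-- cocycles on `H`, zero outside `H`, with open kernel, zero on `N` -/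
def ZZ (π : Representation F X M) (H : Subgroup X) (N : Set X) : Submodule F (X → M) where
  carrier := {y | Z π H y ∧ (∀ g ∉ H, y g = 0) ∧
    (∃ U : Subgroup X, IsOpen (U : Set X) ∧ ∀ g ∈ U, y g = 0) ∧ ∀ g ∈ N, y g = 0}
  add_mem' := by
    rintro a b ⟨a1, a2, ⟨U, u1, u2⟩, a4⟩ ⟨b1, b2, ⟨V, v1, v2⟩, b4⟩
    refine ⟨fun g hg h hh => ?_, fun g hg => ?_, ⟨U ⊓ V, u1.inter v1, fun g hg => ?_⟩,
      fun g hg => ?_⟩
    · simp only [Pi.add_apply, a1 g hg h hh, b1 g hg h hh, map_add]; abel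
    · rw [Pi.add_apply, a2 g hg, b2 g hg, add_zero]
    · rw [Pi.add_apply, u2 g hg.1, v2 g hg.2, add_zero]
    · rw [Pi.add_apply, a4 g hg, b4 g hg, add_zero]
  zero_mem' := ⟨fun g _ h _ => by simp, fun _ _ => rfl, ⟨⊤, isOpen_univ, fun _ _ => rfl⟩,
    fun _ _ => rfl⟩
  smul_mem' c a := by
    rintro ⟨a1, a2, ⟨U, u1, u2⟩, a4⟩
    refine ⟨fun g hg h hh => ?_, fun g hg => ?_, ⟨U, u1, fun g hg => ?_⟩, fun g hg => ?_⟩
    · simp only [Pi.smul_apply, a1 g hg h hh, map_smul, smul_add]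
    · rw [Pi.smul_apply, a2 g hg, smul_zero]
    · rw [Pi.smul_apply, u2 g hg, smul_zero]
    · rw [Pi.smul_apply, a4 g hg, smul_zero]

/-- the action on functions by conjugation -/
def cj (π : Representation F X M) : Representation F X (X → M) where
  toFun g :=
    { toFun := fun c x => π g (c (g⁻¹ * x * g))
      map_add' := fun a b => by funext x; simp only [Pi.add_apply, map_add]
      map_smul' := fun c a => by funext x; simp only [Pi.smul_apply, map_smul, RingHom.id_apply] }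
  map_one' := by ext c x; simp
  map_mul' g h := by
    ext c x
    simp only [map_mul, LinearMap.coe_mk, AddHom.coe_mk, Module.End.mul_apply, mul_inv_rev,
      mul_assoc]

theorem cj_apply (π : Representation F X M) (g : X) (c : X → M) (x : X) :
    cj π g c x = π g (c (g⁻¹ * x * g)) := rfl

open Classical in
/-- extension by zero of the restriction to `H` -/
def ind (F : Type) [Field F] [Module F M] (H : Subgroup X) : (X → M) →ₗ[F] (X → M) where
  toFun c x := if x ∈ H then c x else 0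
  map_add' a b := by funext x; by_cases h : x ∈ H <;> simp [h]
  map_smul' c a := by funext x; by_cases h : x ∈ H <;> simp [h]

theorem ind_pos {H : Subgroup X} (c : X → M) {x : X} (h : x ∈ H) : ind F H c x = c x := if_pos h

theorem ind_neg {H : Subgroup X} (c : X → M) {x : X} (h : x ∉ H) : ind F H c x = 0 := if_neg h

/-- the data of the descent -/
structure Dt (π : Representation F X M) (Γ : Subgroup X) (N : Set X) : Prop where
  nrm : Γ.Normal
  opn : IsOpen (Γ : Set X)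
  trv : ∀ g ∈ Γ, ∀ m, π g m = m
  sub : ∀ g ∈ N, g ∈ Γ
  cnj : ∀ g ∈ N, ∀ k : X, k⁻¹ * g * k ∈ N

variable {π : Representation F X M} {Γ H : Subgroup X} {N : Set X}

theorem Dt.mem (d : Dt π Γ N) {g : X} (k : X) : k⁻¹ * g * k ∈ Γ ↔ g ∈ Γ :=
  ⟨fun h => by simpa [mul_assoc] using d.nrm.conj_mem _ h k,
    fun h => by simpa using d.nrm.conj_mem _ h k⁻¹⟩

theorem Dt.cj_mem (d : Dt π Γ N) (g : X) : ZZ π Γ N ≤ (ZZ π Γ N).comap (cj π g) := by
  rintro c ⟨c1, c2, ⟨U, u1, u2⟩, c4⟩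
  refine ⟨fun a ha b hb => ?_, fun a ha => ?_, ⟨U.comap (MulAut.conj g⁻¹).toMonoidHom,
    u1.preimage (by
      change Continuous fun x : X => g⁻¹ * x * g⁻¹⁻¹
      fun_prop), fun a ha => ?_⟩, fun a ha => ?_⟩
  · rw [cj_apply, cj_apply, cj_apply, d.trv a ha, ← map_add,
      show g⁻¹ * (a * b) * g = (g⁻¹ * a * g) * (g⁻¹ * b * g) by group,
      c1 _ ((d.mem g).2 ha) _ ((d.mem g).2 hb), d.trv _ ((d.mem g).2 ha)]
  · rw [cj_apply, c2 _ fun h => ha ((d.mem g).1 h), map_zero]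
  · rw [cj_apply, u2 _ (by simpa using ha), map_zero]
  · rw [cj_apply, c4 _ (d.cnj a ha g), map_zero]

/-- the action on the homomorphisms of `Γ` -/
def Dt.rep (d : Dt π Γ N) : Representation F X (ZZ π Γ N) :=
  (cj π).subrepresentation _ d.cj_mem

theorem Dt.rep_coe (d : Dt π Γ N) (g : X) (c : ZZ π Γ N) : (d.rep g c).1 = cj π g c.1 := rfl

theorem Z.one {y : X → M} (hy : Z π H y) : y 1 = 0 := by
  simpa using hy 1 H.one_mem 1 H.one_mem

theorem Dt.res_mem (d : Dt π Γ N) (le : Γ ≤ H) {y : X → M} (hy : y ∈ ZZ π H N) :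
    ind F Γ y ∈ ZZ π Γ N := by
  obtain ⟨c1, -, ⟨U, u1, u2⟩, c4⟩ := hy
  refine ⟨fun a ha b hb => ?_, fun a ha => ind_neg y ha, ⟨U ⊓ Γ, u1.inter d.opn, fun a ha => ?_⟩,
    fun a ha => ?_⟩
  · rw [ind_pos y ha, ind_pos y hb, ind_pos y (Γ.mul_mem ha hb), c1 a (le ha) b (le hb)]
  · rw [ind_pos y ha.2, u2 a ha.1]
  · rw [ind_pos y (d.sub a ha), c4 a ha]

theorem Dt.res_fix (d : Dt π Γ N) (le : Γ ≤ H) {y : X → M} (hy : Z π H y) {b : X} (hb : b ∈ H) :
    cj π b (ind F Γ y) = ind F Γ y := by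
  funext x
  rw [cj_apply]
  by_cases hx : x ∈ Γ
  · have h1 := (d.mem b).2 hx
    have e1 := hy b hb _ (le h1)
    have e2 := hy x (le hx) b hb
    rw [show b * (b⁻¹ * x * b) = x * b by group, e2, d.trv x hx, add_comm] at e1
    rw [ind_pos y h1, ind_pos y hx]
    exact (add_left_cancel e1).symm
  · rw [ind_neg y hx, ind_neg y fun h => hx ((d.mem b).1 h), map_zero]

/-- the coboundaries -/
def bd (π : Representation F X M) : M →ₗ[F] (X → M) where
  toFun m g := m - π g m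
  map_add' a b := by funext g; simp only [Pi.add_apply, map_add]; abel
  map_smul' c a := by funext g; simp only [Pi.smul_apply, map_smul, RingHom.id_apply, smul_sub]

/-- **Descent**: cocycles on `H` against cocycles on the whole group. -/
theorem Dt.desc [CompactSpace X] [Fintype (X ⧸ H)] (d : Dt π Γ N) (le : Γ ≤ H)
    (h1 : ∀ y : X → M, Z π H y → (∀ g ∈ Γ, y g = 0) → ∃ m, ∀ g ∈ H, y g = m - π g m) :
    Module.rank F (ZZ π H N) ≤ Module.rank F (ZZ π ⊤ N) + Module.rank F (La H d.rep) := by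
  refine (desc_lin (ZZ π H N) (ZZ π ⊤ N) (LinearMap.range (bd π))
    ((La H d.rep).map (ZZ π Γ N).subtype) (cor π H) (ind F H) (ind F Γ)
    (∑ x : X ⧸ H, cj π x.out) ?_ ?_ ?_ ?_ ?_).trans
    (add_le_add le_rfl (rank_map_le _ _))
  · rintro _ ⟨m, rfl⟩
    have z : ∀ g ∈ Γ, bd π m g = 0 := fun g hg => sub_eq_zero.2 (d.trv g hg m).symm
    refine ⟨⟨fun a _ b _ => ?_, fun a ha => (ha trivial).elim, ⟨Γ, d.opn, z⟩,
      fun a ha => z a (d.sub a ha)⟩, funext fun x => ?_⟩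
    · change m - π (a * b) m = m - π a m + π a (m - π b m)
      rw [map_mul, map_sub, Module.End.mul_apply]; abel
    · by_cases hx : x ∈ Γ
      · exact (ind_pos _ hx).trans (z x hx)
      · exact ind_neg _ hx
  · rintro y ⟨hy, k⟩
    obtain ⟨m, hm⟩ := h1 y hy.1 fun g hg => (ind_pos y hg).symm.trans (congrFun k g)
    refine ⟨bd π m, ⟨m, rfl⟩, funext fun x => ?_⟩
    by_cases hx : x ∈ H
    · exact (ind_pos _ hx).trans (hm x hx).symm
    · exact (ind_neg _ hx).trans (hy.2.1 x hx).symm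
  · rintro y ⟨c1, -, ⟨U, u1, u2⟩, c4⟩
    have o : IsOpen ((U ⊓ Γ : Subgroup X) : Set X) := u1.inter d.opn
    haveI : Finite (X ⧸ (U ⊓ Γ)) := Subgroup.quotient_finite_of_isOpen _ o
    haveI : (U ⊓ Γ).FiniteIndex := Subgroup.finiteIndex_of_finite_quotient
    have cr : ∀ g ∈ (U ⊓ Γ).normalCore, ∀ k : X, k⁻¹ * g * k ∈ U ⊓ Γ := fun g hg k => by
      simpa using hg k⁻¹
    refine ⟨fun a _ b _ => cor_coc c1 a b, fun a ha => (ha trivial).elim,
      ⟨(U ⊓ Γ).normalCore, Subgroup.isOpen_of_isClosed_of_finiteIndex _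
        (Subgroup.normalCore_isClosed _ (Subgroup.isClosed_of_isOpen _ o)), fun a ha =>
        cor_zero y (fun k => le (cr a ha k).2) fun k => u2 _ (cr a ha k).1⟩, fun a ha =>
        cor_zero y (fun k => le (d.sub _ (d.cnj a ha k))) fun k => c4 _ (d.cnj a ha k)⟩
  · intro y _
    funext x
    rw [LinearMap.sum_apply, Finset.sum_apply]
    by_cases hx : x ∈ Γ
    · rw [ind_pos _ hx, cor_core y fun k => le ((d.mem k).2 hx)]
      exact Finset.sum_congr rfl fun k _ => by rw [cj_apply, ind_pos y ((d.mem _).2 hx)]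
    · rw [ind_neg _ hx]
      exact (Finset.sum_eq_zero fun k _ => by
        rw [cj_apply, ind_neg y fun h => hx ((d.mem _).1 h), map_zero]).symm
  · intro y hy h0
    refine ⟨⟨_, d.res_mem le hy⟩, ⟨fun b hb => Subtype.ext (d.res_fix le hy.1 hb),
      Subtype.ext ?_⟩, rfl⟩
    rw [Submodule.coe_sum]
    rw [LinearMap.sum_apply] at h0
    exact h0

/-- **The Kummer side**: a universal equivariant homomorphism `κ` on `Γ`. -/
theorem Dt.kum [CharP F 2] {P : Subgroup X} [Fintype (X ⧸ H)] (d : Dt π Γ N) (ti : TI Γ P H)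
    {V : Type} [AddCommGroup V] [Module F V] (τ : Representation F X V)
    (trv : ∀ g ∈ Γ, ∀ v, τ g v = v) (κ : X → V)
    (add : ∀ a ∈ Γ, ∀ b ∈ Γ, κ (a * b) = κ a + κ b)
    (eqv : ∀ g : X, ∀ a ∈ Γ, κ (g⁻¹ * a * g) = τ g⁻¹ (κ a))
    (opn : ∃ U : Subgroup X, IsOpen (U : Set X) ∧ ∀ g ∈ U, κ g = 0) (nul : ∀ g ∈ N, κ g = 0)
    (sur : ∀ c ∈ ZZ π Γ N, ∃ w : V →ₗ[F] M, ∀ a ∈ Γ, c a = w (κ a)) :
    Module.rank F (La H d.rep) ≤ Module.rank F (La H (τ.linHom π)) := by
  obtain ⟨U, u1, u2⟩ := opn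
  let f0 : (V →ₗ[F] M) →ₗ[F] (X → M) :=
    { toFun := fun w a => w (κ a)
      map_add' := fun _ _ => rfl
      map_smul' := fun _ _ => rfl }
  let f : (V →ₗ[F] M) →ₗ[F] ZZ π Γ N := (ind F Γ ∘ₗ f0).codRestrict _ fun w =>
    ⟨fun a ha b hb => by
      change ind F Γ (f0 w) _ = ind F Γ (f0 w) _ + π a (ind F Γ (f0 w) _)
      rw [ind_pos _ ha, ind_pos _ hb, ind_pos _ (Γ.mul_mem ha hb), d.trv a ha]
      change w _ = w _ + w _
      rw [add a ha b hb, map_add],
    fun a ha => ind_neg (F := F) (f0 w) ha, ⟨U ⊓ Γ, u1.inter d.opn, fun a ha =>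
      (ind_pos (F := F) (f0 w) ha.2).trans (by
      change w _ = 0
      rw [u2 a ha.1, map_zero])⟩, fun a ha => (ind_pos (F := F) (f0 w) (d.sub a ha)).trans (by
      change w _ = 0
      rw [nul a ha, map_zero])⟩
  have hf : ∀ w a, (f w).1 a = ind F Γ (fun a => w (κ a)) a := fun _ _ => rfl
  refine La_le_sur ti (fun n hn w => LinearMap.ext fun v => ?_) f
    (fun g w => Subtype.ext (funext fun a => ?_)) fun c => ?_
  · change π n (w (τ n⁻¹ v)) = w v
    rw [d.trv n hn, trv _ (Γ.inv_mem hn)]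
  · rw [d.rep_coe, cj_apply, hf, hf]
    by_cases ha : a ∈ Γ
    · rw [ind_pos _ ha, ind_pos _ ((d.mem g).2 ha), eqv g a ha]
      rfl
    · rw [ind_neg _ ha, ind_neg _ fun h => ha ((d.mem g).1 h), map_zero]
  · obtain ⟨w, hw⟩ := sur c.1 c.2
    refine ⟨w, Subtype.ext (funext fun a => ?_)⟩
    rw [hf]
    by_cases ha : a ∈ Γ
    · rw [ind_pos _ ha, hw a ha]
    · rw [ind_neg _ ha, c.2.2.1 a ha]

end Vale.Agent.P022E.GW.Cor
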