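import Vale.Agent.P022E.GW.CorD
import Vale.Agent.P022E.GW.Defs
import Vale.Agent.P022E.GW.Kc
import Vale.Agent.P022E.GW.Bor
import Vale.Agent.P022E.Gp.Big
import Vale.Agent.P022D.Sel.Open

/-!
# P022E, block GW: descent from the upper triangular subgroup, Galois side
-/

set_option linter.all false

noncomputable section

open scoped Pointwise

namespace Vale.Agent.P022E.GW.Cor

open NumberField
open Vale.Agent.P022 Vale.Agent.P022.H443 Vale.Agent.P022.C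
open Vale.Agent.P027M.S (Inert mx)
open Vale.Agent.P022D.Sel (M2 IsDec Big US el)
open Vale.Agent.P022E.GW.Ex (TI La)

variable {F : Type} [Field F] {ρ : GQ →* GL (Fin 2) F} {T : Finset ℕ} {D : ℕ → Set GQ}

/-- the inertia elements outside `T` -/
def NN (T : Finset ℕ) : Set GQ := {g | ∃ l ∉ T, ∃ P : Ideal (𝓞 Qb), Ov l P ∧ Inert P g}

theorem zz_eq (Γ : Subgroup GQ) : ZZ (ad ρ) Γ (NN T) = H1 ρ T Γ :=
  Submodule.ext fun c => ⟨fun h => ⟨h.1, h.2.1, h.2.2.1, fun l hl P hP g hg =>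
      h.2.2.2 g ⟨l, hl, P, hP, hg⟩⟩,
    fun h => ⟨h.1, h.2.1, h.2.2.1, fun g ⟨l, hl, P, hP, hg⟩ => h.2.2.2 l hl P hP g hg⟩⟩

theorem nn_cnj {g : GQ} (hg : g ∈ NN T) (k : GQ) : k⁻¹ * g * k ∈ NN T := by
  obtain ⟨l, hl, P, ⟨lp, hP, lP⟩, hi⟩ := hg
  refine ⟨l, hl, k⁻¹ • P, ⟨lp, Ideal.IsPrime.smul k⁻¹, ?_⟩, fun x => ?_⟩
  · rw [Ideal.mem_inv_pointwise_smul_iff]
    have e : k • (l : 𝓞 Qb) = l := map_natCast (MulSemiringAction.toRingHom GQ (𝓞 Qb) k) l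
    rwa [e]
  · rw [Ideal.mem_inv_pointwise_smul_iff, smul_sub, mul_smul, mul_smul, smul_inv_smul]
    exact hi _

theorem dt (h : Hyp ρ T D) : Dt (ad ρ) ρ.ker (NN T) where
  nrm := inferInstance
  opn := h.opn
  trv g hg m := by
    rw [ad_apply, map_inv, MonoidHom.mem_ker.1 hg]; simp
  sub g := fun ⟨l, hl, P, hP, hi⟩ => h.unr l hl P hP g hi
  cnj g hg k := nn_cnj hg k

variable [CharP F 2]

theorem tiB (S : Gp.Std ρ.range) : TI ρ.ker (GP ρ) (GB ρ) :=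
  ⟨Bor.le, Bor.odd S, fun _ hg _ hp h => Bor.ti hg hp h⟩

theorem bigB (S : Gp.Std ρ.range) : G.BigG ((GB ρ).map ρ) := by
  have N := S.nf
  have m : ∀ p, p ∈ Gp.Up F ⊓ (GB ρ).map ρ ↔ p ∈ Gp.Up F ⊓ ρ.range := fun p =>
    ⟨fun ⟨a, g, _, e⟩ => ⟨a, g, e⟩, fun ⟨a, g, e⟩ => ⟨a, g, Bor.le (ρ := ρ) (e ▸ a : ρ g ∈ Gp.Up F), e⟩⟩
  have e : ((GB ρ).map ρ).map (MulAut.conj (1 : GL (Fin 2) F)).toMonoidHom = (GB ρ).map ρ := by
    ext p; simp
  refine ⟨1, Gp.Up F ⊓ (GB ρ).map ρ, e.symm ▸ ⟨inf_le_right, ?_, fun p a => N.un p ((m p).1 a), ?_,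
    fun p a p' b a' b' => ?_⟩⟩
  · rw [Subgroup.inf_relIndex_right, ← Subgroup.relIndex_comap]
    exact Bor.odd_rel S
  · obtain ⟨p, a, p', b, k⟩ := N.two
    exact ⟨p, (m p).2 a, p', (m p').2 b, k⟩
  · obtain ⟨_, ⟨t, rfl⟩, k⟩ := N.tor p ((m p).1 a) p' ((m p').1 b) a' b'
    exact ⟨_, ⟨t, k.2.1, rfl⟩, k⟩

/-- cocycles over the field of the upper triangular subgroup against cocycles over `ℚ` -/
theorem desc1 [Fintype (GQ ⧸ GB ρ)] (h : Hyp ρ T D) :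
    Module.rank F (H1 ρ T (GB ρ)) ≤ Module.rank F (H1 ρ T ⊤) +
      Module.rank F (La (GB ρ) (dt h).rep) := by
  haveI := H916.isGalois_Qb
  haveI := h.std.sl.fin
  haveI : Finite ((GB ρ).map ρ) := Finite.of_injective _
    (Subgroup.inclusion_injective (Subgroup.map_le_range ρ (GB ρ)))
  rw [← zz_eq, ← zz_eq]
  exact (dt h).desc (Bor.ker_le.trans Bor.le) fun y hy k =>
    (bigB h.std).h1G hy fun g _ e => k g e

/-- **The Galois side of the descent.** -/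
theorem gal [Finite F] [Fintype (GQ ⧸ GB ρ)] (h : Hyp ρ T D) {L : Type} [Field L] [NumberField L]
    (j : L →+* Qb) (hj : GK j = ρ.ker) (hB : Big L T) {Y : Type} [AddCommGroup Y]
    (act : GQ → Y → Y) (e : Y →+ US L T) (he : Function.Surjective e)
    (hact : ∀ g a, j (el (e (act g a))) = g (j (el (e a))))
    (trv : ∀ g ∈ ρ.ker, ∀ a, act g a = a) (τ : Representation F GQ (Y →+ F))
    (hτ : ∀ g l a, τ g l a = l (act g⁻¹ a)) :
    Module.rank F (H1 ρ T (GB ρ)) ≤ Module.rank F (H1 ρ T ⊤) +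
      Module.rank F (La (GB ρ) (τ.linHom (ad ρ))) := by
  classical
  have hT : ∀ l ∈ T, l = 0 ∨ l.Prime := fun l hl => (h.dec l hl).imp (·.1) (·.1)
  let u : ZMod 2 →+* F := ZMod.castHom dvd_rfl F
  let κ : GQ → (Y →+ F) := fun g => if hg : g ∈ GK j then
    AddMonoidHom.mk' (fun a => u (Kc.kq (j (el (e a))) g)) fun a b => by
      rw [map_add, Kc.kq_el_add j _ _ hg, map_add] else 0
  have hκ : ∀ g ∈ ρ.ker, ∀ a, κ g a = u (Kc.kq (j (el (e a))) g) := fun g hg a => by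
    simp only [κ, dif_pos (hj ▸ hg : g ∈ GK j)]
    rfl
  refine (desc1 h).trans (add_le_add le_rfl ((dt h).kum (tiB h.std) τ
    (fun g hg l => AddMonoidHom.ext fun a => by rw [hτ, trv _ (ρ.ker.inv_mem hg)]) κ
    (fun a ha b hb => AddMonoidHom.ext fun y => ?_) (fun g a ha => AddMonoidHom.ext fun y => ?_)
    ?_ (fun g hg => AddMonoidHom.ext fun y => ?_) fun c hc => ?_))
  · rw [AddMonoidHom.add_apply, hκ _ (ρ.ker.mul_mem ha hb), hκ a ha, hκ b hb,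
      Kc.kq_addL j _ (hj ▸ ha) (hj ▸ hb), map_add]
  · rw [hτ, inv_inv, hκ _ (((dt h).mem g).2 ha), hκ a ha, hact, ← Kc.kq_conj _ g]
    congr 2
    group
  · obtain ⟨U, u1, -, u2, u3⟩ := P022D.Sel.opn L j T
    refine ⟨U, u1, fun g hg => AddMonoidHom.ext fun y => ?_⟩
    rw [hκ g (hj ▸ u2 hg), (Kc.kq_zero (Kc.rt_sq _) g).2 (u3 g hg _ _ (Kc.rt_sq _)), map_zero]
    rfl
  · have k := (dt h).sub g hg
    obtain ⟨l, hl, P, ⟨lp, hP, lP⟩, hi⟩ := hg
    rw [hκ g k, Kc.kq_US j h.h2 hT _ lp hl hP lP (hj ▸ k) hi, map_zero]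
    rfl
  · obtain ⟨c1, -, ⟨U, u1, u2⟩, c4⟩ := hc
    letI : Algebra (ZMod 2) F := ZMod.algebra F 2
    letI : Module (ZMod 2) (M2 F) := Module.compHom (M2 F) u
    haveI : Module.Finite (ZMod 2) (M2 F) := Module.Finite.of_finite
    let b := Module.finBasis (ZMod 2) (M2 F)
    have k : ∀ i, ∃ y : Y, ∀ g ∈ GK j, b.repr (c g) i = Kc.kq (j (el (e y))) g := fun i => by
      obtain ⟨w, hw⟩ := Kc.kq_surjU j hB (fun g => b.repr (c g) i)
        (fun g hg g' hg' => by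
          rw [c1 g (hj ▸ hg) g' (hj ▸ hg'), (dt h).trv g (hj ▸ hg), map_add, Finsupp.add_apply])
        ⟨U, u1, fun g hg _ => by rw [u2 g hg, map_zero]; rfl⟩
        fun l lp hl P hP lP g _ hi => by rw [c4 g ⟨l, hl, P, ⟨lp, hP, lP⟩, hi⟩, map_zero]; rfl
      obtain ⟨y, rfl⟩ := he w
      exact ⟨y, hw⟩
    choose y hy using k
    refine ⟨{ toFun := fun l => ∑ i, l (y i) • b i
              map_add' := fun l l' => by
                simp only [AddMonoidHom.add_apply, add_smul, Finset.sum_add_distrib]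
              map_smul' := fun r l => by
                simp only [AddMonoidHom.smul_apply, smul_eq_mul, mul_smul, RingHom.id_apply,
                  Finset.smul_sum] }, fun a ha => ?_⟩
    refine (b.sum_repr (c a)).symm.trans (Finset.sum_congr rfl fun i _ => ?_)
    rw [hκ a ha, ← hy i a (hj ▸ ha)]
    rfl

end Vale.Agent.P022E.GW.Cor
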