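import Vale.Agent.P022E.GW.Cor

/-!
# P022E, block GW: the linear algebra of the descent along a corestriction
-/

set_option linter.all false

noncomputable section

namespace Vale.Agent.P022E.GW.Cor

variable {F V W : Type} [Field F] [AddCommGroup V] [Module F V] [AddCommGroup W] [Module F W]

theorem rank_split (f : V →ₗ[F] W) (Z : Submodule F V) :
    Module.rank F (Z.map f) + Module.rank F (Z ⊓ LinearMap.ker f : Submodule F V) =
      Module.rank F Z := by
  rw [← (f.domRestrict Z).rank_range_add_rank_ker, LinearMap.range_domRestrict,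
    LinearMap.ker_domRestrict, ← Submodule.map_comap_subtype]
  exact congrArg _ (Submodule.equivMapOfInjective _ Z.injective_subtype _).rank_eq.symm

theorem desc_lin (ZH ZX K : Submodule F V) (E : Submodule F W) (cr ind : V →ₗ[F] V)
    (res : V →ₗ[F] W) (tr : W →ₗ[F] W) (hK : K ≤ ZX ⊓ LinearMap.ker res)
    (hk : ZH ⊓ LinearMap.ker res ≤ K.map ind) (hc : ∀ y ∈ ZH, cr y ∈ ZX)
    (ht : ∀ y ∈ ZH, res (cr y) = tr (res y)) (hE : ∀ y ∈ ZH, tr (res y) = 0 → res y ∈ E) :
    Module.rank F ZH ≤ Module.rank F ZX + Module.rank F E := by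
  rw [← rank_split res ZH, ← rank_split res ZX, ← rank_split tr (ZH.map res)]
  have h1 : Module.rank F ((ZH.map res).map tr) ≤ Module.rank F (ZX.map res) := by
    refine Submodule.rank_mono ?_
    rintro _ ⟨_, ⟨y, hy, rfl⟩, rfl⟩
    exact ⟨cr y, hc y hy, ht y hy⟩
  have h2 : Module.rank F (ZH.map res ⊓ LinearMap.ker tr : Submodule F W) ≤ Module.rank F E := by
    refine Submodule.rank_mono ?_
    rintro _ ⟨⟨y, hy, rfl⟩, h⟩
    exact hE y hy h
  have h3 : Module.rank F (ZH ⊓ LinearMap.ker res : Submodule F V) ≤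
      Module.rank F (ZX ⊓ LinearMap.ker res : Submodule F V) :=
    (Submodule.rank_mono hk).trans ((rank_map_le ind K).trans (Submodule.rank_mono hK))
  calc _ ≤ (Module.rank F (ZX.map res) + Module.rank F E) +
        Module.rank F (ZX ⊓ LinearMap.ker res : Submodule F V) :=
        add_le_add (add_le_add h1 h2) h3
    _ = _ := add_right_comm _ _ _

end Vale.Agent.P022E.GW.Cor
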