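import Vale.Agent.P022E.GW.Defs
import Vale.Agent.P022E.GW.Cor
import Vale.Agent.P022E.GW.Ex1
import Vale.Agent.P022E.GW.Bor

/-!
# P022E, block GW: the descent from the Borel field to the rationals (statements, glue)
-/

set_option linter.all false

noncomputable section

namespace Vale.Agent.P022E.GW.De

open NumberField
open Vale.Agent.P022
open Vale.Agent.P022D.Sel (M2)
open Vale.Agent.P027M.S (Inert mx)

section

variable {F : Type} [Field F] (ρ : GQ →* GL (Fin 2) F)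

/-- the action on functions: `(g c) x = ad g (c (g⁻¹ x g))` -/
def cj : Representation F GQ (GQ → M2 F) where
  toFun g :=
    { toFun := fun c x => Cor.ad ρ g (c (g⁻¹ * x * g))
      map_add' := fun a b => funext fun x => map_add _ _ _
      map_smul' := fun r a => funext fun x => (Cor.ad ρ g).map_smul r _ }
  map_one' := by
    ext1 c; funext x
    simp
  map_mul' g h := by
    ext1 c; funext x
    simp only [LinearMap.coe_mk, AddHom.coe_mk, Module.End.mul_apply, map_mul, mul_inv_rev,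
      mul_assoc]

theorem cj_apply (g : GQ) (c : GQ → M2 F) (x : GQ) :
    cj ρ g c x = mx ρ g * c (g⁻¹ * x * g) * mx ρ g⁻¹ := rfl

/-- the unramified homomorphisms on the kernel, fixed by `GB`, of trace zero -/
def EE (T : Finset ℕ) [Fintype (GQ ⧸ GB ρ)] : Submodule F (GQ → M2 F) :=
  H1 ρ T ρ.ker ⊓ Ex.La (GB ρ) (cj ρ)

theorem ti [CharP F 2] (S : Gp.Std ρ.range) : Ex.TI ρ.ker (GP ρ) (GB ρ) :=
  ⟨Bor.le, Bor.odd S, fun _ hg _ hp h => Bor.ti hg hp h⟩

end

/-- the corestriction count -/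
def S_GAL : Prop := ∀ (F : Type) [Field F] [Finite F] [CharP F 2] (ρ : GQ →* GL (Fin 2) F)
  (T : Finset ℕ) (D : ℕ → Set GQ) [Fintype (GQ ⧸ GB ρ)], Hyp ρ T D →
  Module.rank F (H1 ρ T (GB ρ)) ≤ Module.rank F (H1 ρ T ⊤) + Module.rank F (EE ρ T)

/-- Kummer theory and the unit theorem -/
def S_UNI : Prop := ∀ (F : Type) [Field F] [Finite F] [CharP F 2] (ρ : GQ →* GL (Fin 2) F)
  (T : Finset ℕ) (D : ℕ → Set GQ) [Fintype (GQ ⧸ GB ρ)], Hyp ρ T D →
  Module.rank F (EE ρ T) + Module.rank F (Fx ρ T D ⊤) ≤ Module.rank F (Fx ρ T D (GB ρ)) ∧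
    Module.rank F (Fx ρ T D (GB ρ)) < Cardinal.aleph0

/-- **The descent.** -/
theorem desc_of (h2 : S_GAL) (h3 : S_UNI) (hB : LBB) : LB := by
  intro F _ _ _ ρ T D hS
  have hi : (GB ρ).index ≠ 0 := (ti ρ hS.std).oddB.pos.ne'
  haveI : (GB ρ).FiniteIndex := ⟨hi⟩
  haveI : Fintype (GQ ⧸ GB ρ) := Subgroup.fintypeQuotientOfFiniteIndex
  obtain ⟨a, b⟩ := h3 F ρ T D hS
  have hE : Module.rank F (EE ρ T) < Cardinal.aleph0 := ((self_le_add_right _ _).trans a).trans_lt b
  refine (Cardinal.add_le_add_iff_of_lt_aleph0 hE).1 ?_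
  calc _ = (Module.rank F (EE ρ T) + Module.rank F (Fx ρ T D ⊤)) + 3 := by
        rw [add_comm, add_assoc]
    _ ≤ Module.rank F (Fx ρ T D (GB ρ)) + 3 := add_le_add_left a _
    _ ≤ _ := (hB F ρ T D hS).trans (h2 F ρ T D hS)

end Vale.Agent.P022E.GW.De
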