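import Vale.Agent.P022E.GW.Lat
import Vale.Agent.P022D.Sel.Pl

/-!
# P022E, block GW: the units outside `T` as a Galois module, and an equivariant family
-/

set_option linter.all false

noncomputable section

namespace Vale.Agent.P022E.GW.Du

open NumberField IsDedekindDomain
open Vale.Agent.P022 Vale.Agent.P022.C Vale.Agent.P022D.Sel
open Vale.Agent.P027M.S (Pr)

/-- the field of an open normal subgroup -/
theorem ex_th (Γ : Subgroup GQ) (ho : IsOpen (Γ : Set GQ)) (hn : Γ.Normal) :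
    ∃ (L : Type) (_ : Field L) (_ : NumberField L) (_ : IsGalois ℚ L) (j : L →+* Qb)
      (θ : GQ →* (L ≃ₐ[ℚ] L)), GK j = Γ ∧ (∀ g y, j (θ g y) = g (j y)) ∧
        Function.Surjective θ := by
  have ht : ∀ g : GQ, g ∈ GK (algebraMap ℚ Qb) := fun g x => g.commutes x
  obtain ⟨L, iL, iL2, iA, iG, j, ρ, hd, hK, -⟩ := H916.exists_fld (algebraMap ℚ Qb) Γ ho
    (fun g _ => ht g) (fun g _ u hu => hn.conj_mem u hu g)
  obtain rfl : iA = DivisionRing.toRatAlgebra := Subsingleton.elim _ _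
  refine ⟨L, iL, iL2, iG, j, ρ.comp ((MonoidHom.id GQ).codRestrict _ ht), hK,
    fun g y => (hd.act ⟨g, ht g⟩ y).symm, fun σ => ?_⟩
  obtain ⟨g, hg⟩ := hd.surj σ
  exact ⟨g, hg⟩

variable {L : Type} [Field L] [NumberField L]

/-- the units outside `T` -/
def UA (θ : GQ →* (L ≃ₐ[ℚ] L)) (T : Finset ℕ) : Type := US L T

variable {θ : GQ →* (L ≃ₐ[ℚ] L)} {T : Finset ℕ}

instance grpUA : AddCommGroup (UA θ T) := inferInstanceAs (AddCommGroup (US L T))

/-- the element of `L` -/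
def UA.el (y : UA θ T) : L := Vale.Agent.P022D.Sel.el (A := T) y

theorem UA.ext {y z : UA θ T} (h : y.el = z.el) : y = z := Ux.el_inj (A := T) h

theorem UA.el_add (y z : UA θ T) : (y + z).el = y.el * z.el := rfl

theorem UA.el_zero : (0 : UA θ T).el = 1 := rfl

theorem UA.el_ne (y : UA θ T) : y.el ≠ 0 := Units.ne_zero _

instance actUA : DistribMulAction GQ (UA θ T) where
  smul g y := tU (θ g).toRingEquiv T y
  one_smul y := UA.ext (by
    show θ 1 y.el = y.el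
    rw [map_one]; rfl)
  mul_smul g h y := UA.ext (by
    show θ (g * h) y.el = θ g (θ h y.el)
    rw [map_mul]; rfl)
  smul_zero g := map_zero (tU (θ g).toRingEquiv T)
  smul_add g y z := map_add (tU (θ g).toRingEquiv T) y z

theorem UA.smul_def (g : GQ) (y : UA θ T) : g • y = tU (θ g).toRingEquiv T y := rfl

theorem UA.el_smul (g : GQ) (y : UA θ T) : (g • y).el = θ g y.el := rfl

theorem two_fix (u : UA θ T) (h : 2 • u = 0) (g : GQ) : g • u = u := by
  have h1 : u.el * u.el = 1 := by rw [← UA.el_add, ← two_nsmul, h, UA.el_zero]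
  apply UA.ext
  rw [UA.el_smul]
  rcases mul_self_eq_one_iff.1 h1 with e | e <;> rw [e]
  · exact map_one _
  · rw [map_neg, map_one]

theorem th_one {j : L →+* Qb} (hθ : ∀ g y, j (θ g y) = g (j y)) {g : GQ} (hg : g ∈ GK j) :
    θ g = 1 := AlgEquiv.ext fun y => j.injective (by rw [hθ]; exact hg y)

theorem gk_fix {j : L →+* Qb} (hθ : ∀ g y, j (θ g y) = g (j y)) {g : GQ} (hg : g ∈ GK j)
    (u : UA θ T) : g • u = u := UA.ext (by rw [UA.el_smul, th_one hθ hg]; rfl)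

/-- the places above `T`, as cosets -/
abbrev Ix (Γ : Subgroup GQ) (T : Finset ℕ) (D : ℕ → Set GQ) : Type :=
  Σ l : T, GQ ⧸ (Subgroup.closure (D l) ⊔ Γ)

theorem fin_ix {Γ : Subgroup GQ} (ho : IsOpen (Γ : Set GQ)) (T : Finset ℕ) (D : ℕ → Set GQ) :
    Finite (Ix Γ T D) := by
  haveI : ∀ l : T, Finite (GQ ⧸ (Subgroup.closure (D l) ⊔ Γ)) := fun l =>
    Subgroup.quotient_finite_of_isOpen _ (Subgroup.isOpen_mono le_sup_right ho)
  infer_instance

theorem orb {j : L →+* Qb} (hθ : ∀ g y, j (θ g y) = g (j y)) (S : Set GQ) (u : UA θ T)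
    (hu : ∀ d ∈ S, d • u = u) :
    ∃ y : GQ ⧸ (Subgroup.closure S ⊔ GK j) → UA θ T, ∀ g : GQ, y (g : GQ ⧸ _) = g • u := by
  have h : Subgroup.closure S ⊔ GK j ≤ MulAction.stabilizer GQ u :=
    sup_le ((Subgroup.closure_le _).2 hu) fun g hg => gk_fix hθ hg u
  refine ⟨fun x => Quotient.liftOn' x (fun g => g • u) fun a b hab => ?_, fun g => rfl⟩
  have h1 : (a⁻¹ * b) • u = u := h (QuotientGroup.leftRel_apply.1 hab)
  rw [← h1, ← mul_smul, mul_inv_cancel_left, h1]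

/-- **the equivariant family** -/
theorem fam [IsGalois ℚ L] {j : L →+* Qb} (hθ : ∀ g y, j (θ g y) = g (j y))
    (hs : Function.Surjective θ) (D : ℕ → Set GQ) (h0 : 0 ∈ T) (hD : ∀ l ∈ T, IsDec l (D l)) :
    ∃ (y : Ix (GK j) T D → UA θ T) (N : ℕ), N ≠ 0 ∧ (∀ (g : GQ) i, y (g • i) = g • y i) ∧
      ∀ z : UA θ T, N • z ∈ AddSubgroup.closure (Set.range y) := by
  classical
  obtain ⟨Y, V, e, N, hN, -, hY, hV, -, -, hz⟩ := Lt.lat ℚ L T
  have key : ∀ l : T, ∃ u : UA θ T, (∀ d ∈ D l, d • u = u) ∧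
      ((l : ℕ) = 0 → ∀ w, ∃ g : GQ, g • u = V w) ∧
      ∀ v : ov L T, (l : ℕ) ≠ 0 → ((l : ℕ) : 𝓞 L) ∈ (v : Pr L).asIdeal → ∃ g : GQ, g • u = Y v := by
    intro l
    rcases hD l l.2 with ⟨hl, c, ⟨Φ, hΦ⟩, hc⟩ | ⟨hp, P, hP, hlP, hc⟩
    · let w : InfinitePlace L := InfinitePlace.mk (Φ.comp j)
      refine ⟨V w, fun d hd => ?_, fun _ w' => ?_, fun v h => absurd hl h⟩
      · rw [hc] at hd
        rcases hd with rfl | rfl
        · exact one_smul _ _
        · refine (hV (θ d) w).trans (congrArg V ?_)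
          rw [smul_eq_iff_eq_inv_smul]
          show w = (θ d)⁻¹ • InfinitePlace.mk _
          rw [InfinitePlace.smul_mk]
          refine InfinitePlace.mk_eq_iff.2 (Or.inr ?_)
          ext y
          show (starRingEnd ℂ) (Φ (j y)) = Φ (j (θ d y))
          rw [hθ, hΦ]
      · obtain ⟨σ, hσ⟩ := InfinitePlace.exists_smul_eq_of_comap_eq (k := ℚ) (w := w) (w' := w')
          (Subsingleton.elim _ _)
        obtain ⟨g, rfl⟩ := hs σ
        exact ⟨g, (hV (θ g) w).trans (congrArg V hσ)⟩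
    · have hl : (l : ℕ) ≠ 0 := hp.ne_zero
      have ho : ∀ g, Pl.bl j hl hP hlP g ∈ ov L T := fun g => by
        obtain ⟨l', h1, h2, h3⟩ := Pl.bl_ov j hl hP hlP g
        rw [Finset.mem_singleton.1 h1] at h3
        exact ⟨l, l.2, hl, h3⟩
      have hm : ∀ g : GQ, tU (θ g).toRingEquiv T (Y ⟨_, ho 1⟩) = Y ⟨_, ho g⟩ := fun g => by
        refine (hY (θ g) _).trans (congrArg Y (Subtype.ext ?_))
        have := Pl.bl_mv j hl hP hlP (h := g) (τ := (θ g).toRingEquiv) (hθ g) 1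
        rw [mul_one] at this
        exact this.symm
      refine ⟨Y ⟨_, ho 1⟩, fun d hd => ?_, fun h => absurd h hl, fun v _ hv => ?_⟩
      · rw [hc] at hd
        refine (hm d).trans (congrArg Y (Subtype.ext ?_))
        have := Pl.bl_right j hl hP hlP (d := d) hd 1
        rwa [one_mul] at this
      · obtain ⟨g, hg⟩ := Pl.bl_onto j hl hP hlP hp (v := v)
          ⟨l, Finset.mem_singleton_self _, hl, hv⟩
        exact ⟨g, (hm g).trans (congrArg Y (Subtype.ext hg))⟩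
  choose u h1 h2 h3 using key
  choose y hy using fun l : T => orb hθ (D l) (u l) (h1 l)
  refine ⟨fun i => y i.1 i.2, N, hN, fun g i => ?_, fun z => ?_⟩
  · obtain ⟨l, x⟩ := i
    induction x using QuotientGroup.induction_on with
    | H a =>
      show y l ((g * a : GQ) : GQ ⧸ _) = g • y l (a : GQ ⧸ _)
      rw [hy, hy, mul_smul]
  · obtain ⟨a, b, h⟩ := hz z
    have h' : (∑ i, a i • (Y i : UA θ T) + ∑ i, b i • (V i : UA θ T)) = N • z := h
    rw [← h']
    refine add_mem (sum_mem fun v _ => zsmul_mem (AddSubgroup.subset_closure ?_) _)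
      (sum_mem fun w _ => zsmul_mem (AddSubgroup.subset_closure ?_) _)
    · obtain ⟨l, hl, hl0, hv⟩ := v.2
      obtain ⟨g, hg⟩ := h3 ⟨l, hl⟩ v hl0 hv
      exact ⟨⟨⟨l, hl⟩, (g : GQ ⧸ _)⟩, (hy _ g).trans hg⟩
    · obtain ⟨g, hg⟩ := h2 ⟨0, h0⟩ rfl w
      exact ⟨⟨⟨0, h0⟩, (g : GQ ⧸ _)⟩, (hy _ g).trans hg⟩

end Vale.Agent.P022E.GW.Du
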