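import Vale.Agent.P022E.GW.CorG
import Vale.Agent.P022E.GW.De0
import Vale.Agent.P022E.GW.DeU

/-!
# P022E, block GW: the rows of the descent on the Galois side
-/

set_option linter.all false

noncomputable section

namespace Vale.Agent.P022E.GW.De

open NumberField
open Vale.Agent.P022 Vale.Agent.P022.H443 Vale.Agent.P022.C
open Vale.Agent.P027M.S (Inert mx)
open Vale.Agent.P022D.Sel (M2 IsDec Big US el)
open Vale.Agent.P022E.GW.Ex (TI La)
open Vale.Agent.P022E.GW.Cor (ad dt tiB ZZ NN zz_eq desc1 ad_apply)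

variable {F : Type} [Field F] {ρ : GQ →* GL (Fin 2) F} {T : Finset ℕ} {D : ℕ → Set GQ}

theorem ee_rank [Fintype (GQ ⧸ GB ρ)] (h : Hyp ρ T D) :
    Module.rank F (EE ρ T) = Module.rank F (La (GB ρ) (dt h).rep) := by
  have e : EE ρ T = (La (GB ρ) (dt h).rep).map (ZZ (ad ρ) ρ.ker (NN T)).subtype := by
    rw [EE, ← zz_eq]
    ext c
    constructor
    · rintro ⟨a, b1, b2⟩
      exact ⟨⟨c, a⟩, ⟨fun g hg => Subtype.ext (b1 g hg), Subtype.ext (by
        rw [Submodule.coe_sum]; exact b2)⟩, rfl⟩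
    · rintro ⟨c, ⟨b1, b2⟩, rfl⟩
      refine ⟨c.2, fun g hg => congrArg Subtype.val (b1 g hg), ?_⟩
      have := congrArg Subtype.val b2
      rw [Submodule.coe_sum] at this
      exact this
  rw [e]
  exact (Submodule.equivMapOfInjective _ (Submodule.injective_subtype _) _).rank_eq.symm

theorem gal : S_GAL := fun F _ _ _ ρ T D _ h => by
  rw [ee_rank h]
  exact desc1 h

/-- **The Kummer side of the descent.** -/
theorem kum [CharP F 2] [Finite F] [Fintype (GQ ⧸ GB ρ)] (h : Hyp ρ T D) {L : Type} [Field L] [NumberField L]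
    (j : L →+* Qb) (hj : GK j = ρ.ker) (hB : Big L T) {Y : Type} [AddCommGroup Y]
    (act : GQ → Y → Y) (e : Y →+ US L T) (he : Function.Surjective e)
    (hact : ∀ g a, j (el (e (act g a))) = g (j (el (e a))))
    (trv : ∀ g ∈ ρ.ker, ∀ a, act g a = a) (τ : Representation F GQ (Y →+ F))
    (hτ : ∀ g l a, τ g l a = l (act g⁻¹ a)) :
    Module.rank F (EE ρ T) ≤ Module.rank F (La (GB ρ) (τ.linHom (ad ρ))) := by
  classical
  have hT : ∀ l ∈ T, l = 0 ∨ l.Prime := fun l hl => (h.dec l hl).imp (·.1) (·.1)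
  let u : ZMod 2 →+* F := ZMod.castHom dvd_rfl F
  let κ : GQ → (Y →+ F) := fun g => if hg : g ∈ GK j then
    AddMonoidHom.mk' (fun a => u (Kc.kq (j (el (e a))) g)) fun a b => by
      rw [map_add, Kc.kq_el_add j _ _ hg, map_add] else 0
  have hκ : ∀ g ∈ ρ.ker, ∀ a, κ g a = u (Kc.kq (j (el (e a))) g) := fun g hg a => by
    simp only [κ, dif_pos (hj ▸ hg : g ∈ GK j)]
    rfl
  refine (ee_rank h).le.trans (((dt h).kum (tiB h.std) τ
    (fun g hg l => AddMonoidHom.ext fun a => by rw [hτ, trv _ (ρ.ker.inv_mem hg)]) κ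
    (fun a ha b hb => AddMonoidHom.ext fun y => ?_) (fun g a ha => AddMonoidHom.ext fun y => ?_)
    ?_ (fun g hg => AddMonoidHom.ext fun y => ?_) fun c hc => ?_))
  · rw [AddMonoidHom.add_apply, hκ _ (ρ.ker.mul_mem ha hb), hκ a ha, hκ b hb,
      Kc.kq_addL j _ (hj ▸ ha) (hj ▸ hb), map_add]
  · rw [hτ, inv_inv, hκ _ (((dt h).mem g).2 ha), hκ a ha, hact, ← Kc.kq_conj _ g]
    congr 2
    group
  · obtain ⟨U, u1, -, u2, u3⟩ := P022D.Sel.opn L j T
    refine ⟨U, u1, fun g hg => AddMonoidHom.ext fun y => ?_⟩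
    rw [hκ g (hj ▸ u2 hg), (Kc.kq_zero (Kc.rt_sq _) g).2 (u3 g hg _ _ (Kc.rt_sq _)), map_zero]
    rfl
  · have k := (dt h).sub g hg
    obtain ⟨l, hl, P, ⟨lp, hP, lP⟩, hi⟩ := hg
    rw [hκ g k, Kc.kq_US j h.h2 hT _ lp hl hP lP (hj ▸ k) hi, map_zero]
    rfl
  · obtain ⟨c1, -, ⟨U, u1, u2⟩, c4⟩ := hc
    letI : Algebra (ZMod 2) F := ZMod.algebra F 2
    letI : Module (ZMod 2) (M2 F) := Module.compHom (M2 F) u
    haveI : Module.Finite (ZMod 2) (M2 F) := Module.Finite.of_finite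
    let b := Module.finBasis (ZMod 2) (M2 F)
    have k : ∀ i, ∃ y : Y, ∀ g ∈ GK j, b.repr (c g) i = Kc.kq (j (el (e y))) g := fun i => by
      obtain ⟨w, hw⟩ := Kc.kq_surjU j hB (fun g => b.repr (c g) i)
        (fun g hg g' hg' => by
          rw [c1 g (hj ▸ hg) g' (hj ▸ hg'), (dt h).trv g (hj ▸ hg), map_add, Finsupp.add_apply])
        ⟨U, u1, fun g hg _ => by rw [u2 g hg, map_zero]; rfl⟩
        fun l lp hl P hP lP g _ hi => by rw [c4 g ⟨l, hl, P, ⟨lp, hP, lP⟩, hi⟩, map_zero]; rfl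
      obtain ⟨y, rfl⟩ := he w
      exact ⟨y, hw⟩
    choose y hy using k
    refine ⟨{ toFun := fun l => ∑ i, l (y i) • b i
              map_add' := fun l l' => by
                simp only [AddMonoidHom.add_apply, add_smul, Finset.sum_add_distrib]
              map_smul' := fun r l => by
                simp only [AddMonoidHom.smul_apply, smul_eq_mul, mul_smul, RingHom.id_apply,
                  Finset.smul_sum] }, fun a ha => ?_⟩
    refine (b.sum_repr (c a)).symm.trans (Finset.sum_congr rfl fun i _ => ?_)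
    rw [hκ a ha, ← hy i a (hj ▸ ha)]
    rfl

/-- the same for the units with their Galois action -/
theorem kumU [CharP F 2] [Finite F] [Fintype (GQ ⧸ GB ρ)] (h : Hyp ρ T D) {L : Type} [Field L]
    [NumberField L] (j : L →+* Qb) (hj : GK j = ρ.ker) (hB : Big L T) {θ : GQ →* (L ≃ₐ[ℚ] L)}
    (hθ : ∀ g y, j (θ g y) = g (j y)) (τ : Representation F GQ (Du.UA θ T →+ F))
    (hτ : ∀ g l a, τ g l a = l (g⁻¹ • a)) :
    Module.rank F (EE ρ T) ≤ Module.rank F (La (GB ρ) (τ.linHom (ad ρ))) :=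
  kum h j hj hB (Y := Du.UA θ T) (fun g a => g • a) (AddMonoidHom.id (US L T))
    Function.surjective_id (fun g a => hθ g a.el) (fun g hg a => Du.gk_fix hθ (hj ▸ hg) a) τ hτ

end Vale.Agent.P022E.GW.De
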