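import Vale.Agent.P022E.GW.DeG
import Vale.Agent.P022E.GW.DeF
import Vale.Agent.P022E.GW.DeI
import Vale.Agent.P022E.GW.Ex2

/-!
# P022E, block GW: the descent
-/

set_option linter.all false

noncomputable section

namespace Vale.Agent.P022E.GW.H86

open NumberField Module
open Vale.Agent.P022 Vale.Agent.P022.H443 Vale.Agent.P022.C
open Vale.Agent.P027M.S (Inert mx)
open Vale.Agent.P022D.Sel (M2 IsDec Big US el)
open Vale.Agent.P022E.GW.Ex (TI La Inv Fn Dr)
open Vale.Agent.P022E.GW.De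

theorem uni : S_UNI := by
  intro F _ _ _ ρ T D _ h
  obtain ⟨L, _, _, j, hj, hB⟩ := h.bL
  have ho : IsOpen (GK j : Set GQ) := hj ▸ h.opn
  have hn : (GK j).Normal := hj ▸ inferInstance
  have hk : ∀ g ∈ GK j, ρ g = 1 := fun g hg => MonoidHom.mem_ker.1 (hj ▸ hg)
  obtain ⟨_, θ, hθ, hs⟩ := Du.th_of j ho hn
  obtain ⟨y, N, hN, hy, hz⟩ := Du.fam (T := T) hθ hs D h.h0 h.dec
  haveI := Du.fin_ix ho T D
  haveI := fg_of y (tors hN) hz
  haveI := fin_dual (Y := Du.UA θ T) F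
  have l := Ex.lat (F := F) (hj ▸ ti ρ h.std : TI (GK j) (GP ρ) (GB ρ)) (σ := Cor.ad ρ)
    (fun n a w => (Cor.dt h).trv n (hj ▸ a) w) (fun m a g _ => Bor.invG h.std m a g)
    (fun n a u => Du.gk_fix hθ a u) (fun n a i => by
      obtain ⟨l, x⟩ := i
      refine congrArg (Sigma.mk l) (?_ : n • x = x)
      rw [← QuotientGroup.out_eq' x, MulAction.Quotient.smul_mk, QuotientGroup.eq, smul_eq_mul]
      exact Subgroup.mem_sup_right (by simpa using hn.conj_mem _ ((GK j).inv_mem a) x.out⁻¹))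
    (fun g u a => Du.two_fix u (by rwa [two_nsmul]) g) y hy (idx_of y hN (tors hN) hz)
  have e : ∀ H : Subgroup GQ, GK j ≤ H → Module.rank F (Fx ρ T D H) =
      finrank F (Inv H (Fn (Du.Ix (GK j) T D) (Cor.ad ρ))) := fun H le => by
    obtain ⟨e⟩ := Du.inv_fx (T := T) (D := D) hn le hk (Inv H (Fn _ (Cor.ad ρ))) fun f =>
      ⟨fun a g b i => congrFun (a g b) i, fun a g b => funext (a g b)⟩
    rw [finrank_eq_rank, e.rank_eq]
  rw [e ⊤ le_top, e (GB ρ) (hj ▸ Bor.ker_le.trans Bor.le)]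
  refine ⟨(add_le_add (kumU h j hj hB hθ (Dr F GQ _) fun _ _ _ => rfl) le_rfl).trans ?_,
    Cardinal.natCast_lt_aleph0⟩
  rw [← finrank_eq_rank]
  exact_mod_cast l

theorem desc (hB : LBB) : LB := desc_of gal uni hB

end Vale.Agent.P022E.GW.H86
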