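import Vale.Agent.P022D.Sel.Defs
import Vale.Agent.P022D.W.Tame

/-!
# P022, non solvable case, block GW: enlarging the set of framed places
-/

set_option linter.all false

noncomputable section

namespace Vale.Agent.P022E.GW.Enl

open NumberField
open Vale.Agent.P022 Vale.Agent.P022D.Sel
open Vale.Agent.P027M.S (Inert mx)

variable {F : Type} [Field F] {ρ : GQ →* GL (Fin 2) F}

theorem mxm (g h : GQ) : mx ρ (g * h) = mx ρ g * mx ρ h := congrArg Units.val (map_mul ρ g h)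

theorem mx1 {g : GQ} (hg : ρ g = 1) : mx ρ g = 1 := congrArg Units.val hg

theorem mx1' {g : GQ} (hg : ρ g = 1) : mx ρ g⁻¹ = 1 := mx1 (by rw [map_inv, hg, inv_one])

/-- a cocycle which is a coboundary at `φ` is one at the powers of `φ` -/
theorem coc_pow {c : GQ → M2 F} (hc : ∀ g h, c (g * h) = c g + mx ρ g * c h * mx ρ g⁻¹)
    {φ : GQ} {X : M2 F} (hX : c φ = X - mx ρ φ * X * mx ρ φ⁻¹) (k : ℕ) :
    c (φ ^ k) = X - mx ρ (φ ^ k) * X * mx ρ (φ ^ k)⁻¹ := by
  induction k with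
  | zero =>
    have h := hc 1 1
    rw [mul_one, inv_one, mx1 (map_one ρ), one_mul, mul_one] at h
    rw [pow_zero, inv_one, mx1 (map_one ρ), one_mul, mul_one, sub_self]
    exact left_eq_add.1 h
  | succ k ih =>
    rw [pow_succ', hc, ih, hX, mul_inv_rev, mxm, mxm]
    noncomm_ring

/-- an unramified cocycle which is a coboundary at a Frobenius is one on the decomposition
group -/
theorem coc_dec (hρ : IsOpen {g : GQ | ρ g = 1}) {c : GQ → M2 F}
    (hc : ∀ g h, c (g * h) = c g + mx ρ g * c h * mx ρ g⁻¹)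
    (ho : ∃ U : Subgroup GQ, IsOpen (U : Set GQ) ∧ ∀ σ ∈ U, c σ = 0)
    {l : ℕ} (hl : l.Prime) {P : Ideal (𝓞 Qb)} (hP : P.IsPrime) (hlP : (l : 𝓞 Qb) ∈ P)
    (hu : ∀ g, Inert P g → ρ g = 1) (hcu : ∀ g, Inert P g → c g = 0)
    {φ : GQ} (hφ : ∀ x : 𝓞 Qb, φ • x - x ^ l ∈ P) {X : M2 F}
    (hX : c φ = X - mx ρ φ * X * mx ρ φ⁻¹) {g : GQ} (hg : Stab P g) :
    c g = X - mx ρ g * X * mx ρ g⁻¹ := by
  obtain ⟨U, hU, hU0⟩ := ho
  have hV : IsOpen ((U ⊓ ρ.ker : Subgroup GQ) : Set GQ) := hU.inter hρ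
  obtain ⟨k, s, u, hs, hu', rfl⟩ := P022D.W.dec_gen hl hP hlP hφ hg _ hV
  have h1 : ρ u = 1 := hu'.2
  have h2 : ρ s = 1 := hu s hs
  have e1 : mx ρ (u * φ ^ k * s) = mx ρ (φ ^ k) := by
    rw [mxm, mxm, mx1 h1, mx1 h2, one_mul, mul_one]
  have e2 : mx ρ (u * φ ^ k * s)⁻¹ = mx ρ (φ ^ k)⁻¹ := by
    rw [mul_inv_rev, mul_inv_rev, mxm, mxm, mx1' h1, mx1' h2, one_mul, mul_one]
  rw [e1, e2, hc, hcu s hs, hc, hU0 u hu'.1, mx1 h1, mx1' h1, coc_pow hc hX]
  simp

/-- **One more framed place.** -/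
theorem enl (hρ : IsOpen {g : GQ | ρ g = 1}) {T Q : Finset ℕ} {D D' : ℕ → Set GQ} {N l : ℕ}
    (hl : l.Prime) (hT : l ∉ T) (hQ : l ∉ Q)
    (hu : ∀ P : Ideal (𝓞 Qb), P.IsPrime → (l : 𝓞 Qb) ∈ P → ∀ g, Inert P g → ρ g = 1)
    (hD : IsDec l (D' l)) (hDD : ∀ t ∈ T, D' t = D t) (h : Tan ρ (insert l T) Q D' N) :
    Tan ρ T Q D N := by
  classical
  intro Z hZ
  obtain ⟨h0, -⟩ | ⟨-, P, hP, hlP, hDl⟩ := hD
  · exact absurd h0 hl.ne_zero
  obtain ⟨φ, hφ⟩ := P022D.W.exists_phi hl hP hlP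
  let Λ : (Z × M2 F) →ₗ[F] M2 F :=
    { toFun := fun p => p.1.1.1 φ - (p.2 - mx ρ φ * p.2 * mx ρ φ⁻¹)
      map_add' := fun p q => by
        simp only [Prod.fst_add, Prod.snd_add, Submodule.coe_add, Pi.add_apply, mul_add, add_mul]
        abel
      map_smul' := fun r p => by
        simp only [Prod.smul_fst, Prod.smul_snd, Submodule.coe_smul, Pi.smul_apply,
          RingHom.id_apply, smul_sub, mul_smul_comm, smul_mul_assoc] }
  let Θ : (Z × M2 F) →ₗ[F] (GQ → M2 F) × (ℕ → M2 F) :=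
    { toFun := fun p => (p.1.1.1, p.1.1.2 + Pi.single l p.2)
      map_add' := fun p q => by
        simp only [Prod.fst_add, Prod.snd_add, Submodule.coe_add, Pi.single_add, Prod.mk_add_mk]
        congr 1
        abel
      map_smul' := fun r p => by
        simp only [Prod.smul_fst, Prod.smul_snd, Submodule.coe_smul, RingHom.id_apply,
          Prod.smul_mk, smul_add, Pi.single_smul] }
  have hΘ : Function.Injective Θ := by
    rw [← LinearMap.ker_eq_bot, LinearMap.ker_eq_bot']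
    rintro ⟨⟨⟨c, a⟩, hz⟩, X⟩ hp
    have h1 : c = 0 := congrArg Prod.fst hp
    have h2 : a + Pi.single l X = 0 := congrArg Prod.snd hp
    have h3 : a l = 0 := (hZ _ hz).zero l hT
    have h4 : X = 0 := by
      have := congrFun h2 l
      rwa [Pi.add_apply, Pi.single_eq_same, h3, zero_add] at this
    rw [h4, Pi.single_zero, add_zero] at h2
    subst h1 h2 h4
    rfl
  have hK : Module.rank F (Λ.ker.map Θ) ≤ N := by
    refine h _ ?_
    rintro _ ⟨⟨⟨⟨c, a⟩, hz⟩, X⟩, hp, rfl⟩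
    have ht : TanP ρ T Q D c a := hZ _ hz
    have hX : c φ = X - mx ρ φ * X * mx ρ φ⁻¹ := sub_eq_zero.1 hp
    change TanP ρ (insert l T) Q D' c (a + Pi.single l X)
    refine ⟨ht.coc, ht.opn, fun l' h1 h2 h3 =>
      ht.unr l' h1 (fun h => h2 (Finset.mem_insert_of_mem h)) h3, fun t htm g hg => ?_,
      fun t htm => ?_⟩
    · rcases Finset.mem_insert.1 htm with rfl | htT
      · rw [Pi.add_apply, Pi.single_eq_same, ht.zero t hT, zero_add]
        rw [hDl] at hg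
        exact coc_dec hρ ht.coc ht.opn hl hP hlP (hu P hP hlP) (ht.unr t hl hT hQ P hP hlP) hφ
          hX hg
      · have hne : t ≠ l := fun e => hT (e ▸ htT)
        rw [Pi.add_apply, Pi.single_eq_of_ne hne, add_zero]
        exact ht.loc t htT g (hDD t htT ▸ hg)
    · have hne : t ≠ l := fun e => htm (e ▸ Finset.mem_insert_self l T)
      rw [Pi.add_apply, Pi.single_eq_of_ne hne, add_zero]
      exact ht.zero t fun h => htm (Finset.mem_insert_of_mem h)
  have e1 : Module.rank F (Λ.ker.map Θ) = Module.rank F Λ.ker :=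
    ((Submodule.equivMapOfInjective Θ hΘ Λ.ker).rank_eq).symm
  have e2 := Λ.rank_range_add_rank_ker
  have e3 : Module.rank F Λ.range ≤ Module.rank F (M2 F) := Submodule.rank_le _
  have e4 : Module.rank F (M2 F) < Cardinal.aleph0 := Module.rank_lt_aleph0 F _
  rw [rank_prod'] at e2
  have e5 : Module.rank F Z + Module.rank F (M2 F) ≤ N + Module.rank F (M2 F) := by
    rw [← e2, add_comm]
    exact add_le_add (e1 ▸ hK) e3
  exact (Cardinal.add_le_add_iff_of_lt_aleph0 e4).1 e5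

/-- **More framed places.** -/
theorem enls (hρ : IsOpen {g : GQ | ρ g = 1}) {T Q : Finset ℕ} {D D' : ℕ → Set GQ} {N : ℕ}
    (A : Finset ℕ) (hTA : T ⊆ A) (hA : ∀ l ∈ A, l ∉ T → l.Prime ∧ l ∉ Q ∧ IsDec l (D' l) ∧
      ∀ P : Ideal (𝓞 Qb), P.IsPrime → (l : 𝓞 Qb) ∈ P → ∀ g, Inert P g → ρ g = 1)
    (hDD : ∀ t ∈ T, D' t = D t) (h : Tan ρ A Q D' N) : Tan ρ T Q D N := by
  classical
  have key : ∀ B : Finset ℕ, B ⊆ A \ T → Tan ρ (T ∪ B) Q D' N → Tan ρ T Q D' N := by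
    intro B
    induction B using Finset.induction_on with
    | empty => intro _ h; rwa [Finset.union_empty] at h
    | insert l B hlB ih =>
      intro hB h
      have hl := Finset.mem_sdiff.1 (hB (Finset.mem_insert_self l B))
      obtain ⟨h1, h2, h3, h4⟩ := hA l hl.1 hl.2
      refine ih ((Finset.subset_insert l B).trans hB) ?_
      rw [Finset.union_insert] at h
      exact enl hρ h1 (by simp [hl.2, hlB]) h2 h4 h3 (fun _ _ => rfl) h
  have h1 := key (A \ T) subset_rfl (by rwa [Finset.union_sdiff_of_subset hTA])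
  intro Z hZ
  refine h1 Z fun z hz => ?_
  have ht := hZ z hz
  exact ⟨ht.coc, ht.opn, ht.unr, fun l hl g hg => ht.loc l hl g (hDD l hl ▸ hg), ht.zero⟩

end Vale.Agent.P022E.GW.Enl
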