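import Vale.Agent.P022E.GW.Defs

/-!
# P022E, block GW: the local count over the field of the upper triangular subgroup
-/

set_option linter.all false

noncomputable section

namespace Vale.Agent.P022E.GW.Fb

open Vale.Agent.P022
open Vale.Agent.P027M.S (mx)
open Vale.Agent.P022D.Sel (M2)

variable {F : Type} [Field F]

theorem rank_two {V A B : Type} [AddCommGroup V] [Module F V] [AddCommGroup A] [Module F A]
    [AddCommGroup B] [Module F B] (W : Submodule F V) (φ : V →ₗ[F] A) (ψ : V →ₗ[F] B)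
    (A' : Submodule F A) (B' : Submodule F B) (h1 : ∀ w ∈ W, φ w ∈ A')
    (h2 : ∀ w ∈ W, φ w = 0 → ψ w ∈ B') (h3 : ∀ w ∈ W, φ w = 0 → ψ w = 0 → w = 0) :
    Module.rank F W ≤ Module.rank F A' + Module.rank F B' := by
  rw [← LinearMap.rank_range_add_rank_ker (φ.domRestrict W)]
  refine add_le_add (Submodule.rank_mono ?_) ?_
  · rintro _ ⟨w, rfl⟩
    exact h1 w w.2
  · let k : LinearMap.ker (φ.domRestrict W) →ₗ[F] B' :=
      (ψ.comp (W.subtype.comp (LinearMap.ker (φ.domRestrict W)).subtype)).codRestrict B'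
        fun w => h2 w.1.1 w.1.2 w.2
    refine k.rank_le_of_injective ((injective_iff_map_eq_zero _).2 fun w hw => ?_)
    exact Subtype.ext (Subtype.ext (h3 w.1.1 w.1.2 w.2 (congrArg Subtype.val hw)))

theorem rank_pr {A B : Type} [AddCommGroup A] [Module F A] [AddCommGroup B] [Module F B]
    (A' : Submodule F A) (B' : Submodule F B) :
    Module.rank F (A'.prod B') ≤ Module.rank F A' + Module.rank F B' :=
  rank_two _ (LinearMap.fst F A B) (LinearMap.snd F A B) A' B' (fun w hw => hw.1)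
    (fun w hw _ => hw.2) fun w _ h k => Prod.ext h k

variable (F) in
/-- the functions with support in `S` -/
def Sup (S : ℕ → GQ → Prop) : Submodule F (ℕ → GQ → F) where
  carrier := {f | ∀ l g, ¬ S l g → f l g = 0}
  add_mem' {a b} ha hb l g h := by
    simp only [Pi.add_apply]; rw [ha l g h, hb l g h, add_zero]
  zero_mem' _ _ _ := rfl
  smul_mem' r a ha l g h := by simp only [Pi.smul_apply]; rw [ha l g h, smul_zero]

theorem rank_sup (W : Submodule F (ℕ → GQ → F)) (S : ℕ → GQ → Prop) :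
    Module.rank F ↥(W ⊓ Sup F fun l g => ¬ S l g) + Module.rank F ↥(W ⊓ Sup F S) ≤
      Module.rank F W := by
  rw [← Submodule.rank_sup_add_rank_inf_eq]
  have : (W ⊓ Sup F fun l g => ¬ S l g) ⊓ (W ⊓ Sup F S) = ⊥ := by
    rw [eq_bot_iff]
    intro f hf
    rw [Submodule.mem_bot]
    funext l g
    by_cases h : S l g
    · exact hf.1.2 l g (not_not.2 h)
    · exact hf.2.2 l g h
  rw [this, rank_bot, add_zero]
  exact Submodule.rank_mono (sup_le inf_le_left inf_le_left)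

/-- a character and its inverse have the same number of equivariant functions -/
theorem rank_inv (θ θ' : GQ → F) (T : Finset ℕ) (D : ℕ → Set GQ) (Γ : Subgroup GQ)
    (h : ∀ γ ∈ Γ, θ γ * θ' γ = 1) (S : ℕ → GQ → Prop) :
    Module.rank F ↥(Ft θ T D Γ ⊓ Sup F S) ≤ Module.rank F ↥(Ft θ' T D Γ ⊓ Sup F S) := by
  let e : ℕ → GQ → ℕ → GQ → F := fun l g =>
    Classical.epsilon fun f => f ∈ Ft θ T D Γ ∧ f l g ≠ 0
  have he : ∀ f ∈ Ft θ T D Γ, ∀ l g, f l g ≠ 0 → e l g ∈ Ft θ T D Γ ∧ e l g l g ≠ 0 :=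
    fun f hf l g hg => Classical.epsilon_spec (p := fun f => f ∈ Ft θ T D Γ ∧ f l g ≠ 0) ⟨f, hf, hg⟩
  have e1 : ∀ l, ∀ γ ∈ Γ, ∀ g, e l (γ * g) = e l g := fun l γ hγ g => by
    refine congrArg Classical.epsilon (funext fun f => propext (and_congr_right fun hf => ?_))
    rw [hf.2.1 l γ hγ g]
    simp [left_ne_zero_of_mul_eq_one (h γ hγ)]
  have e2 : ∀ l, ∀ d ∈ D l, ∀ g, e l (g * d) = e l g := fun l d hd g => by
    refine congrArg Classical.epsilon (funext fun f => propext (and_congr_right fun hf => ?_))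
    rw [hf.2.2 l d hd g]
  let Φ : (ℕ → GQ → F) →ₗ[F] (ℕ → GQ → F) :=
    { toFun := fun f l g => f l g / e l g l g ^ 2
      map_add' := fun a b => by funext l g; simp only [Pi.add_apply, add_div]
      map_smul' := fun r a => by
        funext l g; simp only [Pi.smul_apply, smul_eq_mul, RingHom.id_apply, mul_div_assoc] }
  have := rank_two (Ft θ T D Γ ⊓ Sup F S) Φ (0 : _ →ₗ[F] F) (Ft θ' T D Γ ⊓ Sup F S) ⊥
    (fun f hf => ⟨⟨fun l hl => ?_, fun l γ hγ g => ?_, fun l d hd g => ?_⟩, fun l g hg => ?_⟩)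
    (fun _ _ _ => rfl) fun f hf h0 _ => ?_
  · rwa [rank_bot, add_zero] at this
  · funext g
    change f l g / _ = 0
    rw [hf.1.1 l hl, Pi.zero_apply, zero_div]
  · change f l (γ * g) / e l (γ * g) l (γ * g) ^ 2 = θ' γ * (f l g / e l g l g ^ 2)
    rw [e1 l γ hγ g, hf.1.2.1 l γ hγ g]
    by_cases k : f l g = 0
    · simp [k]
    · obtain ⟨k1, k2⟩ := he f hf.1 l g k
      have k3 := left_ne_zero_of_mul_eq_one (h γ hγ)
      rw [k1.2.1 l γ hγ g, eq_inv_of_mul_eq_one_right (h γ hγ)]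
      field_simp
  · change f l (g * d) / e l (g * d) l (g * d) ^ 2 = f l g / e l g l g ^ 2
    rw [e2 l d hd g, hf.1.2.2 l d hd g]
    by_cases k : f l g = 0
    · simp [k]
    · rw [(he f hf.1 l g k).1.2.2 l d hd g]
  · change f l g / _ = 0
    rw [hf.2 l g hg, zero_div]
  · funext l g
    by_contra k
    have k4 : f l g / e l g l g ^ 2 = 0 := congrFun (congrFun h0 l) g
    exact div_ne_zero k (pow_ne_zero 2 (he f hf.1 l g k).2) k4

variable (ρ : GQ →* GL (Fin 2) F)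

/-- the character of the upper right entry -/
def ch (g : GQ) : F := mx ρ g 0 0 ^ 2

/-- the character of the lower left entry -/
def ci (g : GQ) : F := mx ρ g 1 1 ^ 2

/-- the places at which `ρ` is not trivial on `GP ρ` -/
def Ns (D : ℕ → Set GQ) (l : ℕ) (g : GQ) : Prop := ∃ γ ∈ GP ρ, ρ γ ≠ 1 ∧ g⁻¹ * γ * g ∈ D l

/-- the equivariant functions with support in these places -/
def FN (θ : GQ → F) (T : Finset ℕ) (D : ℕ → Set GQ) : Submodule F (ℕ → GQ → F) :=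
  Ft θ T D (GB ρ) ⊓ Sup F (Ns ρ D)

variable {ρ}

theorem d01 (hd : ∀ g, (mx ρ g).det = 1) {g : GQ} (hg : g ∈ GB ρ) :
    mx ρ g 0 0 * mx ρ g 1 1 = 1 := by
  have h := hd g
  have k : mx ρ g 1 0 = 0 := hg
  rwa [Matrix.det_fin_two, k, mul_zero, sub_zero] at h

theorem ch_ci (hd : ∀ g, (mx ρ g).det = 1) {g : GQ} (hg : g ∈ GB ρ) : ch ρ g * ci ρ g = 1 := by
  rw [ch, ci, ← mul_pow, d01 hd hg, one_pow]

theorem mx_inv (hd : ∀ g, (mx ρ g).det = 1) {g : GQ} (hg : g ∈ GB ρ) :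
    mx ρ g⁻¹ = !![mx ρ g 1 1, -mx ρ g 0 1; 0, mx ρ g 0 0] := by
  have k : mx ρ g 1 0 = 0 := hg
  have e : mx ρ g⁻¹ = (mx ρ g)⁻¹ := by simp [mx]
  rw [e, Matrix.inv_def, hd g, Ring.inverse_one, one_smul, Matrix.adjugate_fin_two, k, neg_zero]

/-- the entries of the adjoint action -/
theorem act [CharP F 2] (hd : ∀ g, (mx ρ g).det = 1) {g : GQ} (hg : g ∈ GB ρ) (m : M2 F) :
    (mx ρ g * m * mx ρ g⁻¹) 1 0 = ci ρ g * m 1 0 ∧
    (mx ρ g * m * mx ρ g⁻¹) 0 0 = m 0 0 + mx ρ g 0 1 * mx ρ g 1 1 * m 1 0 ∧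
    (mx ρ g * m * mx ρ g⁻¹) 1 1 = m 1 1 + mx ρ g 0 1 * mx ρ g 1 1 * m 1 0 ∧
    (mx ρ g * m * mx ρ g⁻¹) 0 1 = ch ρ g * m 0 1 + mx ρ g 0 0 * mx ρ g 0 1 * (m 0 0 + m 1 1) +
      mx ρ g 0 1 ^ 2 * m 1 0 := by
  have k : mx ρ g 1 0 = 0 := hg
  have d := d01 hd hg
  have t : (2 : F) = 0 := CharP.cast_eq_zero F 2
  rw [mx_inv hd hg]
  simp only [Matrix.mul_apply, Fin.sum_univ_two, k, ch, ci, Matrix.of_apply, Matrix.cons_val',
    Matrix.cons_val_zero, Matrix.cons_val_one, Matrix.cons_val_fin_one]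
  refine ⟨by ring, ?_, ?_, ?_⟩
  · linear_combination m 0 0 * d
  · linear_combination m 1 1 * d - mx ρ g 0 1 * mx ρ g 1 1 * m 1 0 * t
  · linear_combination -(mx ρ g 0 0 * mx ρ g 0 1 * m 0 0 + mx ρ g 0 1 ^ 2 * m 1 0) * t

theorem uni {γ : GQ} (hγ : γ ∈ GP ρ) : γ ∈ GB ρ ∧ mx ρ γ 0 0 = 1 ∧ mx ρ γ 1 1 = 1 ∧
    (ρ γ ≠ 1 → mx ρ γ 0 1 ≠ 0) := by
  obtain ⟨a, ha⟩ := hγ
  have e : mx ρ γ = !![1, a; 0, 1] := by rw [mx, ← ha]; rfl
  refine ⟨by change mx ρ γ 1 0 = 0; rw [e]; rfl, by rw [e]; rfl, by rw [e]; rfl, fun h k => h ?_⟩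
  have : a = 0 := by rw [e] at k; exact k
  rw [← ha, this, Gp.uu_zero]

/-- **the local count** -/
theorem fxb [CharP F 2] (hd : ∀ g, (mx ρ g).det = 1) (T : Finset ℕ) (D : ℕ → Set GQ) :
    Module.rank F (Fx ρ T D (GB ρ)) + Module.rank F (FN ρ (fun _ => 1) T D) +
        Module.rank F (FN ρ (ch ρ) T D) ≤
      Module.rank F (Ft (fun _ => (1 : F)) T D (GB ρ)) +
        Module.rank F (Ft (fun _ => (1 : F)) T D (GB ρ)) +
        Module.rank F (Ft (ch ρ) T D (GB ρ)) + Module.rank F (Ft (ci ρ) T D (GB ρ)) := by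
  have t : (2 : F) = 0 := CharP.cast_eq_zero F 2
  let en : Fin 2 → Fin 2 → (ℕ → GQ → M2 F) →ₗ[F] (ℕ → GQ → F) := fun i j =>
    { toFun := fun f l g => f l g i j
      map_add' := fun _ _ => rfl
      map_smul' := fun _ _ => rfl }
  have ns : ∀ f ∈ Fx ρ T D (GB ρ), ∀ l g, Ns ρ D l g →
      f l g 1 0 = 0 ∧ f l g 0 0 + f l g 1 1 = 0 := by
    rintro f hf l g ⟨γ, hγ, h1, h2⟩
    obtain ⟨u0, u1, u2, u3⟩ := uni hγ
    have e : mx ρ γ * f l g * mx ρ γ⁻¹ = f l g := by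
      rw [← hf.2.1 l γ u0 g, ← hf.2.2 l _ h2 g]
      congr 1
      group
    obtain ⟨-, a1, -, a2⟩ := act hd u0 (f l g)
    rw [e, u2] at a1
    rw [e, ch, u1] at a2
    have z : f l g 1 0 = 0 := mul_left_cancel₀ (u3 h1) (by linear_combination -a1)
    rw [z] at a2
    exact ⟨z, mul_left_cancel₀ (u3 h1) (by linear_combination -a2)⟩
  have z0 : ∀ f ∈ Fx ρ T D (GB ρ), ∀ i j, ∀ l ∉ T, en i j f l = 0 := fun f hf i j l hl => by
    funext g
    change f l g i j = 0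
    rw [hf.1 l hl]; rfl
  have zd : ∀ f ∈ Fx ρ T D (GB ρ), ∀ i j l, ∀ d ∈ D l, ∀ g,
      en i j f l (g * d) = en i j f l g := fun f hf i j l d hd g => by
    change f l (g * d) i j = f l g i j
    rw [hf.2.2 l d hd g]
  have h := rank_two (Fx ρ T D (GB ρ)) ((en 1 0).prod (en 0 0 + en 1 1)) ((en 0 0).prod (en 0 1))
    ((Ft (ci ρ) T D (GB ρ) ⊓ Sup F fun l g => ¬ Ns ρ D l g).prod
      (Ft (fun _ => (1 : F)) T D (GB ρ) ⊓ Sup F fun l g => ¬ Ns ρ D l g))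
    ((Ft (fun _ => (1 : F)) T D (GB ρ)).prod (Ft (ch ρ) T D (GB ρ)))
    (fun f hf => ⟨⟨⟨z0 f hf 1 0, fun l γ hγ g => ?_, zd f hf 1 0⟩,
      fun l g hg => (ns f hf l g (not_not.1 hg)).1⟩,
      ⟨fun l hl => ?_, fun l γ hγ g => ?_, fun l d hd g => ?_⟩,
      fun l g hg => (ns f hf l g (not_not.1 hg)).2⟩)
    (fun f hf h0 => ⟨⟨z0 f hf 0 0, fun l γ hγ g => ?_, zd f hf 0 0⟩,
      z0 f hf 0 1, fun l γ hγ g => ?_, zd f hf 0 1⟩) fun f hf h0 h1 => ?_
  · have a1 := rank_pr (Ft (ci ρ) T D (GB ρ) ⊓ Sup F fun l g => ¬ Ns ρ D l g)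
      (Ft (fun _ => (1 : F)) T D (GB ρ) ⊓ Sup F fun l g => ¬ Ns ρ D l g)
    have a2 := rank_pr (Ft (fun _ => (1 : F)) T D (GB ρ)) (Ft (ch ρ) T D (GB ρ))
    have a3 := rank_sup (Ft (ci ρ) T D (GB ρ)) (Ns ρ D)
    have a4 := rank_sup (Ft (fun _ => (1 : F)) T D (GB ρ)) (Ns ρ D)
    have a5 := rank_inv (ch ρ) (ci ρ) T D (GB ρ) (fun γ hγ => ch_ci hd hγ) (Ns ρ D)
    unfold FN
    refine (add_le_add (add_le_add (h.trans (add_le_add a1 a2)) le_rfl) a5).trans ?_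
    refine le_trans (le_of_eq ?_) (add_le_add (add_le_add (add_le_add a4 le_rfl) le_rfl) a3)
    ring
  · change f l (γ * g) 1 0 = ci ρ γ * f l g 1 0
    rw [hf.2.1 l γ hγ g, (act hd hγ _).1]
  · change en 0 0 f l + en 1 1 f l = 0
    rw [z0 f hf 0 0 l hl, z0 f hf 1 1 l hl, add_zero]
  · change f l (γ * g) 0 0 + f l (γ * g) 1 1 = 1 * (f l g 0 0 + f l g 1 1)
    rw [hf.2.1 l γ hγ g, (act hd hγ _).2.1, (act hd hγ _).2.2.1]
    linear_combination mx ρ γ 0 1 * mx ρ γ 1 1 * f l g 1 0 * t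
  · change f l (g * d) 0 0 + f l (g * d) 1 1 = f l g 0 0 + f l g 1 1
    rw [hf.2.2 l d hd g]
  · have z : f l g 1 0 = 0 := congrFun (congrFun (congrArg Prod.fst h0) l) g
    change f l (γ * g) 0 0 = 1 * f l g 0 0
    rw [hf.2.1 l γ hγ g, (act hd hγ _).2.1, z]
    ring
  · have z : f l g 1 0 = 0 := congrFun (congrFun (congrArg Prod.fst h0) l) g
    have s : f l g 0 0 + f l g 1 1 = 0 := congrFun (congrFun (congrArg Prod.snd h0) l) g
    change f l (γ * g) 0 1 = ch ρ γ * f l g 0 1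
    rw [hf.2.1 l γ hγ g, (act hd hγ _).2.2.2, z, s]
    ring
  · funext l g
    have z : f l g 1 0 = 0 := congrFun (congrFun (congrArg Prod.fst h0) l) g
    have s : f l g 0 0 + f l g 1 1 = 0 := congrFun (congrFun (congrArg Prod.snd h0) l) g
    have x : f l g 0 0 = 0 := congrFun (congrFun (congrArg Prod.fst h1) l) g
    have y : f l g 0 1 = 0 := congrFun (congrFun (congrArg Prod.snd h1) l) g
    rw [x, zero_add] at s
    ext i j
    fin_cases i <;> fin_cases j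
    exacts [x, y, z, s]

end Vale.Agent.P022E.GW.Fb
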