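import Vale.Agent.P022D.L2c.Defs

/-!
# P022E, block GW: the Gysin sequence for cochains
-/

set_option linter.all false

noncomputable section

namespace Vale.Agent.P022E.GW.G64

open Vale.Agent.P022D.L2c

variable {F : Type} [Field F] [CharP F 2] {X : Type} [Group X] [TopologicalSpace X]
  [IsTopologicalGroup X]

theorem z2 (a : ZMod 2) : a = 0 ∨ a = 1 := by revert a; decide

theorem opn {χ : X → ZMod 2} (hχ : χ ∈ Hm (ZMod 2) X) {H : Subgroup X}
    (hH : ∀ x, x ∈ H ↔ χ x = 0) : IsClopen (H : Set X) := by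
  rw [show (H : Set X) = χ ⁻¹' {0} from Set.ext hH]
  exact hχ.1.isClopen_fiber 0

/-- extension by zero from a clopen subgroup -/
theorem ext0 {H : Subgroup X} (ho : IsClopen (H : Set X)) {w : H → F} (hw : IsLocallyConstant w) :
    ∃ W : X → F, IsLocallyConstant W ∧ (∀ u : H, W u = w u) ∧ ∀ x ∉ H, W x = 0 := by
  classical
  refine ⟨fun x => if h : x ∈ H then w ⟨x, h⟩ else 0, ?_, fun u => dif_pos u.2,
    fun x hx => dif_neg hx⟩
  refine (IsLocallyConstant.iff_exists_open _).2 fun y => ?_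
  by_cases hy : y ∈ H
  · refine ⟨Subtype.val '' (w ⁻¹' {w ⟨y, hy⟩}), ho.2.isOpenMap_subtype_val _ (hw _),
      ⟨⟨y, hy⟩, rfl, rfl⟩, ?_⟩
    rintro _ ⟨u, h1, rfl⟩
    rw [dif_pos u.2, dif_pos hy]
    exact h1
  · refine ⟨(H : Set X)ᶜ, ho.1.isOpen_compl, hy, fun x hx => ?_⟩
    rw [dif_neg hy, dif_neg (show x ∉ H from hx)]

/-- **Gysin**: a cocycle which dies on the kernel of `χ` is a cup product with `χ` -/
theorem gys {χ : X → ZMod 2} (hχ : χ ∈ Hm (ZMod 2) X) {H : Subgroup X}
    (hH : ∀ x, x ∈ H ↔ χ x = 0) {z : X → X → F} (hz : IsZ2 z)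
    (h : (fun a b : H => z a b) ∈ Cob F H) :
    ∃ b ∈ Hm F X, z - cup (fun x => up F (χ x)) b ∈ Cob F X := by
  have two : (2 : F) = 0 := CharP.cast_eq_zero F 2
  obtain ⟨w, wl, hw⟩ := h
  obtain ⟨W, Wl, W1, W0⟩ := ext0 (opn hχ hH) wl
  have WH : ∀ u ∈ H, ∀ v ∈ H, W (u * v) = W u + W v + z u v := fun u hu v hv => by
    have := hw ⟨u, hu⟩ ⟨v, hv⟩
    rwa [← W1, ← W1, ← W1] at this
  by_cases hs : ∃ s, χ s = 1
  swap
  · have all : ∀ x, x ∈ H := fun x => (hH x).2 ((z2 _).resolve_right fun e => hs ⟨x, e⟩)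
    refine ⟨0, zero_mem _, W, Wl, fun x y => ?_⟩
    rw [WH x (all x) y (all y)]
    simp [cup]
  obtain ⟨s, hs⟩ := hs
  have out : ∀ x, χ x = 1 → x * s⁻¹ ∈ H := fun x hx => (hH _).2 (by
    have := hχ.2 (x * s⁻¹) s
    rwa [inv_mul_cancel_right, hx, hs, eq_comm, add_eq_right] at this)
  have out' : ∀ x, χ x = 0 → x * s⁻¹ ∉ H := fun x hx e => by
    have := hχ.2 (x * s⁻¹) s
    rw [inv_mul_cancel_right, hx, hs, (hH _).1 e] at this
    exact absurd this (by decide)
  let V : X → F := fun x => W x + W (x * s⁻¹) + up F (χ x) * z (x * s⁻¹) s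
  have Vl : IsLocallyConstant V := by
    refine (Wl.add (Wl.comp_continuous (continuous_mul_const s⁻¹))).add
      ((hχ.1.comp (up F)).mul ?_)
    exact hz.1.comp_continuous (f := fun x => (x * s⁻¹, s)) (by fun_prop)
  have V0 : ∀ x, χ x = 0 → V x = W x := fun x hx => by
    simp only [V, hx, map_zero, zero_mul, add_zero, W0 _ (out' x hx)]
  have V1 : ∀ x, χ x = 1 → V x = W (x * s⁻¹) + z (x * s⁻¹) s := fun x hx => by
    have : x ∉ H := fun e => by rw [(hH x).1 e] at hx; exact absurd hx (by decide)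
    simp only [V, hx, map_one, one_mul, W0 _ this, zero_add]
  have VH : ∀ u ∈ H, ∀ y, V (u * y) = V u + V y + z u y := fun u hu y => by
    have u0 := (hH u).1 hu
    have e : χ (u * y) = χ y := by rw [hχ.2, u0, zero_add]
    rcases z2 (χ y) with k | k
    · rw [V0 _ (e.trans k), V0 _ u0, V0 _ k, WH u hu y ((hH y).2 k)]
    · rw [V1 _ (e.trans k), V0 _ u0, V1 _ k, mul_assoc, WH u hu _ (out y k)]
      have := hz.2 u (y * s⁻¹) s
      rw [inv_mul_cancel_right] at this
      linear_combination -this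
  let e : X → X → F := fun x y => V (x * y) - V x - V y - z x y
  have ec : ∀ g h k, e h k + e g (h * k) = e (g * h) k + e g h := fun g h k => by
    simp only [e, mul_assoc]
    linear_combination -hz.2 g h k
  have e0 : ∀ u ∈ H, ∀ y, e u y = 0 := fun u hu y => by
    simp only [e, VH u hu y]; ring
  have eb : ∀ x y, e x y = up F (χ x) * e s y := fun x y => by
    rcases z2 (χ x) with k | k
    · rw [k, map_zero, zero_mul, e0 x ((hH x).2 k)]
    · have := ec (x * s⁻¹) s y
      rw [inv_mul_cancel_right, e0 _ (out x k), e0 _ (out x k)] at this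
      rw [k, map_one]
      linear_combination -this
  refine ⟨e s, ⟨?_, fun x y => ?_⟩, V, Vl, fun x y => ?_⟩
  · refine (((Vl.comp_continuous (continuous_const_mul s)).sub (IsLocallyConstant.const _)).sub
      Vl).sub ?_
    exact hz.1.comp_continuous (f := fun x => (s, x)) (by fun_prop)
  · have := ec s x y
    rw [eb x y, eb (s * x) y, hχ.2, hs, map_add, map_one] at this
    linear_combination this
  · have := eb x y
    simp only [Pi.sub_apply, cup]
    simp only [e] at this ⊢
    linear_combination this + (up F (χ x) * (V (s * y) - V s - V y - z s y)) * two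

end Vale.Agent.P022E.GW.G64
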