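import Vale.Agent.P022E.GW.Hn1
import Vale.Agent.P022E.GW.Brg
import Vale.Agent.P022E.GW.Gys
import Vale.Agent.P022D.Sel.Kill
import Vale.Agent.P022D.W.Tame

/-!
# P022, block GW: the Hasse norm theorem for cup products of quadratic characters
-/

set_option linter.all false

noncomputable section

namespace Vale.Agent.P022E.GW.Hn

open NumberField IsDedekindDomain
open Vale.Agent.P022 Vale.Agent.P022.H443 Vale.Agent.P022D Vale.Agent.P022D.L2.Ar
open Vale.Agent.P022D.L2c (Hm Cob)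
open Vale.Agent.P022D.L2c.PolP (rs)
open Vale.Agent.P022D.Sel (Stab IsDec)
open Vale.Agent.P011.Arith (NF LS LSR LSp)

theorem ex_prime {R : Type} [CommRing R] {P : Ideal R} (hP : P.IsPrime) (n : ℕ) (hn : n ≠ 0)
    (h : (n : R) ∈ P) : ∃ l : ℕ, l.Prime ∧ (l : R) ∈ P := by
  induction n using induction_on_primes with
  | zero => exact absurd rfl hn
  | one => exact absurd ((Ideal.eq_top_iff_one P).2 (by simpa using h)) hP.ne_top
  | prime_mul p a hp ih =>
    rw [Nat.cast_mul] at h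
    rcases hP.mem_or_mem h with h | h
    · exact ⟨p, hp, h⟩
    · exact ih (right_ne_zero_of_mul hn) h

theorem dec_closed (P : Ideal (𝓞 Qb)) : IsClosed (W.dec P : Set GQ) := by
  have := galQb
  have := algQb
  have e : (W.dec P : Set GQ) = ⋂ x : 𝓞 Qb, {g : GQ | g • x ∈ P ↔ x ∈ P} := by
    ext g
    rw [Set.mem_iInter]
    rfl
  rw [e]
  refine isClosed_iInter fun x => ?_
  have h1 : IsOpen ((MulAction.stabilizer GQ (x : Qb) : Subgroup GQ) : Set GQ) :=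
    stabilizer_isOpen_of_isIntegral (x : Qb)
  refine isClosed_of_right h1 fun z hz n hn => ?_
  have hn' : n • x = x := RingOfIntegers.ext (MulAction.mem_stabilizer_iff.1 hn)
  change (z * n) • x ∈ P ↔ x ∈ P
  rw [mul_smul, hn']
  exact hz

theorem conj_sq {c : GQ} (h : IsConj c) : c * c = 1 := by
  obtain ⟨φ, hφ⟩ := h
  ext x
  apply φ.injective
  rw [AlgEquiv.mul_apply, hφ, hφ, Complex.conj_conj]
  rfl

/-- the group generated by a complex conjugation -/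
def cg (c : GQ) (h : IsConj c) : Subgroup GQ where
  carrier := {1, c}
  one_mem' := Or.inl rfl
  mul_mem' := by
    rintro a b (rfl | rfl) (rfl | rfl)
    · exact Or.inl (mul_one _)
    · exact Or.inr (one_mul _)
    · exact Or.inr (mul_one _)
    · exact Or.inl (conj_sq h)
  inv_mem' := by
    rintro a (rfl | rfl)
    · exact Or.inl inv_one
    · exact Or.inr (inv_eq_of_mul_eq_one_right (conj_sq h))

/-- an open subgroup is the group of a number field -/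
theorem ex_fld (V : Subgroup GQ) (hV : IsOpen (V : Set GQ)) :
    ∃ (K : Type) (_ : Field K) (_ : NumberField K) (j : K →+* Qb), GK j = V := by
  have := galQb
  have hfin : FiniteDimensional ℚ (H916.FF V) := H916.finU V hV
  have hNF : NumberField (H916.FF V) :=
    { to_charZero := inferInstance, to_finiteDimensional := hfin }
  refine ⟨H916.FF V, inferInstance, hNF, (IntermediateField.fixedField V).val.toRingHom, ?_⟩
  have hfix : (IntermediateField.fixedField V).fixingSubgroup = V :=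
    InfiniteGalois.fixingSubgroup_fixedField ⟨V, OpenSubgroup.isClosed ⟨V, hV⟩⟩
  ext g
  constructor
  · intro h
    rw [← hfix, IntermediateField.mem_fixingSubgroup_iff]
    intro x hx
    exact h (⟨x, hx⟩ : H916.FF V)
  · intro h x
    have h1 := x.2
    rw [IntermediateField.mem_fixedField_iff] at h1
    exact h1 g h

/-- a real place comes from a complex conjugation -/
theorem ex_conj {K : Type} [Field K] [NumberField K] (j : K →+* Qb) (φ : K →+* ℝ) :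
    ∃ (c : GQ) (ι : Qb →+* ℂ), (∀ x, ι (c x) = starRingEnd ℂ (ι x)) ∧ c ∈ GK j ∧
      ∀ y, ι (j y) = (φ y : ℂ) := by
  have := galQb
  have := algQb
  obtain ⟨ι, hι⟩ : ∃ ι : Qb →+* ℂ, ∀ y, ι (j y) = (φ y : ℂ) := by
    let _ : Algebra K Qb := j.toAlgebra
    let _ : Algebra K ℂ := (Complex.ofRealHom.comp φ).toAlgebra
    have : IsScalarTower ℚ K Qb := IsScalarTower.of_algebraMap_eq' (Subsingleton.elim _ _)
    have : Algebra.IsAlgebraic K Qb := Algebra.IsAlgebraic.tower_top (K := ℚ) K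
    let ι : Qb →ₐ[K] ℂ := IsAlgClosed.lift
    exact ⟨ι.toRingHom, fun y => ι.commutes y⟩
  let _ : Algebra Qb ℂ := ι.toAlgebra
  have : IsScalarTower ℚ Qb ℂ := IsScalarTower.of_algebraMap_eq' (Subsingleton.elim _ _)
  have hn : Normal ℚ Qb := inferInstance
  let χ : ℂ ≃ₐ[ℚ] ℂ := Complex.conjAe.restrictScalars ℚ
  have hc : ∀ x, ι (χ.restrictNormal Qb x) = starRingEnd ℂ (ι x) := fun x =>
    AlgEquiv.restrictNormal_commutes χ Qb x
  refine ⟨χ.restrictNormal Qb, ι, hc, fun y => ι.injective ?_, hι⟩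
  rw [hc, hι, Complex.conj_ofReal]

theorem real_nf {K : Type} [Field K] (φ : K →+* ℝ) (α β : Kˣ) {p q : ℝ}
    (h : φ β = p ^ 2 - φ α * q ^ 2) : β ∈ NF α ⊔ LSR φ := by
  have hβ : φ β ≠ 0 := (map_ne_zero φ).2 β.ne_zero
  rcases lt_or_gt_of_ne hβ with h1 | h1
  · have hα : 0 < φ α := by
      by_contra hc
      have := mul_nonneg (neg_nonneg.2 (not_lt.1 hc)) (sq_nonneg q)
      nlinarith [sq_nonneg p]
    have e : β = (-α) * ((-α)⁻¹ * β) := by rw [mul_inv_cancel_left]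
    rw [e]
    refine Subgroup.mul_mem_sup ⟨0, 1, by simp⟩ ?_
    change 0 < φ (((-α)⁻¹ * β : Kˣ) : K)
    rw [Units.val_mul, Units.val_inv_eq_inv_val, Units.val_neg, map_mul, map_inv₀, map_neg]
    exact mul_pos_of_neg_of_neg (inv_lt_zero.2 (neg_neg_of_pos hα)) h1
  · exact Subgroup.mem_sup_right (show β ∈ LSR φ from h1)

/-- the local step: a norm equation in the fixed field of `V ⊓ D` -/
theorem loc {V D : Subgroup GQ} (hV : IsClosed (V : Set GQ)) (hD : IsClosed (D : Set GQ))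
    {e b : GQ → ZMod 2} {θ σ : Qb} (hθ : θ ≠ 0) (hσ : σ ≠ 0)
    (he : ∀ x : V, x.1 θ = sg Qb (e x) * θ) (hb : ∀ x : V, x.1 σ = sg Qb (b x) * σ)
    (h : rs (V ⊓ D) (L2c.cup e b) ∈ Cob (ZMod 2) (V ⊓ D : Subgroup GQ)) :
    ∃ p q : Qb, (∀ x ∈ V, x ∈ D → x p = p) ∧ (∀ x ∈ V, x ∈ D → x q = q) ∧
      σ ^ 2 = p ^ 2 - θ ^ 2 * q ^ 2 := by
  have := galQb
  obtain ⟨p, q, hp, hq, h1⟩ := cob_norm (V ⊓ D) (hV.inter hD) hθ hσ
    (a := fun x => e x) (b := fun x => b x) (fun x => he ⟨x.1, x.2.1⟩) (fun x => hb ⟨x.1, x.2.1⟩) h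
  exact ⟨p, q, fun x h1 h2 => hp x ⟨h1, h2⟩, fun x h1 h2 => hq x ⟨h1, h2⟩, h1⟩

/-- a Kummer generator in the field of `V` -/
theorem gen {K : Type} [Field K] [NumberField K] (j : K →+* Qb) (hV : IsClosed (GK j : Set GQ))
    {e : GQ → ZMod 2} (he : (fun u : GK j => e u) ∈ Hm (ZMod 2) (GK j)) :
    ∃ (θ : Qb) (α : Kˣ), θ ≠ 0 ∧ j α = θ ^ 2 ∧ ∀ x : GK j, x.1 θ = sg Qb (e x) * θ := by
  have := galQb
  obtain ⟨θ, h0, h⟩ := kum' (GK j) hV he
  obtain ⟨y, hy⟩ := Sel.KillAux.fix_range j (θ ^ 2) fun g hg => by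
    rw [map_pow, h ⟨g, hg⟩, mul_pow, pow_two (sg Qb _), sg_sq, one_mul]
  have y0 : y ≠ 0 := by
    rintro rfl
    rw [map_zero] at hy
    exact pow_ne_zero 2 h0 hy.symm
  exact ⟨θ, Units.mk0 y y0, h0, hy, h⟩

end Hn

open NumberField
open Vale.Agent.P022 Vale.Agent.P022D
open Vale.Agent.P022D.L2c (Hm Cob cup)
open Vale.Agent.P022D.L2c.PolP (rs)
open Vale.Agent.P022D.Sel (Stab IsDec)

/-- **Hasse norm theorem**, raw form -/
theorem hnpg0 (V : Subgroup GQ) (e b : GQ → ZMod 2) (hV : IsOpen (V : Set GQ))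
    (he : (fun u : V => e u) ∈ Hm (ZMod 2) V) (hb : (fun u : V => b u) ∈ Hm (ZMod 2) V)
    (hf : ∀ (l : ℕ) (P : Ideal (𝓞 Qb)), l.Prime → P.IsPrime → (l : 𝓞 Qb) ∈ P →
      rs (V ⊓ W.dec P) (cup e b) ∈ Cob (ZMod 2) (V ⊓ W.dec P : Subgroup GQ))
    (hr : ∀ (c : GQ) (h : IsConj c), c ∈ V →
      rs (V ⊓ Hn.cg c h) (cup e b) ∈ Cob (ZMod 2) (V ⊓ Hn.cg c h : Subgroup GQ)) :
    rs V (cup e b) ∈ Cob (ZMod 2) V := by
  have := H443.galQb
  have hVc : IsClosed (V : Set GQ) := V.isClosed_of_isOpen hV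
  obtain ⟨K, _, _, j, rfl⟩ := Hn.ex_fld V hV
  obtain ⟨θ, α, hθ, eα, hα⟩ := Hn.gen j hVc he
  obtain ⟨σ, β, hσ, eβ, hβ⟩ := Hn.gen j hVc hb
  have key : β ∈ P011.Arith.NF α := by
    refine P011.Arith.hasse_norm α β ?_
    rintro (u | φ)
    · obtain ⟨P, hP, hu⟩ := H916.exists_above j u.asIdeal u.isPrime
      obtain ⟨l, hl, hlu⟩ := Hn.ex_prime u.isPrime (Ideal.absNorm u.asIdeal)
        (fun h => u.ne_bot (Ideal.absNorm_eq_zero_iff.1 h)) (Ideal.absNorm_mem _)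
      have hlP : (l : 𝓞 Qb) ∈ P := by
        rw [← hu, below, Ideal.mem_comap, map_natCast] at hlu
        exact hlu
      obtain ⟨p, q, hp, hq, h1⟩ := Hn.loc hVc (Hn.dec_closed P) hθ hσ hα hβ (hf l P hl hP hlP)
      exact Brg.nf_of hP hu α β hp hq (by rw [eα, eβ, h1])
    · obtain ⟨c, ι, hc, cV, hι⟩ := Hn.ex_conj j φ
      have hcl : IsClosed (Hn.cg c ⟨ι, hc⟩ : Set GQ) := (Set.toFinite ({1, c} : Set GQ)).isClosed
      obtain ⟨p, q, hp, hq, h1⟩ := Hn.loc hVc hcl hθ hσ hα hβ (hr c ⟨ι, hc⟩ cV)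
      obtain ⟨p', hp'⟩ := Complex.conj_eq_iff_real.1 ((hc p).symm.trans
        (congrArg ι (hp c cV (Or.inr rfl))))
      obtain ⟨q', hq'⟩ := Complex.conj_eq_iff_real.1 ((hc q).symm.trans
        (congrArg ι (hq c cV (Or.inr rfl))))
      refine Hn.real_nf φ α β (p := p') (q := q') ?_
      have h2 := congrArg ι h1
      rw [← eα, ← eβ, map_sub, map_mul, map_pow, map_pow, hι, hι, hp', hq'] at h2
      exact_mod_cast h2
  obtain ⟨x, y, hxy⟩ := key
  have h3 := Hn.norm_cob (GK j) hθ hσ (a := fun u => e u) (b := fun u => b u) hα hβ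
    (p := j x) (q := j y) (fun g hg => hg x) (fun g hg => hg y)
    (by rw [← eα, ← eβ, hxy, map_sub, map_mul, map_pow, map_pow])
  have h4 := sub_mem (L2c.Sym.symm he hb) h3
  rwa [add_sub_cancel_right] at h4

/-- all decomposition groups -/
def Decs : Set (Subgroup GQ) := {D | ∃ l : ℕ, IsDec l (D : Set GQ)}

/-- **Hasse norm theorem** -/
theorem hnpg (V : Subgroup GQ) (e b : GQ → ZMod 2) (hV : IsOpen (V : Set GQ))
    (he : (fun u : V => e u) ∈ Hm (ZMod 2) V) (hb : (fun u : V => b u) ∈ Hm (ZMod 2) V)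
    (h : ∀ D ∈ Decs, rs (V ⊓ D) (cup e b) ∈ Cob (ZMod 2) (V ⊓ D : Subgroup GQ)) :
    rs V (cup e b) ∈ Cob (ZMod 2) V :=
  hnpg0 V e b hV he hb (fun l P hl hP hlP => h _ ⟨l, Or.inr ⟨hl, P, hP, hlP, rfl⟩⟩)
    fun c hc _ => h _ ⟨0, Or.inl ⟨rfl, c, hc, rfl⟩⟩

/-- **a locally trivial class of degree two on `G_ℚ` is trivial** -/
theorem hasseQ {F : Type} [Field F] [CharP F 2] [Finite F] {y : GQ → GQ → F} (hy : L2c.IsZ2 y)
    (hl : ∀ D ∈ Decs, rs D y ∈ Cob F D) : y ∈ Cob F GQ :=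
  haveI := H443.galQb
  Gy.hasse Decs hnpg hy hl

end Vale.Agent.P022E.GW
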