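import Vale.Agent.P022E.GW.Defs
import Vale.Agent.P022E.Gp.Std
import Vale.Agent.P022D.Sel.Sym
import Vale.Agent.P022.H916.Fld
import Vale.Agent.P022.H20.Frob
import Vale.Agent.P027M.TW.Dens

/-!
# P022E, block GW: the normal form and the big set of places
-/

set_option linter.all false

noncomputable section

namespace Vale.Agent.P022E.GW

open NumberField
open Vale.Agent.P022
open Vale.Agent.P027M.S (Inert mx)
open Vale.Agent.P022D.Sel (M2 IsDec Big Stab)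

namespace Hy

theorem fixed {U : Subgroup GQ} (hU : IsOpen (U : Set GQ)) {g : GQ}
    (h : ∀ x ∈ IntermediateField.fixedField U, g x = x) : g ∈ U := by
  have hfix : (IntermediateField.fixedField U).fixingSubgroup = U :=
    InfiniteGalois.fixingSubgroup_fixedField ⟨U, OpenSubgroup.isClosed ⟨U, hU⟩⟩
  rw [← hfix, IntermediateField.mem_fixingSubgroup_iff]
  exact h

/-- the field of an open subgroup -/
theorem ex_fld {U : Subgroup GQ} (hU : IsOpen (U : Set GQ)) :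
    ∃ (L : Type) (_ : Field L) (_ : NumberField L) (j : L →+* Qb), GK j = U := by
  have hfin : FiniteDimensional ℚ (H916.FF U) := H916.finU U hU
  have hNF : NumberField (H916.FF U) :=
    { to_charZero := inferInstance, to_finiteDimensional := hfin }
  refine ⟨H916.FF U, inferInstance, hNF, (IntermediateField.fixedField U).val.toRingHom,
    Subgroup.ext fun g => ⟨fun h => fixed hU fun x hx => h (⟨x, hx⟩ : H916.FF U), fun h x => ?_⟩⟩
  have h1 := x.2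
  rw [IntermediateField.mem_fixedField_iff] at h1
  exact h1 _ h

/-- big sets -/
theorem ex_bg {U : Subgroup GQ} (hU : IsOpen (U : Set GQ)) :
    ∃ A₀ : Finset ℕ, (∀ l ∈ A₀, l.Prime) ∧ ∀ A : Finset ℕ, A₀ ⊆ A → Bg U A := by
  obtain ⟨L, i1, i2, j, hj⟩ := ex_fld hU
  obtain ⟨A₀, h1, h2⟩ := P022D.Sel.big L
  exact ⟨A₀, h1, fun A hA => ⟨L, i1, i2, j, hj, h2 A hA⟩⟩

theorem ex_int {U : Subgroup GQ} (hU : IsOpen (U : Set GQ)) {g : GQ} (hg : g ∉ U) :
    ∃ n : ℤ, n ≠ 0 ∧ ∀ u ∈ U, ∀ P : Ideal (𝓞 Qb), Inert P (g * u) → (n : 𝓞 Qb) ∈ P := by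
  obtain ⟨x, hx, hgx⟩ : ∃ x ∈ IntermediateField.fixedField U, g x ≠ x := by
    by_contra h
    exact hg (fixed hU fun x hx => by_contra fun e => h ⟨x, hx, e⟩)
  have a1 : Algebra.IsAlgebraic ℚ Qb := AlgebraicClosure.isAlgebraic ℚ
  have a2 : IsAlgebraic ℤ x := (IsFractionRing.isAlgebraic_iff ℤ ℚ Qb).2 (a1.isAlgebraic x)
  obtain ⟨m, hm, hi⟩ := a2.exists_integral_multiple
  let y : 𝓞 Qb := ⟨m • x, hi⟩
  have hy : ∀ h : GQ, ((h • y : 𝓞 Qb) : Qb) = m • h x := fun h => map_zsmul h m x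
  have h0 : g • y - y ≠ 0 := fun e => hgx (by
    have e1 := congrArg (fun t : 𝓞 Qb => (t : Qb)) (sub_eq_zero.1 e)
    simp only [hy] at e1
    exact smul_right_injective Qb hm e1)
  obtain ⟨n, hn, hd⟩ := (Algebra.IsIntegral.isIntegral (R := ℤ) (g • y - y)).isAlgebraic
    |>.exists_nonzero_dvd (mem_nonZeroDivisors_of_ne_zero h0)
  refine ⟨n, hn, fun u hu P hP => ?_⟩
  have e : (g * u) • y = g • y := RingOfIntegers.ext (by
    rw [IntermediateField.mem_fixedField_iff] at hx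
    have e1 := hy (g * u)
    rw [AlgEquiv.mul_apply, hx u hu, ← hy] at e1
    exact e1)
  have h1 := hP y
  rw [e] at h1
  exact Ideal.mem_of_dvd P hd h1

/-- **finite ramification** -/
theorem ex_ram {U : Subgroup GQ} (hU : IsOpen (U : Set GQ)) :
    ∃ R : Finset ℕ, (∀ l ∈ R, l.Prime) ∧
      ∀ l ∉ R, ∀ P : Ideal (𝓞 Qb), Ov l P → ∀ g, Inert P g → g ∈ U := by
  classical
  have a1 : Algebra.IsAlgebraic ℚ Qb := AlgebraicClosure.isAlgebraic ℚ
  have a2 : IsAlgClosure ℚ Qb := ⟨inferInstance, inferInstance⟩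
  have a3 : IsGalois ℚ Qb := IsAlgClosure.isGalois ℚ Qb
  have a4 : CompactSpace GQ := inferInstance
  haveI : Finite (GQ ⧸ U) := U.quotient_finite_of_isOpen hU
  have := Fintype.ofFinite (GQ ⧸ U)
  have key : ∀ c : GQ ⧸ U, ∃ n : ℤ, n ≠ 0 ∧ (c.out ∉ U →
      ∀ u ∈ U, ∀ P : Ideal (𝓞 Qb), Inert P (c.out * u) → (n : 𝓞 Qb) ∈ P) := fun c => by
    by_cases h : c.out ∈ U
    · exact ⟨1, one_ne_zero, fun k => absurd h k⟩
    · obtain ⟨n, h1, h2⟩ := ex_int hU h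
      exact ⟨n, h1, fun _ => h2⟩
  choose n hn hP using key
  refine ⟨Finset.univ.biUnion fun c => (n c).natAbs.primeFactors, fun l hl => ?_,
    fun l hl P hlP g hg => by_contra fun hgU => hl ?_⟩
  · obtain ⟨c, -, hc⟩ := Finset.mem_biUnion.1 hl
    exact Nat.prime_of_mem_primeFactors hc
  · obtain ⟨u, hu⟩ := QuotientGroup.mk_out_eq_mul U g
    have h1 := hP (g : GQ ⧸ U) (fun k => hgU (by
      rw [hu] at k
      exact (U.mul_mem_cancel_right u.2).1 k)) u⁻¹ (U.inv_mem u.2) P (by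
        rwa [hu, mul_inv_cancel_right])
    refine Finset.mem_biUnion.2 ⟨g, Finset.mem_univ _, Nat.mem_primeFactors.2
      ⟨hlP.1, by_contra fun hd => hlP.2.1.ne_top ?_, Int.natAbs_ne_zero.2 (hn _)⟩⟩
    obtain ⟨a, b, e⟩ : IsCoprime (l : ℤ) (n g) := Int.isCoprime_iff_gcd_eq_one.2
      ((hlP.1.coprime_iff_not_dvd).2 hd)
    have e1 := congrArg (Int.cast : ℤ → 𝓞 Qb) e
    push_cast at e1
    rw [Ideal.eq_top_iff_one, ← e1]
    exact P.add_mem (P.mul_mem_left _ hlP.2.2) (P.mul_mem_left _ h1)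

theorem ex_dec {l : ℕ} (hl : l.Prime) : ∃ D : Set GQ, IsDec l D := by
  obtain ⟨g, P, h1, h2, -⟩ := H20.exists_isFrob hl
  exact ⟨_, Or.inr ⟨hl, P, h1, h2, rfl⟩⟩

variable {F : Type} [Field F]

/-- a prime with a non trivial unipotent Frobenius element -/
theorem ex_a0 [Finite F] [CharP F 2] {ρ : GQ →* GL (Fin 2) F} (ho : IsOpen {g : GQ | ρ g = 1})
    {a : F} (ha : a ≠ 0) (h : Gp.uu a ∈ ρ.range) (S : Finset ℕ) :
    ∃ l ∉ S, ∃ (P : Ideal (𝓞 Qb)) (φ : GQ), Ov l P ∧ Fb l P φ ∧ ρ φ = Gp.uu a := by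
  obtain ⟨g, hg⟩ := h
  have h1 : Gp.uu a ≠ 1 := fun e => ha (by
    simpa [Gp.uu] using congrArg (fun m : GL (Fin 2) F => m.1 0 1) e)
  have h2 : Gp.uu a ^ 2 = 1 := by rw [sq, ← Gp.uu_add, CharTwo.add_self_eq_zero, Gp.uu_zero]
  haveI : Fact (Nat.Prime 2) := ⟨Nat.prime_two⟩
  have h3 : orderOf (ρ g) = 2 := by rw [hg]; exact orderOf_eq_prime h2 h1
  obtain ⟨φ, ⟨l, l1, l2, P, p1, p2, p3⟩, m, hm, e⟩ := P027M.TW.dens _ ρ ho S g {2}
    (by simpa using Nat.prime_two) (by norm_num) fun p hp hd => by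
      rw [h3] at hd
      exact Finset.mem_singleton.2 ((Nat.prime_dvd_prime_iff_eq hp Nat.prime_two).1 hd)
  obtain ⟨k, rfl⟩ : Odd m := by rwa [h3, Nat.coprime_two_right] at hm
  exact ⟨l, l2, P, φ, ⟨l1, p1, p2⟩, p3, by rw [e, hg, pow_succ, pow_mul, h2, one_pow, one_mul]⟩

end Hy

variable {F : Type} [Field F]

/-- the conjugate representation -/
abbrev cjr (w : GL (Fin 2) F) (ρ : GQ →* GL (Fin 2) F) : GQ →* GL (Fin 2) F :=
  (MulAut.conj w).toMonoidHom.comp ρ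

theorem cjr_apply (w : GL (Fin 2) F) (ρ : GQ →* GL (Fin 2) F) (g : GQ) :
    cjr w ρ g = w * ρ g * w⁻¹ := rfl

theorem cjr_mx (w : GL (Fin 2) F) (ρ : GQ →* GL (Fin 2) F) (g : GQ) :
    mx (cjr w ρ) g = w.1 * mx ρ g * (w⁻¹).1 := rfl

theorem cjr_one {w : GL (Fin 2) F} {ρ : GQ →* GL (Fin 2) F} {g : GQ} :
    cjr w ρ g = 1 ↔ ρ g = 1 := by
  rw [cjr_apply, mul_inv_eq_one, mul_eq_left]

open Hy in
/-- a representation in the standard position has a big set of places -/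
theorem hyp0 [Finite F] [CharP F 2] {ρ : GQ →* GL (Fin 2) F} (ho : IsOpen {g : GQ | ρ g = 1})
    (hs : Gp.Std ρ.range) {T : Finset ℕ} {D : ℕ → Set GQ} (h0 : 0 ∈ T) (h2 : 2 ∈ T)
    (hD : ∀ l ∈ T, IsDec l (D l)) :
    ∃ (A : Finset ℕ) (D' : ℕ → Set GQ), T ⊆ A ∧ (∀ l ∈ T, D' l = D l) ∧ Hyp ρ A D' := by
  classical
  have oL : IsOpen (ρ.ker : Set GQ) := ho
  have oP : IsOpen (GP ρ : Set GQ) := Subgroup.isOpen_mono (fun g hg => by
    show ρ g ∈ Gp.Up F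
    rw [show ρ g = 1 from hg]
    exact one_mem _) oL
  have oB : IsOpen (GB ρ : Set GQ) := Subgroup.isOpen_mono (fun g hg => by
    show mx ρ g 1 0 = 0
    rw [mx, show ρ g = 1 from hg]
    rfl) oL
  obtain ⟨R, pR, hR⟩ := ex_ram oL
  obtain ⟨A1, p1, b1⟩ := ex_bg oL
  obtain ⟨A2, p2, b2⟩ := ex_bg oP
  obtain ⟨A3, p3, b3⟩ := ex_bg oB
  obtain ⟨a, -, ha, -, -, hu, -⟩ := hs.two
  obtain ⟨l0, hl0, P, φ, k1, k2, k3⟩ := ex_a0 ho ha hu (insert 2 R)
  rw [Finset.mem_insert, not_or] at hl0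
  choose D0 hD0 using fun (l : ℕ) (hl : l.Prime) => ex_dec hl
  let A : Finset ℕ := T ∪ insert l0 (R ∪ (A1 ∪ (A2 ∪ A3)))
  have hA : ∀ l ∈ A, l ∉ T → l.Prime := fun l hl hT => by
    simp only [A, Finset.mem_union, Finset.mem_insert] at hl
    rcases hl with h | rfl | h | h | h | h
    exacts [absurd h hT, k1.1, pR l h, p1 l h, p2 l h, p3 l h]
  have hT : T ⊆ A := Finset.subset_union_left
  refine ⟨A, fun l => if l ∈ T then D l else if hl : l.Prime then D0 l hl else ∅, hT,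
    fun l hl => if_pos hl, ho, hs, hT h0, hT h2, fun l hl => ?_,
    fun l hl => hR l fun h => hl (by simp [A, h]), b1 A fun l h => by simp [A, h],
    b2 A fun l h => by simp [A, h], b3 A fun l h => by simp [A, h],
    l0, by simp [A], hl0.1, P, φ, k1, k2, hR l0 hl0.2 P k1, ⟨a, k3.symm⟩, fun e => ha ?_⟩
  · by_cases h : l ∈ T
    · simpa only [if_pos h] using hD l h
    · simpa only [if_neg h, dif_pos (hA l hl h)] using hD0 l (hA l hl h)
  · rw [k3] at e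
    simpa [Gp.uu] using congrArg (fun m : GL (Fin 2) F => m.1 0 1) e

/-- **the hypotheses of the lower bound** -/
theorem hyp [Finite F] [CharP F 2] {ρ : GQ →* GL (Fin 2) F} {H : Subgroup GQ} (h : Sel.Dh ρ H)
    {T : Finset ℕ} {D : ℕ → Set GQ} (h0 : 0 ∈ T) (h2 : 2 ∈ T) (hD : ∀ l ∈ T, IsDec l (D l)) :
    ∃ (w : GL (Fin 2) F) (A : Finset ℕ) (D' : ℕ → Set GQ), T ⊆ A ∧ (∀ l ∈ T, D' l = D l) ∧
      Hyp (cjr w ρ) A D' := by
  obtain ⟨w, hw⟩ := Gp.std0 F ρ.range ⟨inferInstance, by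
    rintro _ ⟨g, rfl⟩
    exact h.det g⟩ h.nsv
  rw [← MonoidHom.range_comp] at hw
  obtain ⟨A, D', k⟩ := hyp0 (ρ := cjr w ρ) (by simpa only [cjr_one] using h.opn) hw h0 h2 hD
  exact ⟨w, A, D', k⟩

end Vale.Agent.P022E.GW
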