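import Vale.Agent.P022D.Sel.Unitx

/-!
# P022E, block GW: an equivariant lattice of finite index in the units outside `A`
-/

set_option linter.all false

noncomputable section

namespace Vale.Agent.P022E.GW.Lt

open NumberField IsDedekindDomain InfinitePlace
open Vale.Agent.P022 Vale.Agent.P022.C Vale.Agent.P022D.Sel Vale.Agent.P022D.Sel.Ux
open Vale.Agent.P027M.S (Pr)
open Vale.Agent.P027M.S.Gen (cm val_cm mem_cm)
open Vale.Agent.P027M.S.Cls
open Vale.Agent.P024.H903

variable {K L : Type} [Field K] [NumberField K] [Field L] [NumberField L] [Algebra K L]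

theorem uact_mul (g h : L ≃ₐ[K] L) (x : (𝓞 L)ˣ) : uact (g * h) x = uact g (uact h x) :=
  Units.ext (RingOfIntegers.ext rfl)

theorem family : ∃ u : InfinitePlace L → (𝓞 L)ˣ,
    (∀ (g : L ≃ₐ[K] L) (w : InfinitePlace L), u (g • w) = uact g (u w)) ∧
      ∀ w w' : InfinitePlace L, w' ≠ w → Real.log (w' ((u w : 𝓞 L) : L)) < 0 := by
  classical
  choose η hη using fun w : InfinitePlace L => Units.dirichletUnitTheorem.exists_unit L w
  refine ⟨fun w => ∏ g : L ≃ₐ[K] L, uact g (η (g⁻¹ • w)), fun g w => ?_, fun w w' hw => ?_⟩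
  · rw [map_prod]
    refine (Fintype.prod_equiv (Equiv.mulLeft g) _ _ fun k => ?_).symm
    rw [Equiv.coe_mulLeft, uact_mul, mul_inv_rev, mul_smul, inv_smul_smul]
  · have h : ∀ s : Finset (L ≃ₐ[K] L), w' (((∏ g ∈ s, uact g (η (g⁻¹ • w)) : (𝓞 L)ˣ) : 𝓞 L) : L) =
        ∏ g ∈ s, (g⁻¹ • w') ((η (g⁻¹ • w) : 𝓞 L) : L) := fun s => by
      induction s using Finset.induction_on with
      | empty => simp
      | insert g s hg ih =>
        rw [Finset.prod_insert hg, Finset.prod_insert hg, P024.H903.c_mul, map_mul, ih,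
          InfinitePlace.smul_apply, uact_coe]
        rfl
    rw [h, Real.log_prod fun g _ => (Units.pos_at_place _ _).ne']
    exact Finset.sum_neg (fun g _ => hη _ _ fun e => hw (smul_left_cancel _ e))
      Finset.univ_nonempty

/-- **Minkowski units** for all automorphisms -/
theorem mink : ∃ u : InfinitePlace L → (𝓞 L)ˣ,
    (∀ (g : L ≃ₐ[K] L) (w : InfinitePlace L), ((u (g • w) : 𝓞 L) : L) = g ((u w : 𝓞 L) : L)) ∧
    (Subgroup.closure (Set.range u)).FiniteIndex ∧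
    ∃ e : InfinitePlace L → ℤ, (∀ w, 0 < e w) ∧
      (∀ (g : L ≃ₐ[K] L) (w : InfinitePlace L), e (g • w) = e w) ∧
      ∀ a : InfinitePlace L → ℤ, ∏ w, u w ^ a w = 1 ↔ ∃ k : ℤ, a = k • e := by
  obtain ⟨u, hug, hul⟩ := family (K := K) (L := L)
  obtain ⟨e, hpos, hrel⟩ := exists_rel u hul
  refine ⟨u, fun g w => by rw [hug]; rfl, finite_index u hul, e, hpos, ?_, hrel⟩
  intro g
  have h1 : ∏ w, u w ^ e (g • w) = 1 := by
    apply uact_injective g
    rw [map_prod, map_one]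
    have h2 : ∏ w, uact g (u w ^ e (g • w)) = ∏ w, u (g • w) ^ e (g • w) :=
      Finset.prod_congr rfl fun w _ => by rw [map_zpow, hug]
    rw [h2]
    have h3 := Fintype.prod_equiv (MulAction.toPerm g : Equiv.Perm (InfinitePlace L))
      (fun w => u (g • w) ^ e (g • w)) (fun w => u w ^ e w) fun w => rfl
    rw [h3]
    exact (hrel e).mpr ⟨1, (one_smul _ _).symm⟩
  obtain ⟨k, hk⟩ := (hrel fun w => e (g • w)).mp h1
  have hk' : ∀ w, e (g • w) = k * e w := fun w => by
    have := congrFun hk w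
    rwa [Pi.smul_apply, smul_eq_mul] at this
  have hsum : ∑ w, e (g • w) = ∑ w, e w :=
    Fintype.sum_equiv (MulAction.toPerm g : Equiv.Perm (InfinitePlace L)) _ _ fun w => rfl
  have hS : 0 < ∑ w, e w := Finset.sum_pos (fun w _ => hpos w) Finset.univ_nonempty
  have hk1 : k = 1 := by
    rw [Finset.sum_congr rfl fun w _ => hk' w, ← Finset.mul_sum] at hsum
    exact mul_right_cancel₀ hS.ne' (by rw [hsum, one_mul])
  intro w
  rw [hk', hk1, one_mul]

/-- the prime `σ v` -/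
def pm (A : Finset ℕ) (σ : L ≃ₐ[K] L) (v : ov L A) : ov L A :=
  ⟨mv σ.toRingEquiv v, (cm_ov _ A _).2 v.2⟩

theorem pm_coe (A : Finset ℕ) (σ : L ≃ₐ[K] L) (v : ov L A) :
    (pm A σ v : Pr L) = mv σ.toRingEquiv v := rfl

theorem pm_one (A : Finset ℕ) (v : ov L A) : pm A (1 : L ≃ₐ[K] L) v = v :=
  Subtype.ext (c_one (K := K) v.1)

theorem pm_mul (A : Finset ℕ) (σ τ : L ≃ₐ[K] L) (v : ov L A) :
    pm A (σ * τ) v = pm A σ (pm A τ v) :=
  Subtype.ext (HeightOneSpectrum.ext (Ideal.ext fun _ => Iff.rfl))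

instance fin_ov (A : Finset ℕ) : Fintype (ov L A) := (ov_fin A).fintype

variable (K L) in
/-- **the lattice** -/
theorem lat (A : Finset ℕ) : ∃ (Y : ov L A → US L A) (V : InfinitePlace L → US L A)
    (e : InfinitePlace L → ℤ) (N : ℕ), N ≠ 0 ∧ (∀ w, 0 < e w) ∧
    (∀ (σ : L ≃ₐ[K] L) v, tU σ.toRingEquiv A (Y v) = Y (pm A σ v)) ∧
    (∀ (σ : L ≃ₐ[K] L) w, tU σ.toRingEquiv A (V w) = V (σ • w)) ∧
    (∀ (σ : L ≃ₐ[K] L) w, e (σ • w) = e w) ∧
    (∀ (a : ov L A → ℤ) (b : InfinitePlace L → ℤ),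
      ∑ i, a i • Y i + ∑ j, b j • V j = 0 ↔ a = 0 ∧ ∃ k : ℤ, b = k • e) ∧
    ∀ z, ∃ (a : ov L A → ℤ) (b : InfinitePlace L → ℤ),
      ∑ i, a i • Y i + ∑ j, b j • V j = N • z := by
  classical
  obtain ⟨u, hu, hfi, e, e0, he, hrel⟩ := mink (K := K) (L := L)
  obtain ⟨n, y, n0, y0, hy, hτ⟩ := gens (K := K) (L := L)
  let Y : ov L A → US L A := fun w => Additive.ofMul ⟨Units.mk0 (y w) (y0 w), fun v hv => by
    have : v ≠ w := fun h => hv (h ▸ w.2)
    change v.valuation L (y w) = 1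
    rw [val_eq v (y0 w), hy, if_neg this]; rfl⟩
  have oY : ∀ (v : Pr L) (w : ov L A), o v (Y w) = if v = w then (n : ℤ) else 0 :=
    fun v w => hy w v
  have oU : ∀ (v : Pr L) (ε : (𝓞 L)ˣ), o v (Additive.ofMul (ι A ε) : US L A) = 0 := fun v ε => by
    change ordv v ((ε : 𝓞 L) : L) = 0
    rw [ordv, val_unit]; rfl
  have oS : ∀ (a : ov L A → ℤ) (v : ov L A), o (v : Pr L) (∑ i, a i • Y i) = a v * n := by
    intro a v
    simp only [map_sum, map_zsmul, oY, Subtype.val_inj]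
    simp
  refine ⟨Y, fun w => Additive.ofMul (ι A (u w)), e, (Subgroup.closure (Set.range u)).index * n,
    mul_ne_zero hfi.index_ne_zero n0, e0, fun σ w => el_inj (hτ σ w),
    fun σ w => el_inj (hu σ w).symm, he, fun a b => ⟨fun h => ?_, ?_⟩, fun z => ?_⟩
  · have ha : a = 0 := funext fun v => by
      have := congrArg (o (v : Pr L)) h
      rw [sum_ι, map_add, oS, oU, add_zero, map_zero] at this
      exact (mul_eq_zero.1 this).resolve_right (Int.natCast_ne_zero.2 n0)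
    refine ⟨ha, (hrel b).1 ?_⟩
    rw [ha, sum_ι] at h
    simp only [Pi.zero_apply, zero_smul, Finset.sum_const_zero, zero_add] at h
    have := congrArg el h
    rw [el_ι] at this
    exact Units.ext (RingOfIntegers.coe_injective this)
  · rintro ⟨rfl, h⟩
    rw [sum_ι, (hrel b).2 h, map_one]
    simp
  · obtain ⟨ε, hε⟩ := unit_of (el_ne (n • z - ∑ i : ov L A, o (i : Pr L) z • Y i)) fun v => by
      by_cases hv : v ∈ ov L A
      · change o v _ = 0
        rw [map_sub, oS _ ⟨v, hv⟩, map_nsmul]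
        simp [mul_comm]
      · rw [ordv, el, (Additive.toMul (n • z - ∑ i : ov L A, o (i : Pr L) z • Y i)).2 v hv]; rfl
    obtain ⟨b, hb⟩ := Subgroup.mem_closure_range_iff_of_fintype.1
      ((Subgroup.closure (Set.range u)).pow_index_mem ε)
    refine ⟨fun i => ((Subgroup.closure (Set.range u)).index : ℤ) * o (i : Pr L) z, b, ?_⟩
    have h1 : (Additive.ofMul (ι A ε) : US L A) = n • z - ∑ i : ov L A, o (i : Pr L) z • Y i :=
      el_inj hε
    rw [sum_ι, ← hb, map_pow, ofMul_pow, h1, mul_smul, nsmul_sub, ← Finset.sum_nsmul]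
    simp only [mul_zsmul, natCast_zsmul]
    abel

end Vale.Agent.P022E.GW.Lt
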