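import Vale.Agent.P022E.GW.Defs
import Vale.Agent.P022D.Sel.Pl
import Vale.Agent.P022D.Sel.Adm
import Vale.Agent.P022D.Sel.Kum

/-!
# P022E, block GW: conjugates of decomposition groups
-/

set_option linter.all false

noncomputable section

namespace Vale.Agent.P022E.GW.H35

open NumberField
open Vale.Agent.P022 Vale.Agent.P022.H443
open Vale.Agent.P027M.S (Inert mx)
open Vale.Agent.P022D.Sel (M2 IsDec TanP Big Stab)
open Vale.Agent.P022D.W (dec)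
open scoped Pointwise

/-- the conjugate by `g` of the group generated by `D` -/
def Dg (D : Set GQ) (g : GQ) : Subgroup GQ where
  carrier := {x | g⁻¹ * x * g ∈ Subgroup.closure D}
  mul_mem' {x y} hx hy := by
    have h := (Subgroup.closure D).mul_mem hx hy
    rwa [show g⁻¹ * x * g * (g⁻¹ * y * g) = g⁻¹ * (x * y) * g by group] at h
  one_mem' := by
    show g⁻¹ * 1 * g ∈ Subgroup.closure D
    rw [mul_one, inv_mul_cancel]; exact one_mem _
  inv_mem' {x} hx := by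
    have h := (Subgroup.closure D).inv_mem hx
    rwa [show (g⁻¹ * x * g)⁻¹ = g⁻¹ * x⁻¹ * g by group] at h

theorem mem_Dg {D : Set GQ} {g x : GQ} : x ∈ Dg D g ↔ g⁻¹ * x * g ∈ Subgroup.closure D := Iff.rfl

theorem Dg_right {D : Set GQ} {d : GQ} (hd : d ∈ D) (g : GQ) : Dg D (g * d) = Dg D g := by
  ext x
  have h := Subgroup.subset_closure hd
  rw [mem_Dg, mem_Dg, show (g * d)⁻¹ * x * (g * d) = d⁻¹ * (g⁻¹ * x * g) * d by group,
    Subgroup.mul_mem_cancel_right _ h, Subgroup.mul_mem_cancel_left _ (inv_mem h)]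

theorem Dg_left (D : Set GQ) (γ g x : GQ) : x ∈ Dg D g ↔ γ * x * γ⁻¹ ∈ Dg D (γ * g) := by
  rw [mem_Dg, mem_Dg, show (γ * g)⁻¹ * (γ * x * γ⁻¹) * (γ * g) = g⁻¹ * x * g by group]

theorem conj_sq {c : GQ} (h : IsConj c) : c * c = 1 := by
  obtain ⟨φ, hφ⟩ := h
  refine AlgEquiv.ext fun x => φ.injective ?_
  rw [AlgEquiv.mul_apply, hφ, hφ, Complex.conj_conj]; rfl

theorem cl_two {c : GQ} (h : IsConj c) (x : GQ) :
    x ∈ Subgroup.closure ({1, c} : Set GQ) ↔ x = 1 ∨ x = c := by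
  refine ⟨fun k => ?_, fun k => Subgroup.subset_closure k⟩
  induction k using Subgroup.closure_induction with
  | mem x hx => exact hx
  | one => exact Or.inl rfl
  | mul x y _ _ hx hy =>
    rcases hx with rfl | rfl <;> rcases hy with rfl | rfl
    · exact Or.inl (mul_one _)
    · exact Or.inr (one_mul _)
    · exact Or.inr (mul_one _)
    · exact Or.inl (conj_sq h)
  | inv x _ hx =>
    rcases hx with rfl | rfl
    · exact Or.inl inv_one
    · exact Or.inr (inv_eq_of_mul_eq_one_left (conj_sq h))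

theorem cl_dec (P : Ideal (𝓞 Qb)) : Subgroup.closure {g | Stab P g} = dec P :=
  Subgroup.closure_eq (dec P)

theorem mem_dec_smul (P : Ideal (𝓞 Qb)) (g x : GQ) : x ∈ dec (g • P) ↔ g⁻¹ * x * g ∈ dec P := by
  refine ⟨fun h => P022D.Sel.AdmA.stab_conj h, fun h => ?_⟩
  have h2 : Stab (g⁻¹ • g • P) (g⁻¹ * x * g) := by rwa [inv_smul_smul]
  have h3 := P022D.Sel.AdmA.stab_conj h2
  rwa [show g⁻¹⁻¹ * (g⁻¹ * x * g) * g⁻¹ = x by group] at h3

theorem Dg_dec (P : Ideal (𝓞 Qb)) (g : GQ) : Dg {x | Stab P x} g = dec (g • P) := by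
  ext x
  rw [mem_Dg, cl_dec, mem_dec_smul]

theorem ov_smul {l : ℕ} {P : Ideal (𝓞 Qb)} (h : Ov l P) (g : GQ) : Ov l (g • P) :=
  ⟨h.1, P022D.Sel.Pl.prime_smul g h.2.1, by
    rw [P022D.Sel.Pl.mem_smul, P022D.Sel.Pl.smul_nat]; exact h.2.2⟩

theorem ov_trans {l : ℕ} {P R : Ideal (𝓞 Qb)} (h : Ov l P) (k : Ov l R) : ∃ g : GQ, R = g • P := by
  obtain ⟨g, hg⟩ := H916.exists_smul (algebraMap ℚ Qb) h.2.1 k.2.1
    (by rw [P022D.Sel.Pl.below_rat h.1 h.2.1 h.2.2, P022D.Sel.Pl.below_rat h.1 k.2.1 k.2.2])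
  exact ⟨g, hg⟩

theorem isDec_dec {l : ℕ} {P : Ideal (𝓞 Qb)} (h : Ov l P) : IsDec l (dec P : Set GQ) :=
  Or.inr ⟨h.1, P, h.2.1, h.2.2, rfl⟩

theorem Dg_two {c : GQ} (h : IsConj c) (g : GQ) :
    (Dg {1, c} g : Set GQ) = {1, g * c * g⁻¹} := by
  ext x
  rw [SetLike.mem_coe, mem_Dg, cl_two h]
  refine or_congr ⟨fun k => ?_, fun k => ?_⟩ ⟨fun k => ?_, fun k => ?_⟩
  · rw [show x = g * (g⁻¹ * x * g) * g⁻¹ by group, k]; group
  · rw [k]; group
  · show x = g * c * g⁻¹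
    rw [← k]; group
  · rw [show x = g * c * g⁻¹ from k]; group

theorem isDec_Dg {l : ℕ} {D : Set GQ} (h : IsDec l D) (g : GQ) : IsDec l (Dg D g : Set GQ) := by
  rcases h with ⟨h0, c, hc, rfl⟩ | ⟨hl, P, hP, hlP, rfl⟩
  · refine Or.inl ⟨h0, g * c * g⁻¹, ?_, Dg_two hc g⟩
    obtain ⟨φ, hφ⟩ := hc
    refine ⟨φ.comp (g⁻¹ : GQ).toRingEquiv.toRingHom, fun x => ?_⟩
    show φ (g⁻¹ ((g * c * g⁻¹) x)) = starRingEnd ℂ (φ (g⁻¹ x))
    rw [← hφ, ← AlgEquiv.mul_apply, ← AlgEquiv.mul_apply]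
    exact congrArg (fun k : GQ => φ (k x)) (by group)
  · rw [Dg_dec]
    exact isDec_dec (ov_smul ⟨hl, hP, hlP⟩ g)

theorem ex_Dg {l : ℕ} {D : Set GQ} {E : Subgroup GQ} (h : IsDec l D) (k : IsDec l (E : Set GQ)) :
    ∃ g, E = Dg D g := by
  rcases h with ⟨h0, c, hc, rfl⟩ | ⟨hl, P, hP, hlP, rfl⟩
  · rcases k with ⟨-, c', hc', e⟩ | ⟨hl, -⟩
    · obtain ⟨t, ht⟩ := P022D.Sel.AdmA.conj_conj hc' hc
      refine ⟨t, SetLike.coe_injective ?_⟩
      rw [Dg_two hc, e, ← ht, mul_inv_cancel_right]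
    · exact absurd (h0 ▸ hl) Nat.not_prime_zero
  · rcases k with ⟨h0, -⟩ | ⟨-, R, hR, hlR, e⟩
    · exact absurd (h0 ▸ hl) Nat.not_prime_zero
    · obtain ⟨g, rfl⟩ := ov_trans ⟨hl, hP, hlP⟩ ⟨hl, hR, hlR⟩
      exact ⟨g, by rw [Dg_dec]; exact SetLike.coe_injective e⟩

theorem dec_of {l : ℕ} (hl : l ≠ 0) {D : Set GQ} (h : IsDec l D) :
    ∃ P, Ov l P ∧ D = {x | Stab P x} := by
  rcases h with ⟨h0, -⟩ | ⟨hl, P, hP, hlP, e⟩
  · exact absurd h0 hl
  · exact ⟨P, ⟨hl, hP, hlP⟩, e⟩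

theorem inert_conj {P : Ideal (𝓞 Qb)} {i : GQ} (h : Inert P i) (k : GQ) :
    Inert (k⁻¹ • P) (k⁻¹ * i * k) := fun x => by
  rw [P022D.Sel.Pl.mem_smul, inv_inv, smul_sub, mul_smul, mul_smul, smul_inv_smul]
  exact h _

open Vale.Agent.P022.C Vale.Agent.P022.H916 IsDedekindDomain in
open Vale.Agent.P027M.S (Pr) in
open Vale.Agent.P027M.S.Loc (jQ mem_GK belowQ ordvQ) in
/-- the square root of `l` is ramified -/
theorem ex_gn {l : ℕ} {P : Ideal (𝓞 Qb)} (hO : Ov l P) : ∃ τ, Gn l P τ := by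
  obtain ⟨hl, hP, h⟩ := hO
  obtain ⟨b, hb⟩ := IsAlgClosed.exists_pow_nat_eq (l : Qb) two_pos
  have pm : ∀ g : GQ, g b = b ∨ g b = -b := fun g =>
    P022D.Sel.Kum.pm (by rw [hb, map_natCast])
  by_contra hc
  have hn : ∀ g, Inert P g → g b = b := fun g hg => (pm g).resolve_right fun e => hc ⟨g, hg,
    fun w hw => by
      rcases sq_eq_sq_iff_eq_or_eq_neg.1 (hw.trans hb.symm) with k | k <;> rw [k]
      · exact e
      · rw [map_neg, e]⟩
  have hnm : ∀ g ∈ GK jQ, ∀ u ∈ MulAction.stabilizer GQ b,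
      g * u * g⁻¹ ∈ MulAction.stabilizer GQ b := by
    intro g _ u hu
    have u1 : u b = b := hu
    have u2 : u (g⁻¹ b) = g⁻¹ b := by
      rcases pm g⁻¹ with e | e <;> rw [e]
      · exact u1
      · rw [map_neg, u1]
    show (g * u * g⁻¹) b = b
    rw [AlgEquiv.mul_apply, AlgEquiv.mul_apply, u2, ← AlgEquiv.mul_apply, mul_inv_cancel]
    rfl
  obtain ⟨M, _, _, _, _, jM, ρ, D, hM, hker⟩ := exists_fld jQ (MulAction.stabilizer GQ b)
    (stabilizer_isOpen_of_isIntegral b) (fun g _ => mem_GK g) hnm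
  obtain ⟨b', hb'⟩ : ∃ b', jM b' = b := fixed jM fun g =>
    show (g : GQ) ∈ MulAction.stabilizer GQ b from hM ▸ g.2
  have hne : below jM P ≠ ⊥ := by
    intro h0
    have : (l : 𝓞 M) ∈ below jM P := by
      show RingOfIntegers.mapRingHom jM (l : 𝓞 M) ∈ P
      rwa [map_natCast]
    rw [h0, Ideal.mem_bot] at this
    exact hl.ne_zero (by exact_mod_cast this)
  let v' : Pr M := ⟨below jM P, Ideal.IsPrime.comap _, hne⟩
  let v : Pr ℚ := ⟨below jQ P, Ideal.IsPrime.comap _, by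
    rw [belowQ hP hl h, Ne, Ideal.span_singleton_eq_bot]
    exact_mod_cast hl.ne_zero⟩
  have hin : ∀ g : GK jQ, (∀ x : 𝓞 Qb, (g : GQ) • x - x ∈ P) → ρ g = 1 := fun g hg =>
    (hker g).2 (hn g hg)
  have c0 : (l : ℤ) ≠ 0 := Int.natCast_ne_zero.2 hl.ne_zero
  have key := H269.UNRV ℚ M v v' (D.below_comap P)
    (fun g hg => D.inertia_eq_bot hP hin hg) ((l : ℤ) : ℚ)
  rw [ordvQ v hl (belowQ hP hl h) c0] at key
  have b0 : b' ≠ 0 := by
    rintro rfl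
    rw [← hb', map_zero, zero_pow (by norm_num)] at hb
    exact hl.ne_zero (by exact_mod_cast hb.symm)
  have e : (b' ^ 2 : M) = ((l : ℤ) : M) :=
    jM.injective (by rw [map_pow, hb', hb, map_intCast, Int.cast_natCast])
  rw [map_intCast, ← e, P027M.S.Cls.ordv_pow v' b0] at key
  haveI := Fact.mk hl
  rw [padicValInt_self] at key
  omega

end Vale.Agent.P022E.GW.H35
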