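import Vale.Agent.P022E.GW.Defs
import Vale.Agent.P022E.GW.Bor

/-!
# P022E, block GW, row LBB (second proof): linear algebra and matrices
-/

set_option linter.all false

noncomputable section

namespace Vale.Agent.P022E.GW.H60

open NumberField
open Vale.Agent.P022 Vale.Agent.P022.H443
open Vale.Agent.P027M.S (Inert mx)
open Vale.Agent.P022D.Sel (M2 IsDec)

variable {F : Type} [Field F]

theorem rk_le {V W U : Type} [AddCommGroup V] [Module F V] [AddCommGroup W] [Module F W]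
    [AddCommGroup U] [Module F U] (f : V →ₗ[F] W) (g : LinearMap.ker f →ₗ[F] U)
    (hg : Function.Injective g) : Module.rank F V ≤ Module.rank F W + Module.rank F U := by
  rw [← f.rank_range_add_rank_ker]
  exact add_le_add (Submodule.rank_le _) (g.rank_le_of_injective hg)

theorem rk_ge {V W U : Type} [AddCommGroup V] [Module F V] [AddCommGroup W] [Module F W]
    [AddCommGroup U] [Module F U] (f : V →ₗ[F] W) (K : Submodule F W) (hK : K ≤ LinearMap.range f)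
    (g : U →ₗ[F] LinearMap.ker f) (hg : Function.Injective g) :
    Module.rank F K + Module.rank F U ≤ Module.rank F V := by
  rw [← f.rank_range_add_rank_ker]
  exact add_le_add (Submodule.rank_mono hK) (g.rank_le_of_injective hg)

section ft

variable (θ : GQ → F) (T : Finset ℕ) (D : ℕ → Set GQ) (Γ : Subgroup GQ)

/-- the equivariant functions with support in `S` -/
def FS (S : Set (ℕ × GQ)) : Submodule F (ℕ → GQ → F) where
  carrier := {f | f ∈ Ft θ T D Γ ∧ ∀ l g, (l, g) ∉ S → f l g = 0}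
  add_mem' {a b} ha hb := ⟨add_mem ha.1 hb.1, fun l g h => by
    simp only [Pi.add_apply]; rw [ha.2 l g h, hb.2 l g h, add_zero]⟩
  zero_mem' := ⟨zero_mem _, fun _ _ _ => rfl⟩
  smul_mem' r a ha := ⟨Submodule.smul_mem _ r ha.1, fun l g h => by
    simp only [Pi.smul_apply]; rw [ha.2 l g h, smul_zero]⟩

theorem FS_le (S : Set (ℕ × GQ)) : Module.rank F (FS θ T D Γ S) ≤ Module.rank F (Ft θ T D Γ) :=
  Submodule.rank_mono fun _ h => h.1

theorem FS_union {S S' : Set (ℕ × GQ)} (h : Disjoint S S') :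
    Module.rank F (FS θ T D Γ S) + Module.rank F (FS θ T D Γ S') ≤
      Module.rank F (FS θ T D Γ (S ∪ S')) := by
  have h1 : FS θ T D Γ S ⊓ FS θ T D Γ S' = ⊥ := by
    rw [eq_bot_iff]
    intro f hf
    rw [Submodule.mem_bot]
    funext l g
    by_cases k : (l, g) ∈ S
    · exact hf.2.2 l g (Set.disjoint_left.1 h k)
    · exact hf.1.2 l g k
  rw [← Submodule.rank_sup_add_rank_inf_eq, h1, rank_bot, add_zero]
  refine Submodule.rank_mono (sup_le ?_ ?_)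
  · exact fun f hf => ⟨hf.1, fun l g k => hf.2 l g fun k' => k (Or.inl k')⟩
  · exact fun f hf => ⟨hf.1, fun l g k => hf.2 l g fun k' => k (Or.inr k')⟩

theorem FS_fin [Finite F] (hΓ : IsOpen (Γ : Set GQ)) (S : Set (ℕ × GQ)) :
    Finite (FS θ T D Γ S) := by
  have := galQb
  haveI : Finite (GQ ⧸ Γ) := Γ.quotient_finite_of_isOpen hΓ
  refine Finite.of_injective
    (fun f : FS θ T D Γ S => fun (l : T) (q : GQ ⧸ Γ) => f.1 l q.out⁻¹) fun f f' h => ?_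
  refine Subtype.ext (funext fun l => ?_)
  by_cases hl : l ∈ T
  · funext g
    have e : g * (QuotientGroup.mk g⁻¹ : GQ ⧸ Γ).out ∈ Γ := by
      have := QuotientGroup.eq.1 (QuotientGroup.out_eq' (QuotientGroup.mk g⁻¹ : GQ ⧸ Γ)).symm
      rwa [inv_inv] at this
    have k := congrFun (congrFun h ⟨l, hl⟩) (QuotientGroup.mk g⁻¹)
    have e1 := f.2.1.2.1 l _ e (QuotientGroup.mk g⁻¹ : GQ ⧸ Γ).out⁻¹
    have e2 := f'.2.1.2.1 l _ e (QuotientGroup.mk g⁻¹ : GQ ⧸ Γ).out⁻¹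
    rw [mul_inv_cancel_right] at e1 e2
    rw [e1, e2]
    exact congrArg _ k
  · rw [f.2.1.1 l hl, f'.2.1.1 l hl]

theorem FS_lt [Finite F] (hΓ : IsOpen (Γ : Set GQ)) (S : Set (ℕ × GQ)) :
    Module.rank F (FS θ T D Γ S) < Cardinal.aleph0 := by
  haveI := FS_fin θ T D Γ hΓ S
  exact Module.rank_lt_aleph0 F _

theorem FS_inv [Finite F] (hΓ : IsOpen (Γ : Set GQ)) (S : Set (ℕ × GQ)) (θ' : GQ → F)
    (h : ∀ g ∈ Γ, θ' g = (θ g)⁻¹) :
    Module.rank F (FS θ T D Γ S) ≤ Module.rank F (FS θ' T D Γ S) := by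
  haveI := FS_fin θ T D Γ hΓ S
  haveI := FS_fin θ' T D Γ hΓ S
  let j : FS θ T D Γ S → FS θ' T D Γ S := fun f => ⟨fun l g => (f.1 l g)⁻¹,
    ⟨fun l hl => by
        funext g
        show (f.1 l g)⁻¹ = 0
        rw [f.2.1.1 l hl]; simp,
      fun l γ hγ g => by
        show (f.1 l (γ * g))⁻¹ = θ' γ * (f.1 l g)⁻¹
        rw [f.2.1.2.1 l γ hγ g, h γ hγ, mul_inv],
      fun l d hd g => by
        show (f.1 l (g * d))⁻¹ = (f.1 l g)⁻¹
        rw [f.2.1.2.2 l d hd g]⟩,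
    fun l g k => by
      show (f.1 l g)⁻¹ = 0
      rw [f.2.2 l g k, inv_zero]⟩
  have hj : Function.Injective j := fun f f' e => Subtype.ext (funext fun l => funext fun g =>
    inv_injective (congrFun (congrFun (congrArg Subtype.val e) l) g))
  have h1 := Nat.card_le_card_of_injective j hj
  rw [Module.natCard_eq_pow_finrank (K := F) (V := FS θ T D Γ S),
    Module.natCard_eq_pow_finrank (K := F) (V := FS θ' T D Γ S),
    Nat.pow_le_pow_iff_right Finite.one_lt_card] at h1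
  rw [← Module.finrank_eq_rank, ← Module.finrank_eq_rank]
  exact_mod_cast h1

theorem FS_one {S : Set (ℕ × GQ)} (hT : ∀ p ∈ S, p.1 ∈ T)
    (h1 : ∀ l, ∀ γ ∈ Γ, ∀ g, (l, γ * g) ∈ S ↔ (l, g) ∈ S)
    (h2 : ∀ l, ∀ d ∈ D l, ∀ g, (l, g * d) ∈ S ↔ (l, g) ∈ S) (hS : S.Nonempty) :
    1 ≤ Module.rank F (FS (fun _ => (1 : F)) T D Γ S) := by
  classical
  let f : FS (fun _ => (1 : F)) T D Γ S := ⟨fun l g => if (l, g) ∈ S then 1 else 0,
    ⟨fun l hl => by funext g; exact if_neg fun k => hl (hT _ k),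
      fun l γ hγ g => by simp only [h1 l γ hγ g, one_mul],
      fun l d hd g => by simp only [h2 l d hd g]⟩, fun l g k => if_neg k⟩
  obtain ⟨⟨l, g⟩, k⟩ := hS
  have : f ≠ 0 := fun e => by
    have := congrFun (congrFun (congrArg Subtype.val e) l) g
    simp only [f, if_pos k] at this
    exact one_ne_zero this
  haveI : Nontrivial (FS (fun _ => (1 : F)) T D Γ S) := ⟨f, 0, this⟩
  exact Cardinal.one_le_iff_pos.2 rank_pos

end ft

section mat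

variable {ρ : GQ →* GL (Fin 2) F}

theorem mxm (g h : GQ) : mx ρ (g * h) = mx ρ g * mx ρ h := congrArg Units.val (map_mul ρ g h)

theorem mx1 {g : GQ} (hg : ρ g = 1) : mx ρ g = 1 := congrArg Units.val hg

theorem mP {g : GQ} : g ∈ GP ρ ↔ mx ρ g 1 0 = 0 ∧ mx ρ g 0 0 = 1 ∧ mx ρ g 1 1 = 1 := Bor.mem_GP

theorem PB : GP ρ ≤ GB ρ := fun _ h => (mP.1 h).1

theorem kP {g : GQ} (hg : ρ g = 1) : g ∈ GP ρ := Bor.ker_le hg

theorem b1 {g : GQ} (hg : ρ g = 1) : mx ρ g 0 1 = 0 := by rw [mx1 hg]; simp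

theorem cjP {g p : GQ} (hg : g ∈ GB ρ) (hp : p ∈ GP ρ) : g * p * g⁻¹ ∈ GP ρ := Bor.nrm hg hp

theorem cjP' {g : GQ} (hg : g ∈ GB ρ) (p : GQ) : p ∈ GP ρ ↔ g * p * g⁻¹ ∈ GP ρ :=
  ⟨cjP hg, fun h => by
    have := cjP ((GB ρ).inv_mem hg) h
    rwa [show g⁻¹ * (g * p * g⁻¹) * g⁻¹⁻¹ = p by group] at this⟩

theorem m00 (g : GQ) {h : GQ} (a : h ∈ GB ρ) : mx ρ (g * h) 0 0 = mx ρ g 0 0 * mx ρ h 0 0 :=
  Bor.e00 a

theorem m11 {g : GQ} (a : g ∈ GB ρ) (h : GQ) : mx ρ (g * h) 1 1 = mx ρ g 1 1 * mx ρ h 1 1 :=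
  Bor.e11 a

theorem m01 (g h : GQ) :
    mx ρ (g * h) 0 1 = mx ρ g 0 0 * mx ρ h 0 1 + mx ρ g 0 1 * mx ρ h 1 1 := by
  rw [mxm, Matrix.mul_apply, Fin.sum_univ_two]

theorem opK (h : IsOpen {g : GQ | ρ g = 1}) : IsOpen (ρ.ker : Set GQ) := h

theorem opP (h : IsOpen {g : GQ | ρ g = 1}) : IsOpen (GP ρ : Set GQ) :=
  Subgroup.isOpen_mono (H₁ := ρ.ker) (fun _ k => kP k) h

theorem opB (h : IsOpen {g : GQ | ρ g = 1}) : IsOpen (GB ρ : Set GQ) :=
  Subgroup.isOpen_mono PB (opP h)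

variable [CharP F 2] (S : Gp.Std ρ.range)
include S

theorem tt {g : GQ} (h : g ∈ GB ρ) : mx ρ g 0 0 * mx ρ g 1 1 = 1 := Bor.d01 S h

theorem minv {g : GQ} (h : g ∈ GB ρ) :
    mx ρ g⁻¹ = !![mx ρ g 1 1, mx ρ g 0 1; 0, mx ρ g 0 0] := by
  have h0 : mx ρ g 1 0 = 0 := h
  have e : mx ρ g⁻¹ * mx ρ g = 1 := by rw [← mxm, inv_mul_cancel, mx1 (map_one ρ)]
  have e' : mx ρ g * !![mx ρ g 1 1, mx ρ g 0 1; 0, mx ρ g 0 0] = 1 := by
    have t := tt S h
    have two : (2 : F) = 0 := CharTwo.two_eq_zero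
    ext i j
    fin_cases i <;> fin_cases j <;> simp [Matrix.mul_apply, Fin.sum_univ_two, h0]
    · exact t
    · linear_combination (mx ρ g 0 0 * mx ρ g 0 1) * two
    · linear_combination t
  rw [← mul_one (mx ρ g⁻¹), ← e', ← mul_assoc, e, one_mul]

theorem adj {g : GQ} (h : g ∈ GB ρ) (X : M2 F) :
    (mx ρ g * X * mx ρ g⁻¹) 0 0 = X 0 0 + mx ρ g 0 1 * mx ρ g 1 1 * X 1 0 ∧
    (mx ρ g * X * mx ρ g⁻¹) 0 1 = mx ρ g 0 0 ^ 2 * X 0 1 +
      mx ρ g 0 0 * mx ρ g 0 1 * (X 0 0 + X 1 1) + mx ρ g 0 1 ^ 2 * X 1 0 ∧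
    (mx ρ g * X * mx ρ g⁻¹) 1 0 = mx ρ g 1 1 ^ 2 * X 1 0 ∧
    (mx ρ g * X * mx ρ g⁻¹) 1 1 = X 1 1 + mx ρ g 0 1 * mx ρ g 1 1 * X 1 0 := by
  have h0 : mx ρ g 1 0 = 0 := h
  have t := tt S h
  rw [minv S h]
  refine ⟨?_, ?_, ?_, ?_⟩ <;> simp [Matrix.mul_apply, Fin.sum_univ_two, h0]
  · linear_combination (X 0 0) * t
  · ring
  · ring
  · linear_combination (X 1 1) * t

theorem cjb {g p : GQ} (hg : g ∈ GB ρ) (hp : p ∈ GP ρ) :
    mx ρ (g * p * g⁻¹) 0 1 = mx ρ g 0 0 ^ 2 * mx ρ p 0 1 := by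
  obtain ⟨p0, p1, p2⟩ := mP.1 hp
  have two : (2 : F) = 0 := CharTwo.two_eq_zero
  rw [mxm, mxm, (adj S hg _).2.1, p0, p1, p2]
  linear_combination (mx ρ g 0 0 * mx ρ g 0 1) * two

theorem oddR [Finite F] {K : Subgroup GQ} (hK : K ≤ GB ρ) : Odd ((GP ρ).relIndex K) := by
  let f : K →* Fˣ := (Bor.dg ρ).comp (Subgroup.inclusion hK)
  have e : (GP ρ).subgroupOf K = f.ker := by
    ext g
    rw [MonoidHom.mem_ker, Subgroup.mem_subgroupOf, Units.ext_iff]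
    exact Bor.mem_P S (hK g.2)
  rw [Subgroup.relIndex, e, Subgroup.index_ker]
  refine Odd.of_dvd_nat ?_ (Subgroup.card_subgroup_dvd_card f.range)
  haveI := Fintype.ofFinite F
  obtain ⟨n, -, hn⟩ := FiniteField.card F 2
  rw [Nat.card_units, Nat.card_eq_fintype_card, hn]
  exact Nat.Even.sub_odd (Nat.one_le_two_pow) ((Nat.even_pow' n.ne_zero).2 even_two) odd_one

theorem exh : ∃ h ∈ GB ρ, mx ρ h 0 0 ^ 2 ≠ 1 ∧ mx ρ h 1 1 ^ 2 ≠ 1 := by
  obtain ⟨h, hB, h1, -⟩ := Bor.gen S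
  refine ⟨h, hB, h1, fun k => h1 ?_⟩
  have t := tt S hB
  have : (mx ρ h 0 0 * mx ρ h 1 1) ^ 2 = 1 := by rw [t, one_pow]
  rwa [mul_pow, k, mul_one] at this

end mat

end Vale.Agent.P022E.GW.H60
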