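import Vale.Agent.P022E.GW.LbH60a
import Vale.Agent.P022E.GW.Gys
import Vale.Agent.P022E.GW.Cor
import Vale.Agent.P022E.GW.RecA
import Vale.Agent.P022D.Sel.Pl

/-!
# P022E, block GW, row LBB (second proof): lifting a pair of characters to a cocycle
-/

set_option linter.all false

noncomputable section

namespace Vale.Agent.P022E.GW.H60

open NumberField
open Vale.Agent.P022 Vale.Agent.P022.H443
open Vale.Agent.P027M.S (Inert mx)
open Vale.Agent.P022D.Sel (M2 IsDec)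
open Vale.Agent.P022D.L2c (Hm Cob IsZ2 cup up)
open Vale.Agent.P022D.W (dec)
open scoped Pointwise

variable {F : Type} [Field F]

theorem lc {A : Type} (H U : Subgroup GQ) (hU : IsOpen (U : Set GQ)) (f : GQ → A)
    (h : ∀ g ∈ H, ∀ u ∈ H, u ∈ U → f (g * u) = f g) : IsLocallyConstant fun x : H => f x := by
  refine (IsLocallyConstant.iff_eventually_eq _).2 fun g => ?_
  have ho : IsOpen ((fun x : H => (g.1⁻¹ * x.1 : GQ)) ⁻¹' (U : Set GQ)) :=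
    hU.preimage (continuous_const.mul continuous_subtype_val)
  filter_upwards [ho.mem_nhds (show g ∈ _ by simp [U.one_mem])] with x hx
  have k := h g g.2 (g.1⁻¹ * x.1) (H.mul_mem (H.inv_mem g.2) x.2) hx
  rwa [mul_inv_cancel_left] at k

theorem ch_of {H : Subgroup GQ} {a : GQ → F} (h : ∀ g ∈ H, ∀ k ∈ H, a (g * k) = a g + a k)
    (ho : Op a) : Ch H a := by
  obtain ⟨U, hU, h0⟩ := ho
  exact ⟨lc H U hU a fun g hg u hu k => by rw [h g hg u hu, h0 u k, add_zero],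
    fun x y => h x x.2 y y.2⟩

theorem Ch.add' {H : Subgroup GQ} {a : GQ → F} (h : Ch H a) {g k : GQ} (hg : g ∈ H)
    (hk : k ∈ H) : a (g * k) = a g + a k := h.2 ⟨g, hg⟩ ⟨k, hk⟩

theorem Ch.one' {H : Subgroup GQ} {a : GQ → F} (h : Ch H a) : a 1 = 0 := by
  have := Ch.add' h H.one_mem H.one_mem
  rw [mul_one] at this
  exact left_eq_add.1 this

theorem ch_le {H K : Subgroup GQ} (le : H ≤ K) {a : GQ → F} (h : Ch K a) : Ch H a :=
  Gy.hm_le le h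

theorem cb_le {H K : Subgroup GQ} (le : H ≤ K) {z z' : GQ → GQ → F} (h : Cb K z)
    (e : ∀ g ∈ H, ∀ k ∈ H, z' g k = z g k) : Cb H z' := by
  have h1 : rs H z' = rs H z := funext fun a => funext fun b => e a a.2 b b.2
  unfold Cb
  rw [h1]
  exact Gy.cob_le le h

theorem cb_zero {H : Subgroup GQ} {z : GQ → GQ → F} (e : ∀ g ∈ H, ∀ k ∈ H, z g k = 0) :
    Cb H z := by
  have h1 : rs H z = 0 := funext fun a => funext fun b => e a a.2 b b.2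
  unfold Cb
  rw [h1]
  exact zero_mem _

theorem cb_add {H : Subgroup GQ} {z z' : GQ → GQ → F} (h : Cb H z) (h' : Cb H z') :
    Cb H (z + z') := add_mem h h'

theorem z2_cup {H : Subgroup GQ} {a b : GQ → F} (ha : Ch H a) (hb : Ch H b) : Z2 H (cup a b) :=
  Gy.z2_cup ha hb

theorem z2_add {H : Subgroup GQ} {z z' : GQ → GQ → F} (h : Z2 H z) (h' : Z2 H z') :
    Z2 H (z + z') := Gy.z2_add h h'

theorem inert_cj {P : Ideal (𝓞 Qb)} {i : GQ} (h : Inert P i) (k : GQ) :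
    Inert (k • P) (k * i * k⁻¹) := fun x => by
  rw [P022D.Sel.Pl.mem_smul, smul_sub, ← mul_smul, show k⁻¹ * (k * i * k⁻¹) = i * k⁻¹ by group,
    mul_smul]
  exact h _

theorem ov_smul {l : ℕ} {P : Ideal (𝓞 Qb)} (h : Ov l P) (k : GQ) : Ov l (k • P) :=
  ⟨h.1, P022D.Sel.Pl.prime_smul k h.2.1, by
    rw [P022D.Sel.Pl.mem_smul, P022D.Sel.Pl.smul_nat]; exact h.2.2⟩

/-- an unramified solution of `d x = o` -/
theorem solve [Finite F] [CharP F 2] (hX : FIX) {H : Subgroup GQ} {T : Finset ℕ} (hB : Bg H T)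
    (h2 : 2 ∈ T) {o : GQ → GQ → F} (ho : Cb H o) (h1 : o 1 1 = 0)
    (hu : ∀ l ∉ T, ∀ P : Ideal (𝓞 Qb), Ov l P → ∀ i ∈ H, Inert P i → ∀ g ∈ H, ∀ k ∈ H,
      o (g * i) k = o g k ∧ o g i = 0) :
    ∃ x : GQ → F, (∀ g ∈ H, ∀ k ∈ H, x (g * k) = x g + x k + o g k) ∧
      (∃ U : Subgroup GQ, IsOpen (U : Set GQ) ∧ ∀ σ ∈ H, σ ∈ U → x σ = 0) ∧
      ∀ l ∉ T, ∀ P : Ideal (𝓞 Qb), Ov l P → ∀ i ∈ H, Inert P i → x i = 0 := by
  obtain ⟨z, hz, h⟩ := ho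
  have hw : ∀ g ∈ H, ∀ k ∈ H, Gy.ex0 H z (g * k) = Gy.ex0 H z g + Gy.ex0 H z k + o g k := by
    intro g hg k hk
    have e := h ⟨g, hg⟩ ⟨k, hk⟩
    rw [← Gy.ex0_val H z, ← Gy.ex0_val H z, ← Gy.ex0_val H z] at e
    exact e
  have w1 : Gy.ex0 H z 1 = 0 := by
    have := hw 1 H.one_mem 1 H.one_mem
    rw [mul_one, h1, add_zero] at this
    exact left_eq_add.1 this
  obtain ⟨U, hU, -, hU0⟩ := Rc.near hz
  have wU : ∀ σ ∈ H, σ ∈ U → Gy.ex0 H z σ = 0 := fun σ a b => by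
    have e := hU0 ⟨σ, a⟩ b
    rw [← Gy.ex0_val H z, ← Gy.ex0_val H z] at e
    exact e.trans w1
  obtain ⟨b, hb, hbi⟩ := hX F H T (Gy.ex0 H z) hB h2 ⟨U, hU, fun σ a => wU σ a.1 a.2⟩
    fun l hl P hP i hi hI => ⟨fun i' hi' hI' => by
      rw [hw i hi i' hi', (hu l hl P hP i' hi' hI' i hi 1 H.one_mem).2, add_zero], fun g hg => by
      have e := hw g hg g⁻¹ (H.inv_mem hg)
      rw [mul_inv_cancel, w1] at e
      rw [hw _ (H.mul_mem hg hi) _ (H.inv_mem hg), hw g hg i hi,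
        (hu l hl P hP i hi hI g hg g⁻¹ (H.inv_mem hg)).1,
        (hu l hl P hP i hi hI g hg 1 H.one_mem).2]
      linear_combination -e⟩
  obtain ⟨V, hV, -, hV0⟩ := Rc.near hb.1
  refine ⟨Gy.ex0 H z - b, fun g hg k hk => ?_, ⟨U ⊓ V, hU.inter hV, fun σ a k => ?_⟩,
    fun l hl P hP i hi hI => ?_⟩
  · simp only [Pi.sub_apply]
    rw [hw g hg k hk, Ch.add' hb hg hk]; ring
  · have e : b σ = b 1 := hV0 ⟨σ, a⟩ k.2
    rw [Pi.sub_apply, wU σ a k.1, e, Ch.one' hb, sub_zero]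
  · rw [Pi.sub_apply, hbi l hl P hP i hi hI, sub_self]

variable {ρ : GQ →* GL (Fin 2) F}

/-- the upper right entry -/
def bb (ρ : GQ →* GL (Fin 2) F) : GQ → F := fun g => mx ρ g 0 1

/-- its square -/
def b2 (ρ : GQ →* GL (Fin 2) F) : GQ → F := fun g => mx ρ g 0 1 ^ 2

/-- the square of the first diagonal entry -/
def th (ρ : GQ →* GL (Fin 2) F) : GQ → F := fun g => mx ρ g 0 0 ^ 2

/-- the square of the second diagonal entry -/
def ti (ρ : GQ →* GL (Fin 2) F) : GQ → F := fun g => mx ρ g 1 1 ^ 2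

theorem bb_add {g k : GQ} (hg : g ∈ GP ρ) (hk : k ∈ GP ρ) :
    mx ρ (g * k) 0 1 = mx ρ g 0 1 + mx ρ k 0 1 := by
  rw [m01, (mP.1 hg).2.1, (mP.1 hk).2.2]; ring

theorem ch_bb (h : IsOpen {g : GQ | ρ g = 1}) : Ch (GP ρ) (bb ρ) :=
  ch_of (fun g hg k hk => bb_add hg hk) ⟨ρ.ker, h, fun σ k => b1 k⟩

theorem ch_b2 [CharP F 2] (h : IsOpen {g : GQ | ρ g = 1}) : Ch (GP ρ) (b2 ρ) :=
  ch_of (fun g hg k hk => by
    show _ ^ 2 = _ ^ 2 + _ ^ 2
    rw [bb_add hg hk, CharTwo.add_sq]) ⟨ρ.ker, h, fun σ k => by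
      show _ ^ 2 = (0 : F)
      rw [b1 k]; simp⟩

theorem ti_P {g : GQ} (hg : g ∈ GP ρ) : ti ρ g = 1 := by
  show _ ^ 2 = (1 : F)
  rw [(mP.1 hg).2.2, one_pow]

theorem ch_z {T : Finset ℕ} {z : GQ → F} (hz : z ∈ Zt (ti ρ) T (GB ρ)) : Ch (GP ρ) z :=
  ch_of (fun g hg k hk => by rw [hz.1 g (PB hg) k (PB hk), ti_P hg, one_mul]) hz.2.2.1

theorem ch_s {T : Finset ℕ} {s : GQ → F} (hs : s ∈ Zt (fun _ => (1 : F)) T (GB ρ)) :
    Ch (GP ρ) s :=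
  ch_of (fun g hg k hk => by rw [hs.1 g (PB hg) k (PB hk), one_mul]) hs.2.2.1

/-- conjugation of a cocycle of a character -/
theorem zt_cj {θ : GQ → F} {z : GQ → F}
    (hz : ∀ g ∈ GB ρ, ∀ h ∈ GB ρ, z (g * h) = z g + θ g * z h)
    (hθ : ∀ p ∈ GP ρ, θ p = 1) {g p : GQ} (hg : g ∈ GB ρ) (hp : p ∈ GP ρ) :
    z (g * p * g⁻¹) = θ g * z p := by
  have e3 := hz _ (PB (cjP hg hp)) g hg
  have e4 := hz g hg p (PB hp)
  rw [inv_mul_cancel_right, hθ _ (cjP hg hp), e4] at e3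
  linear_combination -e3

theorem nrmU {U : Subgroup GQ} (hU : IsOpen (U : Set GQ)) :
    ∃ V : Subgroup GQ, IsOpen (V : Set GQ) ∧ V.Normal ∧ V ≤ U := by
  have := galQb
  obtain ⟨W, hW⟩ := ProfiniteGrp.exist_openNormalSubgroup_sub_open_nhds_of_one hU U.one_mem
  exact ⟨W.toSubgroup, W.isOpen', W.isNormal', fun v hv => hW hv⟩

theorem odd_cast [CharP F 2] {n : ℕ} (h : Odd n) : (n : F) = 1 := by
  obtain ⟨k, rfl⟩ := h
  have two : (2 : F) = 0 := CharTwo.two_eq_zero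
  push_cast
  rw [two, zero_mul, zero_add]

variable [Finite F] [CharP F 2]

theorem comm_P (S : Gp.Std ρ.range) {g h : GQ} (hg : g ∈ GB ρ) (hh : h ∈ GB ρ) :
    (h * g)⁻¹ * (g * h) ∈ GP ρ := by
  have m : (h * g)⁻¹ * (g * h) ∈ GB ρ :=
    (GB ρ).mul_mem ((GB ρ).inv_mem ((GB ρ).mul_mem hh hg)) ((GB ρ).mul_mem hg hh)
  refine (Bor.mem_P S m).2 ?_
  have e := m00 (ρ := ρ) (h * g) m
  rw [mul_inv_cancel_left, m00 g hh, m00 h hg, mul_comm (mx ρ h 0 0)] at e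
  have n : mx ρ g 0 0 * mx ρ h 0 0 ≠ 0 := mul_ne_zero (Bor.ne00 hg) (Bor.ne00 hh)
  exact (mul_left_cancel₀ n (e.symm.trans (mul_one _).symm))

/-- corestriction from the unipotent subgroup -/
theorem ext_B (S : Gp.Std ρ.range) {c : GQ → M2 F} {z s : GQ → F}
    (hc : ∀ g ∈ GP ρ, ∀ h ∈ GP ρ, c (g * h) = c g + mx ρ g * c h * mx ρ g⁻¹)
    (hz : ∀ g ∈ GB ρ, ∀ h ∈ GB ρ, z (g * h) = z g + ti ρ g * z h)
    (hs : ∀ g ∈ GB ρ, ∀ h ∈ GB ρ, s (g * h) = s g + 1 * s h)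
    (ez : ∀ g ∈ GP ρ, c g 1 0 = z g) (es : ∀ g ∈ GP ρ, c g 0 0 + c g 1 1 = s g) :
    ∃ c' : GQ → M2 F, (∀ g ∈ GB ρ, ∀ h ∈ GB ρ, c' (g * h) = c' g + mx ρ g * c' h * mx ρ g⁻¹) ∧
      (∀ g ∉ GB ρ, c' g = 0) ∧ (∀ g ∈ GB ρ, c' g 1 0 = z g ∧ c' g 0 0 + c' g 1 1 = s g) ∧
      ∀ σ, ρ σ = 1 → (∀ k : GQ, c (k⁻¹ * σ * k) = 0) → c' σ = 0 := by
  classical
  have two : (2 : F) = 0 := CharTwo.two_eq_zero
  let H' : Subgroup (GB ρ) := (GP ρ).subgroupOf (GB ρ)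
  have ho : Odd H'.index := oddR S le_rfl
  haveI : H'.FiniteIndex := ⟨ho.pos.ne'⟩
  haveI : Fintype (GB ρ ⧸ H') := Fintype.ofFinite _
  haveI : H'.Normal := Bor.nrm'
  let π := Cor.ad (ρ.comp (GB ρ).subtype)
  have hπ : ∀ (g : GB ρ) (m : M2 F), π g m = mx ρ g * m * mx ρ (g : GQ)⁻¹ := fun g m => rfl
  let c1 : GB ρ → M2 F := Cor.cor π H' fun g => c g
  have k1 : ∀ g h : GB ρ, c1 (g * h) = c1 g + mx ρ g * c1 h * mx ρ (g : GQ)⁻¹ := fun g h =>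
    Cor.cor_coc (π := π) (H := H') (y := fun g => c g) (fun a ha b hb => hc a ha b hb) g h
  have cd : (Fintype.card (GB ρ ⧸ H') : F) = 1 := by
    rw [← Nat.card_eq_fintype_card]; exact odd_cast ho
  have hin : ∀ (p : GB ρ), (p : GQ) ∈ GP ρ → ∀ k : GB ρ, ((k⁻¹ * p * k : GB ρ) : GQ) ∈ GP ρ :=
    fun p hp k => by
      have := cjP ((GB ρ).inv_mem k.2) hp
      rwa [inv_inv] at this
  have k2 : ∀ p : GB ρ, (p : GQ) ∈ GP ρ → c1 p 1 0 = z p ∧ c1 p 0 0 + c1 p 1 1 = s p := by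
    intro p hp
    have e : c1 p = _ := Cor.cor_core (π := π) (H := H') (fun g => c g) (hin p hp)
    have e' : ∀ k : GB ρ, (k : GQ) * ((k⁻¹ * p * k : GB ρ) : GQ) * (k : GQ)⁻¹ = p := fun k => by
      push_cast; group
    rw [e, Matrix.sum_apply, Matrix.sum_apply, Matrix.sum_apply, ← Finset.sum_add_distrib]
    constructor
    · rw [Finset.sum_congr rfl (g := fun _ => z p) fun x _ => ?_, Finset.sum_const,
        Finset.card_univ, nsmul_eq_mul, cd, one_mul]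
      rw [hπ, (adj S x.out.2 _).2.2.1, ez _ (hin p hp _), ← e' x.out]
      exact (zt_cj hz (fun p hp => ti_P hp) x.out.2 (hin p hp _)).symm
    · rw [Finset.sum_congr rfl (g := fun _ => s p) fun x _ => ?_, Finset.sum_const,
        Finset.card_univ, nsmul_eq_mul, cd, one_mul]
      have a := zt_cj (θ := fun _ => (1 : F)) hs (fun _ _ => rfl) x.out.2 (hin p hp x.out)
      rw [e', ← es _ (hin p hp _)] at a
      rw [hπ, (adj S x.out.2 _).1, (adj S x.out.2 _).2.2.2, a]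
      linear_combination (mx ρ x.out 0 1 * mx ρ x.out 1 1 *
        c ((x.out⁻¹ * p * x.out : GB ρ) : GQ) 1 0) * two
  have k3 : ∀ g h : GB ρ, c1 (g * h) 1 0 - z (g * h) =
      c1 g 1 0 - z g + ti ρ g * (c1 h 1 0 - z h) := fun g h => by
    rw [k1, Matrix.add_apply, (adj S g.2 _).2.2.1, hz g g.2 h h.2]
    unfold ti; ring
  have k4 : ∀ g h : GB ρ, c1 (g * h) 0 0 + c1 (g * h) 1 1 - s (g * h) =
      c1 g 0 0 + c1 g 1 1 - s g + (c1 h 0 0 + c1 h 1 1 - s h) := fun g h => by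
    rw [k1, Matrix.add_apply, Matrix.add_apply, (adj S g.2 _).1, (adj S g.2 _).2.2.2,
      hs g g.2 h h.2]
    linear_combination (mx ρ g 0 1 * mx ρ g 1 1 * c1 h 1 0) * two
  obtain ⟨h0, hB, -, hne⟩ := exh S
  let κ : F := (c1 ⟨h0, hB⟩ 1 0 - z h0) / (1 - ti ρ h0)
  have hne' : 1 - ti ρ h0 ≠ 0 := sub_ne_zero.2 (Ne.symm hne)
  have k5 : ∀ g : GB ρ, c1 g 1 0 - z g = κ * (1 - ti ρ g) := fun g => by
    let h : GB ρ := ⟨h0, hB⟩
    have hp : (((h * g)⁻¹ * (g * h) : GB ρ) : GQ) ∈ GP ρ := comm_P S g.2 hB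
    have a := k3 (h * g) ((h * g)⁻¹ * (g * h))
    rw [(k2 _ hp).1, sub_self, mul_zero, add_zero, mul_inv_cancel_left, ← Subgroup.coe_mul,
      mul_inv_cancel_left, Subgroup.coe_mul, Subgroup.coe_mul, k3, k3] at a
    rw [div_mul_eq_mul_div, eq_div_iff hne']
    linear_combination a
  have k6 : ∀ g : GB ρ, c1 g 0 0 + c1 g 1 1 = s g := fun g => by
    have a : ∀ n : ℕ, c1 (g ^ (n + 1)) 0 0 + c1 (g ^ (n + 1)) 1 1 - s ((g ^ (n + 1) : GB ρ) : GQ) =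
        ((n + 1 : ℕ) : F) * (c1 g 0 0 + c1 g 1 1 - s g) := fun n => by
      induction n with
      | zero => simp
      | succ n ih =>
        rw [pow_succ, Subgroup.coe_mul, k4, ih]; push_cast; ring
    obtain ⟨n, hn⟩ := ho
    have b := a (2 * n)
    rw [← hn, (k2 (g ^ H'.index) (H'.pow_index_mem g)).2, sub_self, odd_cast ⟨n, hn⟩, one_mul] at b
    exact sub_eq_zero.1 b.symm
  let A : M2 F := !![0, 0; κ, 0]
  refine ⟨fun g => if h : g ∈ GB ρ then c1 ⟨g, h⟩ - (A - mx ρ g * A * mx ρ g⁻¹) else 0,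
    fun g hg h hh => ?_, fun g hg => dif_neg hg, fun g hg => ?_, fun σ h1 h2 => ?_⟩
  · simp only [dif_pos hg, dif_pos hh, dif_pos ((GB ρ).mul_mem hg hh)]
    have a := k1 ⟨g, hg⟩ ⟨h, hh⟩
    rw [show (⟨g * h, (GB ρ).mul_mem hg hh⟩ : GB ρ) = ⟨g, hg⟩ * ⟨h, hh⟩ from rfl, a, mul_inv_rev,
      mxm, mxm]
    noncomm_ring
  · simp only [dif_pos hg, Matrix.sub_apply]
    rw [(adj S hg A).1, (adj S hg A).2.2.1, (adj S hg A).2.2.2]
    have a5 := k5 ⟨g, hg⟩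
    have a6 := k6 ⟨g, hg⟩
    unfold ti at a5
    simp only [A, Matrix.of_apply, Matrix.cons_val', Matrix.cons_val_zero, Matrix.cons_val_one,
      Matrix.cons_val_fin_one] at a5 a6 ⊢
    exact ⟨by linear_combination a5,
      by linear_combination a6 + (mx ρ g 0 1 * mx ρ g 1 1 * κ) * two⟩
  · have hB' : σ ∈ GB ρ := PB (kP h1)
    simp only [dif_pos hB']
    rw [mx1 h1, mx1 (show ρ σ⁻¹ = 1 by rw [map_inv, h1, inv_one]), one_mul, mul_one, sub_self,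
      sub_zero]
    exact Cor.cor_zero (π := π) (H := H') (fun g => c g) (hin ⟨σ, hB'⟩ (kP h1)) fun k => h2 k

/-- **the lift** -/
theorem lift (hH : HASSE) (hX : FIX) {T : Finset ℕ} {D : ℕ → Set GQ} (H : Hyp ρ T D)
    {z s : GQ → F} (hz : z ∈ Zt (ti ρ) T (GB ρ)) (hs : s ∈ Zt (fun _ => (1 : F)) T (GB ρ))
    (L1 : Lc (GP ρ) (cup (bb ρ) z)) (L2 : Lc (GP ρ) (cup (bb ρ) s + cup (b2 ρ) z)) :
    ∃ c ∈ H1 ρ T (GB ρ), (fun g => c g 1 0) = z ∧ (fun g => c g 0 0 + c g 1 1) = s := by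
  have two : (2 : F) = 0 := CharTwo.two_eq_zero
  have S := H.std
  have cb := ch_bb H.opn
  have c2 := ch_b2 H.opn
  have cz := ch_z hz
  have cs := ch_s hs
  have e1 : ∀ g i, ρ i = 1 → mx ρ (g * i) 0 1 = mx ρ g 0 1 := fun g i h => by
    rw [mxm, mx1 h, mul_one]
  obtain ⟨x, x1, ⟨U, hU, x2⟩, x3⟩ := solve hX H.bP H.h2
    (hH F _ _ (opP H.opn) (z2_cup cb cz) L1) (by simp only [cup]; rw [Ch.one' cz, mul_zero])
    fun l hl P hP i hi hI g hg k hk => by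
      simp only [cup, bb]
      rw [e1 g i (H.unr l hl P hP i hI), hz.2.2.2 l hl P hP i hI, mul_zero]
      exact ⟨rfl, rfl⟩
  obtain ⟨y, y1, ⟨V, hV, y2⟩, y3⟩ := solve hX H.bP H.h2
    (hH F _ _ (opP H.opn) (z2_add (z2_cup cb cs) (z2_cup c2 cz)) L2)
    (by simp only [cup, Pi.add_apply]; rw [Ch.one' cz, Ch.one' cs, mul_zero, mul_zero, add_zero])
    fun l hl P hP i hi hI g hg k hk => by
      simp only [cup, bb, b2, Pi.add_apply]
      rw [e1 g i (H.unr l hl P hP i hI), hz.2.2.2 l hl P hP i hI, hs.2.2.2 l hl P hP i hI,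
        mul_zero, mul_zero, add_zero]
      exact ⟨rfl, rfl⟩
  obtain ⟨c, c1, c2, c3, c4⟩ := ext_B (c := fun g => !![x g, y g; z g, x g + s g]) S
    (fun g hg h hh => by
      obtain ⟨a0, a1, a2, a3⟩ := adj S (PB hg) !![x h, y h; z h, x h + s h]
      have b0 := x1 g hg h hh
      have b1 := y1 g hg h hh
      have b2' := Ch.add' cz hg hh
      have b3 := Ch.add' cs hg hh
      simp only [cup, bb, b2, Pi.add_apply] at b0 b1
      rw [(mP.1 hg).2.1] at a1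
      rw [(mP.1 hg).2.2] at a0 a2 a3
      ext i j
      fin_cases i <;> fin_cases j <;> simp only [Matrix.add_apply, Fin.zero_eta, Fin.mk_one,
        Fin.isValue, a0, a1, a2, a3] <;> simp
      · linear_combination b0
      · linear_combination b1 - (mx ρ g 0 1 * x h) * two
      · linear_combination b2'
      · linear_combination b0 + b3)
    hz.1 hs.1 (fun g _ => by simp) (fun g _ => by simp; linear_combination (x g) * two)
  have zero : ∀ g, x g = 0 → y g = 0 → z g = 0 → s g = 0 →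
      (!![x g, y g; z g, x g + s g] : M2 F) = 0 := fun g a b c d => by
    rw [a, b, c, d]; ext i j; fin_cases i <;> fin_cases j <;> simp
  obtain ⟨U1, o1, z1⟩ := hz.2.2.1
  obtain ⟨U2, o2, s1⟩ := hs.2.2.1
  obtain ⟨W, w1, w2, w3⟩ := nrmU (U := ρ.ker ⊓ (U ⊓ V) ⊓ (U1 ⊓ U2))
    (((opK H.opn).inter (hU.inter hV)).inter (o1.inter o2))
  refine ⟨c, ⟨c1, c2, ⟨W, w1, fun σ hσ => c4 σ (w3 hσ).1.1 fun k => ?_⟩,
    fun l hl P hP i hI => c4 i (H.unr l hl P hP i hI) fun k => ?_⟩, funext fun g => ?_,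
    funext fun g => ?_⟩
  · have m := w3 (w2.conj_mem' σ hσ k)
    exact zero _ (x2 _ (kP m.1.1) m.1.2.1) (y2 _ (kP m.1.1) m.1.2.2) (z1 _ m.2.1) (s1 _ m.2.2)
  · have m := inert_cj hI k⁻¹
    rw [inv_inv] at m
    have o := ov_smul hP k⁻¹
    have p := kP (H.unr l hl _ o _ m)
    exact zero _ (x3 l hl _ o _ p m) (y3 l hl _ o _ p m) (hz.2.2.2 l hl _ o _ m)
      (hs.2.2.2 l hl _ o _ m)
  · by_cases hg : g ∈ GB ρ
    · exact (c3 g hg).1
    · rw [c2 g hg, hz.2.1 g hg]; rfl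
  · by_cases hg : g ∈ GB ρ
    · exact (c3 g hg).2
    · rw [c2 g hg, hs.2.1 g hg]; simp

end Vale.Agent.P022E.GW.H60
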