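import Vale.Agent.P022E.GW.LbH60b
import Vale.Agent.P022E.GW.LbH35a

/-!
# P022E, block GW, row LBB (second proof): the local obstructions
-/

set_option linter.all false

noncomputable section

namespace Vale.Agent.P022E.GW.H60

open NumberField
open Vale.Agent.P022 Vale.Agent.P022.H443
open Vale.Agent.P027M.S (Inert mx)
open Vale.Agent.P022D.Sel (M2 IsDec Stab)
open Vale.Agent.P022D.L2c (Hm Cob IsZ2 cup up)
open Vale.Agent.P022D.W (dec)
open Vale.Agent.P022E.GW.H35 (Dg Dg_right Dg_left Dg_dec isDec_Dg ex_Dg dec_of isDec_dec ov_trans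
  mem_dec_smul inert_conj ex_gn)
open scoped Pointwise

variable {F : Type} [Field F] {ρ : GQ →* GL (Fin 2) F} {T : Finset ℕ} {D : ℕ → Set GQ}

/-- the places at which the unipotent part is not trivial -/
def NN (ρ : GQ →* GL (Fin 2) F) (D : ℕ → Set GQ) : Set (ℕ × GQ) :=
  {p | ∃ x ∈ Dg (D p.1) p.2, x ∈ GP ρ ∧ mx ρ x 0 1 ≠ 0}

theorem gn_or {l : ℕ} {P : Ideal (𝓞 Qb)} {τ i : GQ} (h : Gn l P τ) (hi : Inert P i) :
    Gn l P i ∨ Gn l P (i * τ) := by
  by_cases k : ∀ w : Qb, w ^ 2 = (l : Qb) → i w = -w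
  · exact Or.inl ⟨hi, k⟩
  push Not at k
  obtain ⟨w0, h0, h1⟩ := k
  have e : i w0 = w0 := by
    have : (i w0) ^ 2 = w0 ^ 2 := by rw [← map_pow, h0, map_natCast]
    exact (sq_eq_sq_iff_eq_or_eq_neg.1 this).resolve_right h1
  refine Or.inr ⟨(inP P).mul_mem hi h.1, fun w hw => ?_⟩
  rw [AlgEquiv.mul_apply, h.2 w hw, map_neg]
  rcases sq_eq_sq_iff_eq_or_eq_neg.1 (hw.trans h0.symm) with rfl | rfl
  · rw [e]
  · rw [map_neg, e]

variable [CharP F 2]

theorem unr_cup (hU : UNR) (ho : IsOpen {g : GQ | ρ g = 1}) {a c : GQ → F} (ha : Ch (GP ρ) a)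
    (hc : Ch (GP ρ) c) {l : ℕ} {P : Ideal (𝓞 Qb)} (hP : Ov l P)
    (h : ∀ i ∈ GP ρ, Inert P i → a i = 0 ∧ c i = 0) : Cb (GP ρ ⊓ dec P) (cup a c) :=
  hU F _ l P _ (opP ho) hP (z2_cup (ch_le inf_le_left ha) (ch_le inf_le_left hc))
    fun g hg k hk i hi hI => by
      simp only [cup]
      rw [Ch.add' ha hg.1 hi, Ch.add' hc hk.1 hi, (h i hi hI).1, (h i hi hI).2, add_zero, add_zero]
      exact ⟨rfl, rfl⟩

omit [CharP F 2] in
theorem lc_all (H : Hyp ρ T D) {o : GQ → GQ → F}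
    (h1 : ∀ l ∉ T, ∀ P, Ov l P → Cb (GP ρ ⊓ dec P) o)
    (h2 : ∀ l ∈ T, ∀ g, Cb (GP ρ ⊓ Dg (D l) g) o) : Lc (GP ρ) o := by
  intro l E hE
  by_cases hl : l ∈ T
  · obtain ⟨g, rfl⟩ := ex_Dg (H.dec l hl) hE
    exact h2 l hl g
  · obtain ⟨P, hP, e⟩ := dec_of (fun k : l = 0 => hl (k ▸ H.h0)) hE
    rw [show E = dec P from SetLike.coe_injective e]
    exact h1 l hl P hP

theorem off1 (hU : UNR) (H : Hyp ρ T D) {z : GQ → F} (cz : Ch (GP ρ) z) (uz : Ur T z) :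
    ∀ l ∉ T, ∀ P, Ov l P → Cb (GP ρ ⊓ dec P) (cup (bb ρ) z) := fun l hl P hP =>
  unr_cup hU H.opn (ch_bb H.opn) cz hP fun i _ hI =>
    ⟨b1 (H.unr l hl P hP i hI), uz l hl P hP i hI⟩

theorem off2 (hU : UNR) (H : Hyp ρ T D) {z : GQ → F} (cz : Ch (GP ρ) z) (uz : Ur T z) :
    ∀ l ∉ T, ∀ P, Ov l P → Cb (GP ρ ⊓ dec P) (cup (b2 ρ) z) := fun l hl P hP =>
  unr_cup hU H.opn (ch_b2 H.opn) cz hP fun i _ hI =>
    ⟨by
      show _ ^ 2 = (0 : F)
      rw [b1 (H.unr l hl P hP i hI)]; simp, uz l hl P hP i hI⟩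

variable [Finite F]

/-- one place costs nothing -/
theorem oneB (hO : ONE) (hG : ODG) (hU : UNR) (H : Hyp ρ T D) :
    ∃ O : Set (ℕ × GQ), (∀ p ∈ O, p.1 ∈ T) ∧
      (∀ l, ∀ γ ∈ GB ρ, ∀ g, (l, γ * g) ∈ O ↔ (l, g) ∈ O) ∧
      (∀ l, ∀ d ∈ D l, ∀ g, (l, g * d) ∈ O ↔ (l, g) ∈ O) ∧ O.Nonempty ∧ O ⊆ NN ρ D ∧
      ∀ z ∈ Zt (ti ρ) T (GB ρ),
        (∀ l ∈ T, ∀ g, (l, g) ∉ O → Cb (GP ρ ⊓ Dg (D l) g) (cup (bb ρ) z)) →
        ∀ l ∈ T, ∀ g, Cb (GP ρ ⊓ Dg (D l) g) (cup (bb ρ) z) := by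
  have S := H.std
  obtain ⟨l0, hT, h2, P0, φ, hP, hφ, hI, φP, φ1⟩ := H.a0
  obtain ⟨P1, hP1, eD⟩ := dec_of hP.1.ne_zero (H.dec l0 hT)
  have dP : dec P0 ≤ GP ρ := fun g hg => by
    obtain ⟨k, s, u, hs, hu, rfl⟩ :=
      P022D.W.dec_gen hP.1 hP.2.1 hP.2.2 hφ hg ρ.ker (opK H.opn)
    exact (GP ρ).mul_mem ((GP ρ).mul_mem (kP hu) ((GP ρ).pow_mem φP k)) (kP (hI s hs))
  have φd : φ ∈ dec P0 := P022D.W.phi_mem hP.1 hP.2.1 hφ
  have φb : mx ρ φ 0 1 ≠ 0 := fun k => φ1 (Units.ext (by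
    obtain ⟨a, b, c⟩ := mP.1 φP
    ext i j
    fin_cases i <;> fin_cases j
    · exact b
    · exact k
    · exact a
    · exact c))
  refine ⟨{p | p.1 = l0 ∧ ∃ γ ∈ GB ρ, p.2 • P1 = γ • P0}, fun p hp => hp.1 ▸ hT,
    fun l γ hγ g => and_congr_right fun _ => ⟨?_, ?_⟩,
    fun l d hd g => and_congr_right fun e => ?_, ?_, ?_, fun z hz h => ?_⟩
  · rintro ⟨δ, hδ, e⟩
    refine ⟨γ⁻¹ * δ, (GB ρ).mul_mem ((GB ρ).inv_mem hγ) hδ, ?_⟩
    show g • P1 = _
    rw [mul_smul, ← e, ← mul_smul, inv_mul_cancel_left]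
  · rintro ⟨δ, hδ, e⟩
    refine ⟨γ * δ, (GB ρ).mul_mem hγ hδ, ?_⟩
    show (γ * g) • P1 = _
    rw [mul_smul, mul_smul, ← e]
  · have e' : l = l0 := e
    rw [e', eD] at hd
    have : d • P1 = P1 := by
      ext x
      rw [P022D.Sel.Pl.mem_smul, ← hd, smul_inv_smul]
    show (∃ γ ∈ GB ρ, (g * d) • P1 = γ • P0) ↔ ∃ γ ∈ GB ρ, g • P1 = γ • P0
    rw [mul_smul, this]
  · obtain ⟨g, e⟩ := ov_trans hP1 hP
    exact ⟨(l0, g), rfl, 1, (GB ρ).one_mem, by rw [one_smul, e]⟩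
  · rintro ⟨l, g⟩ ⟨rfl, γ, hγ, e⟩
    refine ⟨γ * φ * γ⁻¹, ?_, cjP hγ φP, ?_⟩
    · show _ ∈ Dg (D l) g
      rw [eD, Dg_dec, show g • P1 = γ • P0 from e, mem_dec_smul,
        show γ⁻¹ * (γ * φ * γ⁻¹) * γ = φ by group]
      exact φd
    · rw [cjb S hγ φP]
      exact mul_ne_zero (pow_ne_zero 2 (Bor.ne00 hγ)) φb
  have cz := ch_z hz
  have cb := ch_bb H.opn
  let z1 : GQ → GQ → F := fun g k => mx ρ g 0 1 * mx ρ g 1 1 * z k
  have Z : Z2 (GB ρ) z1 := by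
    obtain ⟨U, hU', h0⟩ := hz.2.2.1
    have a1 := lc (GB ρ) ρ.ker (opK H.opn) (fun g => mx ρ g 0 1 * mx ρ g 1 1) fun g _ u _ k => by
      simp only [mxm, mx1 k, mul_one]
    have a2 := lc (GB ρ) U hU' z fun g hg u hu k => by
      rw [hz.1 g hg u hu, h0 u k, mul_zero, add_zero]
    refine ⟨(a1.comp_continuous continuous_fst).mul (a2.comp_continuous continuous_snd),
      fun g k m => ?_⟩
    simp only [rs, z1, Subgroup.coe_mul]
    rw [hz.1 k k.2 m m.2, m01, m11 g.2]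
    unfold ti
    linear_combination (-(mx ρ k 0 1 * mx ρ k 1 1 * z m)) * tt S g.2
  have up' : ∀ E : Subgroup GQ, Cb (GP ρ ⊓ E) (cup (bb ρ) z) → Cb (GB ρ ⊓ E) z1 := fun E k =>
    hG F (GB ρ ⊓ E) (GP ρ) z1 (opP H.opn) (oddR S inf_le_left) (Gy.z2_le inf_le_left Z)
      (cb_le (H := GB ρ ⊓ E ⊓ GP ρ) (K := GP ρ ⊓ E)
        (fun x hx => Subgroup.mem_inf.2 ⟨hx.2, hx.1.2⟩) k fun g hg m _ => by
        simp only [z1, cup, bb]
        rw [(mP.1 hg.2).2.2, mul_one])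
  have key : ∀ τ, Gn l0 P0 τ → z τ = 0 := fun τ hτ => by
    have r := hO F (GB ρ) z1 Unit (fun _ => l0) (fun _ => P0) (fun _ => τ) (fun _ => φ)
      (fun _ => (mx ρ φ 0 1)⁻¹ • bb ρ) (fun _ => mx ρ φ 0 1 • z) (opB H.opn) Z
      (fun _ => ⟨hP, h2, hτ, hφ, dP.trans PB⟩) (fun _ _ _ _ _ => rfl)
      (fun _ => ⟨Submodule.smul_mem (Hm F (dec P0)) _ (ch_le dP cb),
        Submodule.smul_mem (Hm F (dec P0)) _ (ch_le dP cz), fun g hg => by
          show _ * mx ρ g 0 1 = 0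
          rw [b1 (hI g hg), mul_zero], inv_mul_cancel₀ φb,
        cb_zero fun g hg k _ => by
          simp only [z1, cup, bb, Pi.sub_apply, Pi.smul_apply, smul_eq_mul]
          rw [(mP.1 (dP hg)).2.2]
          field_simp
          ring⟩)
      (fun E hE => by
        obtain ⟨g, rfl⟩ := ex_Dg (H.dec 0 H.h0) hE
        exact up' _ (h 0 H.h0 g fun k => hP.1.ne_zero k.1.symm))
      fun p P' hP' hn => up' _ (by
        by_cases hp : p ∈ T
        · by_cases e : p = l0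
          · subst e
            obtain ⟨g, rfl⟩ := ov_trans hP1 hP'
            rw [← Dg_dec, ← eD]
            refine h p hp g ?_
            rintro ⟨-, γ, hγ, e⟩
            refine hn () γ hγ fun x => ?_
            rw [show g • P1 = γ • P0 from e, P022D.Sel.Pl.mem_smul, inv_smul_smul]
          · obtain ⟨g, k⟩ := ex_Dg (H.dec p hp) (isDec_dec hP')
            rw [k]
            exact h p hp g fun k' => e k'.1
        · exact off1 hU H cz hz.2.2.2 p hp P' hP')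
    rw [Finset.univ_unique, Finset.sum_singleton] at r
    exact (mul_eq_zero.1 r).resolve_left φb
  have key2 : ∀ i, Inert P0 i → z i = 0 := fun i hi => by
    obtain ⟨τ, hτ⟩ := ex_gn hP
    rcases gn_or hτ hi with k | k
    · exact key i k
    · have := key _ k
      rwa [Ch.add' cz (kP (hI i hi)) (kP (hI τ hτ.1)), key τ hτ, add_zero] at this
  intro l hl g
  by_cases k : (l, g) ∈ {p : ℕ × GQ | p.1 = l0 ∧ ∃ γ ∈ GB ρ, p.2 • P1 = γ • P0}
  · obtain ⟨rfl, γ, hγ, e⟩ := k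
    rw [eD, Dg_dec, show g • P1 = γ • P0 from e]
    refine unr_cup hU H.opn cb cz (ov_smul hP γ) fun i _ hi => ?_
    have m := inert_conj hi γ
    rw [inv_smul_smul] at m
    have e1 : i = γ * (γ⁻¹ * i * γ) * γ⁻¹ := by group
    constructor
    · refine b1 ?_
      rw [e1, map_mul, map_mul, hI _ m, mul_one, ← map_mul, mul_inv_cancel, map_one]
    · rw [e1, zt_cj hz.1 (fun p hp => ti_P hp) hγ (kP (hI _ m)), key2 _ m, mul_zero]
  · exact h l hl g k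

theorem sy_cup {H : Subgroup GQ} {a c : GQ → F} (ha : Ch H a) (hc : Ch H c) :
    cup a c ∈ Sy F H := Submodule.subset_span ⟨a, c, ha, hc, rfl⟩

theorem ch_eq {H : Subgroup GQ} {a a' : GQ → F} (ha : Ch H a) (e : ∀ x ∈ H, a' x = a x) :
    Ch H a' := by
  unfold Ch at ha ⊢
  rwa [show (fun x : H => a' x) = fun x : H => a x from funext fun x => e x x.2]

omit [CharP F 2] [Finite F] in
theorem rk_ker {V V' W W' : Type} [AddCommGroup V] [Module F V] [AddCommGroup W] [Module F W]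
    [AddCommGroup V'] [Module F V'] [AddCommGroup W'] [Module F W'] (f : (V × V') →ₗ[F] (W × W')) :
    Module.rank F V + Module.rank F V' ≤
      Module.rank F W + Module.rank F W' + Module.rank F (LinearMap.ker f) := by
  rw [← rank_prod', ← rank_prod']
  exact rk_le f LinearMap.id fun _ _ h => h

/-- the obstruction map -/
theorem obs (hS : SYL) (H : Hyp ρ T D) {O : Set (ℕ × GQ)}
    (o1 : ∀ l, ∀ γ ∈ GB ρ, ∀ g, (l, γ * g) ∈ O ↔ (l, g) ∈ O)
    (o2 : ∀ l, ∀ d ∈ D l, ∀ g, (l, g * d) ∈ O ↔ (l, g) ∈ O) :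
    ∃ K : Submodule F (Zt (ti ρ) T (GB ρ) × Zt (fun _ => (1 : F)) T (GB ρ)),
      Module.rank F (Zt (ti ρ) T (GB ρ)) + Module.rank F (Zt (fun _ => (1 : F)) T (GB ρ)) ≤
        Module.rank F (FS (fun _ => (1 : F)) T D (GB ρ) (NN ρ D \ O)) +
          Module.rank F (FS (th ρ) T D (GB ρ) (NN ρ D)) + Module.rank F K ∧
      ∀ p ∈ K, (∀ l ∈ T, ∀ g, (l, g) ∉ O → Cb (GP ρ ⊓ Dg (D l) g) (cup (bb ρ) p.1.1)) ∧
        ∀ l ∈ T, ∀ g, Cb (GP ρ ⊓ Dg (D l) g) (cup (bb ρ) p.2.1 + cup (b2 ρ) p.1.1) := by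
  classical
  have S := H.std
  have cb := ch_bb H.opn
  have c2 := ch_b2 H.opn
  obtain ⟨inv, hi⟩ := hS F (GP ρ) (opP H.opn)
  have eqv : ∀ l ∈ T, ∀ γ ∈ GB ρ, ∀ (g : GQ) (a c : GQ → F) (α κ : F), Ch (GP ρ) a → Ch (GP ρ) c →
      (∀ x ∈ GP ρ, a (γ * x * γ⁻¹) = α * a x) → (∀ x ∈ GP ρ, c (γ * x * γ⁻¹) = κ * c x) →
      inv (Dg (D l) (γ * g)) (cup a c) = α * κ * inv (Dg (D l) g) (cup a c) := by
    intro l hl γ hγ g a c α κ ha hc ea ec
    obtain ⟨i1, i2⟩ := hi l _ (isDec_Dg (H.dec l hl) g)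
    rw [← i2 γ _ (cjP' hγ) (Dg_left _ γ g) _ (sy_cup ha hc)]
    have m : cup (fun x => a (γ * x * γ⁻¹)) (fun x => c (γ * x * γ⁻¹)) ∈ Sy F (GP ρ) :=
      sy_cup (ch_eq (a := α • a) (Submodule.smul_mem (Hm F (GP ρ)) α ha) ea)
        (ch_eq (a := κ • c) (Submodule.smul_mem (Hm F (GP ρ)) κ hc) ec)
    have r := (i1 _ (sub_mem m (Submodule.smul_mem _ (α * κ) (sy_cup ha hc)))).2
      (cb_zero fun x hx y hy => by
        simp only [cup, Pi.sub_apply, Pi.smul_apply, smul_eq_mul]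
        rw [ea x hx.1, ec y hy.1]; ring)
    rw [map_sub, map_smul, smul_eq_mul, sub_eq_zero] at r
    exact r
  have eb : ∀ γ ∈ GB ρ, ∀ x ∈ GP ρ, bb ρ (γ * x * γ⁻¹) = th ρ γ * bb ρ x :=
    fun γ hγ x hx => cjb S hγ hx
  have eb2 : ∀ γ ∈ GB ρ, ∀ x ∈ GP ρ, b2 ρ (γ * x * γ⁻¹) = th ρ γ ^ 2 * b2 ρ x :=
    fun γ hγ x hx => by
      show _ ^ 2 = (_ ^ 2) ^ 2 * _ ^ 2
      rw [cjb S hγ hx, mul_pow]
  have et : ∀ γ ∈ GB ρ, th ρ γ * ti ρ γ = 1 := fun γ hγ => by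
    show _ ^ 2 * _ ^ 2 = (1 : F)
    rw [← mul_pow, tt S hγ, one_pow]
  have off : ∀ l ∈ T, ∀ g, (l, g) ∉ NN ρ D → ∀ c, Ch (GP ρ) c →
      inv (Dg (D l) g) (cup (bb ρ) c) = 0 ∧ inv (Dg (D l) g) (cup (b2 ρ) c) = 0 := by
    intro l hl g k c hc
    have b0 : ∀ x ∈ GP ρ ⊓ Dg (D l) g, mx ρ x 0 1 = 0 := fun x hx => by
      by_contra n
      exact k ⟨x, hx.2, hx.1, n⟩
    obtain ⟨i1, -⟩ := hi l _ (isDec_Dg (H.dec l hl) g)
    exact ⟨(i1 _ (sy_cup cb hc)).2 (cb_zero fun x hx y _ => by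
        simp only [cup, bb]; rw [b0 x hx, zero_mul]),
      (i1 _ (sy_cup c2 hc)).2 (cb_zero fun x hx y _ => by
        simp only [cup, b2]; rw [b0 x hx]; simp)⟩
  have ca : ∀ a z z' : GQ → F, cup a (z + z') = cup a z + cup a z' := fun a z z' => by
    funext x y; simp only [cup, Pi.add_apply]; ring
  have cs : ∀ (a z : GQ → F) (r : F), cup a (r • z) = r • cup a z := fun a z r => by
    funext x y; simp only [cup, Pi.smul_apply, smul_eq_mul]; ring
  let ob : (Zt (ti ρ) T (GB ρ) × Zt (fun _ => (1 : F)) T (GB ρ)) →ₗ[F]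
      (FS (fun _ => (1 : F)) T D (GB ρ) (NN ρ D \ O) × FS (th ρ) T D (GB ρ) (NN ρ D)) :=
    { toFun := fun p =>
        (⟨fun l g => if l ∈ T ∧ (l, g) ∉ O then inv (Dg (D l) g) (cup (bb ρ) p.1.1) else 0,
          ⟨fun l hl => funext fun g => if_neg fun k => hl k.1,
            fun l γ hγ g => by
              simp only [o1 l γ hγ g]
              split_ifs with k
              · rw [eqv l k.1 γ hγ g _ _ _ _ cb (ch_z p.1.2) (eb γ hγ) fun x hx =>
                  zt_cj p.1.2.1 (fun p hp => ti_P hp) hγ hx, et γ hγ]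
              · rw [mul_zero],
            fun l d hd g => by simp only [o2 l d hd g, Dg_right hd]⟩,
          fun l g k => by
            show ite _ _ _ = _
            split_ifs with k'
            · exact (off l k'.1 g (fun n => k ⟨n, k'.2⟩) _ (ch_z p.1.2)).1
            · rfl⟩,
        ⟨fun l g => if l ∈ T then inv (Dg (D l) g) (cup (bb ρ) p.2.1) +
            inv (Dg (D l) g) (cup (b2 ρ) p.1.1) else 0,
          ⟨fun l hl => funext fun g => if_neg hl,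
            fun l γ hγ g => by
              show ite _ _ _ = _ * ite _ _ _
              split_ifs with k
              · rw [eqv l k γ hγ g _ _ _ _ cb (ch_s p.2.2) (eb γ hγ) fun x hx =>
                  zt_cj (θ := fun _ => (1 : F)) p.2.2.1 (fun _ _ => rfl) hγ hx,
                  eqv l k γ hγ g _ _ _ _ c2 (ch_z p.1.2) (eb2 γ hγ) fun x hx =>
                  zt_cj p.1.2.1 (fun p hp => ti_P hp) hγ hx]
                linear_combination (th ρ γ * inv (Dg (D l) g) (cup (b2 ρ) p.1.1)) * et γ hγ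
              · rw [mul_zero],
            fun l d hd g => by simp only [Dg_right hd]⟩,
          fun l g k => by
            show ite _ _ _ = _
            split_ifs with k'
            · rw [(off l k' g k _ (ch_s p.2.2)).1, (off l k' g k _ (ch_z p.1.2)).2, add_zero]
            · rfl⟩)
      map_add' := fun p q => by
        refine Prod.ext (Subtype.ext ?_) (Subtype.ext ?_) <;> funext l g
        · show ite _ (inv _ (cup _ (p.1.1 + q.1.1))) _ = ite _ _ _ + ite _ _ _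
          split_ifs
          · rw [ca, map_add]
          · rw [add_zero]
        · show ite _ (inv _ (cup _ (p.2.1 + q.2.1)) + inv _ (cup _ (p.1.1 + q.1.1))) _ =
            ite _ _ _ + ite _ _ _
          split_ifs
          · rw [ca, ca, map_add, map_add]; ring
          · rw [add_zero]
      map_smul' := fun r p => by
        refine Prod.ext (Subtype.ext ?_) (Subtype.ext ?_) <;> funext l g
        · show ite _ (inv _ (cup _ (r • p.1.1))) _ = r * ite _ _ _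
          split_ifs
          · rw [cs, map_smul, smul_eq_mul]
          · rw [mul_zero]
        · show ite _ (inv _ (cup _ (r • p.2.1)) + inv _ (cup _ (r • p.1.1))) _ = r * ite _ _ _
          split_ifs
          · rw [cs, cs, map_smul, map_smul, smul_eq_mul, smul_eq_mul]; ring
          · rw [mul_zero] }
  refine ⟨LinearMap.ker ob, ?_, fun p hp => ⟨fun l hl g k => ?_, fun l hl g => ?_⟩⟩
  · exact rk_ker ob
  · have e := congrFun (congrFun (congrArg (fun q => q.1.1) (LinearMap.mem_ker.1 hp)) l) g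
    refine ((hi l _ (isDec_Dg (H.dec l hl) g)).1 _ (sy_cup cb (ch_z p.1.2))).1 ?_
    exact (if_pos (⟨hl, k⟩ : l ∈ T ∧ (l, g) ∉ O)).symm.trans e
  · have e := congrFun (congrFun (congrArg (fun q => q.2.1) (LinearMap.mem_ker.1 hp)) l) g
    refine ((hi l _ (isDec_Dg (H.dec l hl) g)).1 _
      (add_mem (sy_cup cb (ch_s p.2.2)) (sy_cup c2 (ch_z p.1.2)))).1 ?_
    rw [map_add]
    exact (if_pos hl).symm.trans e

end Vale.Agent.P022E.GW.H60
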