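import Vale.Agent.P022E.GW.LbH60c

/-!
# P022E, block GW, row LBB (second proof): the count
-/

set_option linter.all false

noncomputable section

namespace Vale.Agent.P022E.GW.H60

open NumberField
open Vale.Agent.P022 Vale.Agent.P022.H443
open Vale.Agent.P027M.S (Inert mx)
open Vale.Agent.P022D.Sel (M2 IsDec Stab)
open Vale.Agent.P022D.L2c (Hm Cob IsZ2 cup up)
open Vale.Agent.P022E.GW.H35 (Dg Dg_right Dg_left)

variable {F : Type} [Field F] {ρ : GQ →* GL (Fin 2) F} {T : Finset ℕ} {D : ℕ → Set GQ}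

theorem rk_le2 {V W W' U U' : Type} [AddCommGroup V] [Module F V] [AddCommGroup W] [Module F W]
    [AddCommGroup W'] [Module F W'] [AddCommGroup U] [Module F U] [AddCommGroup U'] [Module F U']
    (f : V →ₗ[F] W × W') (g : LinearMap.ker f →ₗ[F] U × U') (hg : Function.Injective g) :
    Module.rank F V ≤ Module.rank F W + Module.rank F W' + (Module.rank F U + Module.rank F U') := by
  rw [← rank_prod', ← rank_prod']
  exact rk_le f g hg

theorem rk_ge2 {V W A B U U' : Type} [AddCommGroup V] [Module F V] [AddCommGroup W] [Module F W]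
    [AddCommGroup A] [Module F A] [AddCommGroup B] [Module F B] [AddCommGroup U] [Module F U]
    [AddCommGroup U'] [Module F U'] (K : Submodule F (A × B))
    (f : V →ₗ[F] W) (j : A × B →ₗ[F] W) (hj : Function.Injective j) (hK : ∀ k ∈ K, ∃ v, f v = j k)
    (g : U × U' →ₗ[F] V) (hg : Function.Injective g) (h0 : ∀ u, f (g u) = 0) :
    Module.rank F K + (Module.rank F U + Module.rank F U') ≤ Module.rank F V := by
  rw [← rank_prod', ← rank_range_of_injective (j.comp K.subtype) (hj.comp Subtype.val_injective)]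
  refine rk_ge f _ ?_ (g.codRestrict _ h0) fun a b h => hg (congrArg Subtype.val h)
  rintro _ ⟨k, rfl⟩
  exact hK k.1 k.2

theorem fx_cl {f : ℕ → GQ → M2 F} (hf : f ∈ Fx ρ T D (GB ρ)) (l : ℕ) {d : GQ}
    (hd : d ∈ Subgroup.closure (D l)) : ∀ g, f l (g * d) = f l g := by
  induction hd using Subgroup.closure_induction with
  | mem x hx => exact hf.2.2 l x hx
  | one => intro g; rw [mul_one]
  | mul x y _ _ a b => intro g; rw [← mul_assoc, b, a]
  | inv x _ a => intro g; rw [← a (g * x⁻¹), inv_mul_cancel_right]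

variable [CharP F 2]

theorem fx_N (S : Gp.Std ρ.range) {f : ℕ → GQ → M2 F} (hf : f ∈ Fx ρ T D (GB ρ)) {l : ℕ} {g : GQ}
    (h : (l, g) ∈ NN ρ D) : f l g 1 0 = 0 ∧ f l g 0 0 + f l g 1 1 = 0 := by
  obtain ⟨x, h1, h2, h3⟩ := h
  have e := hf.2.1 l x (PB h2) g
  rw [show x * g = g * (g⁻¹ * x * g) by group, fx_cl hf l h1] at e
  obtain ⟨a0, a1, -, -⟩ := adj S (PB h2) (f l g)
  rw [← e, (mP.1 h2).2.2, mul_one] at a0
  rw [← e, (mP.1 h2).2.1] at a1
  have b0 : f l g 1 0 = 0 := (mul_eq_zero.1 (left_eq_add.1 a0)).resolve_left h3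
  refine ⟨b0, (mul_eq_zero.1 (?_ : mx ρ x 0 1 * _ = 0)).resolve_left h3⟩
  rw [b0] at a1
  linear_combination -a1

theorem cntA (S : Gp.Std ρ.range) : Module.rank F (Fx ρ T D (GB ρ)) ≤
    Module.rank F (FS (ti ρ) T D (GB ρ) (NN ρ D)ᶜ) +
      Module.rank F (FS (fun _ => (1 : F)) T D (GB ρ) (NN ρ D)ᶜ) +
      (Module.rank F (Ft (fun _ => (1 : F)) T D (GB ρ)) + Module.rank F (Ft (th ρ) T D (GB ρ))) := by
  have two : (2 : F) = 0 := CharTwo.two_eq_zero
  let π : Fx ρ T D (GB ρ) →ₗ[F] FS (ti ρ) T D (GB ρ) (NN ρ D)ᶜ ×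
      FS (fun _ => (1 : F)) T D (GB ρ) (NN ρ D)ᶜ :=
    { toFun := fun f =>
        (⟨fun l g => f.1 l g 1 0, ⟨fun l hl => by funext g; simp only [f.2.1 l hl]; rfl,
          fun l γ hγ g => by simp only [f.2.2.1 l γ hγ g]; exact (adj S hγ _).2.2.1,
          fun l d hd g => by simp only [f.2.2.2 l d hd g]⟩,
          fun l g k => (fx_N S f.2 (not_not.1 k)).1⟩,
        ⟨fun l g => f.1 l g 0 0 + f.1 l g 1 1,
          ⟨fun l hl => by funext g; simp [f.2.1 l hl],
          fun l γ hγ g => by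
            simp only [f.2.2.1 l γ hγ g]
            rw [(adj S hγ _).1, (adj S hγ _).2.2.2]
            linear_combination (mx ρ γ 0 1 * mx ρ γ 1 1 * f.1 l g 1 0) * two,
          fun l d hd g => by simp only [f.2.2.2 l d hd g]⟩,
          fun l g k => (fx_N S f.2 (not_not.1 k)).2⟩)
      map_add' := fun p q => by
        refine Prod.ext (Subtype.ext ?_) (Subtype.ext ?_) <;> funext l g
        · rfl
        · show p.1 l g 0 0 + q.1 l g 0 0 + (p.1 l g 1 1 + q.1 l g 1 1) =
            p.1 l g 0 0 + p.1 l g 1 1 + (q.1 l g 0 0 + q.1 l g 1 1)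
          ring
      map_smul' := fun r p => by
        refine Prod.ext (Subtype.ext ?_) (Subtype.ext ?_) <;> funext l g
        · rfl
        · show r * p.1 l g 0 0 + r * p.1 l g 1 1 = r * (p.1 l g 0 0 + p.1 l g 1 1)
          ring }
  have k1 : ∀ f : LinearMap.ker π, ∀ l g, f.1.1 l g 1 0 = 0 := fun f l g =>
    congrFun (congrFun (congrArg (fun q => q.1.1) (LinearMap.mem_ker.1 f.2)) l) g
  have k2 : ∀ f : LinearMap.ker π, ∀ l g, f.1.1 l g 0 0 + f.1.1 l g 1 1 = 0 := fun f l g =>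
    congrFun (congrFun (congrArg (fun q => q.2.1) (LinearMap.mem_ker.1 f.2)) l) g
  refine rk_le2 π
    { toFun := fun f =>
        (⟨fun l g => f.1.1 l g 0 0, fun l hl => by funext g; simp only [f.1.2.1 l hl]; rfl,
          fun l γ hγ g => by
            simp only [f.1.2.2.1 l γ hγ g]
            rw [(adj S hγ _).1, k1, mul_zero, add_zero, one_mul],
          fun l d hd g => by simp only [f.1.2.2.2 l d hd g]⟩,
        ⟨fun l g => f.1.1 l g 0 1, fun l hl => by funext g; simp only [f.1.2.1 l hl]; rfl,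
          fun l γ hγ g => by
            simp only [f.1.2.2.1 l γ hγ g]
            rw [(adj S hγ _).2.1, k1, k2, mul_zero, mul_zero, add_zero, add_zero]; rfl,
          fun l d hd g => by simp only [f.1.2.2.2 l d hd g]⟩)
      map_add' := fun p q => rfl
      map_smul' := fun r p => rfl } fun f f' e => ?_
  refine Subtype.ext (Subtype.ext (funext fun l => funext fun g => ?_))
  have e1 : f.1.1 l g 0 0 = f'.1.1 l g 0 0 :=
    congrFun (congrFun (congrArg (fun q => q.1.1) e) l) g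
  have e2 : f.1.1 l g 0 1 = f'.1.1 l g 0 1 :=
    congrFun (congrFun (congrArg (fun q => q.2.1) e) l) g
  ext i j
  fin_cases i <;> fin_cases j
  · exact e1
  · exact e2
  · exact (k1 f l g).trans (k1 f' l g).symm
  · show f.1.1 l g 1 1 = f'.1.1 l g 1 1
    linear_combination k2 f l g - k2 f' l g - e1

theorem cntB (S : Gp.Std ρ.range)
    (K : Submodule F (Zt (ti ρ) T (GB ρ) × Zt (fun _ => (1 : F)) T (GB ρ)))
    (hK : ∀ p ∈ K, ∃ c ∈ H1 ρ T (GB ρ), (fun g => c g 1 0) = p.1.1 ∧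
      (fun g => c g 0 0 + c g 1 1) = p.2.1) :
    Module.rank F K + (Module.rank F (Zt (fun _ => (1 : F)) T (GB ρ)) +
      Module.rank F (Zt (th ρ) T (GB ρ))) ≤ Module.rank F (H1 ρ T (GB ρ)) := by
  have two : (2 : F) = 0 := CharTwo.two_eq_zero
  have zero : ∀ a b : F, a = 0 → b = 0 → (!![a, b; 0, a] : M2 F) = 0 := fun a b h k => by
    rw [h, k]; ext i j; fin_cases i <;> fin_cases j <;> simp
  refine rk_ge2 (W := (GQ → F) × (GQ → F)) K
    { toFun := fun c => (fun g => c.1 g 1 0, fun g => c.1 g 0 0 + c.1 g 1 1)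
      map_add' := fun p q => by
        refine Prod.ext rfl (funext fun g => ?_)
        show p.1 g 0 0 + q.1 g 0 0 + (p.1 g 1 1 + q.1 g 1 1) =
          p.1 g 0 0 + p.1 g 1 1 + (q.1 g 0 0 + q.1 g 1 1)
        ring
      map_smul' := fun r p => by
        refine Prod.ext rfl (funext fun g => ?_)
        show r * p.1 g 0 0 + r * p.1 g 1 1 = r * (p.1 g 0 0 + p.1 g 1 1)
        ring }
    { toFun := fun p => (p.1.1, p.2.1)
      map_add' := fun p q => rfl
      map_smul' := fun r p => rfl }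
    (fun p q e => Prod.ext (Subtype.ext (congrArg Prod.fst e))
      (Subtype.ext (congrArg Prod.snd e)))
    (fun p hp => by
      obtain ⟨c, h1, h2, h3⟩ := hK p hp
      exact ⟨⟨c, h1⟩, Prod.ext h2 h3⟩)
    { toFun := fun p => ⟨fun g => !![p.1.1 g, p.2.1 g; 0, p.1.1 g], fun g hg h hh => by
          obtain ⟨a0, a1, a2, a3⟩ := adj S hg !![p.1.1 h, p.2.1 h; 0, p.1.1 h]
          have b0 := p.1.2.1 g hg h hh
          have b1 := p.2.2.1 g hg h hh
          unfold th at b1
          ext i j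
          fin_cases i <;> fin_cases j <;> simp only [Matrix.add_apply, Fin.zero_eta, Fin.mk_one,
            Fin.isValue, a0, a1, a2, a3] <;> simp
          · linear_combination b0
          · linear_combination b1 - (mx ρ g 0 0 * mx ρ g 0 1 * p.1.1 h) * two
          · linear_combination b0,
        fun g hg => zero _ _ (p.1.2.2.1 g hg) (p.2.2.2.1 g hg), by
          obtain ⟨U, hU, h⟩ := p.1.2.2.2.1
          obtain ⟨V, hV, k⟩ := p.2.2.2.2.1
          exact ⟨U ⊓ V, hU.inter hV, fun σ hσ => zero _ _ (h σ hσ.1) (k σ hσ.2)⟩,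
        fun l hl P hP g hg => zero _ _ (p.1.2.2.2.2 l hl P hP g hg) (p.2.2.2.2.2 l hl P hP g hg)⟩
      map_add' := fun p q => Subtype.ext (funext fun g => by
        ext i j; fin_cases i <;> fin_cases j <;> simp)
      map_smul' := fun r p => Subtype.ext (funext fun g => by
        ext i j; fin_cases i <;> fin_cases j <;> simp) }
    (fun p q e => ?_) fun p => ?_
  · have e' : ∀ g, (!![p.1.1 g, p.2.1 g; 0, p.1.1 g] : M2 F) = !![q.1.1 g, q.2.1 g; 0, q.1.1 g] :=
      fun g => congrFun (congrArg Subtype.val e) g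
    exact Prod.ext (Subtype.ext (funext fun g => congrFun (congrFun (e' g) 0) 0))
      (Subtype.ext (funext fun g => congrFun (congrFun (e' g) 0) 1))
  · refine Prod.ext (funext fun g => rfl) (funext fun g => ?_)
    show p.1.1 g + p.1.1 g = 0
    linear_combination (p.1.1 g) * two

/-- **the lower bound over the field of the upper triangular subgroup** -/
theorem lbb (hH : HASSE) (hS : SYL) (hO : ONE) (hU : UNR) (hG : ODG) (hX : FIX) (hC : CHR) :
    LBB := by
  intro F _ _ _ ρ T D H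
  have S := H.std
  have oB := opB H.opn
  obtain ⟨O, o0, o1, o2, o3, o4, o5⟩ := oneB hO hG hU H
  obtain ⟨K, k1, k2⟩ := obs hS H o1 o2
  have hB := cntB S K fun p hp => lift hH hX H p.1.2 p.2.2
    (lc_all H (off1 hU H (ch_z p.1.2) p.1.2.2.2.2) (o5 _ p.1.2 (k2 p hp).1))
    (lc_all H (fun l hl P hP => cb_add (off1 hU H (ch_s p.2.2) p.2.2.2.2.2 l hl P hP)
      (off2 hU H (ch_z p.1.2) p.1.2.2.2.2 l hl P hP)) (k2 p hp).2)
  have hA := cntA (T := T) (D := D) S
  obtain ⟨h, hB', n0, n1⟩ := exh S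
  have c1 := (hC F (GB ρ) (fun _ => 1) T D oB rfl (fun _ _ _ _ => (mul_one _).symm)
    ⟨⊤, isOpen_univ, fun _ _ => rfl⟩ H.h0 H.h2 H.dec fun _ _ _ _ _ _ _ => rfl).1
  have c2 := (hC F (GB ρ) (th ρ) T D oB (by unfold th; rw [mx1 (map_one ρ)]; simp)
    (fun g _ k hk => by unfold th; rw [m00 g hk, mul_pow])
    ⟨ρ.ker, H.opn, fun σ k => by unfold th; rw [mx1 k]; simp⟩ H.h0 H.h2 H.dec
    fun l hl P hP g _ k => by unfold th; rw [mx1 (H.unr l hl P hP g k)]; simp).2 ⟨h, hB', n0⟩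
  have c3 := (hC F (GB ρ) (ti ρ) T D oB (by unfold ti; rw [mx1 (map_one ρ)]; simp)
    (fun g hg k _ => by unfold ti; rw [m11 hg k, mul_pow])
    ⟨ρ.ker, H.opn, fun σ k => by unfold ti; rw [mx1 k]; simp⟩ H.h0 H.h2 H.dec
    fun l hl P hP g _ k => by unfold ti; rw [mx1 (H.unr l hl P hP g k)]; simp).2 ⟨h, hB', n1⟩
  have d1 := (FS_union (ti ρ) T D (GB ρ) (disjoint_compl_left (a := NN ρ D))).trans
    (FS_le _ _ _ _ _)
  have d2 := FS_inv (th ρ) T D (GB ρ) oB (NN ρ D) (ti ρ) fun g hg => by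
    refine eq_inv_of_mul_eq_one_right ?_
    show _ ^ 2 * _ ^ 2 = (1 : F)
    rw [← mul_pow, tt S hg, one_pow]
  have d3 := FS_union (fun _ => (1 : F)) T D (GB ρ) (S := NN ρ D \ O) (S' := O)
    Set.disjoint_sdiff_left
  rw [Set.diff_union_of_subset o4] at d3
  have d4 := (FS_union (fun _ => (1 : F)) T D (GB ρ) (disjoint_compl_left (a := NN ρ D))).trans
    (FS_le _ _ _ _ _)
  have d5 := FS_one (F := F) T D (GB ρ) o0 o1 o2 o3
  have f1 := FS_lt (fun _ => (1 : F)) T D (GB ρ) oB (NN ρ D \ O)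
  have f2 := FS_lt (th ρ) T D (GB ρ) oB (NN ρ D)
  generalize Module.rank F (FS (fun _ => (1 : F)) T D (GB ρ) (NN ρ D \ O)) = a at *
  generalize Module.rank F (FS (th ρ) T D (GB ρ) (NN ρ D)) = b at *
  generalize Module.rank F (FS (ti ρ) T D (GB ρ) (NN ρ D)) = b' at *
  generalize Module.rank F (FS (ti ρ) T D (GB ρ) (NN ρ D)ᶜ) = u at *
  generalize Module.rank F (FS (fun _ => (1 : F)) T D (GB ρ) (NN ρ D)ᶜ) = v at *
  generalize Module.rank F (FS (fun _ => (1 : F)) T D (GB ρ) (NN ρ D)) = w at *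
  generalize Module.rank F (FS (fun _ => (1 : F)) T D (GB ρ) O) = o at *
  generalize Module.rank F (Ft (fun _ => (1 : F)) T D (GB ρ)) = n1 at *
  generalize Module.rank F (Ft (th ρ) T D (GB ρ)) = n2 at *
  generalize Module.rank F (Ft (ti ρ) T D (GB ρ)) = n3 at *
  generalize Module.rank F (Zt (fun _ => (1 : F)) T (GB ρ)) = z1 at *
  generalize Module.rank F (Zt (th ρ) T (GB ρ)) = z2 at *
  generalize Module.rank F (Zt (ti ρ) T (GB ρ)) = z3 at *
  generalize Module.rank F K = k at *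
  generalize Module.rank F (Fx ρ T D (GB ρ)) = x at *
  generalize Module.rank F (H1 ρ T (GB ρ)) = y at *
  refine (Cardinal.add_le_add_iff_of_lt_aleph0 (Cardinal.add_lt_aleph0 f1 f2)).1 ?_
  calc x + 3 + (a + b) ≤ u + v + (n1 + n2) + 3 + (a + b') := by gcongr
    _ = (u + b' + 1) + (v + (a + 1)) + (n1 + (n2 + 1)) := by ring
    _ ≤ (u + b' + 1) + (v + (a + o)) + (n1 + (n2 + 1)) := by gcongr
    _ ≤ (n3 + 1) + (v + w) + (n1 + (n2 + 1)) := by gcongr
    _ ≤ z3 + n1 + (z1 + z2) := by gcongr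
    _ ≤ z3 + z1 + (z1 + z2) := by gcongr
    _ ≤ a + b + k + (z1 + z2) := by gcongr
    _ = k + (z1 + z2) + (a + b) := by ring
    _ ≤ y + (a + b) := by gcongr

end Vale.Agent.P022E.GW.H60
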