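import Vale.Agent.P022E.GW.Fxb
import Vale.Agent.P022E.GW.Bor
import Vale.Agent.P022E.GW.Gys
import Vale.Agent.P022E.GW.Unr
import Vale.Agent.P022D.Sel.Adm

/-!
# P022E, block GW: the obstructions which vanish above `T` are coboundaries
-/

set_option linter.all false

noncomputable section

namespace Vale.Agent.P022E.GW.Lb

open NumberField
open Vale.Agent.P022 Vale.Agent.P022.H443
open Vale.Agent.P027M.S (Inert mx)
open Vale.Agent.P022D.Sel (M2 IsDec Stab)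
open Vale.Agent.P022D.Sel.AdmA (conj_conj stab_conj)
open Vale.Agent.P022D.L2c (Hm Cob IsZ2 cup)
open Vale.Agent.P022D.W (dec)
open Fb (ch ci)
open scoped Pointwise

variable {F : Type} [Field F]

/-- `o` is a coboundary at the place `(l, g)` of the field of `GP ρ` -/
def At (ρ : GQ →* GL (Fin 2) F) (D : ℕ → Set GQ) (o : GQ → GQ → F) (l : ℕ) (g : GQ) : Prop :=
  ∀ D' : Subgroup GQ, (∀ x, x ∈ D' ↔ g⁻¹ * x * g ∈ D l) → Cb (GP ρ ⊓ D') o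

theorem stab_iff (P : Ideal (𝓞 Qb)) (t x : GQ) : Stab (t • P) x ↔ Stab P (t⁻¹ * x * t) := by
  refine ⟨stab_conj, fun h => ?_⟩
  have k : Stab (t⁻¹ • t • P) (t⁻¹ * x * t) := by rwa [inv_smul_smul]
  have := stab_conj k
  rwa [show t⁻¹⁻¹ * (t⁻¹ * x * t) * t⁻¹ = x by group] at this

/-- the decomposition groups at `l` are conjugate -/
theorem dec_cj {l : ℕ} {A B : Set GQ} (hA : IsDec l A) (hB : IsDec l B) :
    ∃ g : GQ, ∀ x, x ∈ B ↔ g⁻¹ * x * g ∈ A := by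
  obtain ⟨l0, c, hc, rfl⟩ | ⟨lp, P, p0, p1, rfl⟩ := hA
  · obtain ⟨-, c', hc', rfl⟩ | ⟨lp, -⟩ := hB
    · obtain ⟨t, ht⟩ := conj_conj hc' hc
      refine ⟨t, fun x => ?_⟩
      simp only [Set.mem_insert_iff, Set.mem_singleton_iff]
      refine or_congr ⟨fun h => by rw [h]; group, fun h => ?_⟩
        ⟨fun h => by rw [h, mul_assoc, ht]; group, fun h => ?_⟩
      · rw [show x = t * (t⁻¹ * x * t) * t⁻¹ by group, h]; group
      · rw [show x = t * (t⁻¹ * x * t) * t⁻¹ by group, h, ← ht]; group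
    · exact absurd (l0 ▸ lp) Nat.not_prime_zero
  · obtain ⟨l0, -⟩ | ⟨-, P', q0, q1, rfl⟩ := hB
    · exact absurd (l0 ▸ lp) Nat.not_prime_zero
    · obtain ⟨t, rfl⟩ := P027M.F.Tra.trans lp p0 q0 p1 q1
      exact ⟨t, stab_iff P t⟩

theorem ch_of {H : Subgroup GQ} {c : GQ → F} (h : ∀ g ∈ H, ∀ k ∈ H, c (g * k) = c g + c k)
    (o : Op c) : Ch H c := by
  obtain ⟨U, hU, h0⟩ := o
  exact ⟨Unr.lc_of H U hU (fun x : H => c x) (fun g k => h _ g.2 _ k.2) fun v hv => h0 _ hv,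
    fun g k => h _ g.2 _ k.2⟩

theorem Ch.ad {H : Subgroup GQ} {c : GQ → F} (h : Ch H c) {g k : GQ} (hg : g ∈ H) (hk : k ∈ H) :
    c (g * k) = c g + c k := h.2 ⟨g, hg⟩ ⟨k, hk⟩

theorem ch_le {H K : Subgroup GQ} (le : H ≤ K) {c : GQ → F} (h : Ch K c) : Ch H c :=
  Gy.hm_le le h

theorem z2_cup {H : Subgroup GQ} {a b : GQ → F} (ha : Ch H a) (hb : Ch H b) : Z2 H (cup a b) :=
  Gy.z2_cup ha hb

theorem cb_unr [CharP F 2] (hU : UNR) {H : Subgroup GQ} (oH : IsOpen (H : Set GQ)) {l : ℕ}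
    {P : Ideal (𝓞 Qb)} (hP : Ov l P) {a b : GQ → F} (ha : Ch (H ⊓ dec P) a)
    (hb : Ch (H ⊓ dec P) b) (a0 : ∀ i ∈ H, Inert P i → a i = 0)
    (b0 : ∀ i ∈ H, Inert P i → b i = 0) : Cb (H ⊓ dec P) (cup a b) :=
  hU F H l P _ oH hP (z2_cup ha hb) fun g hg h hh i hi k => by
    have m : i ∈ H ⊓ dec P := ⟨hi, P022D.W.inP_le_dec k⟩
    simp only [cup, Ch.ad ha hg m, Ch.ad hb hh m, a0 i hi k, b0 i hi k, add_zero, and_self]

variable {ρ : GQ →* GL (Fin 2) F} {T : Finset ℕ} {D : ℕ → Set GQ}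

theorem opP (H : Hyp ρ T D) : IsOpen (GP ρ : Set GQ) :=
  Subgroup.isOpen_mono (H₁ := ρ.ker) Bor.ker_le H.opn

theorem opB (H : Hyp ρ T D) : IsOpen (GB ρ : Set GQ) :=
  Subgroup.isOpen_mono (H₁ := GP ρ) Bor.le (opP H)

theorem a0 {g : GQ} (h : ρ g = 1) : mx ρ g 0 1 = 0 := by simp [mx, h]

theorem a_add {g k : GQ} (hg : g ∈ GP ρ) (hk : k ∈ GP ρ) :
    mx ρ (g * k) 0 1 = mx ρ g 0 1 + mx ρ k 0 1 := by
  have e := Bor.e01 (ρ := ρ) g k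
  rw [(Bor.mem_GP.1 hg).2.1, (Bor.mem_GP.1 hk).2.2, one_mul, mul_one, add_comm] at e
  exact e

theorem ch_a (H : Hyp ρ T D) : Ch (GP ρ) fun g => mx ρ g 0 1 :=
  ch_of (fun _ hg _ hk => a_add hg hk) ⟨ρ.ker, H.opn, fun _ h => a0 h⟩

theorem ch_a2 [CharP F 2] (H : Hyp ρ T D) : Ch (GP ρ) fun g => mx ρ g 0 1 ^ 2 :=
  ch_of (fun _ hg _ hk => by rw [a_add hg hk, CharTwo.add_sq])
    ⟨ρ.ker, H.opn, fun _ h => pow_eq_zero_iff two_ne_zero |>.2 (a0 h)⟩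

theorem ch_z {z : GQ → F} (hz : z ∈ Zt (ci ρ) T (GB ρ)) : Ch (GP ρ) z :=
  ch_of (fun g hg k hk => by
    rw [hz.1 g (Fb.uni hg).1 k (Fb.uni hk).1, ci, (Fb.uni hg).2.2.1, one_pow, one_mul]) hz.2.2.1

theorem ch_s {s : GQ → F} (hs : s ∈ Zt (fun _ => (1 : F)) T (GB ρ)) : Ch (GP ρ) s :=
  ch_of (fun g hg k hk => by rw [hs.1 g (Fb.uni hg).1 k (Fb.uni hk).1, one_mul]) hs.2.2.1

theorem lc_of (H : Hyp ρ T D) {o : GQ → GQ → F} (hT : ∀ l ∈ T, ∀ g, At ρ D o l g)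
    (hU : ∀ l ∉ T, ∀ P, Ov l P → Cb (GP ρ ⊓ dec P) o) : Lc (GP ρ) o := by
  intro l D' hD'
  by_cases hl : l ∈ T
  · obtain ⟨g, hg⟩ := dec_cj (H.dec l hl) hD'
    exact hT l hl g D' hg
  · obtain ⟨l0, -⟩ | ⟨lp, P, p0, p1, e⟩ := hD'
    · exact absurd (l0 ▸ H.h0) hl
    · have : D' = dec P := SetLike.coe_injective e
      rw [this]
      exact hU l hl P ⟨lp, p0, p1⟩

variable [CharP F 2]

theorem off1 (hU : UNR) (H : Hyp ρ T D) {z : GQ → F} (hz : z ∈ Zt (ci ρ) T (GB ρ)) {l : ℕ}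
    (hl : l ∉ T) {P : Ideal (𝓞 Qb)} (hP : Ov l P) :
    Cb (GP ρ ⊓ dec P) (cup (fun g => mx ρ g 0 1) z) :=
  cb_unr hU (opP H) hP (ch_le inf_le_left (ch_a H)) (ch_le inf_le_left (ch_z hz))
    (fun i _ k => a0 (H.unr l hl P hP i k)) fun i _ k => hz.2.2.2 l hl P hP i k

variable [Finite F]

/-- **the first obstruction** -/
theorem loc1 (hH : HASSE) (hU : UNR) (H : Hyp ρ T D) {z : GQ → F} (hz : z ∈ Zt (ci ρ) T (GB ρ))
    (h : ∀ l ∈ T, ∀ g, At ρ D (cup (fun g => mx ρ g 0 1) z) l g) :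
    Cb (GP ρ) (cup (fun g => mx ρ g 0 1) z) :=
  hH F _ _ (opP H) (z2_cup (ch_a H) (ch_z hz)) (lc_of H h fun _ hl _ hP => off1 hU H hz hl hP)

/-- **the second obstruction** -/
theorem loc2 (hH : HASSE) (hU : UNR) (H : Hyp ρ T D) {z s : GQ → F}
    (hz : z ∈ Zt (ci ρ) T (GB ρ)) (hs : s ∈ Zt (fun _ => (1 : F)) T (GB ρ))
    (h : ∀ l ∈ T, ∀ g, At ρ D
      (cup (fun g => mx ρ g 0 1) s + cup (fun g => mx ρ g 0 1 ^ 2) z) l g) :
    Cb (GP ρ) (cup (fun g => mx ρ g 0 1) s + cup (fun g => mx ρ g 0 1 ^ 2) z) :=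
  hH F _ _ (opP H) (Gy.z2_add (z2_cup (ch_a H) (ch_s hs)) (z2_cup (ch_a2 H) (ch_z hz)))
    (lc_of H h fun l hl P hP => add_mem
      (cb_unr hU (opP H) hP (ch_le inf_le_left (ch_a H)) (ch_le inf_le_left (ch_s hs))
        (fun i _ k => a0 (H.unr l hl P hP i k)) fun i _ k => hs.2.2.2 l hl P hP i k)
      (cb_unr hU (opP H) hP (ch_le inf_le_left (ch_a2 H)) (ch_le inf_le_left (ch_z hz))
        (fun i _ k => pow_eq_zero_iff two_ne_zero |>.2 (a0 (H.unr l hl P hP i k)))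
        fun i _ k => hz.2.2.2 l hl P hP i k))

end Vale.Agent.P022E.GW.Lb
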