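import Vale.Agent.P022E.GW.LbLoc
import Vale.Agent.P022E.GW.LbH35a
import Vale.Agent.P022E.GW.CorL

/-!
# P022E, block GW: the rank of the obstruction map
-/

set_option linter.all false

noncomputable section

namespace Vale.Agent.P022E.GW.Lb

open NumberField
open Vale.Agent.P022 Vale.Agent.P022.H443
open Vale.Agent.P027M.S (Inert mx)
open Vale.Agent.P022D.Sel (M2 IsDec Stab)
open Vale.Agent.P022D.L2c (Hm Cob IsZ2 cup)
open Vale.Agent.P022D.W (dec)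
open Fb (ch ci Ns Sup FN)
open H35 (Dg mem_Dg Dg_right Dg_left isDec_Dg)

variable {F : Type} [Field F]

theorem cl_iff {l : ℕ} {A : Set GQ} (h : IsDec l A) (x : GQ) : x ∈ Subgroup.closure A ↔ x ∈ A := by
  obtain ⟨-, c, hc, rfl⟩ | ⟨-, P, -, -, rfl⟩ := h
  · exact H35.cl_two hc x
  · rw [H35.cl_dec]; rfl

theorem rank_ft (θ : GQ → F) (T : Finset ℕ) (D : ℕ → Set GQ) {Γ : Subgroup GQ}
    (h : IsOpen (Γ : Set GQ)) : Module.rank F (Ft θ T D Γ) < Cardinal.aleph0 := by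
  have := galQb
  haveI : Finite (GQ ⧸ Γ) := Γ.quotient_finite_of_isOpen h
  let k : Ft θ T D Γ →ₗ[F] (T × (GQ ⧸ Γ) → F) :=
    { toFun := fun f p => f.1 p.1 (p.2.out)⁻¹
      map_add' := fun _ _ => rfl
      map_smul' := fun _ _ => rfl }
  refine (k.rank_le_of_injective ((injective_iff_map_eq_zero _).2 fun f hf => ?_)).trans_lt
    (Module.rank_lt_aleph0 F _)
  refine Subtype.ext (funext fun l => funext fun g => ?_)
  by_cases hl : l ∈ T
  · obtain ⟨γ, hγ⟩ := QuotientGroup.mk_out_eq_mul Γ g⁻¹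
    have e : f.1 l (((g⁻¹ : GQ) : GQ ⧸ Γ).out)⁻¹ = 0 :=
      congrFun hf (⟨l, hl⟩, ((g⁻¹ : GQ) : GQ ⧸ Γ))
    have e2 := f.2.2.1 l γ γ.2 (((g⁻¹ : GQ) : GQ ⧸ Γ).out)⁻¹
    rw [e, mul_zero, hγ, show (γ : GQ) * (g⁻¹ * γ)⁻¹ = g by group] at e2
    exact e2
  · rw [f.2.1 l hl]; rfl

theorem rank_pd {A B : Type} [AddCommGroup A] [Module F A] [AddCommGroup B] [Module F B]
    (A' : Submodule F A) (B' : Submodule F B) :
    Module.rank F A' + Module.rank F B' ≤ Module.rank F (A'.prod B') := by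
  rw [← rank_prod']
  refine ((A'.subtype.prodMap B'.subtype).codRestrict (A'.prod B')
    fun p => ⟨p.1.2, p.2.2⟩).rank_le_of_injective fun p q h => ?_
  have k := congrArg Subtype.val h
  exact Prod.ext (Subtype.ext (congrArg Prod.fst k)) (Subtype.ext (congrArg Prod.snd k))

theorem zt_cj {θ z : GQ → F} {T : Finset ℕ} {Γ : Subgroup GQ} (hz : z ∈ Zt θ T Γ) (h1 : θ 1 = 1)
    {γ x : GQ} (hγ : γ ∈ Γ) (hx : x ∈ Γ) (e : θ (γ * x) = θ γ) :
    z (γ * x * γ⁻¹) = θ γ * z x := by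
  have a := hz.1 1 Γ.one_mem 1 Γ.one_mem
  have b := hz.1 γ hγ γ⁻¹ (Γ.inv_mem hγ)
  rw [mul_one, h1] at a
  rw [mul_inv_cancel] at b
  rw [hz.1 _ (Γ.mul_mem hγ hx) _ (Γ.inv_mem hγ), hz.1 _ hγ _ hx, e]
  linear_combination -a - b

/-- truncation -/
def tc (H : Subgroup GQ) : (GQ → F) →ₗ[F] (GQ → F) where
  toFun c := (H : Set GQ).indicator c
  map_add' a b := Set.indicator_add' _ a b
  map_smul' r a := by
    funext g
    by_cases h : g ∈ H <;> simp [h]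

theorem tc_in {H : Subgroup GQ} (c : GQ → F) {g : GQ} (h : g ∈ H) : tc H c g = c g :=
  Set.indicator_of_mem h c

theorem tc_out {H : Subgroup GQ} (c : GQ → F) {g : GQ} (h : g ∉ H) : tc H c g = 0 :=
  Set.indicator_of_notMem h c

theorem tc_ch {H : Subgroup GQ} {c : GQ → F} (h : Ch H c) : Ch H (tc H c) := by
  have : (fun x : H => tc H c x) = fun x : H => c x := funext fun x => tc_in c x.2
  unfold Ch
  rw [this]
  exact h

/-- the cup product with `a` -/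
def cl (a : GQ → F) : (GQ → F) →ₗ[F] (GQ → GQ → F) where
  toFun z := cup a z
  map_add' _ _ := by funext x y; simp only [cup, Pi.add_apply, mul_add]
  map_smul' _ _ := by
    funext x y; simp only [cup, Pi.smul_apply, smul_eq_mul, RingHom.id_apply]; ring

variable {ρ : GQ →* GL (Fin 2) F} {T : Finset ℕ} {D : ℕ → Set GQ}

theorem nP {γ : GQ} (hγ : γ ∈ GB ρ) (x : GQ) : x ∈ GP ρ ↔ γ * x * γ⁻¹ ∈ GP ρ :=
  ⟨Bor.nrm hγ, fun h => by
    have := Bor.nrm ((GB ρ).inv_mem hγ) h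
    rwa [show γ⁻¹ * (γ * x * γ⁻¹) * γ⁻¹⁻¹ = x by group] at this⟩

theorem tc_cj {c : GQ → F} {γ : GQ} (hγ : γ ∈ GB ρ) {r : F}
    (h : ∀ x ∈ GP ρ, c (γ * x * γ⁻¹) = r * c x) (x : GQ) :
    tc (GP ρ) c (γ * x * γ⁻¹) = r * tc (GP ρ) c x := by
  by_cases k : x ∈ GP ρ
  · rw [tc_in c k, tc_in c ((nP hγ x).1 k), h x k]
  · rw [tc_out c k, tc_out c fun m => k ((nP hγ x).2 m), mul_zero]

theorem a_cj [CharP F 2] (hd : ∀ g, (mx ρ g).det = 1) {γ x : GQ} (hγ : γ ∈ GB ρ)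
    (hx : x ∈ GP ρ) : mx ρ (γ * x * γ⁻¹) 0 1 = ch ρ γ * mx ρ x 0 1 := by
  obtain ⟨u0, u1, u2, -⟩ := Fb.uni hx
  have u3 : mx ρ x 1 0 = 0 := u0
  rw [P022D.Sel.AdmA.mx_mul, P022D.Sel.AdmA.mx_mul, (Fb.act hd hγ _).2.2.2, u1, u2, u3,
    CharTwo.add_self_eq_zero]
  ring

theorem z_cj {z : GQ → F} (hz : z ∈ Zt (ci ρ) T (GB ρ)) {γ x : GQ} (hγ : γ ∈ GB ρ)
    (hx : x ∈ GP ρ) : z (γ * x * γ⁻¹) = ci ρ γ * z x := by
  refine zt_cj hz (by simp [ci, mx]) hγ (Fb.uni hx).1 ?_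
  have e : mx ρ (γ * x) 1 1 = mx ρ γ 1 1 * mx ρ x 1 1 := Bor.e11 hγ
  rw [ci, ci, e, (Fb.uni hx).2.2.1, mul_one]

open Classical in
/-- the family of the local invariants -/
def om (T : Finset ℕ) (D : ℕ → Set GQ) (inv : Subgroup GQ → (GQ → GQ → F) →ₗ[F] F) :
    (GQ → GQ → F) →ₗ[F] (ℕ → GQ → F) where
  toFun o l g := if l ∈ T then inv (Dg (D l) g) o else 0
  map_add' a b := by
    funext l g
    by_cases h : l ∈ T <;> simp [h]
  map_smul' r a := by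
    funext l g
    by_cases h : l ∈ T <;> simp [h]

open Classical in
/-- truncation outside `V` -/
def cut (V : ℕ → GQ → Prop) : (ℕ → GQ → F) →ₗ[F] (ℕ → GQ → F) where
  toFun f l g := if V l g then 0 else f l g
  map_add' a b := by
    funext l g
    by_cases h : V l g <;> simp [h]
  map_smul' r a := by
    funext l g
    by_cases h : V l g <;> simp [h]

theorem cut_in {V : ℕ → GQ → Prop} (f : ℕ → GQ → F) {l : ℕ} {g : GQ} (h : V l g) :
    cut V f l g = 0 := if_pos h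

theorem cut_out {V : ℕ → GQ → Prop} (f : ℕ → GQ → F) {l : ℕ} {g : GQ} (h : ¬ V l g) :
    cut V f l g = f l g := if_neg h

section

variable {inv : Subgroup GQ → (GQ → GQ → F) →ₗ[F] F}
  (hi : ∀ (l : ℕ) (D : Subgroup GQ), IsDec l (D : Set GQ) →
    (∀ z ∈ Sy F (GP ρ), inv D z = 0 ↔ Cb (GP ρ ⊓ D) z) ∧
    ∀ (g : GQ) (D' : Subgroup GQ), (∀ x, x ∈ GP ρ ↔ g * x * g⁻¹ ∈ GP ρ) →
      (∀ x, x ∈ D ↔ g * x * g⁻¹ ∈ D') → ∀ z ∈ Sy F (GP ρ),
        inv D (fun x y => z (g * x * g⁻¹) (g * y * g⁻¹)) = inv D' z)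

theorem om_in (o : GQ → GQ → F) {l : ℕ} (hl : l ∈ T) (g : GQ) :
    om T D inv o l g = inv (Dg (D l) g) o := if_pos hl

theorem om_out (o : GQ → GQ → F) {l : ℕ} (hl : l ∉ T) (g : GQ) : om T D inv o l g = 0 :=
  if_neg hl

include hi

theorem om_mem (H : Hyp ρ T D) {o : GQ → GQ → F} (ho : o ∈ Sy F (GP ρ)) {θ : GQ → F}
    (he : ∀ γ ∈ GB ρ, ∀ x y, o (γ * x * γ⁻¹) (γ * y * γ⁻¹) = θ γ * o x y)
    (h0 : ∀ x y, ρ x = 1 → o x y = 0) : om T D inv o ∈ FN ρ θ T D := by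
  refine ⟨⟨fun l hl => funext fun g => om_out o hl g, fun l γ hγ g => ?_, fun l d hd g => ?_⟩,
    fun l g hg => ?_⟩
  · by_cases hl : l ∈ T
    · rw [om_in o hl, om_in o hl, ← (hi l _ (isDec_Dg (H.dec l hl) g)).2 γ _ (nP hγ)
        (Dg_left (D l) γ g) o ho, ← smul_eq_mul, ← map_smul]
      congr 1
      funext x y
      exact he γ hγ x y
    · rw [om_out o hl, om_out o hl, mul_zero]
  · by_cases hl : l ∈ T
    · rw [om_in o hl, om_in o hl, Dg_right hd]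
    · rw [om_out o hl, om_out o hl]
  · by_cases hl : l ∈ T
    · rw [om_in o hl, (hi l _ (isDec_Dg (H.dec l hl) g)).1 o ho]
      have : rs (GP ρ ⊓ Dg (D l) g) o = 0 := by
        funext x y
        refine h0 x y (by_contra fun k => hg ⟨x, x.2.1, k, ?_⟩)
        exact (cl_iff (H.dec l hl) _).1 x.2.2
      unfold Cb
      rw [this]
      exact zero_mem _
    · exact om_out o hl g

theorem om_at (H : Hyp ρ T D) {o o' : GQ → GQ → F} (ho : o ∈ Sy F (GP ρ))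
    (e : ∀ x ∈ GP ρ, ∀ y ∈ GP ρ, o x y = o' x y) {l : ℕ} (hl : l ∈ T) (g : GQ) :
    om T D inv o l g = 0 ↔ At ρ D o' l g := by
  have k : ∀ x, x ∈ Dg (D l) g ↔ g⁻¹ * x * g ∈ D l := fun x => cl_iff (H.dec l hl) _
  have r : rs (GP ρ ⊓ Dg (D l) g) o = rs (GP ρ ⊓ Dg (D l) g) o' := by
    funext x y
    exact e _ x.2.1 _ y.2.1
  rw [om_in o hl, (hi l _ (isDec_Dg (H.dec l hl) g)).1 o ho]
  unfold Cb
  rw [r]
  refine ⟨fun h D' hD' => ?_, fun h => h _ k⟩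
  have : D' = Dg (D l) g := Subgroup.ext fun x => (hD' x).trans (k x).symm
  rw [this]
  exact h

end

/-- **the rank of the obstruction** -/
theorem obs [Finite F] [CharP F 2] (hH : HASSE) (hS : SYL) (hU : UNR) (H : Hyp ρ T D)
    (V : ℕ → GQ → Prop) (v1 : ∀ l, ∀ b ∈ GB ρ, ∀ g, V l g → V l (b * g))
    (v2 : ∀ l, ∀ d ∈ D l, ∀ g, V l g → V l (g * d)) (v3 : ∀ l g, V l g → Ns ρ D l g)
    (v4 : ∃ l ∈ T, ∃ g, V l g)
    (v5 : ∀ z ∈ Zt (ci ρ) T (GB ρ),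
      (∀ l ∈ T, ∀ g, ¬ V l g → At ρ D (cup (fun g => mx ρ g 0 1) z) l g) →
      ∀ l ∈ T, ∀ g, At ρ D (cup (fun g => mx ρ g 0 1) z) l g) :
    ∃ K : Submodule F ((GQ → F) × (GQ → F)),
      K ≤ (Zt (ci ρ) T (GB ρ)).prod (Zt (fun _ => (1 : F)) T (GB ρ)) ∧
      (∀ k ∈ K, Cb (GP ρ) (cup (fun g => mx ρ g 0 1) k.1) ∧
        Cb (GP ρ) (cup (fun g => mx ρ g 0 1) k.2 + cup (fun g => mx ρ g 0 1 ^ 2) k.1)) ∧
      Module.rank F (Zt (ci ρ) T (GB ρ)) + Module.rank F (Zt (fun _ => (1 : F)) T (GB ρ)) + 1 ≤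
        Module.rank F K + (Module.rank F (FN ρ (fun _ => (1 : F)) T D) +
          Module.rank F (FN ρ (ch ρ) T D)) := by
  classical
  obtain ⟨inv, hi⟩ := hS F (GP ρ) (opP H)
  have hd : ∀ g, (mx ρ g).det = 1 := Bor.det H.std
  have w1 : ∀ l, ∀ b ∈ GB ρ, ∀ g, V l (b * g) ↔ V l g := fun l b hb g =>
    ⟨fun h => by simpa using v1 l _ ((GB ρ).inv_mem hb) _ h, v1 l b hb g⟩
  have w2 : ∀ l ∈ T, ∀ d ∈ D l, ∀ g, V l (g * d) ↔ V l g := fun l hl d hd g =>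
    ⟨fun h => by
      simpa using v2 l _ ((cl_iff (H.dec l hl) _).1
        (inv_mem ((cl_iff (H.dec l hl) _).2 hd))) _ h, v2 l d hd g⟩
  let A := tc (GP ρ) fun g => mx ρ g 0 1
  let A2 := tc (GP ρ) fun g => mx ρ g 0 1 ^ 2
  let O1 : (GQ → F) × (GQ → F) →ₗ[F] (GQ → GQ → F) :=
    (cl A).comp ((tc (GP ρ)).comp (LinearMap.fst F _ _))
  let O2 : (GQ → F) × (GQ → F) →ₗ[F] (GQ → GQ → F) :=
    (cl A).comp ((tc (GP ρ)).comp (LinearMap.snd F _ _)) +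
      (cl A2).comp ((tc (GP ρ)).comp (LinearMap.fst F _ _))
  let Φ := ((cut V).comp ((om T D inv).comp O1)).prod ((om T D inv).comp O2)
  let Z := (Zt (ci ρ) T (GB ρ)).prod (Zt (fun _ => (1 : F)) T (GB ρ))
  have sy : ∀ {a b : GQ → F}, Ch (GP ρ) a → Ch (GP ρ) b →
      cup (tc (GP ρ) a) (tc (GP ρ) b) ∈ Sy F (GP ρ) := fun ha hb =>
    Submodule.subset_span ⟨_, _, tc_ch ha, tc_ch hb, rfl⟩
  have s1 : ∀ p ∈ Z, O1 p ∈ Sy F (GP ρ) := fun p hp => sy (ch_a H) (ch_z hp.1)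
  have s2 : ∀ p ∈ Z, O2 p ∈ Sy F (GP ρ) := fun p hp =>
    add_mem (sy (ch_a H) (ch_s hp.2)) (sy (ch_a2 H) (ch_z hp.1))
  have eA : ∀ γ ∈ GB ρ, ∀ x, A (γ * x * γ⁻¹) = ch ρ γ * A x := fun γ hγ =>
    tc_cj hγ fun x hx => a_cj hd hγ hx
  have eA2 : ∀ γ ∈ GB ρ, ∀ x, A2 (γ * x * γ⁻¹) = ch ρ γ ^ 2 * A2 x := fun γ hγ =>
    tc_cj hγ fun x hx => by rw [a_cj hd hγ hx, mul_pow]
  have zA : ∀ x, ρ x = 1 → A x = 0 := fun x hx => (tc_in _ (Bor.ker_le hx)).trans (a0 hx)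
  have zA2 : ∀ x, ρ x = 1 → A2 x = 0 := fun x hx =>
    (tc_in _ (Bor.ker_le hx)).trans (pow_eq_zero_iff two_ne_zero |>.2 (a0 hx))
  have m1 : ∀ p ∈ Z, om T D inv (O1 p) ∈ FN ρ (fun _ => (1 : F)) T D := fun p hp =>
    om_mem hi H (s1 p hp) (fun γ hγ x y => by
      change A _ * tc (GP ρ) p.1 _ = 1 * (A x * tc (GP ρ) p.1 y)
      rw [eA γ hγ, tc_cj hγ fun x hx => z_cj hp.1 hγ hx]
      linear_combination A x * tc (GP ρ) p.1 y * Fb.ch_ci hd hγ) fun x y hx => by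
      change A x * _ = 0
      rw [zA x hx, zero_mul]
  have m2 : ∀ p ∈ Z, om T D inv (O2 p) ∈ FN ρ (ch ρ) T D := fun p hp =>
    om_mem hi H (s2 p hp) (fun γ hγ x y => by
      change A _ * tc (GP ρ) p.2 _ + A2 _ * tc (GP ρ) p.1 _ =
        ch ρ γ * (A x * tc (GP ρ) p.2 y + A2 x * tc (GP ρ) p.1 y)
      rw [eA γ hγ, eA2 γ hγ, tc_cj hγ fun x hx => z_cj hp.1 hγ hx,
        tc_cj hγ fun x hx => zt_cj hp.2 rfl hγ (Fb.uni hx).1 rfl]
      linear_combination ch ρ γ * A2 x * tc (GP ρ) p.1 y * Fb.ch_ci hd hγ) fun x y hx => by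
      change A x * _ + A2 x * _ = 0
      rw [zA x hx, zA2 x hx, zero_mul, zero_mul, add_zero]
  refine ⟨Z ⊓ LinearMap.ker Φ, inf_le_left, fun p hp => ⟨?_, ?_⟩, ?_⟩
  · refine loc1 hH hU H hp.1.1 (v5 _ hp.1.1 fun l hl g hg => ?_)
    refine (om_at hi H (s1 p hp.1) (fun x hx y hy => ?_) hl g).1 ?_
    · change A x * tc (GP ρ) p.1 y = _
      rw [tc_in _ hy, show A x = _ from tc_in _ hx]; rfl
    · exact (cut_out _ hg).symm.trans
        (congrFun (congrFun (congrArg Prod.fst (LinearMap.mem_ker.1 hp.2)) l) g)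
  · refine loc2 hH hU H hp.1.1 hp.1.2 fun l hl g => ?_
    refine (om_at hi H (s2 p hp.1) (fun x hx y hy => ?_) hl g).1 ?_
    · change A x * tc (GP ρ) p.2 y + A2 x * tc (GP ρ) p.1 y = _
      rw [tc_in _ hy, tc_in _ hy, show A x = _ from tc_in _ hx, show A2 x = _ from tc_in _ hx]; rfl
    · exact congrFun (congrFun (congrArg Prod.snd (LinearMap.mem_ker.1 hp.2)) l) g
  · have r1 : Z.map Φ ≤ (FN ρ (fun _ => (1 : F)) T D ⊓ Sup F fun l g => ¬ V l g).prod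
        (FN ρ (ch ρ) T D) := by
      rintro _ ⟨p, hp, rfl⟩
      refine ⟨?_, m2 p hp⟩
      obtain ⟨⟨a1, a2, a3⟩, a4⟩ := m1 p hp
      change cut V (om T D inv (O1 p)) ∈ _
      generalize om T D inv (O1 p) = f at a1 a2 a3 a4
      refine ⟨⟨⟨fun l hl => funext fun g => ?_, fun l γ hγ g => ?_, fun l d hd g => ?_⟩,
        fun l g hg => ?_⟩, fun l g hg => cut_in f (not_not.1 hg)⟩
      · by_cases k : V l g
        · exact cut_in f k
        · rw [cut_out f k, a1 l hl]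
      · by_cases k : V l g
        · rw [cut_in f k, cut_in f ((w1 l γ hγ g).2 k), mul_zero]
        · rw [cut_out f k, cut_out f fun m => k ((w1 l γ hγ g).1 m), a2 l γ hγ g]
      · by_cases k : V l g
        · rw [cut_in f k, cut_in f (v2 l d hd g k)]
        · by_cases hl : l ∈ T
          · rw [cut_out f k, cut_out f fun m => k ((w2 l hl d hd g).1 m), a3 l d hd g]
          · by_cases k' : V l (g * d)
            · rw [cut_out f k, cut_in f k', a1 l hl]; rfl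
            · rw [cut_out f k, cut_out f k', a3 l d hd g]
      · by_cases k : V l g
        · exact cut_in f k
        · rw [cut_out f k, a4 l g hg]
    have r2 : 1 ≤ Module.rank F ↥(FN ρ (fun _ => (1 : F)) T D ⊓ Sup F V) := by
      obtain ⟨l0, h0, g0, k0⟩ := v4
      rw [Cardinal.one_le_iff_pos, rank_pos_iff_exists_ne_zero]
      refine ⟨⟨fun l g => if l ∈ T ∧ V l g then 1 else 0, ⟨⟨fun l hl => funext fun g =>
        if_neg fun m => hl m.1, fun l γ hγ g => ?_, fun l d hd g => ?_⟩,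
        fun l g hg => if_neg fun m => hg (v3 l g m.2)⟩, fun l g hg => if_neg fun m => hg m.2⟩,
        fun e => ?_⟩
      · simp only [w1 l γ hγ g, one_mul]
      · by_cases hl : l ∈ T
        · simp only [w2 l hl d hd g]
        · simp only [hl, false_and]
      · have := congrFun (congrFun (congrArg Subtype.val e) l0) g0
        exact one_ne_zero ((if_pos ⟨h0, k0⟩).symm.trans this)
    have r3 := Fb.rank_sup (FN ρ (fun _ => (1 : F)) T D) V
    have r4 := (Submodule.rank_mono r1).trans (Fb.rank_pr _ _)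
    have r5 := (rank_pd _ _).trans (Cor.rank_split Φ Z).ge
    refine (add_le_add (r5.trans (add_le_add r4 le_rfl)) r2).trans ?_
    refine le_trans (le_of_eq ?_) (add_le_add le_rfl (add_le_add r3 le_rfl))
    ring

end Vale.Agent.P022E.GW.Lb
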