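import Vale.Agent.P022E.GW.Defs
import Vale.Agent.P022E.GW.Kc
import Vale.Agent.P022D.Sel.Adm

/-!
# P022E, block GW: conjugates of decomposition groups
-/

set_option linter.all false

noncomputable section

namespace Vale.Agent.P022E.GW.Ob

open NumberField IsDedekindDomain
open Vale.Agent.P022 Vale.Agent.P022.C
open Vale.Agent.P027M.S (Inert mx)
open Vale.Agent.P022D.Sel (IsDec Stab)
open Vale.Agent.P022D.W (dec)
open scoped Pointwise

theorem conj_sq {c : GQ} (h : IsConj c) : c * c = 1 := by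
  obtain ⟨φ, hφ⟩ := h
  refine AlgEquiv.ext fun x => φ.injective ?_
  rw [AlgEquiv.mul_apply, hφ, hφ, starRingEnd_self_apply]
  rfl

theorem conj_cj {c : GQ} (h : IsConj c) (g : GQ) : IsConj (g * c * g⁻¹) := by
  obtain ⟨φ, hφ⟩ := h
  refine ⟨φ.comp (g⁻¹ : GQ).toRingEquiv.toRingHom, fun x => ?_⟩
  change φ (g⁻¹ ((g * c * g⁻¹) x)) = starRingEnd ℂ (φ (g⁻¹ x))
  rw [← hφ, ← AlgEquiv.mul_apply, ← AlgEquiv.mul_apply]
  congr 2
  group

/-- a decomposition group is a subgroup -/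
theorem ex_sub {l : ℕ} {S : Set GQ} (h : IsDec l S) : ∃ V : Subgroup GQ, (V : Set GQ) = S := by
  obtain ⟨-, c, hc, rfl⟩ | ⟨-, P, -, -, rfl⟩ := h
  · have e := conj_sq hc
    refine ⟨⟨⟨⟨{1, c}, ?_⟩, Or.inl rfl⟩, ?_⟩, rfl⟩
    · rintro a b (rfl | rfl) (rfl | hb)
      · exact Or.inl (mul_one _)
      · exact Or.inr (by rw [one_mul]; exact hb)
      · exact Or.inr (mul_one _)
      · exact Or.inl (by rw [show b = a from hb]; exact e)
    · rintro a (rfl | rfl)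
      · exact Or.inl inv_one
      · exact Or.inr (inv_eq_of_mul_eq_one_right e)
  · exact ⟨dec P, rfl⟩

/-- the conjugate of `S` by `g` -/
def Dc (S : Set GQ) (g : GQ) : Subgroup GQ :=
  (Subgroup.closure S).comap (MulAut.conj g⁻¹).toMonoidHom

theorem mem_Dc {l : ℕ} {S : Set GQ} (h : IsDec l S) {g x : GQ} : x ∈ Dc S g ↔ g⁻¹ * x * g ∈ S := by
  obtain ⟨V, rfl⟩ := ex_sub h
  rw [Dc, Subgroup.closure_eq, Subgroup.mem_comap]
  change g⁻¹ * x * g⁻¹⁻¹ ∈ V ↔ _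
  rw [inv_inv]
  rfl

theorem Dc_mul (S : Set GQ) (γ g x : GQ) : x ∈ Dc S g ↔ γ * x * γ⁻¹ ∈ Dc S (γ * g) := by
  change g⁻¹ * x * g⁻¹⁻¹ ∈ Subgroup.closure S ↔
    (γ * g)⁻¹ * (γ * x * γ⁻¹) * (γ * g)⁻¹⁻¹ ∈ Subgroup.closure S
  rw [show (γ * g)⁻¹ * (γ * x * γ⁻¹) * (γ * g)⁻¹⁻¹ = g⁻¹ * x * g⁻¹⁻¹ by group]

theorem Dc_right (S : Set GQ) {d : GQ} (hd : d ∈ S) (g : GQ) : Dc S (g * d) = Dc S g := by
  ext x
  change (g * d)⁻¹ * x * (g * d)⁻¹⁻¹ ∈ Subgroup.closure S ↔ g⁻¹ * x * g⁻¹⁻¹ ∈ Subgroup.closure S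
  have k : d ∈ Subgroup.closure S := Subgroup.subset_closure hd
  rw [show (g * d)⁻¹ * x * (g * d)⁻¹⁻¹ = d⁻¹ * (g⁻¹ * x * g⁻¹⁻¹) * d by group,
    Subgroup.mul_mem_cancel_right _ k, Subgroup.mul_mem_cancel_left _ (Subgroup.inv_mem _ k)]

theorem dec_smul (P : Ideal (𝓞 Qb)) (g x : GQ) : x ∈ dec (g • P) ↔ g⁻¹ * x * g ∈ dec P := by
  refine ⟨fun h => P022D.Sel.AdmA.stab_conj h, fun h => ?_⟩
  have k : Stab (g⁻¹ • g • P) (g⁻¹ * x * g) := by rw [inv_smul_smul]; exact h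
  have := P022D.Sel.AdmA.stab_conj k
  rwa [show g⁻¹⁻¹ * (g⁻¹ * x * g) * g⁻¹ = x by group] at this

theorem ov_smul {l : ℕ} {P : Ideal (𝓞 Qb)} (h : Ov l P) (g : GQ) : Ov l (g • P) := by
  have := h.2.1
  refine ⟨h.1, Ideal.IsPrime.smul g, ?_⟩
  rw [Ideal.mem_pointwise_smul_iff_inv_smul_mem]
  have e : g⁻¹ • (l : 𝓞 Qb) = l := map_natCast (MulSemiringAction.toRingHom GQ (𝓞 Qb) g⁻¹) l
  rw [e]
  exact h.2.2

theorem isDec_dec {l : ℕ} {P : Ideal (𝓞 Qb)} (h : Ov l P) : IsDec l (dec P : Set GQ) :=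
  Or.inr ⟨h.1, P, h.2.1, h.2.2, rfl⟩

theorem Dc_dec {l : ℕ} {P : Ideal (𝓞 Qb)} (h : Ov l P) (g : GQ) :
    Dc (dec P : Set GQ) g = dec (g • P) := by
  ext x
  rw [mem_Dc (isDec_dec h), dec_smul]
  rfl

theorem isDec_Dc {l : ℕ} {S : Set GQ} (h : IsDec l S) (g : GQ) : IsDec l (Dc S g : Set GQ) := by
  obtain ⟨h0, c, hc, e⟩ | ⟨hl, P, h1, h2, rfl⟩ := id h
  · refine Or.inl ⟨h0, g * c * g⁻¹, conj_cj hc g, Set.ext fun x => ?_⟩
    rw [SetLike.mem_coe, mem_Dc h, e]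
    refine or_congr ⟨fun k => ?_, fun k => ?_⟩ ⟨fun k => ?_, fun k => ?_⟩
    · rw [show x = g * (g⁻¹ * x * g) * g⁻¹ by group, k]; group
    · rw [k]; group
    · rw [show x = g * (g⁻¹ * x * g) * g⁻¹ by group, show g⁻¹ * x * g = c from k]; rfl
    · rw [show x = g * c * g⁻¹ from k]
      show _ = c
      group
  · have e := Dc_dec (P := P) ⟨hl, h1, h2⟩ g
    change IsDec l (Dc (dec P : Set GQ) g : Set GQ)
    rw [e]
    exact isDec_dec (ov_smul ⟨hl, h1, h2⟩ g)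

theorem ex_Dc {l : ℕ} {S : Set GQ} (h : IsDec l S) {V : Subgroup GQ} (hV : IsDec l (V : Set GQ)) :
    ∃ g, V = Dc S g := by
  obtain ⟨h0, c, hc, e⟩ | ⟨hl, P, h1, h2, rfl⟩ := id h
  · obtain ⟨-, c', hc', e'⟩ | ⟨hl, -⟩ := hV
    · obtain ⟨t, ht⟩ := P022D.Sel.AdmA.conj_conj hc' hc
      refine ⟨t, Subgroup.ext fun x => ?_⟩
      have e2 : c' = t * c * t⁻¹ := by rw [← ht]; group
      rw [mem_Dc h, e, ← SetLike.mem_coe, e', e2]
      refine or_congr ⟨fun k => ?_, fun k => ?_⟩ ⟨fun k => ?_, fun k => ?_⟩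
      · rw [k]; group
      · rw [show x = t * (t⁻¹ * x * t) * t⁻¹ by group, k]; group
      · rw [show x = t * c * t⁻¹ from k]
        show _ = c
        group
      · rw [show x = t * (t⁻¹ * x * t) * t⁻¹ by group, show t⁻¹ * x * t = c from k]; rfl
    · exact absurd (h0 ▸ hl) Nat.not_prime_zero
  · obtain ⟨h0, -⟩ | ⟨-, P', k1, k2, e'⟩ := hV
    · exact absurd (h0 ▸ hl) Nat.not_prime_zero
    · obtain ⟨t, rfl⟩ := P027M.F.Tra.trans hl h1 k1 h2 k2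
      refine ⟨t, ?_⟩
      change V = Dc (dec P : Set GQ) t
      rw [Dc_dec ⟨hl, h1, h2⟩]
      exact SetLike.coe_injective e'

theorem inert_smul {P : Ideal (𝓞 Qb)} {g i : GQ} (h : Inert (g • P) i) :
    Inert P (g⁻¹ * i * g) := fun x => by
  have := h (g • x)
  rw [Ideal.mem_pointwise_smul_iff_inv_smul_mem, smul_sub, inv_smul_smul] at this
  rwa [mul_smul, mul_smul]

/-- an element of the inertia group which moves the square roots of `l` -/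
theorem ex_gn {l : ℕ} {P : Ideal (𝓞 Qb)} (h : Ov l P) : ∃ τ, Gn l P τ := by
  obtain ⟨v, hv, hl⟩ := Kc.ex_below (algebraMap ℚ Qb) h.1.ne_zero h.2.1 h.2.2
  have l0 : (l : 𝓞 ℚ) ≠ 0 := by exact_mod_cast h.1.ne_zero
  have pr : Prime (l : 𝓞 ℚ) := by
    rw [← MulEquiv.prime_iff Rat.ringOfIntegersEquiv, map_natCast]
    exact Nat.prime_iff_prime_int.1 h.1
  have e : v.asIdeal = Ideal.span {(l : 𝓞 ℚ)} := by
    have m : (Ideal.span {(l : 𝓞 ℚ)}).IsMaximal :=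
      ((Ideal.span_singleton_prime l0).2 pr).isMaximal (by simpa using l0)
    exact (m.eq_of_le v.isPrime.ne_top ((Ideal.span_singleton_le_iff_mem _).2 hl)).symm
  have o : ordv v (l : ℚ) = 1 := by
    have e2 : (l : ℚ) = algebraMap (𝓞 ℚ) ℚ l := (map_natCast _ l).symm
    rw [ordv, e2, HeightOneSpectrum.valuation_of_algebraMap, v.intValuation_singleton l0 e]
    simp
  obtain ⟨g, -, g1, g2⟩ := Kc.ex_ram (algebraMap ℚ Qb) (y := (l : ℚ))
    (by exact_mod_cast h.1.ne_zero) v h.2.1 hv (by rw [o]; exact odd_one)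
  rw [map_natCast] at g2
  refine ⟨g, g1, fun w hw => (Kc.pm hw (map_natCast g l)).resolve_left fun k => ?_⟩
  rw [(Kc.kq_zero hw g).2 k] at g2
  exact zero_ne_one g2

theorem gn_or {l : ℕ} {P : Ideal (𝓞 Qb)} {τ i : GQ} (h : Gn l P τ) (hi : Inert P i) :
    Gn l P i ∨ Gn l P (i * τ) := by
  have hw := Kc.rt_sq (l : Qb)
  have key : ∀ w : Qb, w ^ 2 = l → w = Kc.rt l ∨ w = -Kc.rt l := fun w k =>
    sq_eq_sq_iff_eq_or_eq_neg.1 (k.trans hw.symm)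
  rcases Kc.pm hw (map_natCast i l) with k | k
  · refine Or.inr ⟨(P022.H443.inP P).mul_mem hi h.1, fun w e => ?_⟩
    rw [AlgEquiv.mul_apply, h.2 w e, map_neg]
    rcases key w e with rfl | rfl
    · rw [k]
    · rw [map_neg, k]
  · refine Or.inl ⟨hi, fun w e => ?_⟩
    rcases key w e with rfl | rfl
    · exact k
    · rw [map_neg, k]

end Vale.Agent.P022E.GW.Ob
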