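import Vale.Agent.P022E.GW.Fxb
import Vale.Agent.P022E.GW.LbLoc
import Vale.Agent.P022E.GW.ObsA
import Vale.Agent.P022E.GW.Odg
import Vale.Agent.P022E.GW.UnrC
import Vale.Agent.P022E.GW.RecA
import Vale.Agent.P022E.GW.Bor
import Vale.Agent.P022E.GW.Kc
import Vale.Agent.P022D.Sel.Adm
import Vale.Agent.P027M.F.Tra

/-!
# P022E, block GW: reciprocity removes one place from the obstruction
-/

set_option linter.all false

noncomputable section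

namespace Vale.Agent.P022E.GW.H89

open NumberField
open Vale.Agent.P022 Vale.Agent.P022.H443
open Vale.Agent.P027M.S (Inert mx)
open Vale.Agent.P022D.Sel (M2 IsDec Stab)
open Vale.Agent.P022D.L2c (Hm Cob IsZ2 cup up)
open Vale.Agent.P022D.W (dec)
open scoped Pointwise

variable {F : Type} [Field F]

theorem lc {H U : Subgroup GQ} (hU : IsOpen (U : Set GQ)) {Y : Type} {f : GQ → Y}
    (h : ∀ g ∈ H, ∀ u ∈ H, u ∈ U → f (g * u) = f g) : IsLocallyConstant fun g : H => f g := by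
  refine (IsLocallyConstant.iff_exists_open _).2 fun g =>
    ⟨(fun u : H => (g : GQ)⁻¹ * u) ⁻¹' U, hU.preimage (by fun_prop), by simp, fun y hy => ?_⟩
  rw [← h g g.2 _ (H.mul_mem (H.inv_mem g.2) y.2) hy, mul_inv_cancel_left]

/-- a character of the inertia group which kills `τ` is zero -/
theorem kill [CharP F 2] {l : ℕ} {P : Ideal (𝓞 Qb)} {τ : GQ} (hO : Ov l P) (h2 : l ≠ 2)
    (hG : Gn l P τ) {a : GQ → F} (ha : ∀ s ∈ inP P, ∀ t ∈ inP P, a (s * t) = a s + a t)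
    (ho : Op a) (h0 : a τ = 0) : ∀ s ∈ inP P, a s = 0 := by
  obtain ⟨U, hU, hu⟩ := ho
  obtain ⟨V, hV, hv⟩ := Kc.kq_opn (l : Qb)
  obtain ⟨t, ht, H⟩ := Rc.ti (F := F) hO.1 h2 hO.2.1 hO.2.2 le_rfl (U ⊓ V).normalCore
    (P022D.Sel.opn_core _ (hU.inter hV))
  have e : ∀ g : GQ, g (l : Qb) = l := fun g => map_natCast g l
  have u : ∀ s ∈ inP P, s ∈ (U ⊓ V).normalCore → a s = 0 := fun s _ hs =>
    hu s (Subgroup.normalCore_le _ hs).1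
  obtain ⟨n, hn⟩ := H τ hG.1
  have k1 := hn (fun g => up F (Kc.kq l g))
    (fun s _ t _ => by rw [Kc.kq_add (e s) (e t), map_add])
    (fun s _ hs => by rw [hv s (Subgroup.normalCore_le _ hs).2, map_zero])
  have k3 : Kc.kq (l : Qb) τ = 1 :=
    (Kc.kq_one (Nat.cast_ne_zero.2 hO.1.ne_zero) (Kc.rt_sq _) (e τ)).2 (hG.2 _ (Kc.rt_sq _))
  rw [k3, map_one] at k1
  have k4 : a t = 0 := (mul_eq_zero.1 ((hn a ha u).symm.trans h0)).resolve_left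
    (left_ne_zero_of_mul_eq_one k1.symm)
  intro s hs
  obtain ⟨m, hm⟩ := H s hs
  rw [hm a ha u, k4, mul_zero]

variable {ρ : GQ →* GL (Fin 2) F} {T : Finset ℕ} {D : ℕ → Set GQ} {z : GQ → F}

variable (ρ) in
/-- the twisted cup product -/
def cc (z : GQ → F) : GQ → GQ → F := fun g h => mx ρ g 0 1 * mx ρ g 1 1 * z h

theorem mx_ker {g u : GQ} (hu : ρ u = 1) : mx ρ (g * u) = mx ρ g := by
  simp only [mx, map_mul, hu, mul_one]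

theorem opP (h : Hyp ρ T D) : IsOpen (GP ρ : Set GQ) :=
  Subgroup.isOpen_mono (H₁ := ρ.ker) Bor.ker_le h.opn

theorem opB (h : Hyp ρ T D) : IsOpen (GB ρ : Set GQ) :=
  Subgroup.isOpen_mono (H₁ := GP ρ) Bor.le (opP h)

theorem lcz (hz : z ∈ Zt (Fb.ci ρ) T (GB ρ)) : IsLocallyConstant fun g : GB ρ => z g := by
  obtain ⟨U, hU, hu⟩ := hz.2.2.1
  exact lc hU fun g hg u k k' => by rw [hz.1 g hg u k, hu u k', mul_zero, add_zero]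

variable [CharP F 2]

theorem z2 (h : Hyp ρ T D) (hz : z ∈ Zt (Fb.ci ρ) T (GB ρ)) : Z2 (GB ρ) (cc ρ z) := by
  have l1 : IsLocallyConstant fun g : GB ρ => mx ρ g 0 1 * mx ρ g 1 1 :=
    lc (U := ρ.ker) (f := fun g => mx ρ g 0 1 * mx ρ g 1 1) h.opn fun g _ u _ k => by
      rw [mx_ker k]
  refine ⟨(l1.comp_continuous continuous_fst).mul ((lcz hz).comp_continuous continuous_snd),
    fun g k m => ?_⟩
  have d : mx ρ g 0 0 * mx ρ g 1 1 = 1 := Bor.d01 h.std g.2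
  have e1 : mx ρ (g * k) 0 1 = mx ρ g 0 0 * mx ρ k 0 1 + mx ρ g 0 1 * mx ρ k 1 1 := Bor.e01 _ _
  have e2 : mx ρ (g * k) 1 1 = mx ρ g 1 1 * mx ρ k 1 1 := Bor.e11 g.2
  simp only [rs, cc, Subgroup.coe_mul, e1, e2, hz.1 k k.2 m m.2, Fb.ci]
  linear_combination -(mx ρ k 0 1 * mx ρ k 1 1 * z m) * d

theorem rs_eq {K : Subgroup GQ} (hK : K ≤ GP ρ) :
    rs K (cc ρ z) = rs K (cup (fun g => mx ρ g 0 1) z) := by
  funext a b
  simp only [rs, cc, cup, (Fb.uni (hK a.2)).2.2.1, mul_one]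

theorem down {K : Subgroup GQ} (k : Cb (GB ρ ⊓ K) (cc ρ z)) :
    Cb (GP ρ ⊓ K) (cup (fun g => mx ρ g 0 1) z) := by
  unfold Cb
  rw [← rs_eq inf_le_left]
  exact Gy.cob_le (inf_le_inf_right K Bor.le) k

theorem lift (h : Hyp ρ T D) (hz : z ∈ Zt (Fb.ci ρ) T (GB ρ)) {K : Subgroup GQ}
    (k : Cb (GP ρ ⊓ K) (cup (fun g => mx ρ g 0 1) z)) : Cb (GB ρ ⊓ K) (cc ρ z) := by
  refine odg F _ (GP ρ) _ (opP h) ?_ (Gy.z2_le inf_le_left (z2 h hz)) ?_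
  · haveI : ((GP ρ).subgroupOf (GB ρ)).Normal := Bor.nrm'
    rw [← Subgroup.relIndex_subgroupOf (inf_le_left : GB ρ ⊓ K ≤ GB ρ)]
    exact (Bor.odd_rel h.std).of_dvd_nat (Subgroup.relIndex_dvd_index_of_normal _ _)
  · unfold Cb
    rw [rs_eq inf_le_right]
    exact Gy.cob_le (show GB ρ ⊓ K ⊓ GP ρ ≤ GP ρ ⊓ K from fun x hx => ⟨hx.2, hx.1.2⟩) k

theorem off (h : Hyp ρ T D) (hz : z ∈ Zt (Fb.ci ρ) T (GB ρ)) {p : ℕ} {P : Ideal (𝓞 Qb)}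
    (hO : Ov p P) (h1 : ∀ i, Inert P i → ρ i = 1) (h2 : ∀ i, Inert P i → z i = 0) :
    Cb (GB ρ ⊓ dec P) (cc ρ z) :=
  unrC F _ p P _ (opB h) hO (Gy.z2_le inf_le_left (z2 h hz)) fun g hg k hk i hi hI =>
    ⟨by simp only [cc, mx_ker (h1 i hI)],
      by simp only [cc, hz.1 k hk.1 i hi, h2 i hI, mul_zero, add_zero]⟩

theorem dec_iff {P Q : Ideal (𝓞 Qb)} {g : GQ} (h : ∀ x : 𝓞 Qb, x ∈ P ↔ g • x ∈ Q) (x : GQ) :
    x ∈ dec P ↔ g * x * g⁻¹ ∈ dec Q := by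
  constructor
  · intro k y
    rw [mul_smul, mul_smul, ← h, k, h, smul_inv_smul]
  · intro k y
    rw [h, h y, ← k (g • y), mul_smul, mul_smul, inv_smul_smul]

/-- **one place is removed** -/
theorem one0 [Finite F] (hone : ONE)
    (hg : ∀ (q : ℕ) (P : Ideal (𝓞 Qb)), Ov q P → q ≠ 2 → ∃ τ, Gn q P τ) (h : Hyp ρ T D) :
    ∃ V : ℕ → GQ → Prop, (∀ l, ∀ γ ∈ GB ρ, ∀ g, V l (γ * g) ↔ V l g) ∧
      (∀ l, ∀ d ∈ D l, ∀ g, V l (g * d) ↔ V l g) ∧ (∀ l g, V l g → Fb.Ns ρ D l g) ∧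
      (∃ l ∈ T, ∃ g, V l g) ∧ ∀ z ∈ Zt (Fb.ci ρ) T (GB ρ),
        (∀ l ∈ T, ∀ g, ¬ V l g → ∀ D1 : Subgroup GQ, (∀ x, x ∈ D1 ↔ g⁻¹ * x * g ∈ D l) →
          Cb (GP ρ ⊓ D1) (cup (fun g => mx ρ g 0 1) z)) →
        ∀ l ∈ T, ∀ g, ∀ D1 : Subgroup GQ, (∀ x, x ∈ D1 ↔ g⁻¹ * x * g ∈ D l) →
          Cb (GP ρ ⊓ D1) (cup (fun g => mx ρ g 0 1) z) := by
  obtain ⟨l0, hT, h2, P, φ, hO, hF, hI, hφ, hφ1⟩ := h.a0
  have dc : ∀ l ∈ T, l.Prime → ∃ Q : Ideal (𝓞 Qb), Ov l Q ∧ D l = dec Q := fun l hl hp => by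
    rcases h.dec l hl with ⟨e, -⟩ | ⟨-, Q, a, b, e⟩
    · exact absurd e hp.ne_zero
    · exact ⟨Q, ⟨hp, a, b⟩, e⟩
  have tr : ∀ {l : ℕ} {Q Q' : Ideal (𝓞 Qb)}, Ov l Q → Ov l Q' →
      ∃ g : GQ, ∀ x : 𝓞 Qb, x ∈ Q ↔ g • x ∈ Q' := fun a b => by
    obtain ⟨g, rfl⟩ := P027M.F.Tra.trans a.1 a.2.1 b.2.1 a.2.2 b.2.2
    exact ⟨g, fun x => (Ideal.smul_mem_pointwise_smul_iff).symm⟩
  obtain ⟨P1, hO1, hD1⟩ := dc l0 hT hO.1
  obtain ⟨τ, hτ⟩ := hg l0 P hO h2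
  have φd := P022D.W.phi_mem hO.1 hO.2.1 hF
  have dP : dec P ≤ GP ρ := fun g k => by
    obtain ⟨n, s, u, hs, hu, rfl⟩ := P022D.W.dec_gen hO.1 hO.2.1 hO.2.2 hF k ρ.ker h.opn
    exact mul_mem (mul_mem (Bor.ker_le hu) (pow_mem hφ n)) (Bor.ker_le (hI s hs))
  have dB : dec P ≤ GB ρ := dP.trans Bor.le
  have a0 : mx ρ φ 0 1 ≠ 0 := (Fb.uni hφ).2.2.2 hφ1
  refine ⟨fun l g => l = l0 ∧ ∃ γ ∈ GB ρ, ∀ x : 𝓞 Qb, x ∈ P1 ↔ (γ * g) • x ∈ P,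
    fun l γ hγ g => and_congr_right fun _ => ⟨?_, ?_⟩, fun l d hd g => and_congr_right ?_,
    ?_, ?_, fun z hz H => ?_⟩
  · rintro ⟨β, hβ, k⟩
    exact ⟨β * γ, mul_mem hβ hγ, by rwa [mul_assoc]⟩
  · rintro ⟨β, hβ, k⟩
    exact ⟨β * γ⁻¹, mul_mem hβ (inv_mem hγ), by rwa [mul_assoc, inv_mul_cancel_left]⟩
  · rintro rfl
    rw [hD1] at hd
    refine exists_congr fun β => and_congr_right fun _ => ⟨fun k x => ?_, fun k x => ?_⟩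
    · rw [← (dec P1).inv_mem hd x, k, ← mul_smul, ← mul_assoc, mul_inv_cancel_right]
    · rw [← hd x, k, ← mul_smul, mul_assoc]
  · rintro l g ⟨rfl, β, hβ, k⟩
    refine ⟨β⁻¹ * φ * β⁻¹⁻¹, Bor.nrm (inv_mem hβ) hφ, fun e => hφ1 ?_, ?_⟩
    · rw [map_mul, map_mul, map_inv, map_inv ρ β⁻¹, map_inv, mul_inv_eq_one] at e
      exact mul_eq_left.1 e
    · rw [hD1]
      refine (dec_iff k _).2 ?_
      rwa [show β * g * (g⁻¹ * (β⁻¹ * φ * β⁻¹⁻¹) * g) * (β * g)⁻¹ = φ by group]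
  · obtain ⟨g, k⟩ := tr hO1 hO
    exact ⟨l0, hT, g, rfl, 1, one_mem _, by rwa [one_mul]⟩
  have zadd : ∀ s ∈ GP ρ, ∀ t ∈ GP ρ, z (s * t) = z s + z t := fun s hs t ht => by
    rw [hz.1 s (Bor.le hs) t (Bor.le ht), Fb.ci, (Fb.uni hs).2.2.1, one_pow, one_mul]
  have key := hone F (GB ρ) (cc ρ z) Unit (fun _ => l0) (fun _ => P) (fun _ => τ) (fun _ => φ)
    (fun _ g => (mx ρ φ 0 1)⁻¹ * mx ρ g 0 1) (fun _ g => mx ρ φ 0 1 * z g) (opB h) (z2 h hz)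
    (fun _ => ⟨hO, h2, hτ, hF, dB⟩) (fun _ _ _ _ _ => rfl)
    (fun _ => ⟨⟨lc (U := ρ.ker) (f := fun g => (mx ρ φ 0 1)⁻¹ * mx ρ g 0 1) h.opn
        fun g _ u _ k => by rw [mx_ker k], fun x y => ?_⟩,
      ⟨((lcz hz).comp_continuous (Gy.inc_cont dB)).comp (mx ρ φ 0 1 * ·), fun x y => ?_⟩,
      fun g k => ?_, inv_mul_cancel₀ a0, ?_⟩) (fun D' hD' => lift h hz ?_) fun p P' hO' hn => ?_
  · have z0 : ∀ i, Inert P i → z i = 0 := by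
      refine kill hO h2 hτ (fun s hs t ht => zadd s (dP (P022D.W.inP_le_dec hs)) t
        (dP (P022D.W.inP_le_dec ht))) hz.2.2.1 ?_
      simpa [a0] using key
    intro l hl g D1 hD
    by_cases k : l = l0 ∧ ∃ γ ∈ GB ρ, ∀ x : 𝓞 Qb, x ∈ P1 ↔ (γ * g) • x ∈ P
    · obtain ⟨rfl, β, hβ, k⟩ := k
      refine down (cj F _ (dec P) D1 β⁻¹ _ (inv_mem hβ) (fun x => ?_) (z2 h hz)
        (off h hz hO hI z0))
      rw [hD, hD1, SetLike.mem_coe, dec_iff k,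
        show β * g * (g⁻¹ * (β⁻¹ * x * β⁻¹⁻¹) * g) * (β * g)⁻¹ = x by group]
    · exact H l hl g k D1 hD
  · have e1 : mx ρ (x * y) 0 1 = mx ρ x 0 0 * mx ρ y 0 1 + mx ρ x 0 1 * mx ρ y 1 1 := Bor.e01 _ _
    simp only [Subgroup.coe_mul, e1, (Fb.uni (dP x.2)).2.1, (Fb.uni (dP y.2)).2.2.1]
    ring
  · simp only [Subgroup.coe_mul, zadd _ (dP x.2) _ (dP y.2), mul_add]
  · simp [mx, hI g k]
  · have e : rs (dec P) (cc ρ z - cup (fun g => (mx ρ φ 0 1)⁻¹ * mx ρ g 0 1)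
        fun g => mx ρ φ 0 1 * z g) = 0 := by
      funext a b
      simp only [rs, cc, cup, Pi.sub_apply, Pi.zero_apply, (Fb.uni (dP a.2)).2.2.1]
      field_simp
      ring
    unfold Cb
    rw [e]
    exact zero_mem _
  · rcases hD' with ⟨-, c', hc', e'⟩ | ⟨k, -⟩
    · rcases h.dec 0 h.h0 with ⟨-, c, hc, e⟩ | ⟨k, -⟩
      · obtain ⟨t, ht⟩ := P022D.Sel.AdmA.conj_conj hc' hc
        refine H 0 h.h0 t (fun k => hO.1.ne_zero k.1.symm) D' fun x => ?_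
        rw [← SetLike.mem_coe, e', e]
        simp only [Set.mem_insert_iff, Set.mem_singleton_iff]
        refine or_congr (by rw [mul_assoc, inv_mul_eq_one, eq_comm (a := t), mul_eq_right]) ?_
        rw [mul_assoc, inv_mul_eq_iff_eq_mul, ← ht, mul_left_inj]
      · exact absurd k Nat.not_prime_zero
    · exact absurd k Nat.not_prime_zero
  · by_cases hp : p ∈ T
    · obtain ⟨Q, hQ, e, e1⟩ : ∃ Q, Ov p Q ∧ D p = dec Q ∧ (p = l0 → Q = P1) := by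
        by_cases k : p = l0
        · subst k
          exact ⟨P1, hO1, hD1, fun _ => rfl⟩
        · obtain ⟨Q, a, b⟩ := dc p hp hO'.1
          exact ⟨Q, a, b, fun e => absurd e k⟩
      obtain ⟨g, k⟩ := tr hQ hO'
      refine lift h hz (H p hp g ?_ _ fun x => ?_)
      · rintro ⟨e2, β, hβ, k'⟩
        refine hn () β⁻¹ (inv_mem hβ) fun x => ?_
        rw [← smul_inv_smul (β * g) x, ← k', ← e1 e2, k, ← mul_smul, ← mul_smul, ← mul_smul]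
        rw [inv_mul_cancel_left]
      · rw [e, SetLike.mem_coe, dec_iff k, show g * (g⁻¹ * x * g) * g⁻¹ = x by group]
    · exact off h hz hO' (h.unr p hp P' hO') (hz.2.2.2 p hp P' hO')

/-- the same without the auxiliary hypothesis -/
theorem one89 [Finite F] (hone : ONE) (h : Hyp ρ T D) :
    ∃ V : ℕ → GQ → Prop, (∀ l, ∀ γ ∈ GB ρ, ∀ g, V l (γ * g) ↔ V l g) ∧
      (∀ l, ∀ d ∈ D l, ∀ g, V l (g * d) ↔ V l g) ∧ (∀ l g, V l g → Fb.Ns ρ D l g) ∧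
      (∃ l ∈ T, ∃ g, V l g) ∧ ∀ z ∈ Zt (Fb.ci ρ) T (GB ρ),
        (∀ l ∈ T, ∀ g, ¬ V l g → Lb.At ρ D (cup (fun g => mx ρ g 0 1) z) l g) →
        ∀ l ∈ T, ∀ g, Lb.At ρ D (cup (fun g => mx ρ g 0 1) z) l g :=
  one0 hone (fun _ _ k _ => Ob.ex_gn k) h

end Vale.Agent.P022E.GW.H89
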