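import Vale.Agent.P022E.GW.Fxb
import Vale.Agent.P022E.GW.Bor
import Vale.Agent.P022E.GW.Rec
import Vale.Agent.P022E.GW.Kc
import Vale.Agent.P022D.Sel.Pl

/-!
# P022E, block GW: reciprocity saves one local condition
-/

set_option linter.all false

noncomputable section

namespace Vale.Agent.P022E.GW.H28

open NumberField
open Vale.Agent.P022 Vale.Agent.P022.H443
open Vale.Agent.P027M.S (Inert mx)
open Vale.Agent.P022D.Sel (M2 IsDec Stab)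
open Vale.Agent.P022D.Sel.AdmA (mx_mul conj_conj stab_conj)
open Vale.Agent.P022D.L2c (Hm Cob IsZ2 cup up)
open Vale.Agent.P022D.W (dec dec_gen phi_mem inP_le_dec)
open Vale.Agent.P022E.GW.Fb (ch ci Ns uni)
open scoped Pointwise

/-- an element of the inertia group which moves the square roots of `l` -/
theorem ex_gn {l : ℕ} {P : Ideal (𝓞 Qb)} (h : Ov l P) : ∃ τ, Gn l P τ := by
  obtain ⟨hl, hP, hm⟩ := h
  obtain ⟨v, hv, m⟩ := Kc.ex_below (algebraMap ℚ Qb) hl.ne_zero hP hm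
  have p : Prime (l : 𝓞 ℚ) := by
    have := (MulEquiv.prime_iff Rat.ringOfIntegersEquiv.symm.toMulEquiv (p := (l : ℤ))).2
      (Nat.prime_iff_prime_int.1 hl)
    simpa using this
  have e : v.asIdeal = Ideal.span {(l : 𝓞 ℚ)} :=
    (((Ideal.span_singleton_prime p.ne_zero).2 p).isMaximal
      (by simpa using p.ne_zero)).eq_of_le v.isPrime.ne_top
        ((Ideal.span_singleton_le_iff_mem _).2 m) |>.symm
  have o : C.ordv v (l : ℚ) = 1 := by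
    have k := v.valuation_of_algebraMap (K := ℚ) (l : 𝓞 ℚ)
    rw [v.intValuation_singleton p.ne_zero e] at k
    have k' : v.valuation ℚ (l : ℚ) = WithZero.exp (-1) := by simpa using k
    rw [C.ordv, k', WithZero.log_exp, neg_neg]
  have l0 : (l : ℚ) ≠ 0 := by exact_mod_cast hl.ne_zero
  obtain ⟨g, -, hi, hg⟩ := Kc.ex_ram (algebraMap ℚ Qb) l0 v hP hv (by rw [o]; exact odd_one)
  rw [map_natCast] at hg
  exact ⟨g, hi, fun w hw => (Kc.kq_one (by exact_mod_cast hl.ne_zero) hw (map_natCast g l)).1 hg⟩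

variable {F : Type} [Field F]

/-- a character of the inertia group which vanishes on the generators is zero -/
theorem gn_zero {l : ℕ} {P : Ideal (𝓞 Qb)} (h : Ov l P) {z : GQ → F}
    (ha : ∀ g k, Inert P g → Inert P k → z (g * k) = z g + z k) (h0 : ∀ τ, Gn l P τ → z τ = 0)
    {i : GQ} (hi : Inert P i) : z i = 0 := by
  obtain ⟨τ, hτ⟩ := ex_gn h
  have l0 : (l : Qb) ≠ 0 := by exact_mod_cast h.1.ne_zero
  rcases Kc.z2 (Kc.kq (l : Qb) i) with e | e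
  · have k := h0 (τ * i) ⟨(inP P).mul_mem hτ.1 hi, fun w hw => by
      rw [AlgEquiv.mul_apply, (Kc.kq_zero hw i).1 e, hτ.2 w hw]⟩
    rwa [ha _ _ hτ.1 hi, h0 τ hτ, zero_add] at k
  · exact h0 i ⟨hi, fun w hw => (Kc.kq_one l0 hw (map_natCast i l)).1 e⟩

theorem lc' {α : Type} {f : GQ → α} {H : Subgroup GQ} (U : Subgroup GQ)
    (hU : IsOpen (U : Set GQ)) (h : ∀ g ∈ H, ∀ σ ∈ H, σ ∈ U → f (g * σ) = f g) :
    IsLocallyConstant fun g : H => f g :=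
  (IsLocallyConstant.iff_exists_open _).2 fun x => ⟨(fun y : H => (x : GQ)⁻¹ * y) ⁻¹' U,
    hU.preimage (by fun_prop), by simp [U.one_mem], fun y hy => by
      rw [← h x x.2 _ (H.mul_mem (H.inv_mem x.2) y.2) hy, mul_inv_cancel_left]⟩

theorem cb_congr {H : Subgroup GQ} {z z' : GQ → GQ → F} (h : Cb H z)
    (e : ∀ g ∈ H, ∀ k ∈ H, z' g k = z g k) : Cb H z' := by
  have : rs H z' = rs H z := by funext g k; exact e g g.2 k k.2
  rwa [Cb, this]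

theorem z2_le {H K : Subgroup GQ} (le : K ≤ H) {z : GQ → GQ → F} (hz : Z2 H z) : Z2 K z :=
  ⟨hz.1.comp_continuous (f := fun p : K × K => ((⟨p.1, le p.1.2⟩ : H), (⟨p.2, le p.2.2⟩ : H)))
    (by fun_prop),
    fun g h k => hz.2 ⟨g, le g.2⟩ ⟨h, le h.2⟩ ⟨k, le k.2⟩⟩

variable {ρ : GQ →* GL (Fin 2) F}

/-- the cup product on the upper triangular subgroup -/
def zz (ρ : GQ →* GL (Fin 2) F) (z : GQ → F) (g h : GQ) : F := mx ρ g 0 1 * mx ρ g 1 1 * z h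

theorem z_lc {θ z : GQ → F} {T : Finset ℕ} {Γ : Subgroup GQ} (hz : z ∈ Zt θ T Γ) {H : Subgroup GQ}
    (le : H ≤ Γ) : IsLocallyConstant fun g : H => z g := by
  obtain ⟨U, hU, h⟩ := hz.2.2.1
  exact lc' U hU fun g hg σ hσ k => by rw [hz.1 g (le hg) σ (le hσ), h σ k, mul_zero, add_zero]

theorem mx_lc (ho : IsOpen {g : GQ | ρ g = 1}) : IsLocallyConstant (mx ρ) :=
  RecP.lc ρ.ker ho fun g σ hσ => by rw [mx_mul, RecP.mx1 hσ, mul_one]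

theorem zz_z2 [CharP F 2] (ho : IsOpen {g : GQ | ρ g = 1}) (S : Gp.Std ρ.range) {T : Finset ℕ}
    {z : GQ → F} (hz : z ∈ Zt (ci ρ) T (GB ρ)) : Z2 (GB ρ) (zz ρ z) := by
  refine ⟨(((mx_lc ho).comp fun m => m 0 1 * m 1 1).comp_continuous
    (f := fun p : GB ρ × GB ρ => (p.1 : GQ)) (by fun_prop)).mul
      ((z_lc hz le_rfl).comp_continuous continuous_snd), fun g h k => ?_⟩
  have e1 : mx ρ (g * h) 0 1 = mx ρ g 0 0 * mx ρ h 0 1 + mx ρ g 0 1 * mx ρ h 1 1 := Bor.e01 _ _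
  have e2 : mx ρ (g * h) 1 1 = mx ρ g 1 1 * mx ρ h 1 1 := Bor.e11 g.2
  have e3 : mx ρ g 0 0 * mx ρ g 1 1 = 1 := Bor.d01 S g.2
  simp only [rs, zz, Subgroup.coe_mul, hz.1 h h.2 k k.2, e1, e2, ci]
  linear_combination (-mx ρ h 0 1 * mx ρ h 1 1 * z k) * e3

theorem odd_rel [CharP F 2] (S : Gp.Std ρ.range) {K : Subgroup GQ} (le : K ≤ GB ρ) :
    Odd ((GP ρ).relIndex K) := by
  haveI : ((GP ρ).subgroupOf (GB ρ)).Normal := Bor.nrm'
  rw [← Subgroup.relIndex_subgroupOf le]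
  exact (Bor.odd_rel S).of_dvd_nat (Subgroup.relIndex_dvd_index_of_normal _ _)

theorem opn (ho : IsOpen {g : GQ | ρ g = 1}) {K : Subgroup GQ} (le : GP ρ ≤ K) :
    IsOpen (K : Set GQ) :=
  Subgroup.isOpen_mono (H₁ := ρ.ker) (Bor.ker_le.trans le) ho

theorem up_odd [CharP F 2] (h3 : ODG) (ho : IsOpen {g : GQ | ρ g = 1}) (S : Gp.Std ρ.range)
    {T : Finset ℕ} {z : GQ → F} (hz : z ∈ Zt (ci ρ) T (GB ρ)) {D : Subgroup GQ}
    (h : Cb (GP ρ ⊓ D) (cup (fun g => mx ρ g 0 1) z)) : Cb (GB ρ ⊓ D) (zz ρ z) := by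
  refine h3 F _ (GP ρ) _ (opn ho le_rfl) (odd_rel S inf_le_left)
    (z2_le inf_le_left (zz_z2 ho S hz)) ?_
  have e : GB ρ ⊓ D ⊓ GP ρ = GP ρ ⊓ D :=
    le_antisymm (fun g hg => ⟨hg.2, hg.1.2⟩) fun g hg => ⟨⟨(uni hg.1).1, hg.2⟩, hg.1⟩
  rw [e]
  exact cb_congr h fun g hg k _ => by rw [zz, cup, (uni hg.1).2.2.1, mul_one]

theorem dec_iff {P : Ideal (𝓞 Qb)} (g x : GQ) : x ∈ dec (g • P) ↔ Stab P (g⁻¹ * x * g) :=
  ⟨fun h => stab_conj h, fun h => by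
    have k : Stab (g⁻¹ • g • P) (g⁻¹ * x * g) := by rwa [inv_smul_smul]
    have := stab_conj k
    rwa [show g⁻¹⁻¹ * (g⁻¹ * x * g) * g⁻¹ = x by group] at this⟩

/-- the local statement at one prime -/
theorem core [Finite F] [CharP F 2] (h1 : ONE) (h2 : UNR) (h3 : ODG)
    (ho : IsOpen {g : GQ | ρ g = 1}) (S : Gp.Std ρ.range) {T : Finset ℕ} {z : GQ → F}
    (hz : z ∈ Zt (ci ρ) T (GB ρ)) {l : ℕ} {P : Ideal (𝓞 Qb)} {φ : GQ} (hP : Ov l P) (l2 : l ≠ 2)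
    (hφ : Fb l P φ) (ur : ∀ g, Inert P g → ρ g = 1) (p1 : φ ∈ GP ρ) (p2 : ρ φ ≠ 1)
    (a1 : ∀ D : Subgroup GQ, IsDec 0 (D : Set GQ) → Cb (GB ρ ⊓ D) (zz ρ z))
    (a2 : ∀ (p : ℕ) (P' : Ideal (𝓞 Qb)), Ov p P' →
      (∀ g ∈ GB ρ, ¬ ∀ x : 𝓞 Qb, x ∈ P ↔ g • x ∈ P') → Cb (GB ρ ⊓ dec P') (zz ρ z)) :
    ∀ i, Inert P i → z i = 0 := by
  have le : dec P ≤ GP ρ := fun g hg => by
    obtain ⟨k, s, v, hs, hv, rfl⟩ := dec_gen hP.1 hP.2.1 hP.2.2 hφ hg ρ.ker ho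
    exact (GP ρ).mul_mem ((GP ρ).mul_mem (Bor.ker_le hv) ((GP ρ).pow_mem p1 k))
      (Bor.ker_le (ur s hs))
  have le' : dec P ≤ GB ρ := fun g hg => (uni (le hg)).1
  have a0 : mx ρ φ 0 1 ≠ 0 := (uni p1).2.2.2 p2
  have za : ∀ g ∈ dec P, ∀ k ∈ dec P, z (g * k) = z g + z k := fun g hg k hk => by
    rw [hz.1 g (le' hg) k (le' hk), ci, (uni (le hg)).2.2.1, one_pow, one_mul]
  refine fun i hi => gn_zero hP (fun g k hg hk => za g (inP_le_dec hg) k (inP_le_dec hk))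
    (fun τ hτ => ?_) hi
  have k := h1 F (GB ρ) (zz ρ z) Unit (fun _ => l) (fun _ => P) (fun _ => τ) (fun _ => φ)
    (fun _ g => (mx ρ φ 0 1)⁻¹ * mx ρ g 0 1) (fun _ g => mx ρ φ 0 1 * z g)
    (opn ho fun g hg => (uni hg).1) (zz_z2 ho S hz) (fun _ => ⟨hP, l2, hτ, hφ, le'⟩)
    (fun _ _ _ _ _ => rfl) (fun _ => ⟨?_, ?_, fun g hg => ?_, inv_mul_cancel₀ a0, ?_⟩) a1
    fun p P' hp hn => a2 p P' hp (hn ())
  · simpa [a0] using k
  · refine RecP.ch_of _ ((mx_lc ho).comp fun m => (mx ρ φ 0 1)⁻¹ * m 0 1) fun g hg k hk => ?_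
    have e1 : mx ρ (g * k) 0 1 = mx ρ g 0 0 * mx ρ k 0 1 + mx ρ g 0 1 * mx ρ k 1 1 := Bor.e01 _ _
    rw [e1, (uni (le hg)).2.1, (uni (le hk)).2.2.1]
    ring
  · exact ⟨(z_lc hz le').comp fun m => mx ρ φ 0 1 * m, fun g k => by
      change _ * z (g * k : GQ) = _
      rw [za g g.2 k k.2, mul_add]⟩
  · change _ * mx ρ g 0 1 = 0
    rw [RecP.mx1 (ur g hg)]
    simp
  · refine cb_congr (z := 0) (Submodule.zero_mem _) fun g hg k _ => ?_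
    simp only [Pi.sub_apply, zz, cup, (uni (le hg)).2.2.1, Pi.zero_apply]
    field_simp
    ring

theorem cb_le {H K : Subgroup GQ} (le : K ≤ H) {z : GQ → GQ → F} (hz : Cb H z) : Cb K z := by
  obtain ⟨y, a, b⟩ := hz
  exact ⟨fun g => y ⟨g, le g.2⟩, a.comp_continuous (f := fun g : K => (⟨g, le g.2⟩ : H))
    (by fun_prop), fun g k => b ⟨g, le g.2⟩ ⟨k, le k.2⟩⟩

theorem unr_zz [CharP F 2] (h2 : UNR) (ho : IsOpen {g : GQ | ρ g = 1}) (S : Gp.Std ρ.range)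
    {T : Finset ℕ} {z : GQ → F} (hz : z ∈ Zt (ci ρ) T (GB ρ)) {l : ℕ} {P : Ideal (𝓞 Qb)}
    (hP : Ov l P) (h : ∀ i, Inert P i → ρ i = 1 ∧ z i = 0) : Cb (GB ρ ⊓ dec P) (zz ρ z) :=
  h2 F _ l P _ (opn ho fun g hg => (uni hg).1) hP (z2_le inf_le_left (zz_z2 ho S hz))
    fun g _ k hk i hi hi' => by
      simp only [zz, mx_mul, RecP.mx1 (h i hi').1, mul_one, hz.1 k hk.1 i hi, (h i hi').2,
        mul_zero, add_zero, and_self]

theorem z_conj {T : Finset ℕ} {z : GQ → F} (hz : z ∈ Zt (ci ρ) T (GB ρ)) {b i : GQ}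
    (hb : b ∈ GB ρ) (h1 : ρ i = 1) (h0 : z i = 0) : z (b * i * b⁻¹) = 0 := by
  have hi : i ∈ GB ρ := (uni (Bor.ker_le h1)).1
  have h2 : ρ (b * i * b⁻¹) = 1 := by rw [map_mul, map_mul, h1, mul_one, ← map_mul]; simp
  have e := hz.1 _ (uni (Bor.ker_le h2)).1 b hb
  rw [inv_mul_cancel_right, hz.1 b hb i hi, h0, ci, ci, RecP.mx1 h2] at e
  simpa using e

/-- **reciprocity saves one condition** -/
theorem one [Finite F] [CharP F 2] (h1 : ONE) (h2 : UNR) (h3 : ODG) {T : Finset ℕ}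
    {D : ℕ → Set GQ} (hy : Hyp ρ T D) : ∃ V : ℕ → GQ → Prop,
    (∀ l, ∀ b ∈ GB ρ, ∀ g, V l g → V l (b * g)) ∧ (∀ l, ∀ d ∈ D l, ∀ g, V l g → V l (g * d)) ∧
    (∀ l g, V l g → Ns ρ D l g) ∧ (∃ l ∈ T, ∃ g, V l g) ∧
    (∀ l g l' g', V l g → V l' g' → l = l' ∧ ∃ b ∈ GB ρ, ∃ d ∈ D l, g' = b * g * d) ∧
    ∀ z ∈ Zt (ci ρ) T (GB ρ),
      (∀ l ∈ T, ∀ g, ¬ V l g → ∀ E : Subgroup GQ, (∀ x, x ∈ E ↔ g⁻¹ * x * g ∈ D l) →
        Cb (GP ρ ⊓ E) (cup (fun g => mx ρ g 0 1) z)) →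
      ∀ l ∈ T, ∀ g, ∀ E : Subgroup GQ, (∀ x, x ∈ E ↔ g⁻¹ * x * g ∈ D l) →
        Cb (GP ρ ⊓ E) (cup (fun g => mx ρ g 0 1) z) := by
  obtain ⟨q, qT, q2, P, φ, hP, hφ, ur, p1, p2⟩ := hy.a0
  obtain ⟨e, -⟩ | ⟨-, R, r0, r1, eR⟩ := hy.dec q qT
  · exact absurd e hP.1.ne_zero
  obtain ⟨t, rfl⟩ := P027M.F.Tra.trans hP.1 r0 hP.2.1 r1 hP.2.2
  have mD : ∀ d, d ∈ D q ↔ d ∈ dec R := fun d => by rw [eR]; rfl
  have pr : ∀ b d, d ∈ D q → ∀ x : 𝓞 Qb, x ∈ t • R ↔ b • x ∈ (b * t * d) • R := fun b d hd x => by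
    rw [Ideal.mem_pointwise_smul_iff_inv_smul_mem, Ideal.mem_pointwise_smul_iff_inv_smul_mem,
      mul_inv_rev, mul_inv_rev, mul_smul, mul_smul, inv_smul_smul,
      (dec R).inv_mem ((mD d).1 hd)]
  refine ⟨fun l g => l = q ∧ ∃ b ∈ GB ρ, ∃ d ∈ D q, g = b * t * d, ?_, ?_, ?_,
    ⟨q, qT, t, rfl, 1, (GB ρ).one_mem, 1, (mD 1).2 (dec R).one_mem, by group⟩, ?_, ?_⟩
  · rintro l b hb g ⟨rfl, c, hc, d, hd, rfl⟩
    exact ⟨rfl, b * c, (GB ρ).mul_mem hb hc, d, hd, by group⟩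
  · rintro l e he g ⟨rfl, c, hc, d, hd, rfl⟩
    exact ⟨rfl, c, hc, d * e, (mD _).2 ((dec R).mul_mem ((mD d).1 hd) ((mD e).1 he)), by group⟩
  · rintro l g ⟨rfl, c, hc, d, hd, rfl⟩
    refine ⟨c * φ * c⁻¹, Bor.nrm hc p1, fun k => p2 ?_, (mD _).2 ?_⟩
    · simpa [mul_inv_eq_one] using k
    · rw [show (c * t * d)⁻¹ * (c * φ * c⁻¹) * (c * t * d) = d⁻¹ * (t⁻¹ * φ * t) * d by group]
      exact (dec R).mul_mem ((dec R).mul_mem ((dec R).inv_mem ((mD d).1 hd))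
        (stab_conj (phi_mem hP.1 hP.2.1 hφ))) ((mD d).1 hd)
  · rintro l g l' g' ⟨rfl, c, hc, d, hd, rfl⟩ ⟨rfl, c', hc', d', hd', rfl⟩
    exact ⟨rfl, c' * c⁻¹, (GB ρ).mul_mem hc' ((GB ρ).inv_mem hc), d⁻¹ * d',
      (mD _).2 ((dec R).mul_mem ((dec R).inv_mem ((mD d).1 hd)) ((mD d').1 hd')), by group⟩
  intro z hz hV l hl g E hE
  by_cases hv : l = q ∧ ∃ b ∈ GB ρ, ∃ d ∈ D q, g = b * t * d
  swap
  · exact hV l hl g hv E hE
  have key := core h1 h2 h3 hy.opn hy.std hz hP q2 hφ ur p1 p2 (fun D' hD' => ?_)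
    fun p P' hp hn => ?_
  · obtain ⟨rfl, b, hb, d, hd, rfl⟩ := hv
    have eE : E = dec ((b * t * d) • R) := Subgroup.ext fun x => by
      rw [hE, dec_iff, mD]; rfl
    have o : Ov l ((b * t * d) • R) := ⟨hP.1, P022D.Sel.Pl.prime_smul _ r0, by
      rw [P022D.Sel.Pl.mem_smul, P022D.Sel.Pl.smul_nat]; exact r1⟩
    refine cb_congr (cb_le (inf_le_inf_right _ fun g hg => (uni hg).1) (eE ▸
      unr_zz h2 hy.opn hy.std hz o fun i hi => ?_))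
      fun g hg k _ => by rw [zz, cup, (uni hg.1).2.2.1, mul_one]
    have hi' : Inert (t • R) (b⁻¹ * i * b) := fun x => by
      rw [pr b d hd, smul_sub, mul_smul (b⁻¹ * i), mul_smul b⁻¹, smul_inv_smul]
      exact hi _
    have k := z_conj hz hb (ur _ hi') (key _ hi')
    rw [show b * (b⁻¹ * i * b) * b⁻¹ = i by group] at k
    refine ⟨?_, k⟩
    simpa [inv_mul_eq_one, mul_assoc] using ur _ hi'
  · obtain ⟨-, c₀, k, e0⟩ | ⟨lp, -⟩ := hD'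
    swap
    · exact absurd lp Nat.not_prime_zero
    obtain ⟨-, c₁, k1, e⟩ | ⟨lp, -⟩ := hy.dec 0 hy.h0
    swap
    · exact absurd lp Nat.not_prime_zero
    obtain ⟨s, hs⟩ := conj_conj k k1
    refine up_odd h3 hy.opn hy.std hz (hV 0 hy.h0 s (fun k => hP.1.ne_zero k.1.symm) D'
      fun x => ?_)
    rw [← SetLike.mem_coe, e0, e, Set.mem_insert_iff, Set.mem_insert_iff, Set.mem_singleton_iff,
      Set.mem_singleton_iff, mul_assoc, inv_mul_eq_one, inv_mul_eq_iff_eq_mul, ← hs,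
      mul_left_inj, eq_comm (a := s), mul_eq_right]
  · by_cases hT : p ∈ T
    swap
    · exact unr_zz h2 hy.opn hy.std hz hp fun i hi =>
        ⟨hy.unr p hT P' hp i hi, hz.2.2.2 p hT P' hp i hi⟩
    by_cases pq : p = q
    · subst pq
      obtain ⟨s, rfl⟩ := P027M.F.Tra.trans hp.1 r0 hp.2.1 r1 hp.2.2
      refine up_odd h3 hy.opn hy.std hz (hV p hT s ?_ _ fun x => by rw [dec_iff, mD]; rfl)
      rintro ⟨-, b, hb, d, hd, rfl⟩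
      exact hn b hb (pr b d hd)
    · obtain ⟨e, -⟩ | ⟨-, R', s0, s1, eS⟩ := hy.dec p hT
      · exact absurd e hp.1.ne_zero
      obtain ⟨s, rfl⟩ := P027M.F.Tra.trans hp.1 s0 hp.2.1 s1 hp.2.2
      exact up_odd h3 hy.opn hy.std hz (hV p hT s (fun k => pq k.1) _
        fun x => by rw [dec_iff, eS]; rfl)

end Vale.Agent.P022E.GW.H28
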