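import Vale.Agent.P022E.GW.Fix
import Vale.Agent.P022E.GW.Defs
import Vale.Agent.P022E.GW.Bor
import Vale.Agent.P022E.GW.RecA

/-!
# P022E, block GW: lifting of the lower row of a cocycle of the upper triangular subgroup
-/

set_option linter.all false

noncomputable section

namespace Vale.Agent.P022E.GW.Lf86

open NumberField
open Vale.Agent.P022 Vale.Agent.P022.H443
open Vale.Agent.P027M.S (Inert mx)
open Vale.Agent.P022D.Sel (M2 IsDec)
open Vale.Agent.P022D.L2c (Hm Cob cup)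

variable {F : Type} [Field F] [CharP F 2]

/-- a twisted two cocycle which splits on a subgroup of odd index splits -/
theorem avg {X : Type} [Group X] (H : Subgroup X) (ho : Odd H.index) (θ : X → F)
    (hm : ∀ g h, θ (g * h) = θ g * θ h) (h0 : ∀ g, θ g ≠ 0) (h1 : ∀ p ∈ H, θ p = 1)
    (β : X → X → F) (hβ : ∀ g h k, θ g * β h k + β g (h * k) = β (g * h) k + β g h)
    (w : X → F) (hw : ∀ p ∈ H, ∀ q ∈ H, w (p * q) = w p + w q + β p q) :
    ∃ y : X → F, (∀ g h, y (g * h) = y g + θ g * y h + β g h) ∧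
      ∀ i, (∀ g, g * i * g⁻¹ ∈ H ∧ β g i = 0 ∧ β (g * i * g⁻¹) g = 0 ∧ w (g * i * g⁻¹) = 0) →
        y i = 0 := by
  classical
  have two : (2 : F) = 0 := CharTwo.two_eq_zero
  haveI : H.FiniteIndex := ⟨fun e => by simp [e] at ho⟩
  haveI : Fintype (X ⧸ H) := Fintype.ofFinite _
  let o : X → X := fun x => ((x⁻¹ : X) : X ⧸ H).out
  have ho1 : ∀ x, x * o x ∈ H := fun x => by
    have := QuotientGroup.eq.1 (QuotientGroup.out_eq' ((x⁻¹ : X) : X ⧸ H)).symm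
    rwa [inv_inv] at this
  have ho2 : ∀ p ∈ H, ∀ x, o (p * x) = o x := fun p hp x => by
    have : (((p * x)⁻¹ : X) : X ⧸ H) = ((x⁻¹ : X) : X ⧸ H) := by
      rw [QuotientGroup.eq]; simpa using hp
    simp only [o, this]
  let u : X → F := fun x => w (x * o x) + β (x * o x) (o x)⁻¹
  have hu : ∀ p ∈ H, ∀ x, u (p * x) = w p + u x + β p x := fun p hp x => by
    have e := hβ p (x * o x) (o x)⁻¹
    rw [h1 p hp, mul_inv_cancel_right] at e
    simp only [u]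
    rw [ho2 p hp, mul_assoc, hw p hp _ (ho1 x)]
    linear_combination -e
  let W : X → X → F := fun x h => (θ x)⁻¹ * (β x h + u x + u (x * h))
  have hW : ∀ p ∈ H, ∀ x h, W (p * x) h = W x h := fun p hp x h => by
    have e := hβ p x h
    rw [h1 p hp] at e
    simp only [W]
    rw [hm, h1 p hp, one_mul, mul_assoc p, hu p hp, hu p hp]
    congr 1
    linear_combination -e + (w p + β p (x * h)) * two
  have hW2 : ∀ x h k, W x (h * k) = W x h + θ h * W (x * h) k + β h k := fun x h k => by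
    have e := hβ x h k
    have a := h0 x
    have b := h0 h
    simp only [W]
    rw [hm, mul_assoc x h k]
    field_simp
    linear_combination e - (u (x * h) + θ x * β h k) * two
  refine ⟨fun h => ∑ q : X ⧸ H, W q.out⁻¹ h, fun g h => ?_, fun i hi => ?_⟩
  · have e : ∑ q : X ⧸ H, W (q.out⁻¹ * g) h = ∑ q : X ⧸ H, W q.out⁻¹ h := by
      refine Fintype.sum_equiv (MulAction.toPerm g⁻¹) _ _ fun q => ?_
      have m : q.out⁻¹ * g * (g⁻¹ • q).out ∈ H := by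
        have : ((g⁻¹ * q.out : X) : X ⧸ H) = ((g⁻¹ • q).out : X) := by
          rw [QuotientGroup.out_eq']
          exact MulAction.Quotient.mk_smul_out H g⁻¹ q
        simpa using QuotientGroup.eq.1 this
      rw [MulAction.toPerm_apply, ← hW _ m (g⁻¹ • q).out⁻¹, mul_inv_cancel_right]
    have c : ((Fintype.card (X ⧸ H) : ℕ) : F) = 1 := by
      rw [← Nat.card_eq_fintype_card, ← Subgroup.index_eq_card]
      obtain ⟨k, hk⟩ := ho
      rw [hk]; push_cast; rw [two]; ring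
    simp only [hW2]
    rw [Finset.sum_add_distrib, Finset.sum_add_distrib, ← Finset.mul_sum, e, Finset.sum_const,
      Finset.card_univ, nsmul_eq_mul, c, one_mul]
  · refine Finset.sum_eq_zero fun q _ => ?_
    obtain ⟨a, b, c, d⟩ := hi q.out⁻¹
    have e := hu _ a q.out⁻¹
    rw [inv_mul_cancel_right, c, d] at e
    simp only [W]
    rw [b, e]
    linear_combination (θ q.out⁻¹)⁻¹ * u q.out⁻¹ * two

/-- conjugates of inertia elements -/
theorem inert_cj {l : ℕ} {P : Ideal (𝓞 Qb)} (hP : Ov l P) (g : GQ) :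
    ∃ P', Ov l P' ∧ ∀ i, Inert P i → Inert P' (g * i * g⁻¹) := by
  let f : 𝓞 Qb →+* 𝓞 Qb := MulSemiringAction.toRingHom GQ (𝓞 Qb) g⁻¹
  haveI := hP.2.1
  refine ⟨P.comap f, ⟨hP.1, Ideal.comap_isPrime f P, ?_⟩, fun i hi x => ?_⟩
  · rw [Ideal.mem_comap, map_natCast]; exact hP.2.2
  · rw [Ideal.mem_comap]
    have := hi (g⁻¹ • x)
    have e : f ((g * i * g⁻¹) • x - x) = i • g⁻¹ • x - g⁻¹ • x := by
      rw [map_sub]
      show g⁻¹ • (g * i * g⁻¹) • x - g⁻¹ • x = _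
      rw [smul_smul, smul_smul]
      congr 2; group
    rwa [e]

variable {ρ : GQ →* GL (Fin 2) F} {T : Finset ℕ} {D : ℕ → Set GQ}

theorem gp_open (hy : Hyp ρ T D) : IsOpen (GP ρ : Set GQ) :=
  Subgroup.isOpen_mono (H₁ := ρ.ker) Bor.ker_le hy.opn

/-- a splitting on the unipotent subgroup which is unramified outside `T` -/
theorem fixP [Finite F] (hy : Hyp ρ T D) (β : GQ → GQ → F) (hc : Cb (GP ρ) β)
    (h1 : β 1 1 = 0)
    (hi : ∀ l ∉ T, ∀ P, Ov l P → ∀ i, Inert P i → ∀ g ∈ GP ρ, β g i = 0 ∧ β i g = 0) :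
    ∃ w : GQ → F, (∀ p ∈ GP ρ, ∀ q ∈ GP ρ, w (p * q) = w p + w q + β p q) ∧
      (∃ U : Subgroup GQ, IsOpen (U : Set GQ) ∧ U.Normal ∧ ∀ σ ∈ GP ρ, σ ∈ U → w σ = 0) ∧
      Ur T w := by
  classical
  have two : (2 : F) = 0 := CharTwo.two_eq_zero
  obtain ⟨w0, hl, hw⟩ := hc
  let w : GQ → F := fun g => if h : g ∈ GP ρ then w0 ⟨g, h⟩ else 0
  have e : ∀ g (h : g ∈ GP ρ), w g = w0 ⟨g, h⟩ := fun g h => dif_pos h
  have hw' : ∀ p ∈ GP ρ, ∀ q ∈ GP ρ, w (p * q) = w p + w q + β p q := fun p hp q hq => by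
    rw [e p hp, e q hq, e _ ((GP ρ).mul_mem hp hq)]
    exact hw ⟨p, hp⟩ ⟨q, hq⟩
  have w1 : w0 1 = 0 := by
    have := hw 1 1
    rw [mul_one] at this
    have k : rs (GP ρ) β 1 1 = 0 := h1
    rw [k] at this
    linear_combination -this
  obtain ⟨U, hU, hn, hU0⟩ := Rc.near hl
  have mem : ∀ l ∉ T, ∀ P, Ov l P → ∀ i, Inert P i → i ∈ GP ρ := fun l hl P hP i h =>
    Bor.ker_le (hy.unr l hl P hP i h)
  obtain ⟨b, hb, hbw⟩ := fix2 F (GP ρ) T w hy.bP hy.h2 (fun l hl => (hy.dec l hl).imp And.left And.left)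
    ⟨U, hU, fun σ hσ => by rw [e σ hσ.1, hU0 ⟨σ, hσ.1⟩ hσ.2, w1]⟩
    (fun l hl P hP i hiP h => ⟨fun i' hi' h' => by
        rw [hw' i hiP i' hi', (hi l hl P hP i h i' hi').2, add_zero],
      fun g hg => by
        obtain ⟨P', hP', k⟩ := inert_cj hP g
        have m := mem l hl P' hP' _ (k i h)
        have e1 := hw' _ m g hg
        rw [inv_mul_cancel_right, hw' g hg i hiP, (hi l hl P hP i h g hg).1,
          (hi l hl P' hP' _ (k i h) g hg).2] at e1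
        linear_combination -e1⟩)
  obtain ⟨V, hV, hn', hV0⟩ := Rc.near hb.1
  have b1 : b 1 = 0 := by
    have := hb.2 1 1
    simp only [mul_one, OneMemClass.coe_one] at this
    linear_combination -this
  refine ⟨fun g => w g + b g, fun p hp q hq => ?_, ⟨U ⊓ V, hU.inter hV, inferInstance,
    fun σ hσ h => ?_⟩, fun l hl P hP i h => ?_⟩
  · have := hb.2 ⟨p, hp⟩ ⟨q, hq⟩
    simp only [Subgroup.coe_mul] at this
    simp only
    rw [hw' p hp q hq, this]; ring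
  · have := hV0 ⟨σ, hσ⟩ h.2
    simp only [OneMemClass.coe_one] at this
    simp only
    rw [e σ hσ, hU0 ⟨σ, hσ⟩ h.1, w1, this, b1, add_zero]
  · simp only
    rw [hbw l hl P hP i (mem l hl P hP i h) h]
    linear_combination w i * two

/-- a splitting on the upper triangular subgroup which is unramified outside `T` -/
theorem fixB [Finite F] (hy : Hyp ρ T D) (θ : GQ → F)
    (hm : ∀ g ∈ GB ρ, ∀ h ∈ GB ρ, θ (g * h) = θ g * θ h) (h0 : ∀ g ∈ GB ρ, θ g ≠ 0)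
    (h1 : ∀ p ∈ GP ρ, θ p = 1) (β γ : GQ → GQ → F)
    (hβ : ∀ g ∈ GB ρ, ∀ h ∈ GB ρ, ∀ k ∈ GB ρ,
      θ g * β h k + β g (h * k) = β (g * h) k + β g h)
    (hγ : ∀ p ∈ GP ρ, ∀ q, β p q = γ p q) (hc : Cb (GP ρ) γ)
    (k1 : ∀ g, ρ g = 1 → ∀ h, β g h = 0)
    (k3 : ∃ U : Subgroup GQ, IsOpen (U : Set GQ) ∧ ∀ g, ∀ σ ∈ U, β g σ = 0)
    (k4 : ∀ g, Ur T (β g)) :
    ∃ y : GQ → F, (∀ g ∈ GB ρ, ∀ h ∈ GB ρ, y (g * h) = y g + θ g * y h + β g h) ∧
      (∀ g ∉ GB ρ, y g = 0) ∧ Op y ∧ Ur T y := by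
  classical
  have hc' : Cb (GP ρ) β := by
    obtain ⟨w, hl, hw⟩ := hc
    exact ⟨w, hl, fun x y => by rw [hw x y]; exact congrArg _ (hγ x x.2 y).symm⟩
  obtain ⟨w, hw, ⟨U, hU, hn, hU0⟩, hur⟩ := fixP hy β hc' (k1 1 (map_one ρ) 1)
    fun l hl P hP i h g _ => ⟨k4 g l hl P hP i h, k1 i (hy.unr l hl P hP i h) g⟩
  obtain ⟨y, hy1, hy2⟩ := avg ((GP ρ).subgroupOf (GB ρ)) (Bor.odd_rel hy.std) (fun g => θ g)
    (fun g h => hm g g.2 h h.2) (fun g => h0 g g.2) (fun p hp => h1 p hp) (fun g h => β g h)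
    (fun g h k => hβ g g.2 h h.2 k k.2) (fun g => w g) (fun p hp q hq => hw p hp q hq)
  have ker : ∀ g i : GQ, ρ i = 1 → ρ (g * i * g⁻¹) = 1 := fun g i h => by
    rw [map_mul, map_mul, h, mul_one, ← map_mul, mul_inv_cancel, map_one]
  obtain ⟨V, hV, hV0⟩ := k3
  refine ⟨fun g => if h : g ∈ GB ρ then y ⟨g, h⟩ else 0, fun g hg h hh => ?_,
    fun g hg => dif_neg hg, ⟨ρ.ker ⊓ U ⊓ V, (hy.opn.inter hU).inter hV, fun σ hσ => ?_⟩,
    fun l hl P hP i h => ?_⟩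
  · simp only
    rw [dif_pos hg, dif_pos hh, dif_pos ((GB ρ).mul_mem hg hh)]
    exact hy1 ⟨g, hg⟩ ⟨h, hh⟩
  · have m : σ ∈ GB ρ := Bor.le (Bor.ker_le hσ.1.1)
    simp only
    rw [dif_pos m]
    refine hy2 _ fun g => ?_
    have k := ker g σ hσ.1.1
    exact ⟨Bor.ker_le k, hV0 g σ hσ.2, k1 _ k g, hU0 _ (Bor.ker_le k) (hn.conj_mem σ hσ.1.2 g)⟩
  · have r := hy.unr l hl P hP i h
    have m : i ∈ GB ρ := Bor.le (Bor.ker_le r)
    simp only
    rw [dif_pos m]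
    refine hy2 _ fun g => ?_
    have k := ker g i r
    obtain ⟨P', hP', k'⟩ := inert_cj hP g
    exact ⟨Bor.ker_le k, k4 g l hl P hP i h, k1 _ k g, hur l hl P' hP' _ (k' i h)⟩

theorem ent (S : Gp.Std ρ.range) {g : GQ} (hg : g ∈ GB ρ) :
    mx ρ g = !![mx ρ g 0 0, mx ρ g 0 1; 0, mx ρ g 1 1] ∧
      mx ρ g⁻¹ = !![mx ρ g 1 1, mx ρ g 0 1; 0, mx ρ g 0 0] := by
  have two : (2 : F) = 0 := CharTwo.two_eq_zero
  have h : mx ρ g 1 0 = 0 := hg
  have d : mx ρ g 0 0 * mx ρ g 1 1 = 1 := Bor.d01 S hg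
  have e : mx ρ g = !![mx ρ g 0 0, mx ρ g 0 1; 0, mx ρ g 1 1] := by
    ext i j; fin_cases i <;> fin_cases j <;> simp [h]
  refine ⟨e, ?_⟩
  have k : mx ρ g⁻¹ * mx ρ g = 1 := by
    simp only [mx]; rw [← Units.val_mul, ← map_mul, inv_mul_cancel, map_one, Units.val_one]
  have k' : mx ρ g * !![mx ρ g 1 1, mx ρ g 0 1; 0, mx ρ g 0 0] = 1 := by
    generalize mx ρ g 0 0 = t, mx ρ g 0 1 = b, mx ρ g 1 1 = c at e d
    rw [e]
    ext i j; fin_cases i <;> fin_cases j <;> simp [Matrix.mul_apply, Fin.sum_univ_two]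
    · exact d
    · linear_combination t * b * two
    · linear_combination d
  rw [← mul_one (mx ρ g⁻¹), ← k', ← mul_assoc, k, one_mul]

/-- the adjoint action of an upper triangular element -/
theorem ad (S : Gp.Std ρ.range) {g : GQ} (hg : g ∈ GB ρ) (x y z w : F) :
    mx ρ g * !![x, y; z, w] * mx ρ g⁻¹ =
      !![x + mx ρ g 0 1 * mx ρ g 1 1 * z,
          mx ρ g 0 0 ^ 2 * y + (mx ρ g 0 0 * mx ρ g 0 1 * (x + w) + mx ρ g 0 1 ^ 2 * z);
        mx ρ g 1 1 ^ 2 * z, w + mx ρ g 0 1 * mx ρ g 1 1 * z] := by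
  have d : mx ρ g 0 0 * mx ρ g 1 1 = 1 := Bor.d01 S hg
  obtain ⟨e, e'⟩ := ent S hg
  rw [e']
  generalize mx ρ g 0 0 = t, mx ρ g 0 1 = b, mx ρ g 1 1 = c at e d
  rw [e]
  ext i j; fin_cases i <;> fin_cases j <;> simp [Matrix.mul_apply, Fin.sum_univ_two]
  · linear_combination x * d
  · ring
  · ring
  · linear_combination w * d

theorem Zt_one {θ c : GQ → F} {Γ : Subgroup GQ} (h : c ∈ Zt θ T Γ) (h1 : θ 1 = 1) : c 1 = 0 := by
  have := h.1 1 Γ.one_mem 1 Γ.one_mem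
  rw [mul_one, h1, one_mul] at this
  linear_combination -this

/-- **lifting of the lower row** -/
theorem lift [Finite F] (hy : Hyp ρ T D) {z s : GQ → F}
    (hz : z ∈ Zt (fun g => mx ρ g 1 1 ^ 2) T (GB ρ)) (hs : s ∈ Zt (fun _ => (1 : F)) T (GB ρ))
    (h1 : Cb (GP ρ) (cup (fun g => mx ρ g 0 1) z))
    (h2 : Cb (GP ρ) (cup (fun g => mx ρ g 0 1) s + cup (fun g => mx ρ g 0 1 ^ 2) z)) :
    ∃ c ∈ H1 ρ T (GB ρ), (∀ g, c g 1 0 = z g) ∧ ∀ g, c g 0 0 + c g 1 1 = s g := by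
  have two : (2 : F) = 0 := CharTwo.two_eq_zero
  have S := hy.std
  have d : ∀ g ∈ GB ρ, mx ρ g 0 0 * mx ρ g 1 1 = 1 := fun g hg => Bor.d01 S hg
  have m00 : ∀ g, ∀ h ∈ GB ρ, mx ρ (g * h) 0 0 = mx ρ g 0 0 * mx ρ h 0 0 := fun g h hh =>
    Bor.e00 hh
  have m11 : ∀ g ∈ GB ρ, ∀ h, mx ρ (g * h) 1 1 = mx ρ g 1 1 * mx ρ h 1 1 := fun g hg h =>
    Bor.e11 hg
  have m01 : ∀ g h, mx ρ (g * h) 0 1 = mx ρ g 0 0 * mx ρ h 0 1 + mx ρ g 0 1 * mx ρ h 1 1 :=
    fun g h => Bor.e01 g h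
  have p0 : ∀ p ∈ GP ρ, mx ρ p 0 0 = 1 := fun p hp => (Bor.mem_GP.1 hp).2.1
  have p1 : ∀ p ∈ GP ρ, mx ρ p 1 1 = 1 := fun p hp => (Bor.mem_GP.1 hp).2.2
  have k0 : ∀ g, ρ g = 1 → mx ρ g 0 1 = 0 := fun g h => by simp [mx, h]
  obtain ⟨U, hU, hU0⟩ := hz.2.2.1
  obtain ⟨V, hV, hV0⟩ := hs.2.2.1
  obtain ⟨x, hx1, hx2, hx3, hx4⟩ := fixB hy (fun _ => 1) (fun _ _ _ _ => (mul_one _).symm)
    (fun _ _ => one_ne_zero) (fun _ _ => rfl) (fun g h => mx ρ g 0 1 * mx ρ g 1 1 * z h) _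
    (fun g hg h hh k hk => by
      rw [hz.1 h hh k hk, m01, m11 g hg]
      linear_combination -(mx ρ h 0 1 * mx ρ h 1 1 * z k) * d g hg)
    (fun p hp q => by simp only [cup]; rw [p1 p hp, mul_one]) h1
    (fun g h k => by rw [k0 g h]; ring) ⟨U, hU, fun g σ h => by rw [hU0 σ h, mul_zero]⟩
    (fun g l hl P hP i h => by
      beta_reduce; rw [hz.2.2.2 l hl P hP i h, mul_zero])
  obtain ⟨y, hy1, hy2, hy3, hy4⟩ := fixB hy (fun g => mx ρ g 0 0 ^ 2)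
    (fun g _ h hh => by rw [m00 g h hh, mul_pow])
    (fun g hg => pow_ne_zero _ (Bor.ne00 hg)) (fun p hp => by rw [p0 p hp, one_pow])
    (fun g h => mx ρ g 0 0 * mx ρ g 0 1 * s h + mx ρ g 0 1 ^ 2 * z h) _
    (fun g hg h hh k hk => by
      rw [hz.1 h hh k hk, hs.1 h hh k hk, m01, m00 g h hh]
      linear_combination -(mx ρ g 0 0 * mx ρ g 0 1 * s k) * d h hh -
        (mx ρ g 0 0 * mx ρ h 0 1 * mx ρ g 0 1 * mx ρ h 1 1 * z k) * two)
    (fun p hp q => by simp only [cup, Pi.add_apply]; rw [p0 p hp, one_mul]) h2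
    (fun g h k => by rw [k0 g h]; ring)
    ⟨U ⊓ V, hU.inter hV, fun g σ h => by rw [hU0 σ h.1, hV0 σ h.2]; ring⟩
    (fun g l hl P hP i h => by
      beta_reduce; rw [hz.2.2.2 l hl P hP i h, hs.2.2.2 l hl P hP i h]; ring)
  have z0 : (!![0, 0; 0, 0 + 0] : M2 F) = 0 := by
    ext i j; fin_cases i <;> fin_cases j <;> simp
  obtain ⟨X, hX, hX0⟩ := hx3
  obtain ⟨Y, hY, hY0⟩ := hy3
  refine ⟨fun g => !![x g, y g; z g, x g + s g], ⟨fun g hg h hh => ?_, fun g hg => ?_,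
    ⟨U ⊓ V ⊓ X ⊓ Y, ((hU.inter hV).inter hX).inter hY, fun σ h => ?_⟩, fun l hl P hP i h => ?_⟩,
    fun g => rfl, fun g => ?_⟩
  · simp only
    rw [ad S hg, hx1 g hg h hh, hy1 g hg h hh, hz.1 g hg h hh, hs.1 g hg h hh]
    ext i j; fin_cases i <;> fin_cases j <;> simp
    · ring
    · linear_combination -(mx ρ g 0 0 * mx ρ g 0 1 * x h) * two
    · ring
  · simp only
    rw [hx2 g hg, hy2 g hg, hz.2.1 g hg, hs.2.1 g hg, z0]
  · simp only
    rw [hU0 σ h.1.1.1, hV0 σ h.1.1.2, hX0 σ h.1.2, hY0 σ h.2, z0]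
  · simp only
    rw [hx4 l hl P hP i h, hy4 l hl P hP i h, hz.2.2.2 l hl P hP i h, hs.2.2.2 l hl P hP i h, z0]
  · show x g + (x g + s g) = s g
    linear_combination x g * two

/-- the cocycles with values in the span of `1` and the nilpotent element -/
theorem sub (S : Gp.Std ρ.range) {x y : GQ → F} (hx : x ∈ Zt (fun _ => (1 : F)) T (GB ρ))
    (hy : y ∈ Zt (fun g => mx ρ g 0 0 ^ 2) T (GB ρ)) :
    (fun g => !![x g, y g; 0, x g]) ∈ H1 ρ T (GB ρ) := by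
  have two : (2 : F) = 0 := CharTwo.two_eq_zero
  have z0 : (!![0, 0; 0, 0] : M2 F) = 0 := by
    ext i j; fin_cases i <;> fin_cases j <;> simp
  obtain ⟨X, hX, hX0⟩ := hx.2.2.1
  obtain ⟨Y, hY, hY0⟩ := hy.2.2.1
  refine ⟨fun g hg h hh => ?_, fun g hg => ?_, ⟨X ⊓ Y, hX.inter hY, fun σ h => ?_⟩,
    fun l hl P hP i h => ?_⟩
  · simp only
    rw [ad S hg, hx.1 g hg h hh, hy.1 g hg h hh]
    ext i j; fin_cases i <;> fin_cases j <;> simp
    exact Or.inr (CharTwo.add_self_eq_zero _)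
  · simp only
    rw [hx.2.1 g hg, hy.2.1 g hg, z0]
  · simp only
    rw [hX0 σ h.1, hY0 σ h.2, z0]
  · simp only
    rw [hx.2.2.2 l hl P hP i h, hy.2.2.2 l hl P hP i h, z0]

/-- **the count** -/
theorem cnt [Finite F] (hy : Hyp ρ T D) (K : Submodule F ((GQ → F) × (GQ → F)))
    (hK : ∀ k ∈ K, k.1 ∈ Zt (fun g => mx ρ g 1 1 ^ 2) T (GB ρ) ∧
      k.2 ∈ Zt (fun _ => (1 : F)) T (GB ρ) ∧ Cb (GP ρ) (cup (fun g => mx ρ g 0 1) k.1) ∧
      Cb (GP ρ) (cup (fun g => mx ρ g 0 1) k.2 + cup (fun g => mx ρ g 0 1 ^ 2) k.1)) :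
    Module.rank F (Zt (fun _ => (1 : F)) T (GB ρ)) +
      Module.rank F (Zt (fun g => mx ρ g 0 0 ^ 2) T (GB ρ)) + Module.rank F K ≤
      Module.rank F (H1 ρ T (GB ρ)) := by
  have two : (2 : F) = 0 := CharTwo.two_eq_zero
  let π : H1 ρ T (GB ρ) →ₗ[F] (GQ → F) × (GQ → F) :=
    { toFun := fun c => (fun g => c.1 g 1 0, fun g => c.1 g 0 0 + c.1 g 1 1)
      map_add' := fun a b => Prod.ext rfl (funext fun g => by
        simp only [Submodule.coe_add, Pi.add_apply, Matrix.add_apply, Prod.snd_add]; ring)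
      map_smul' := fun r a => Prod.ext rfl (funext fun g => by
        simp only [Submodule.coe_smul, Pi.smul_apply, Matrix.smul_apply, Prod.smul_snd,
          smul_eq_mul, RingHom.id_apply]; ring) }
  have a : Module.rank F K ≤ Module.rank F (LinearMap.range π) := by
    refine Submodule.rank_mono fun k hk => ?_
    obtain ⟨h1, h2, h3, h4⟩ := hK k hk
    obtain ⟨c, hc, e1, e2⟩ := lift hy h1 h2 h3 h4
    exact ⟨⟨c, hc⟩, Prod.ext (funext e1) (funext e2)⟩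
  let ι : (Zt (fun _ => (1 : F)) T (GB ρ) × Zt (fun g => mx ρ g 0 0 ^ 2) T (GB ρ)) →ₗ[F]
      LinearMap.ker π :=
    { toFun := fun p => ⟨⟨_, sub hy.std p.1.2 p.2.2⟩, Prod.ext rfl (funext fun g => by
        show p.1.1 g + p.1.1 g = 0
        linear_combination p.1.1 g * two)⟩
      map_add' := fun a b => Subtype.ext (Subtype.ext (funext fun g => by
        ext i j; fin_cases i <;> fin_cases j <;> simp))
      map_smul' := fun r a => Subtype.ext (Subtype.ext (funext fun g => by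
        ext i j; fin_cases i <;> fin_cases j <;> simp)) }
  have b : Function.Injective ι := fun p q h => by
    have e : (fun g => !![p.1.1 g, p.2.1 g; 0, p.1.1 g]) =
        fun g => !![q.1.1 g, q.2.1 g; 0, q.1.1 g] := congrArg (fun c => c.1.1) h
    exact Prod.ext (Subtype.ext (funext fun g => congrFun (congrFun (congrFun e g) 0) 0))
      (Subtype.ext (funext fun g => congrFun (congrFun (congrFun e g) 0) 1))
  have b' := LinearMap.rank_le_of_injective ι b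
  rw [rank_prod'] at b'
  rw [← LinearMap.rank_range_add_rank_ker π, add_comm]
  exact add_le_add a b'

end Vale.Agent.P022E.GW.Lf86
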