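import Vale.Agent.P022E.GW.LbObs
import Vale.Agent.P022E.GW.LbOneH28
import Vale.Agent.P022E.GW.LiftH86

/-!
# P022E, block GW: the lower bound over the field of the upper triangular subgroup
-/

set_option linter.all false

noncomputable section

namespace Vale.Agent.P022E.GW

open Vale.Agent.P022
open Vale.Agent.P027M.S (mx)
open Fb (ch ci FN)

theorem lbb (hH : HASSE) (hS : SYL) (hO : ONE) (hU : UNR) (hG : ODG) (hC : CHR) : LBB := by
  intro F _ _ _ ρ T D H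
  have hd : ∀ g, (mx ρ g).det = 1 := Bor.det H.std
  obtain ⟨V, v1, v2, v3, v4, -, v5⟩ := H28.one hO hU hG H
  obtain ⟨K, k1, k2, k3⟩ := Lb.obs hH hS hU H V v1 v2 v3 v4 v5
  have k4 : Module.rank F (Zt (fun _ => (1 : F)) T (GB ρ)) +
      Module.rank F (Zt (ch ρ) T (GB ρ)) + Module.rank F K ≤ Module.rank F (H1 ρ T (GB ρ)) :=
    Lf86.cnt H K fun k hk => ⟨(k1 hk).1, (k1 hk).2, k2 k hk⟩
  have k5 := Fb.fxb hd T D
  obtain ⟨h, hB, hh, -⟩ := Bor.gen H.std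
  have e1 : ∀ g, ρ g = 1 → ch ρ g = 1 := fun g hg => by simp [ch, mx, hg]
  have e2 : ∀ g, ρ g = 1 → ci ρ g = 1 := fun g hg => by simp [ci, mx, hg]
  have c1 := (hC F (GB ρ) (fun _ => (1 : F)) T D (Lb.opB H) rfl (fun _ _ _ _ => (mul_one _).symm)
    ⟨⊤, isOpen_univ, fun _ _ => rfl⟩ H.h0 H.h2 H.dec fun _ _ _ _ _ _ _ => rfl).1
  have c2 := (hC F (GB ρ) (ch ρ) T D (Lb.opB H) (e1 1 (map_one ρ))
    (fun g _ k hk => by
      have e : mx ρ (g * k) 0 0 = mx ρ g 0 0 * mx ρ k 0 0 := Bor.e00 hk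
      rw [ch, ch, ch, e, mul_pow])
    ⟨ρ.ker, H.opn, e1⟩ H.h0 H.h2 H.dec
    fun l hl P hP g _ k => e1 g (H.unr l hl P hP g k)).2 ⟨h, hB, hh⟩
  have c3 := (hC F (GB ρ) (ci ρ) T D (Lb.opB H) (e2 1 (map_one ρ))
    (fun g hg k _ => by
      have e : mx ρ (g * k) 1 1 = mx ρ g 1 1 * mx ρ k 1 1 := Bor.e11 hg
      rw [ci, ci, ci, e, mul_pow])
    ⟨ρ.ker, H.opn, e2⟩ H.h0 H.h2 H.dec
    fun l hl P hP g _ k => e2 g (H.unr l hl P hP g k)).2 ⟨h, hB, fun e => hh (by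
      have := Fb.ch_ci hd hB
      rwa [e, mul_one] at this)⟩
  have f : ∀ θ : GQ → F, Module.rank F (FN ρ θ T D) < Cardinal.aleph0 := fun θ =>
    (Submodule.rank_mono inf_le_left).trans_lt (Lb.rank_ft θ T D (Lb.opB H))
  rw [← Cardinal.add_le_add_iff_of_lt_aleph0
    (Cardinal.add_lt_aleph0 (f fun _ => 1) (f (ch ρ)))]
  generalize Module.rank F (FN ρ (fun _ => (1 : F)) T D) = n1 at *
  generalize Module.rank F (FN ρ (ch ρ) T D) = n2 at *
  generalize Module.rank F (Ft (fun _ => (1 : F)) T D (GB ρ)) = f1 at *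
  generalize Module.rank F (Zt (fun _ => (1 : F)) T (GB ρ)) = z1 at *
  calc _ = Module.rank F (Fx ρ T D (GB ρ)) + n1 + n2 + 3 := by ring
    _ ≤ _ := add_le_add k5 le_rfl
    _ = f1 + (Module.rank F (Ft (ch ρ) T D (GB ρ)) + 1) +
        (Module.rank F (Ft (ci ρ) T D (GB ρ)) + 1 + f1 + 1) := by ring
    _ ≤ z1 + Module.rank F (Zt (ch ρ) T (GB ρ)) + (Module.rank F (Zt (ci ρ) T (GB ρ)) + z1 + 1) :=
      add_le_add (add_le_add c1 c2) (add_le_add (add_le_add c3 c1) le_rfl)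
    _ ≤ z1 + Module.rank F (Zt (ch ρ) T (GB ρ)) + (Module.rank F K + (n1 + n2)) :=
      add_le_add le_rfl k3
    _ = z1 + Module.rank F (Zt (ch ρ) T (GB ρ)) + Module.rank F K + (n1 + n2) := by ring
    _ ≤ _ := add_le_add k4 le_rfl

end Vale.Agent.P022E.GW
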