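import Vale.Agent.P022E.GW.Lift
import Vale.Agent.P022E.GW.LbLoc
import Vale.Agent.P022E.GW.ObsA
import Vale.Agent.P022E.GW.LbOneH28

/-!
# P022E, block GW: the lower bound over the field of the upper triangular subgroup
-/

set_option linter.all false

noncomputable section

namespace Vale.Agent.P022E.GW.H28

open NumberField
open Vale.Agent.P022 Vale.Agent.P022.H443
open Vale.Agent.P027M.S (Inert mx)
open Vale.Agent.P022D.Sel (M2 IsDec Stab)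
open Vale.Agent.P022D.L2c (Hm Cob IsZ2 cup up)
open Vale.Agent.P022E.GW.Fb (ch ci Ns uni Sup FN rank_sup rank_pr fxb ch_ci)
open Vale.Agent.P022E.GW.Ob (Dc mem_Dc Dc_mul Dc_right isDec_Dc)

variable {F : Type} [Field F]

theorem ft_fin (θ : GQ → F) (T : Finset ℕ) (D : ℕ → Set GQ) {Γ : Subgroup GQ}
    (ho : IsOpen (Γ : Set GQ)) : Module.rank F (Ft θ T D Γ) < Cardinal.aleph0 := by
  haveI := galQb
  haveI : Finite (GQ ⧸ Γ) := Subgroup.quotient_finite_of_isOpen _ ho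
  let e : Ft θ T D Γ →ₗ[F] (T × (GQ ⧸ Γ) → F) :=
    { toFun := fun f p => f.1 p.1 (p.2.out)⁻¹
      map_add' := fun _ _ => rfl
      map_smul' := fun _ _ => rfl }
  haveI : Module.Finite F (Ft θ T D Γ) := Module.Finite.of_injective e
    ((injective_iff_map_eq_zero e).2 fun f hf => Subtype.ext (funext fun l => by
      by_cases hl : l ∈ T
      · funext g
        obtain ⟨h, k⟩ := QuotientGroup.mk_out_eq_mul Γ g⁻¹
        have z : f.1 l ((g⁻¹ : GQ) : GQ ⧸ Γ).out⁻¹ = 0 := congrFun hf (⟨l, hl⟩, (g⁻¹ : GQ))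
        have := f.2.2.1 l h h.2 ((g⁻¹ : GQ) : GQ ⧸ Γ).out⁻¹
        rw [z, mul_zero, k, mul_inv_rev, inv_inv, mul_inv_cancel_left] at this
        exact this
      · exact f.2.1 l hl))
  exact Module.rank_lt_aleph0 F _

theorem ch_cj {H : Subgroup GQ} {γ : GQ} (hγ : ∀ x ∈ H, γ * x * γ⁻¹ ∈ H) {a : GQ → F}
    (ha : Ch H a) : Ch H fun x => a (γ * x * γ⁻¹) :=
  ⟨ha.1.comp_continuous (f := fun x : H => (⟨γ * x * γ⁻¹, hγ x x.2⟩ : H)) (by fun_prop),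
    fun x y => by
      have := Lb.Ch.ad ha (hγ x x.2) (hγ y y.2)
      rw [show γ * x * γ⁻¹ * (γ * y * γ⁻¹) = γ * (x * y) * γ⁻¹ by group] at this
      exact this⟩

theorem sy_cup {H : Subgroup GQ} {a b : GQ → F} (ha : Ch H a) (hb : Ch H b) : cup a b ∈ Sy F H :=
  Submodule.subset_span ⟨a, b, ha, hb, rfl⟩

theorem sy_cj {H : Subgroup GQ} {γ : GQ} (hγ : ∀ x ∈ H, γ * x * γ⁻¹ ∈ H) {o : GQ → GQ → F}
    (ho : o ∈ Sy F H) : (fun x y => o (γ * x * γ⁻¹) (γ * y * γ⁻¹)) ∈ Sy F H := by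
  induction ho using Submodule.span_induction with
  | mem x hx =>
    obtain ⟨a, b, ha, hb, rfl⟩ := hx
    exact sy_cup (ch_cj hγ ha) (ch_cj hγ hb)
  | zero => exact zero_mem _
  | add x y _ _ hx hy => exact add_mem hx hy
  | smul r x _ hx => exact Submodule.smul_mem _ r hx

variable {ρ : GQ →* GL (Fin 2) F} {T : Finset ℕ} {D : ℕ → Set GQ}

/-- the invariants of an equivariant family of symbols -/
theorem ex_inv [Finite F] [CharP F 2] (hS : SYL) (hy : Hyp ρ T D) (S : ℕ → GQ → Prop)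
    (s1 : ∀ l, ∀ b ∈ GB ρ, ∀ g, S l (b * g) ↔ S l g) (s2 : ∀ l, ∀ d ∈ D l, ∀ g, S l (g * d) ↔ S l g) :
    ∃ δ : (GQ → GQ → F) →ₗ[F] (ℕ → GQ → F), ∀ o ∈ Sy F (GP ρ),
      (δ o = 0 → ∀ l ∈ T, ∀ g, S l g → Lb.At ρ D o l g) ∧
      ∀ θ : GQ → F, (∀ γ ∈ GB ρ, ∀ x ∈ GP ρ, ∀ y ∈ GP ρ,
        o (γ * x * γ⁻¹) (γ * y * γ⁻¹) = θ γ * o x y) → (∀ x, ρ x = 1 → ∀ y, o x y = 0) →
        δ o ∈ FN ρ θ T D ⊓ Sup F S := by
  classical
  obtain ⟨inv, hi⟩ := hS F (GP ρ) (Lb.opP hy)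
  refine ⟨{ toFun := fun o l g => if l ∈ T ∧ S l g then inv (Dc (D l) g) o else 0
            map_add' := fun a b => ?_
            map_smul' := fun r a => ?_ }, fun o ho => ⟨fun h l hl g hg E hE => ?_,
    fun θ h1 h2 => ⟨⟨⟨fun l hl => ?_, fun l γ hγ g => ?_, fun l d hd g => ?_⟩,
      fun l g hn => ?_⟩, fun l g hn => if_neg fun k => hn k.2⟩⟩⟩
  · funext l g
    simp only [Pi.add_apply, map_add]
    split_ifs <;> simp
  · funext l g
    simp only [Pi.smul_apply, map_smul, RingHom.id_apply]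
    split_ifs <;> simp
  · have k : (if l ∈ T ∧ S l g then inv (Dc (D l) g) o else 0) = 0 := congrFun (congrFun h l) g
    rw [if_pos ⟨hl, hg⟩] at k
    have e : E = Dc (D l) g := Subgroup.ext fun x => by rw [hE, mem_Dc (hy.dec l hl)]
    rw [e]
    exact ((hi l _ (isDec_Dc (hy.dec l hl) g)).1 o ho).1 k
  · funext g
    exact if_neg fun k => hl k.1
  · change (if l ∈ T ∧ S l (γ * g) then _ else _) = θ γ * if l ∈ T ∧ S l g then _ else _
    rw [s1 l γ hγ]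
    split_ifs with k
    swap
    · rw [mul_zero]
    have n : ∀ x ∈ GP ρ, γ * x * γ⁻¹ ∈ GP ρ := fun x hx => Bor.nrm hγ hx
    have a := hi l _ (isDec_Dc (hy.dec l k.1) g)
    rw [← a.2 γ _ (fun x => ⟨n x, fun hx => by
      have := Bor.nrm ((GB ρ).inv_mem hγ) hx
      rwa [show γ⁻¹ * (γ * x * γ⁻¹) * γ⁻¹⁻¹ = x by group] at this⟩) (Dc_mul _ γ g) o ho,
      ← smul_eq_mul, ← map_smul, ← sub_eq_zero, ← map_sub,
      a.1 _ (sub_mem (sy_cj n ho) (Submodule.smul_mem _ _ ho))]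
    exact cb_congr (z := 0) (Submodule.zero_mem _) fun x hx y hy => by
      simp only [Pi.sub_apply, Pi.smul_apply, smul_eq_mul, h1 γ hγ x hx.1 y hy.1, sub_self,
        Pi.zero_apply]
  · change (if l ∈ T ∧ S l (g * d) then _ else _) = if l ∈ T ∧ S l g then _ else _
    rw [s2 l d hd, Dc_right _ hd]
  · change (if l ∈ T ∧ S l g then _ else _) = _
    split_ifs with k
    swap
    · rfl
    rw [(hi l _ (isDec_Dc (hy.dec l k.1) g)).1 o ho]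
    exact cb_congr (z := 0) (Submodule.zero_mem _) fun x hx y _ => h2 x (by
      by_contra e
      exact hn ⟨x, hx.1, e, (mem_Dc (hy.dec l k.1)).1 hx.2⟩) y

theorem a_cj [CharP F 2] (S : Gp.Std ρ.range) {γ x : GQ} (hγ : γ ∈ GB ρ) (hx : x ∈ GP ρ) :
    mx ρ (γ * x * γ⁻¹) 0 1 = ch ρ γ * mx ρ x 0 1 := by
  have e : mx ρ (γ * x * γ⁻¹ * γ) 0 1 = mx ρ (γ * x * γ⁻¹) 0 0 * mx ρ γ 0 1 +
    mx ρ (γ * x * γ⁻¹) 0 1 * mx ρ γ 1 1 := Bor.e01 _ _
  have e' : mx ρ (γ * x) 0 1 = mx ρ γ 0 0 * mx ρ x 0 1 + mx ρ γ 0 1 * mx ρ x 1 1 := Bor.e01 _ _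
  have d : mx ρ γ 0 0 * mx ρ γ 1 1 = 1 := Bor.d01 S hγ
  rw [inv_mul_cancel_right, e', (uni (Bor.nrm hγ hx)).2.1, (uni hx).2.2.1] at e
  rw [ch]
  linear_combination (-mx ρ γ 0 0) * e - mx ρ (γ * x * γ⁻¹) 0 1 * d

theorem z_cj {θ z : GQ → F} (hz : z ∈ Zt θ T (GB ρ)) (h : ∀ p ∈ GP ρ, θ p = 1) {γ x : GQ}
    (hγ : γ ∈ GB ρ) (hx : x ∈ GP ρ) : z (γ * x * γ⁻¹) = θ γ * z x := by
  have n : γ * x * γ⁻¹ ∈ GP ρ := Bor.nrm hγ hx
  have e := hz.1 _ (uni n).1 γ hγ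
  rw [inv_mul_cancel_right, hz.1 γ hγ x (uni hx).1, h _ n] at e
  linear_combination -e

/-- **the lower bound over the field of the upper triangular subgroup** -/
theorem lbb (hH : HASSE) (hS : SYL) (h1 : ONE) (hU : UNR) (hO : ODG) (hC : CHR) :
    LBB := by
  classical
  intro F _ _ _ ρ T D hy
  have S := hy.std
  obtain ⟨V, v1, v2, v3, ⟨l₀, l0, g₀, v4⟩, v6, v5⟩ := one h1 hU hO hy
  have w1 : ∀ l, ∀ b ∈ GB ρ, ∀ g, V l (b * g) ↔ V l g := fun l b hb g =>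
    ⟨fun k => by simpa using v1 l _ ((GB ρ).inv_mem hb) _ k, v1 l b hb g⟩
  have w0 : ∀ l g, V l g → l ∈ T := fun l g k => (v6 _ _ _ _ v4 k).1 ▸ l0
  have w2 : ∀ l, ∀ d ∈ D l, ∀ g, V l (g * d) ↔ V l g := fun l d hd g =>
    ⟨fun k => by
      obtain ⟨E, hE⟩ := Ob.ex_sub (hy.dec l (w0 l _ k))
      simpa using v2 l d⁻¹ (by rw [← hE] at hd ⊢; exact E.inv_mem hd) _ k, v2 l d hd g⟩
  obtain ⟨δ₁, k1⟩ := ex_inv hS hy (fun l g => ¬ V l g) (fun l b hb g => (w1 l b hb g).not)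
    fun l d hd g => (w2 l d hd g).not
  obtain ⟨δ₂, k2⟩ := ex_inv hS hy (fun _ _ => True) (fun _ _ _ _ => Iff.rfl) fun _ _ _ _ => Iff.rfl
  let cu : (GQ → F) → (GQ → F) →ₗ[F] (GQ → GQ → F) := fun a =>
    { toFun := cup a
      map_add' := fun x y => by funext g h; simp [cup, mul_add]
      map_smul' := fun r x => by funext g h; simp [cup, mul_left_comm] }
  let A := Zt (ci ρ) T (GB ρ)
  let B := Zt (fun _ => (1 : F)) T (GB ρ)
  let i : (A × B) →ₗ[F] (GQ → F) × (GQ → F) := A.subtype.prodMap B.subtype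
  let o₁ := cu (fun g => mx ρ g 0 1) ∘ₗ LinearMap.fst F (GQ → F) (GQ → F)
  let o₂ := cu (fun g => mx ρ g 0 1) ∘ₗ LinearMap.snd F (GQ → F) (GQ → F) +
    cu (fun g => mx ρ g 0 1 ^ 2) ∘ₗ LinearMap.fst F (GQ → F) (GQ → F)
  let δ := ((δ₁ ∘ₗ o₁).prod (δ₂ ∘ₗ o₂)) ∘ₗ i
  have m1 : ∀ p : A × B, cup (fun g => mx ρ g 0 1) p.1.1 ∈ Sy F (GP ρ) := fun p =>
    sy_cup (Lb.ch_a hy) (Lb.ch_z p.1.2)
  have m2 : ∀ p : A × B, cup (fun g => mx ρ g 0 1) p.2.1 + cup (fun g => mx ρ g 0 1 ^ 2) p.1.1 ∈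
      Sy F (GP ρ) := fun p =>
    add_mem (sy_cup (Lb.ch_a hy) (Lb.ch_s p.2.2)) (sy_cup (Lb.ch_a2 hy) (Lb.ch_z p.1.2))
  have c1 : ∀ p ∈ GP ρ, ci ρ p = 1 := fun p hp => by rw [ci, (uni hp).2.2.1, one_pow]
  have r1 : LinearMap.range δ ≤ (FN ρ (fun _ => (1 : F)) T D ⊓ Sup F fun l g => ¬ V l g).prod
      (FN ρ (ch ρ) T D) := by
    rintro _ ⟨p, rfl⟩
    refine ⟨(k1 _ (m1 p)).2 _ (fun γ hγ x hx y hy => ?_) fun x hx y => ?_,
      ((k2 _ (m2 p)).2 _ (fun γ hγ x hx y hy => ?_) fun x hx y => ?_).1⟩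
    · simp only [cup, a_cj S hγ hx, z_cj p.1.2 c1 hγ hy]
      linear_combination mx ρ x 0 1 * p.1.1 y * ch_ci (Bor.det S) hγ
    · simp only [cup, Lb.a0 hx, zero_mul]
    · simp only [Pi.add_apply, cup, a_cj S hγ hx, z_cj p.1.2 c1 hγ hy,
        z_cj p.2.2 (fun _ _ => rfl) hγ hy]
      linear_combination ch ρ γ * mx ρ x 0 1 ^ 2 * p.1.1 y * ch_ci (Bor.det S) hγ
    · simp [cup, Lb.a0 hx]
  have r2 := Lf.cnt0 hy ((LinearMap.ker δ).map i) (by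
    rintro _ ⟨p, hp, rfl⟩
    have hp' : δ p = 0 := hp
    exact ⟨p.1.2, p.2.2, Lb.loc1 hH hU hy p.1.2
      (v5 _ p.1.2 ((k1 _ (m1 p)).1 (congrArg Prod.fst hp'))),
      Lb.loc2 hH hU hy p.1.2 p.2.2 fun l hl g =>
        (k2 _ (m2 p)).1 (congrArg Prod.snd hp') l hl g trivial⟩)
  have r3 : Module.rank F (LinearMap.ker δ) = Module.rank F ((LinearMap.ker δ).map i) :=
    (Submodule.equivMapOfInjective i (Subtype.val_injective.prodMap Subtype.val_injective)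
      _).rank_eq
  have r4 := LinearMap.rank_range_add_rank_ker δ
  rw [rank_prod', r3] at r4
  have r5 := (Submodule.rank_mono r1).trans (rank_pr _ _)
  have r6 := rank_sup (FN ρ (fun _ => (1 : F)) T D) V
  have r7 : 1 ≤ Module.rank F ↥(FN ρ (fun _ => (1 : F)) T D ⊓ Sup F V) := by
    rw [Cardinal.one_le_iff_pos, rank_pos_iff_exists_ne_zero]
    refine ⟨⟨fun l g => if V l g then 1 else 0, ⟨⟨fun l hl => ?_, fun l γ hγ g => ?_,
      fun l d hd g => ?_⟩, fun l g h => if_neg fun k => h (v3 l g k)⟩, fun l g h => if_neg h⟩,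
      fun e => ?_⟩
    · funext g
      exact if_neg fun k => hl (w0 l g k)
    · simp only [w1 l γ hγ, one_mul]
    · simp only [w2 l d hd]
    · have := congrFun (congrFun (congrArg Subtype.val e) l₀) g₀
      simp [v4] at this
  obtain ⟨t, s, s0, s1, ht⟩ := Bor.dia S
  have tB : t ∈ GB ρ := by
    change (ρ t).1 1 0 = 0
    rw [ht]; rfl
  have ch1 : ch ρ t ≠ 1 := by
    change (ρ t).1 0 0 ^ 2 ≠ 1
    rw [ht]; exact s1
  have ci1 : ci ρ t ≠ 1 := fun e => ch1 (by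
    have := ch_ci (Bor.det S) tB
    rwa [e, mul_one] at this)
  have q1 := (hC F (GB ρ) (fun _ => 1) T D (Lb.opB hy) rfl (fun _ _ _ _ => (mul_one _).symm)
    ⟨⊤, isOpen_univ, fun _ _ => rfl⟩ hy.h0 hy.h2 hy.dec fun _ _ _ _ _ _ _ => rfl).1
  have u1 : ∀ g, ρ g = 1 → ch ρ g = 1 ∧ ci ρ g = 1 := fun g hg => by
    simp [ch, ci, RecP.mx1 hg]
  have q2 := (hC F (GB ρ) (ch ρ) T D (Lb.opB hy) (u1 1 (map_one ρ)).1
    (fun g _ h hh => by rw [ch, ch, ch, ← mul_pow]; exact congrArg (· ^ 2) (Bor.e00 hh))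
    ⟨ρ.ker, hy.opn, fun σ h => (u1 σ h).1⟩ hy.h0 hy.h2 hy.dec
    fun l hl P hP g _ hg => (u1 g (hy.unr l hl P hP g hg)).1).2 ⟨t, tB, ch1⟩
  have q3 := (hC F (GB ρ) (ci ρ) T D (Lb.opB hy) (u1 1 (map_one ρ)).2
    (fun g hg h _ => by rw [ci, ci, ci, ← mul_pow]; exact congrArg (· ^ 2) (Bor.e11 hg))
    ⟨ρ.ker, hy.opn, fun σ h => (u1 σ h).2⟩ hy.h0 hy.h2 hy.dec
    fun l hl P hP g _ hg => (u1 g (hy.unr l hl P hP g hg)).2).2 ⟨t, tB, ci1⟩
  have q4 := fxb (Bor.det S) T D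
  have f : Module.rank F (FN ρ (fun _ => (1 : F)) T D) + Module.rank F (FN ρ (ch ρ) T D) <
      Cardinal.aleph0 := Cardinal.add_lt_aleph0
    ((Submodule.rank_mono inf_le_left).trans_lt (ft_fin _ T D (Lb.opB hy)))
    ((Submodule.rank_mono inf_le_left).trans_lt (ft_fin _ T D (Lb.opB hy)))
  refine (Cardinal.add_le_add_iff_of_lt_aleph0 f).1 ?_
  change Module.rank F B + Module.rank F (Zt (ch ρ) T (GB ρ)) + _ ≤ _ at r2
  change _ ≤ Module.rank F B at q1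
  change _ ≤ Module.rank F A at q3
  calc _ = (Module.rank F (Fx ρ T D (GB ρ)) + Module.rank F (FN ρ (fun _ => 1) T D) +
        Module.rank F (FN ρ (ch ρ) T D)) + 3 := by ring
    _ ≤ _ := add_le_add q4 le_rfl
    _ = Module.rank F (Ft (fun _ => (1 : F)) T D (GB ρ)) +
        (Module.rank F (Ft (ch ρ) T D (GB ρ)) + 1) + ((Module.rank F (Ft (ci ρ) T D (GB ρ)) + 1) +
        Module.rank F (Ft (fun _ => (1 : F)) T D (GB ρ))) + 1 := by ring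
    _ ≤ Module.rank F B + Module.rank F (Zt (ch ρ) T (GB ρ)) +
        (Module.rank F A + Module.rank F B) + 1 :=
      add_le_add (add_le_add (add_le_add q1 q2) (add_le_add q3 q1)) le_rfl
    _ = (Module.rank F B + Module.rank F (Zt (ch ρ) T (GB ρ)) +
        Module.rank F ((LinearMap.ker δ).map i)) + (Module.rank F (LinearMap.range δ) + 1) := by
      rw [← r4]; ring
    _ ≤ _ := add_le_add r2 ((add_le_add r5 r7).trans ((le_of_eq (by ring)).trans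
      (add_le_add r6 le_rfl)))

end Vale.Agent.P022E.GW.H28
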