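import Vale.Agent.P022E.GW.Gys

/-!
# P022, block GW: the classes of degree two of a local group form a line
-/

set_option linter.all false

noncomputable section

namespace Vale.Agent.P022E.GW

namespace Gy

open Vale.Agent.P022D.L2c Vale.Agent.P022D.L2c.PolP

variable {F : Type} [Field F] {X : Type} [Group X] [TopologicalSpace X]

/-- corestriction after restriction -/
theorem cor_res [IsTopologicalGroup X] [CharP F 2] {e : X → ZMod 2} (he : e ∈ Hm (ZMod 2) X)
    (s : X) {y : X → X → F} (hy : IsZ2 y) : cor e s y ∈ Cob F X := by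
  have two : (2 : F) = 0 := CharTwo.two_eq_zero
  let u : ZMod 2 → X → F := fun r g => y g (rep s (r + e g)) - y (rep s r) (tau e s r g)
  refine ⟨fun g => ∑ r, u r g, lc_sum _ fun r => ?_, fun g h => ?_⟩
  · exact (hy.1.comp_continuous (f := fun g => (g, rep s (r + e g))) (continuous_id.prodMk
      (he.1.comp fun c => rep s (r + c)).continuous)).sub (hy.1.comp_continuous
      (f := fun g => (rep s r, tau e s r g)) (continuous_const.prodMk (tau_cont he r)))
  have e1 : ∀ r g, rep s r * tau e s r g = g * rep s (r + e g) := fun r g => by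
    simp only [tau, mul_assoc, mul_inv_cancel_left]
  have k : ∀ r, u r (g * h) = u r g + u (r + e g) h +
      y (tau e s r g) (tau e s (r + e g) h) - y g h := fun r => by
    have a1 := hy.2 (rep s r) (tau e s r g) (tau e s (r + e g) h)
    have a2 := hy.2 g (rep s (r + e g)) (tau e s (r + e g) h)
    have a3 := hy.2 g h (rep s (r + e g + e h))
    rw [e1] at a1 a2
    simp only [u, tau_mul he, he.2, ← add_assoc]
    linear_combination -a1 + a2 - a3
  simp only [k, Finset.sum_sub_distrib, Finset.sum_add_distrib]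
  rw [sum2 (fun r => u r h) (e g), sum2' fun _ => y g h]
  simp only [cor]
  linear_combination -(y g h) * two

theorem add_ne {a e : X → ZMod 2} (h : a ≠ e) : a + e ≠ 0 := fun k => h (funext fun g => by
  have := congrFun k g
  rwa [Pi.add_apply, Pi.zero_apply, CharTwo.add_eq_zero] at this)

theorem add_cup {K : Type} [Field K] (a b c : X → K) : cup (a + b) c = cup a c + cup b c := by
  funext x y
  simp only [cup, Pi.add_apply, add_mul]

theorem cup_comm {K : Type} [Field K] {a b : X → K} (ha : a ∈ Hm K X) (hb : b ∈ Hm K X)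
    (h : cup a b ∈ Cob K X) : cup b a ∈ Cob K X :=
  (Submodule.add_mem_iff_right _ h).1 (Sym.symm ha hb)

/-- two different characters have different orthogonals -/
theorem ex_orth (hN : NI X) {e a : X → ZMod 2} (he : e ∈ Hm (ZMod 2) X) (ha : a ∈ Hm (ZMod 2) X)
    (e0 : e ≠ 0) (a0 : a ≠ 0) (ne : a ≠ e) :
    ∃ x ∈ Hm (ZMod 2) X, cup e x ∈ Cob (ZMod 2) X ∧ cup a x ∉ Cob (ZMod 2) X := by
  by_contra n
  push Not at n
  obtain ⟨c, hc, k⟩ := (hN _ (add_mem ha he) (add_ne ne)).1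
  rw [add_cup] at k
  have k1 : cup e c ∉ Cob (ZMod 2) X := fun m => k (add_mem (n c hc m) m)
  have k2 : cup a c ∈ Cob (ZMod 2) X := by
    by_contra m
    exact k (Sym.agree hN ha hc he hc m k1)
  obtain ⟨d, hd, l⟩ := (hN a ha a0).1
  have := n _ (add_mem hc hd) ((hN e he e0).2 c hc d hd k1 fun m => l (n d hd m))
  rw [Sym.cup_add] at this
  exact l ((Submodule.add_mem_iff_right _ k2).1 this)

variable (X) in
/-- there are at least three characters of order at most two -/
def Three : Prop := ∀ e ∈ Hm (ZMod 2) X, ∃ a ∈ Hm (ZMod 2) X, a ≠ 0 ∧ a ≠ e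

theorem three_of (h : 2 < Nat.card (Hm (ZMod 2) X)) : Three X := by
  intro e he
  have : Finite (Hm (ZMod 2) X) := Nat.finite_of_card_ne_zero (by omega)
  have := Fintype.ofFinite (Hm (ZMod 2) X)
  by_contra n
  push Not at n
  obtain ⟨p, q, r, h1, h2, h3⟩ := (Fintype.two_lt_card_iff (α := Hm (ZMod 2) X)).1 (by
    rwa [← Nat.card_eq_fintype_card])
  have k : ∀ p : Hm (ZMod 2) X, p.1 = 0 ∨ p.1 = e := fun p => or_iff_not_imp_left.2 (n p.1 p.2)
  rcases k p with a | a <;> rcases k q with b | b <;> rcases k r with c | c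
  all_goals first
    | exact h1 (Subtype.ext (a.trans b.symm))
    | exact h2 (Subtype.ext (a.trans c.symm))
    | exact h3 (Subtype.ext (b.trans c.symm))

/-- a non zero symbol on the kernel of `e` with non zero corestriction -/
theorem ex_cor [IsTopologicalGroup X] (hN : NI X) (h3 : Three X) {e : X → ZMod 2}
    (he : e ∈ Hm (ZMod 2) X) {s : X} (hs : e s = 1) : ∃ z a : X → ZMod 2, IsLocallyConstant z ∧
      (∀ g k, e g = 0 → z (g * k) = z g + z k) ∧ a ∈ Hm (ZMod 2) X ∧
      cor e s (cup z a) ∉ Cob (ZMod 2) X := by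
  obtain ⟨a, ha, a0, ne⟩ := h3 e he
  obtain ⟨x, hx, ⟨z, hz, h⟩, k⟩ := ex_orth hN he ha (fun m => by
    rw [m] at hs; exact zero_ne_one hs) a0 ne
  refine ⟨z, a, hz, fun g l hg => by rw [h, cup, hg, zero_mul, add_zero], ha, fun m => ?_⟩
  have := proj he hs hz hx ha fun g l => by
    rw [h, show up (ZMod 2) (e g) = e g from congrFun (ue_zmod e) g]; rfl
  exact k (cup_comm hx ha ((Submodule.sub_mem_iff_right _ m).1 this))

theorem step [IsTopologicalGroup X] {V W : Subgroup X} (hV : NI V) (h3 : Three V) (hW : NI W)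
    {e : X → ZMod 2} (he : (fun u : V => e u) ∈ Hm (ZMod 2) V)
    (hk : ∀ g, g ∈ W ↔ g ∈ V ∧ e g = 0) {s : X} (sV : s ∈ V) (hs : e s = 1)
    {y : X → X → ZMod 2} (hy : IsZ2 (rs V y)) {a b : W → ZMod 2} (ha : a ∈ Hm (ZMod 2) W)
    (hb : b ∈ Hm (ZMod 2) W) (q : rs W y + cup a b ∈ Cob (ZMod 2) W) :
    rs W y ∈ Cob (ZMod 2) W := by
  by_contra n
  have le : W ≤ V := fun g hg => ((hk g).1 hg).1
  obtain ⟨z, c, hz, z1, hc, k⟩ := ex_cor hV h3 he (s := ⟨s, sV⟩) hs
  let φ : W.subgroupOf V →* W :=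
    { toFun := fun a => ⟨a.1.1, a.2⟩, map_one' := rfl, map_mul' := fun _ _ => rfl }
  have φc : Continuous φ := (continuous_subtype_val.comp continuous_subtype_val).subtype_mk _
  have hH : ∀ g : V, g ∈ W.subgroupOf V ↔ e g = 0 := fun g => by
    rw [Subgroup.mem_subgroupOf, hk]; exact and_iff_right g.2
  let ψ := Subgroup.inclusion le
  have z2 : (fun g => z (ψ g)) ∈ Hm (ZMod 2) W := ⟨hz.comp_continuous (inc_cont le), fun g l => by
    show z (ψ (g * l)) = z (ψ g) + z (ψ l)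
    rw [map_mul, z1 _ _ ((hk g).1 g.2).2]⟩
  have c2 := hm_comp ψ (inc_cont le) hc
  have k1 : cup (fun g => z (ψ g)) (fun g => c (ψ g)) ∉ Cob (ZMod 2) W := fun m => by
    have m1 := cob_comp φ φc m
    have m2 : rs (W.subgroupOf V) (cup z c) ∈ Cob (ZMod 2) (W.subgroupOf V) := m1
    exact k (cor_cob (σ := (⟨s, sV⟩ : V)) he hs hH m2)
  have k2 := Sym.tr q (Sym.agree hW ha hb z2 c2
    (fun m => n ((Submodule.add_mem_iff_left _ m).1 q)) k1)
  have k3 : cor (fun u : V => e u) ⟨s, sV⟩ (rs V y - (1 : ZMod 2) • cup z c) ∈ Cob (ZMod 2) V := by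
    have m1 := cob_comp φ φc k2
    have m2 : rs (W.subgroupOf V) (rs V y + cup z c) ∈ Cob (ZMod 2) (W.subgroupOf V) := m1
    have m3 : rs V y - (1 : ZMod 2) • cup z c = rs V y + cup z c := by
      funext g l
      rw [one_smul, Pi.sub_apply, Pi.sub_apply, Pi.add_apply, Pi.add_apply, CharTwo.sub_eq_add]
    rw [m3]
    exact cor_cob (σ := (⟨s, sV⟩ : V)) he hs hH m2
  rw [cor_sub, one_smul] at k3
  exact k ((Submodule.sub_mem_iff_right _ (cor_res he _ hy)).1 k3)

variable (X) in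
/-- the hypothesis on a local group -/
def Lcl : Prop := ∀ V : Subgroup X, IsOpen (V : Set X) → NI V ∧ Three V

/-- **All non zero classes agree.** -/
theorem loc1 [IsTopologicalGroup X] [CompactSpace X] (h : Lcl X) {y : X → X → ZMod 2}
    (hy : IsZ2 y) {a b : X → ZMod 2} (ha : a ∈ Hm (ZMod 2) X) (hb : b ∈ Hm (ZMod 2) X)
    (n : cup a b ∉ Cob (ZMod 2) X) :
    y ∈ Cob (ZMod 2) X ∨ y + cup a b ∈ Cob (ZMod 2) X := by
  obtain ⟨P, ho, hi, c, hc, d, hd, q⟩ := tower hy (fun V => ∃ c ∈ Hm (ZMod 2) V,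
      ∃ d ∈ Hm (ZMod 2) V, rs V y + cup c d ∈ Cob (ZMod 2) V)
    (fun V _ k => ⟨0, zero_mem _, 0, zero_mem _, by
      convert k using 1
      funext g l
      simp only [Pi.add_apply, cup, Pi.zero_apply, mul_zero, add_zero]⟩)
    fun V W e oV oW he hW ⟨s, sV, hs⟩ ⟨c, hc, d, hd, q⟩ => by
      obtain ⟨b, hb, k⟩ := gys' he hW (z2_rs V hy)
        (step (h V oV).1 (h V oV).2 (h W oW).1 he hW sV hs (z2_rs V hy) hc hd q)
      refine ⟨_, he, _, hb, ?_⟩
      convert k using 1
      funext g l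
      simp only [rs, Pi.add_apply, Pi.sub_apply, cup, ue_zmod, CharTwo.sub_eq_add]
  by_cases k : cup c d ∈ Cob (ZMod 2) P
  · exact Or.inl (odd _ X P ho hi y hy ((Submodule.add_mem_iff_left _ k).1 q))
  · refine Or.inr (odd _ X P ho hi _ (z2_add hy (z2_cup ha hb)) ?_)
    exact Sym.tr q (Sym.agree (h P ho).1 hc hd (hm_rs P ha) (hm_rs P hb) k
      fun m => n (odd _ X P ho hi _ (z2_cup ha hb) m))

/-- the classes with values in `F` form a line -/
theorem line [IsTopologicalGroup X] [CompactSpace X] [CharP F 2] [Finite F] (h : Lcl X)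
    {a b : X → ZMod 2} (ha : a ∈ Hm (ZMod 2) X) (hb : b ∈ Hm (ZMod 2) X)
    (n : cup a b ∉ Cob (ZMod 2) X) {y : X → X → F} (hy : IsZ2 y) :
    ∃ c : F, y - c • cup (ue F a) (ue F b) ∈ Cob F X := by
  obtain ⟨m, e, l, he⟩ := Sym.ex_bas (F := F)
  have key : ∀ i, ∃ c : F, (fun g k => up F (l i (y g k))) - c • cup (ue F a) (ue F b) ∈ Cob F X :=
    fun i => by
      rcases loc1 h (z2_map (l i) hy) ha hb n with k | k
      · exact ⟨0, by rw [zero_smul, sub_zero]; exact Sym.cob_up k⟩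
      · refine ⟨1, ?_⟩
        convert Sym.up_sub (F := F) k using 2
        funext g k
        simp only [one_smul, cup, ue, map_mul]
  choose c hc using key
  refine ⟨∑ i, e i * c i, ?_⟩
  convert Submodule.sum_mem _ fun i (_ : i ∈ Finset.univ) =>
    Submodule.smul_mem _ (e i) (hc i) using 1
  funext g k
  simp only [Pi.sub_apply, Pi.smul_apply, Finset.sum_apply, smul_eq_mul, mul_sub,
    Finset.sum_sub_distrib, ← he, Finset.sum_mul, mul_assoc]

theorem Lcl.top (h : Lcl X) : NI X ∧ Three X := by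
  obtain ⟨h1, h2⟩ := h ⊤ isOpen_univ
  let φ : X →* (⊤ : Subgroup X) := Subgroup.topEquiv.symm.toMonoidHom
  have φc : Continuous φ := continuous_id.subtype_mk _
  have nz : ∀ a : X → ZMod 2, a ≠ 0 → (fun g : (⊤ : Subgroup X) => a g) ≠ 0 := fun a h k =>
    h (funext fun g => congrFun k (φ g))
  refine ⟨fun a ha a0 => ?_, fun e he => ?_⟩
  · obtain ⟨⟨b, hb, k⟩, l⟩ := h1 _ (hm_rs ⊤ ha) (nz a a0)
    refine ⟨⟨_, hm_comp φ φc hb, fun m => k (cob_rs ⊤ m)⟩, fun b hb b' hb' k k' => ?_⟩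
    exact cob_comp φ φc (l _ (hm_rs ⊤ hb) _ (hm_rs ⊤ hb') (fun m => k (cob_comp φ φc m))
      fun m => k' (cob_comp φ φc m))
  · obtain ⟨a, ha, a0, ne⟩ := h2 _ (hm_rs ⊤ he)
    exact ⟨_, hm_comp φ φc ha, fun m => a0 (funext fun g => congrFun m g.1),
      fun m => ne (funext fun g => congrFun m g.1)⟩

/-- restriction to the kernel of a non zero character kills every class -/
theorem kill [IsTopologicalGroup X] [CompactSpace X] [CharP F 2] [Finite F] (h : Lcl X)
    {e : X → ZMod 2} (he : e ∈ Hm (ZMod 2) X) (e0 : e ≠ 0) {H : Subgroup X}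
    (hH : ∀ g ∈ H, e g = 0) {y : X → X → F} (hy : IsZ2 y) : rs H y ∈ Cob F H := by
  obtain ⟨b, hb, n⟩ := (h.top.1 e he e0).1
  obtain ⟨c, k⟩ := line h he hb n hy
  convert cob_rs H k using 1
  funext g l
  simp only [rs, Pi.sub_apply, Pi.smul_apply, cup, ue, hH g g.2, map_zero, zero_mul, smul_zero,
    sub_zero]

/-- **The invariant.** -/
theorem ex_inv (F : Type) [Field F] [IsTopologicalGroup X] [CompactSpace X] [CharP F 2] [Finite F]
    (h : Lcl X) : ∃ inv : (X → X → F) →ₗ[F] F, (∀ y ∈ Cob F X, inv y = 0) ∧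
      (∀ y, IsZ2 y → inv y = 0 → y ∈ Cob F X) ∧
      ∀ y : X → X → ZMod 2, IsZ2 y → y ∉ Cob (ZMod 2) X → inv (fun g k => up F (y g k)) = 1 := by
  obtain ⟨a, ha, a0, -⟩ := h.top.2 0 (zero_mem _)
  obtain ⟨b, hb, n⟩ := (h.top.1 a ha a0).1
  have e : cup (ue F a) (ue F b) = fun g k => up F (cup a b g k) := by
    funext g k
    simp only [cup, ue, map_mul]
  have n' : cup (ue F a) (ue F b) ∉ Cob F X := fun m => n (sym0 F X _ (e ▸ m))
  obtain ⟨f, f1, f2⟩ := (Cob F X).exists_le_ker_of_notMem n'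
  have f0 : ∀ y ∈ Cob F X, f y = 0 := fun y hy => f2 hy
  refine ⟨(f (cup (ue F a) (ue F b)))⁻¹ • f, fun y hy => by
    rw [LinearMap.smul_apply, f0 y hy, smul_zero], fun y hy k => ?_, fun y hy k => ?_⟩
  · obtain ⟨c, m⟩ := line h ha hb n hy
    have y0 : f y = 0 := (mul_eq_zero.1 k).resolve_left (inv_ne_zero f1)
    have := f0 _ m
    rw [map_sub, map_smul, y0, zero_sub, neg_eq_zero, smul_eq_mul] at this
    rwa [(mul_eq_zero.1 this).resolve_right f1, zero_smul, sub_zero] at m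
  · have := f0 _ (Sym.up_sub (F := F) ((loc1 h hy ha hb n).resolve_left k))
    rw [map_sub, ← e, sub_eq_zero] at this
    rw [LinearMap.smul_apply, this, smul_eq_mul, inv_mul_cancel₀ f1]

end Gy

end Vale.Agent.P022E.GW
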