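import Vale.Agent.P024.H903.Mink

/-!
# P022E, block GW: Minkowski units of an arbitrary Galois extension
-/

set_option linter.all false

namespace Vale.Agent.P022E.GW.Mk

open NumberField InfinitePlace Module Vale.Agent.P024.H903

variable {F L : Type*} [Field F] [NumberField F] [Field L] [NumberField L] [Algebra F L]

theorem uact_mul (g h : L ≃ₐ[F] L) (x : (𝓞 L)ˣ) : uact (g * h) x = uact g (uact h x) :=
  Units.ext (RingOfIntegers.ext rfl)

theorem family : ∃ u : InfinitePlace L → (𝓞 L)ˣ,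
    (∀ (g : L ≃ₐ[F] L) (w : InfinitePlace L), u (g • w) = uact g (u w)) ∧
    ∀ w w' : InfinitePlace L, w' ≠ w → Real.log (w' ((u w : 𝓞 L) : L)) < 0 := by
  classical
  choose η hη using fun w : InfinitePlace L => Units.dirichletUnitTheorem.exists_unit L w
  refine ⟨fun w => ∏ g : L ≃ₐ[F] L, uact g (η (g⁻¹ • w)), fun h w => ?_, fun w w' hw => ?_⟩
  · rw [map_prod]
    refine (Fintype.prod_equiv (Equiv.mulLeft h) _ _ fun g => ?_).symm
    rw [Equiv.coe_mulLeft, uact_mul, mul_inv_rev, mul_smul, inv_smul_smul]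
  · have e : w' (((∏ g : L ≃ₐ[F] L, uact g (η (g⁻¹ • w)) : (𝓞 L)ˣ) : 𝓞 L) : L) =
        ∏ g : L ≃ₐ[F] L, (g⁻¹ • w') ((η (g⁻¹ • w) : 𝓞 L) : L) := by
      rw [Units.coe_prod, show ∀ x : 𝓞 L, (x : L) = algebraMap (𝓞 L) L x from fun _ => rfl,
        map_prod, map_prod]
      exact Finset.prod_congr rfl fun g _ => rfl
    rw [e, Real.log_prod fun g _ => (Units.pos_at_place _ _).ne']
    exact Finset.sum_neg (fun g _ => hη _ _ fun e => hw (MulAction.injective _ e))
      Finset.univ_nonempty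

/-- **Minkowski units** with all their relations -/
theorem mink : ∃ u : InfinitePlace L → (𝓞 L)ˣ,
    (∀ (g : L ≃ₐ[F] L) (w : InfinitePlace L), ((u (g • w) : 𝓞 L) : L) = g ((u w : 𝓞 L) : L)) ∧
    (Subgroup.closure (Set.range u)).FiniteIndex ∧
    ∃ e : InfinitePlace L → ℤ, (∀ w, 0 < e w) ∧
      (∀ (g : L ≃ₐ[F] L) (w : InfinitePlace L), e (g • w) = e w) ∧
      ∀ a : InfinitePlace L → ℤ, ∏ w, u w ^ a w = 1 ↔ ∃ k : ℤ, a = k • e := by
  obtain ⟨u, hug, hul⟩ := family (F := F) (L := L)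
  obtain ⟨e, hpos, hrel⟩ := exists_rel u hul
  refine ⟨u, fun g w => by rw [hug]; rfl, finite_index u hul, e, hpos, ?_, hrel⟩
  intro g
  have h1 : ∏ w, u w ^ e (g • w) = 1 := by
    apply uact_injective g
    rw [map_prod, map_one]
    have h2 : ∏ w, uact g (u w ^ e (g • w)) = ∏ w, u (g • w) ^ e (g • w) :=
      Finset.prod_congr rfl fun w _ => by rw [map_zpow, hug]
    rw [h2, Fintype.prod_equiv (MulAction.toPerm g : Equiv.Perm (InfinitePlace L))
      (fun w => u (g • w) ^ e (g • w)) (fun w => u w ^ e w) fun w => rfl]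
    exact (hrel e).mpr ⟨1, (one_smul _ _).symm⟩
  obtain ⟨k, hk⟩ := (hrel fun w => e (g • w)).mp h1
  have hk' : ∀ w, e (g • w) = k * e w := fun w => congrFun hk w
  have hsum : ∑ w, e (g • w) = ∑ w, e w :=
    Fintype.sum_equiv (MulAction.toPerm g : Equiv.Perm (InfinitePlace L)) _ _ fun w => rfl
  have hS : 0 < ∑ w, e w := Finset.sum_pos (fun w _ => hpos w) Finset.univ_nonempty
  have hk1 : k = 1 := by
    rw [Finset.sum_congr rfl fun w _ => hk' w, ← Finset.mul_sum] at hsum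
    exact mul_right_cancel₀ hS.ne' (by rw [hsum, one_mul])
  intro w
  rw [hk', hk1, one_mul]

end Vale.Agent.P022E.GW.Mk
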