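import Vale.Agent.P022E.GW.Nil2
import Vale.Agent.P022D.L2c.Nir
import Vale.Agent.P022D.L2c.Locu2
import Vale.Agent.P022D.L2c.Locu3
import Vale.Agent.P022D.L2c.Defs2

/-! P022E, block GW: the local norm index for all open subgroups of the decomposition groups. -/

set_option linter.all false

noncomputable section

namespace Vale.Agent.P022E.GW.Nil

open NumberField
open Vale.Agent.P022 Vale.Agent.P022.C Vale.Agent.P022D Vale.Agent.P022D.L2c

section

variable {X Y : Type} [Group X] [TopologicalSpace X] [Group Y] [TopologicalSpace Y]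

theorem hm_iso (e : X ≃ₜ* Y) {a : Y → ZMod 2} (h : a ∈ Hm (ZMod 2) Y) :
    (fun x => a (e x)) ∈ Hm (ZMod 2) X :=
  ⟨h.1.comp_continuous e.continuous, fun x y => by simp only [map_mul, h.2]⟩

theorem cob_iso (e : X ≃ₜ* Y) {a b : Y → ZMod 2} :
    cup (fun x => a (e x)) (fun x => b (e x)) ∈ Cob (ZMod 2) X ↔ cup a b ∈ Cob (ZMod 2) Y :=
  ⟨fun ⟨z, h, k⟩ => ⟨fun y => z (e.symm y), h.comp_continuous e.symm.continuous, fun x y => by
      simp only [map_mul, k, cup, ContinuousMulEquiv.apply_symm_apply]⟩,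
    fun ⟨z, h, k⟩ => ⟨fun y => z (e y), h.comp_continuous e.continuous, fun x y => by
      simp only [map_mul, k, cup]⟩⟩

theorem ni_iso (e : X ≃ₜ* Y) (h : NI X) : NI Y := by
  intro a ha a0
  obtain ⟨⟨b, hb, k⟩, h2⟩ := h _ (hm_iso e ha) fun c => a0 (funext fun y => by
    simpa using congrFun c (e.symm y))
  refine ⟨⟨fun y => b (e.symm y), hm_iso e.symm hb, fun c => k ?_⟩, fun b hb b' hb' c c' => ?_⟩
  · simpa using (cob_iso e).2 c
  · exact (cob_iso e).1 (h2 _ (hm_iso e hb) _ (hm_iso e hb') (mt (cob_iso e).1 c)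
      (mt (cob_iso e).1 c'))

end

/-- `X` is the absolute Galois group of a finite extension of `ℚ_p` -/
def Loc (p : ℕ) [Fact p.Prime] (X : Type) [Group X] [TopologicalSpace X] : Prop :=
  ∃ V : Subgroup Gal(PadicAlgCl p / ℚ_[p]), IsOpen (V : Set Gal(PadicAlgCl p / ℚ_[p])) ∧
    Nonempty (V ≃ₜ* X)

variable {p : ℕ} [hp : Fact p.Prime] {X : Type} [Group X] [TopologicalSpace X]

theorem Loc.sub (h : Loc p X) (H : Subgroup X) (hH : IsOpen (H : Set X)) : Loc p H := by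
  obtain ⟨V, hV, ⟨e⟩⟩ := h
  let H' : Subgroup V := H.comap e.toMulEquiv.toMonoidHom
  refine ⟨H'.map V.subtype, hV.isOpenMap_subtype_val _ (hH.preimage e.continuous), ⟨?_⟩⟩
  have m : ∀ x : H'.map V.subtype, x.1 ∈ V := fun x => Subgroup.map_subtype_le H' x.2
  have k : ∀ x : H'.map V.subtype, e ⟨x.1, m x⟩ ∈ H := by
    rintro ⟨_, y, hy, rfl⟩
    exact hy
  exact
    { toFun := fun x => ⟨e ⟨x.1, m x⟩, k x⟩
      invFun := fun y => ⟨(e.symm y).1, e.symm y, by
        show e (e.symm y) ∈ H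
        rw [e.apply_symm_apply]; exact y.2, rfl⟩
      left_inv := fun x => Subtype.ext
        (congrArg (fun v : V => v.1) (e.symm_apply_apply ⟨x.1, m x⟩))
      right_inv := fun y => Subtype.ext (e.apply_symm_apply y)
      map_mul' := fun x y => Subtype.ext (map_mul e ⟨x.1, m x⟩ ⟨y.1, m y⟩)
      continuous_toFun :=
        (e.continuous.comp (continuous_subtype_val.subtype_mk _)).subtype_mk _
      continuous_invFun :=
        (continuous_subtype_val.comp (e.symm.continuous.comp continuous_subtype_val)).subtype_mk _ }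

theorem rk2 : RANK G2 := (kum (locu (locu1 herb6) locu2 (locu3 herb6))).1

theorem Loc.four (h2 : p ≠ 2) (h : Loc p X) : Nat.card (Hm (ZMod 2) X) = 4 := by
  obtain ⟨V, hV, ⟨e⟩⟩ := h
  rw [← Nir.card_eq e, Nil.four p h2 V hV]

theorem Loc.le (h : Loc p X) : 4 ≤ Nat.card (Hm (ZMod 2) X) := by
  by_cases h2 : p = 2
  · subst h2
    obtain ⟨V, hV, ⟨e⟩⟩ := h
    rw [← Nir.card_eq e, rk2.2 V hV]
    exact Nat.pow_le_pow_right (n := 2) (i := 2) two_pos (Nat.le_add_left _ _)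
  · exact (h.four h2).ge

theorem Loc.ni [IsTopologicalGroup X] (h : Loc p X) : NI X := by
  by_cases h2 : p = 2
  · subst h2
    obtain ⟨V, hV, ⟨e⟩⟩ := h
    exact ni_iso e ((nir G2 rk2).2 V hV)
  · exact Nir.ni 0 (h.four h2) fun H o _ => (h.sub H o).four h2

theorem loc {l : ℕ} [Fact l.Prime] {P : Ideal (𝓞 Qb)} (hP : P.IsPrime) (h : (l : 𝓞 Qb) ∈ P)
    (U : Subgroup GQ) (hU : IsOpen (U : Set GQ)) : Loc l (U ⊓ W.dec P : Subgroup GQ) :=
  ex_iso l hP h U hU

/-- **the local norm index** -/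
theorem ni {l : ℕ} (hl : l.Prime) {P : Ideal (𝓞 Qb)} (hP : P.IsPrime) (h : (l : 𝓞 Qb) ∈ P)
    (U : Subgroup GQ) (hU : IsOpen (U : Set GQ)) : NI (U ⊓ W.dec P : Subgroup GQ) :=
  haveI := Fact.mk hl
  (loc hP h U hU).ni

/-- the same for all open subgroups, with the number of characters -/
theorem ni_sub {l : ℕ} (hl : l.Prime) {P : Ideal (𝓞 Qb)} (hP : P.IsPrime) (h : (l : 𝓞 Qb) ∈ P)
    (U : Subgroup GQ) (hU : IsOpen (U : Set GQ)) (V : Subgroup (U ⊓ W.dec P : Subgroup GQ))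
    (hV : IsOpen (V : Set (U ⊓ W.dec P : Subgroup GQ))) :
    NI V ∧ 4 ≤ Nat.card (Hm (ZMod 2) V) :=
  haveI := Fact.mk hl
  ⟨((loc hP h U hU).sub V hV).ni, ((loc hP h U hU).sub V hV).le⟩

theorem card4 {l : ℕ} (hl : l.Prime) (h2 : l ≠ 2) {P : Ideal (𝓞 Qb)} (hP : P.IsPrime)
    (h : (l : 𝓞 Qb) ∈ P) (U : Subgroup GQ) (hU : IsOpen (U : Set GQ)) :
    Nat.card (Hm (ZMod 2) (U ⊓ W.dec P : Subgroup GQ)) = 4 :=
  haveI := Fact.mk hl
  (loc hP h U hU).four h2

end Vale.Agent.P022E.GW.Nil
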