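import Vale.Agent.P022D.Loc2.Dec
import Vale.Agent.P022D.W.Tame
import Vale.Agent.P027M.F.Tra

/-! P022E, block GW: the local Galois group is the decomposition group. -/

set_option linter.all false

noncomputable section

namespace Vale.Agent.P022E.GW.Nil

open NumberField Polynomial
open Vale.Agent.P022 Vale.Agent.P022.C Vale.Agent.P022D
open Vale.Agent.P022D.Loc2
open scoped Pointwise

variable (p : ℕ) [hp : Fact p.Prime]

theorem iso (σ : Gal(PadicAlgCl p / ℚ_[p])) (x : PadicAlgCl p) : ‖σ x‖ = ‖x‖ :=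
  (spectralNorm_eq_of_equiv σ x).symm

theorem dense (x : PadicAlgCl p) {δ : ℝ} (hδ : 0 < δ) : ∃ y, ‖x - io p y‖ < δ := by
  have hx : IsIntegral ℚ_[p] x := Algebra.IsIntegral.isIntegral x
  set f := minpoly ℚ_[p] x with hf
  have fm : f.Monic := minpoly.monic hx
  have n0 : 0 < f.natDegree := minpoly.natDegree_pos hx
  have m0 : 0 < max ‖x‖ 1 := by positivity
  have hε : 0 < (δ / max ‖x‖ 1) ^ f.natDegree / (f.natDegree + 1) := by positivity
  have hd : DenseRange (algebraMap ℚ ℚ_[p]) := Padic.denseRange_ratCast p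
  obtain ⟨g, gm, gd, gc⟩ :=
    exists_monic_and_natDegree_eq_and_norm_map_algebraMap_coeff_sub_lt hd fm hε
  obtain ⟨b, hb, hab⟩ := exists_aroots_norm_sub_lt_of_norm_coeff_sub_lt hε (minpoly.aeval ℚ_[p] x)
    fm (gm.map _) (gd ▸ (g.natDegree_map _)) gc (IsAlgClosed.splits _)
  have e : ((f.natDegree + 1) * ((δ / max ‖x‖ 1) ^ f.natDegree / (f.natDegree + 1))) ^
      (f.natDegree : ℝ)⁻¹ * max ‖x‖ 1 = δ := by
    rw [mul_div_cancel₀ _ (by positivity), Real.pow_rpow_inv_natCast (by positivity) n0.ne',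
      div_mul_cancel₀ _ m0.ne']
  rw [e] at hab
  have h1 : (g.map (algebraMap ℚ ℚ_[p])).map (algebraMap ℚ_[p] (PadicAlgCl p)) =
      (g.map (algebraMap ℚ (AlgebraicClosure ℚ))).map (io p).toRingHom := by
    rw [Polynomial.map_map, Polynomial.map_map]
    congr 1
    exact RingHom.ext_rat _ _
  rw [aroots_def, h1, (IsAlgClosed.splits _).roots_map, Multiset.mem_map] at hb
  obtain ⟨y, -, rfl⟩ := hb
  exact ⟨y, hab⟩

theorem jj_inj : Function.Injective (jj p) := by
  rw [injective_iff_map_eq_one]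
  intro σ hσ
  refine AlgEquiv.ext fun x => ?_
  by_contra hne
  have h0 : 0 < ‖σ x - x‖ := norm_pos_iff.2 (sub_ne_zero.2 hne)
  obtain ⟨y, hy⟩ := dense p x h0
  have h1 : σ (io p y) = io p y := by rw [← io_jj, hσ]; rfl
  have h2 : σ x - x = σ (x - io p y) + -(x - io p y) := by rw [map_sub, h1]; ring
  have h3 := IsUltrametricDist.norm_add_le_max (σ (x - io p y)) (-(x - io p y))
  rw [← h2, iso, norm_neg, max_self] at h3
  exact absurd hy (not_lt.2 h3)

/-- a continuous injective map of the local group onto the decomposition group -/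
theorem ex_j {P : Ideal (𝓞 Qb)} (hP : P.IsPrime) (h : (p : 𝓞 Qb) ∈ P) :
    ∃ j : Gal(PadicAlgCl p / ℚ_[p]) →* GQ, Continuous j ∧ Function.Injective j ∧
      j.range = W.dec P := by
  obtain ⟨t, rfl⟩ := P027M.F.Tra.trans hp.out (PP_prime p) hP (p_mem_PP p) h
  refine ⟨(MulAut.conj t).toMonoidHom.comp (jj p), ?_, (MulAut.conj t).injective.comp (jj_inj p),
    ?_⟩
  · exact (continuous_const.mul (jj_cont p)).mul continuous_const
  · ext g
    constructor
    · rintro ⟨σ, rfl⟩ x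
      have := (range_jj p (jj p σ)).2 ⟨σ, rfl⟩ (t⁻¹ • x)
      rw [Ideal.mem_pointwise_smul_iff_inv_smul_mem, Ideal.mem_pointwise_smul_iff_inv_smul_mem,
        ← this, ← mul_smul, ← mul_smul]
      show (t⁻¹ * (t * jj p σ * t⁻¹)) • x ∈ _ ↔ _
      rw [show t⁻¹ * (t * jj p σ * t⁻¹) = jj p σ * t⁻¹ by group]
    · intro hg
      obtain ⟨σ, hσ⟩ := (range_jj p (t⁻¹ * g * t)).1 fun x => by
        rw [mul_smul, mul_smul, ← Ideal.mem_pointwise_smul_iff_inv_smul_mem, hg,
          Ideal.mem_pointwise_smul_iff_inv_smul_mem, inv_smul_smul]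
      refine ⟨σ, ?_⟩
      show t * jj p σ * t⁻¹ = g
      rw [hσ]; group

/-- an open subgroup of the decomposition group is an open subgroup of the local group -/
theorem ex_iso {P : Ideal (𝓞 Qb)} (hP : P.IsPrime) (h : (p : 𝓞 Qb) ∈ P) (U : Subgroup GQ)
    (hU : IsOpen (U : Set GQ)) : ∃ V : Subgroup Gal(PadicAlgCl p / ℚ_[p]),
      IsOpen (V : Set Gal(PadicAlgCl p / ℚ_[p])) ∧
        Nonempty (V ≃ₜ* (U ⊓ W.dec P : Subgroup GQ)) := by
  obtain ⟨j, jc, ji, jr⟩ := ex_j p hP h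
  have hV : IsOpen ((U.comap j : Subgroup _) : Set Gal(PadicAlgCl p / ℚ_[p])) := hU.preimage jc
  refine ⟨U.comap j, hV, ?_⟩
  let f : U.comap j →* (U ⊓ W.dec P : Subgroup GQ) :=
    (j.comp (U.comap j).subtype).codRestrict _ fun v => ⟨v.2, jr ▸ ⟨v.1, rfl⟩⟩
  have fb : Function.Bijective f := ⟨fun a b e => Subtype.ext (ji (congrArg Subtype.val e)),
    fun ⟨g, g1, g2⟩ => by
      obtain ⟨σ, rfl⟩ : g ∈ j.range := jr ▸ g2
      exact ⟨⟨σ, g1⟩, rfl⟩⟩
  have fc : Continuous f := (jc.comp continuous_subtype_val).subtype_mk _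
  have : CompactSpace (U.comap j) :=
    isCompact_iff_compactSpace.1 ((U.comap j).isClosed_of_isOpen hV).isCompact
  let e := (fc.homeoOfEquivCompactToT2 (f := Equiv.ofBijective f fb))
  exact ⟨{ MulEquiv.ofBijective f fb with
    continuous_toFun := fc
    continuous_invFun := e.symm.continuous }⟩

end Vale.Agent.P022E.GW.Nil
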