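import Vale.Agent.P022E.GW.Nil1
import Vale.Agent.P022D.L2c.Kum
import Vale.Agent.P022D.L2c.Locu1
import Vale.Agent.P022D.L2c.Herb6

/-! P022E, block GW: four quadratic characters at an odd prime. -/

set_option linter.all false

noncomputable section

namespace Vale.Agent.P022E.GW.Nil

open Module IntermediateField
open Vale.Agent.P022D Vale.Agent.P022D.L2c
open Vale.Agent.P022D.L2c.L1 (vl vl_add vl_neg vl_zero vl_inj vl_ne vl_zsmul mk vl_mk mem_tor kill)

section nrm

variable {K : Type} [NormedField K] [IsUltrametricDist K] [CharZero K]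

theorem n1 {u : K} (h : ‖u - 1‖ < 1) : ‖u‖ = 1 := by
  have := IsUltrametricDist.norm_add_eq_max_of_norm_ne_norm (x := u - 1) (y := 1)
    (by rw [norm_one]; exact h.ne)
  rwa [sub_add_cancel, norm_one, max_eq_right h.le] at this

theorem nm {u v : K} (h : ‖u - 1‖ < 1) (k : ‖v - 1‖ < 1) : ‖u * v - 1‖ < 1 := by
  rw [show u * v - 1 = u * (v - 1) + (u - 1) by ring]
  refine (IsUltrametricDist.norm_add_le_max _ _).trans_lt (max_lt ?_ h)
  rwa [norm_mul, n1 h, one_mul]

theorem nv {u : K} (h : ‖u - 1‖ < 1) : ‖u⁻¹ - 1‖ < 1 := by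
  have u0 : u ≠ 0 := fun e => by simpa [e] using n1 h
  rw [show u⁻¹ - 1 = -(u⁻¹ * (u - 1)) by field_simp; ring, norm_neg, norm_mul, norm_inv, n1 h]
  simpa using h

/-- the subgroup generated by `π` and the principal units -/
def SS (π : K) (h0 : π ≠ 0) : AddSubgroup (Additive Kˣ) where
  carrier := {a | ∃ n : ℤ, ∃ u, ‖u - 1‖ < 1 ∧ vl a = π ^ n * u}
  zero_mem' := ⟨0, 1, by simp, by simp [vl_zero]⟩
  add_mem' := by
    rintro a b ⟨n, u, hu, e⟩ ⟨n', u', hu', e'⟩
    exact ⟨n + n', u * u', nm hu hu', by rw [vl_add, e, e', zpow_add₀ h0]; ring⟩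
  neg_mem' := by
    rintro a ⟨n, u, hu, e⟩
    exact ⟨-n, u⁻¹, nv hu, by rw [vl_neg, e, mul_inv, zpow_neg]⟩

theorem uq {π : K} (h0 : π ≠ 0) (h1 : ‖π‖ < 1) {n n' : ℤ} {u u' : K} (hu : ‖u - 1‖ < 1)
    (hu' : ‖u' - 1‖ < 1) (e : π ^ n * u = π ^ n' * u') : n = n' := by
  have := congrArg norm e
  rw [norm_mul, norm_mul, n1 hu, n1 hu', mul_one, mul_one, norm_zpow, norm_zpow] at this
  exact zpow_right_injective₀ (norm_pos_iff.2 h0) h1.ne this

theorem idx [ProperSpace K] {π : K} (h0 : π ≠ 0) (h1 : ‖π‖ < 1) : (SS π h0).relIndex ⊤ ≠ 0 := by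
  classical
  rw [AddSubgroup.relIndex_top_right]
  have p0 := norm_pos_iff.2 h0
  have hc : IsCompact {x : K | ‖π‖ ≤ ‖x‖ ∧ ‖x‖ ≤ 1} :=
    (isCompact_closedBall (0 : K) 1).of_isClosed_subset
      ((isClosed_le continuous_const continuous_norm).inter
        (isClosed_le continuous_norm continuous_const)) fun x hx => by simpa using hx.2
  obtain ⟨T, hT, fT, cT⟩ := hc.finite_cover_balls p0
  have : Finite T := fT
  have : Finite (Additive Kˣ ⧸ SS π h0) := by
    refine Finite.of_surjective (fun y : T => (QuotientAddGroup.mk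
      (mk y.1 (norm_pos_iff.1 (p0.trans_le (hT y.2).1))) : _ ⧸ SS π h0)) fun q => ?_
    obtain ⟨a, rfl⟩ := QuotientAddGroup.mk_surjective q
    have a0 := norm_pos_iff.2 (vl_ne a)
    obtain ⟨n, hn⟩ := exists_mem_Ioc_zpow a0 ((one_lt_inv₀ p0).2 h1)
    have q0 : 0 < ‖π‖ ^ (n + 1) := zpow_pos p0 _
    have hm : π ^ (n + 1) * vl a ∈ {x : K | ‖π‖ ≤ ‖x‖ ∧ ‖x‖ ≤ 1} := by
      obtain ⟨l, r⟩ := hn
      rw [inv_zpow] at l r
      simp only [Set.mem_setOf_eq, norm_mul, norm_zpow]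
      refine ⟨?_, (mul_le_mul_of_nonneg_left r q0.le).trans_eq (mul_inv_cancel₀ q0.ne')⟩
      refine le_trans (le_of_eq ?_) (mul_le_mul_of_nonneg_left l.le q0.le)
      rw [zpow_add_one₀ p0.ne', mul_right_comm, mul_inv_cancel₀ (zpow_pos p0 _).ne', one_mul]
    obtain ⟨y, hy, hb⟩ := Set.mem_iUnion₂.1 (cT hm)
    have y1 := p0.trans_le (hT hy).1
    have y0 := norm_pos_iff.1 y1
    refine ⟨⟨y, hy⟩, QuotientAddGroup.eq.2 ⟨-(n + 1), π ^ (n + 1) * vl a / y, ?_, ?_⟩⟩
    · rw [div_sub_one y0, norm_div, div_lt_one y1]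
      exact (mem_ball_iff_norm.1 hb).trans_le (hT hy).1
    · rw [vl_add, vl_neg, vl_mk, zpow_neg]
      have := zpow_ne_zero (n + 1) h0
      field_simp
  exact AddSubgroup.index_ne_zero_of_finite

theorem cnt [ProperSpace K] {π : K} (h0 : π ≠ 0) (h1 : ‖π‖ < 1) (h2 : ‖(2 : K)‖ = 1)
    (sq : ∀ u : K, ‖u - 1‖ < 1 → ∃ v, ‖v - 1‖ < 1 ∧ u = v * v) :
    Module.Finite (ZMod 2) (Kum.Yk K →+ ZMod 2) ∧ finrank (ZMod 2) (Kum.Yk K →+ ZMod 2) = 2 := by
  classical
  let pi : SS π h0 := ⟨mk π h0, 1, 1, by simp, by simp [vl_mk]⟩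
  let Ph : (SS π h0 →+ ZMod 2) →ₗ[ZMod 2] ZMod 2 :=
    { toFun := fun l => l pi
      map_add' := fun _ _ => rfl
      map_smul' := fun _ _ => rfl }
  have i1 : Function.Injective Ph := by
    rw [injective_iff_map_eq_zero]
    intro l (hl : l pi = 0)
    ext a
    obtain ⟨n, u, hu, e⟩ := a.2
    obtain ⟨v, hv, rfl⟩ := sq u hu
    have v0 : v ≠ 0 := fun e => by simpa [e] using n1 hv
    let b : SS π h0 := ⟨mk v v0, 0, v, hv, by simp [vl_mk]⟩
    have : a = n • pi + (b + b) := Subtype.ext (vl_inj (by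
      show _ = vl (n • mk π h0) * (v * v)
      rw [e, vl_zsmul, vl_mk]))
    rw [this, map_add, map_zsmul, hl, kill]
    simp
  have i2 : Function.Surjective Ph := by
    intro c
    choose n u hu e using fun a : SS π h0 => a.2
    refine ⟨AddMonoidHom.mk' (fun a => n a • c) fun a b => ?_, ?_⟩
    · have k : n (a + b) = n a + n b := uq h0 h1 (hu (a + b)) (nm (hu a) (hu b)) (by
        rw [← e, zpow_add₀ h0]
        show vl a.1 * vl b.1 = _
        rw [e, e]; ring)
      rw [← add_smul, k]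
    · show n pi • c = c
      have k : n pi = 1 := uq h0 h1 (hu pi) (u' := 1) (by simp) (by rw [← e]; simp [pi, vl_mk])
      rw [k, one_smul]
  let ng : (⊤ ⊓ tor (Additive Kˣ) : AddSubgroup _) :=
    ⟨mk (-1) (by norm_num), trivial, mem_tor.2 (Or.inr rfl)⟩
  have cs : ∀ a : (⊤ ⊓ tor (Additive Kˣ) : AddSubgroup _), a = 0 ∨ a = ng := fun a =>
    (mem_tor.1 a.2.2).imp (fun c => Subtype.ext (vl_inj c)) fun c => Subtype.ext (vl_inj c)
  have ng0 : ng ≠ 0 := fun c => by
    have : (-1 : K) = 1 := congrArg vl (congrArg Subtype.val c)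
    norm_num at this
  have ng2 : ng + ng = 0 := Subtype.ext (vl_inj (by show (-1 : K) * -1 = 1; ring))
  obtain ⟨f1, f2⟩ := herb6 (ZMod 2) (Additive Kˣ) (AddMonoidHom.id _) 1 odd_one (fun a => rfl) 1
    (SS π h0) ⊤ le_top (fun _ h => h) (fun _ _ => trivial) (idx h0 h1)
    (Module.Finite.of_injective _ i1)
    (Finite.of_surjective (fun b : Bool => if b then 0 else ng) fun a => by
      rcases cs a with c | c
      exacts [⟨true, c.symm⟩, ⟨false, c.symm⟩])
  have xe : ∀ S : AddSubgroup (Additive Kˣ), finrank (ZMod 2) (Xe (ZMod 2) (AddMonoidHom.id _) 1 S) =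
      finrank (ZMod 2) (S →+ ZMod 2) := fun S => by
    rw [show Xe (ZMod 2) (AddMonoidHom.id _) 1 S = ⊤ from eq_top_iff.2 fun l _ a a' e => by
      rw [one_mul, show a' = a from Subtype.ext e], finrank_top]
  rw [xe, xe, xe, xe] at f2
  have e0 : finrank (ZMod 2) ((SS π h0 ⊓ tor (Additive Kˣ) : AddSubgroup _) →+ ZMod 2) = 0 := by
    have z : ∀ a : (SS π h0 ⊓ tor (Additive Kˣ) : AddSubgroup _), a = 0 := by
      rintro ⟨a, ⟨n, u, hu, e⟩, ha⟩
      rcases mem_tor.1 ha with c | c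
      · exact Subtype.ext (vl_inj c)
      · rw [c] at e
        have k : n + n = 0 := uq h0 h1 (nm hu hu) (u' := 1) (by simp) (by
          rw [zpow_add₀ h0, zpow_zero]
          linear_combination (1 - π ^ n * u) * e)
        obtain rfl : n = 0 := by omega
        rw [zpow_zero, one_mul] at e
        rw [← e, show (-1 : K) - 1 = -2 by ring, norm_neg, h2] at hu
        exact absurd hu (lt_irrefl _)
    have : Subsingleton ((SS π h0 ⊓ tor (Additive Kˣ) : AddSubgroup _) →+ ZMod 2) :=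
      ⟨fun a b => by ext c; rw [z c, map_zero, map_zero]⟩
    exact Module.finrank_zero_of_subsingleton
  have e1 : finrank (ZMod 2) ((⊤ ⊓ tor (Additive Kˣ) : AddSubgroup _) →+ ZMod 2) = 1 := by
    let L : ((⊤ ⊓ tor (Additive Kˣ) : AddSubgroup _) →+ ZMod 2) →ₗ[ZMod 2] ZMod 2 :=
      { toFun := fun l => l ng
        map_add' := fun _ _ => rfl
        map_smul' := fun _ _ => rfl }
    rw [(LinearEquiv.ofBijective L ⟨fun a b e => ?_, fun c => ?_⟩).finrank_eq, finrank_self]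
    · ext s
      rcases cs s with rfl | rfl
      · rw [map_zero, map_zero]
      · exact e
    · refine ⟨AddMonoidHom.mk' (fun a => if a = 0 then 0 else c) fun a b => ?_, if_neg ng0⟩
      rcases cs a with rfl | rfl <;> rcases cs b with rfl | rfl <;>
        simp [ng0, ng2, CharTwo.add_self_eq_zero]
  rw [e0, e1, (LinearEquiv.ofBijective Ph ⟨i1, i2⟩).finrank_eq, finrank_self] at f2
  exact ⟨f1, f2⟩

end nrm

variable (p : ℕ) [hp : Fact p.Prime]

/-- four characters -/
theorem four (h2 : p ≠ 2) (H : Subgroup Gal(PadicAlgCl p / ℚ_[p]))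
    (hH : IsOpen (H : Set Gal(PadicAlgCl p / ℚ_[p]))) : Nat.card (Hm (ZMod 2) H) = 4 := by
  have fix : (fixedField H).fixingSubgroup = H :=
    InfiniteGalois.fixingSubgroup_fixedField ⟨H, H.isClosed_of_isOpen hH⟩
  have fd : FiniteDimensional ℚ_[p] (fixedField H) :=
    (InfiniteGalois.isOpen_iff_finite _).1 (by rw [fix]; exact hH)
  have t2 : ‖(2 : PadicAlgCl p)‖ = 1 := by
    have h := PadicAlgCl.norm_extends p ((2 : ℕ) : ℚ_[p])
    rw [map_natCast, Padic.norm_natCast_eq_one_iff.2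
      ((Nat.coprime_primes hp.out Nat.prime_two).2 h2)] at h
    exact_mod_cast h
  let K := fixedField H
  letI : NormedField K := inferInstance
  have nk : ∀ x : K, ‖x‖ = ‖(x : PadicAlgCl p)‖ := fun _ => rfl
  letI : NormedSpace ℚ_[p] K := ⟨fun c x => norm_smul_le c (x : PadicAlgCl p)⟩
  have : IsUltrametricDist K := IsUltrametricDist.isUltrametricDist_of_forall_norm_add_le_max_norm
    fun x y => IsUltrametricDist.norm_add_le_max (x : PadicAlgCl p) y
  have : ProperSpace K := FiniteDimensional.proper ℚ_[p] K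
  have pn : ((p : K) : PadicAlgCl p) = p := map_natCast K.val p
  obtain ⟨h3, h4⟩ := cnt (K := K) (π := (p : K)) (by exact_mod_cast hp.out.ne_zero)
    (by rw [nk, pn, Loc2.norm_p]; exact inv_lt_one_of_one_lt₀ (by exact_mod_cast hp.out.one_lt))
    ((nk 2).trans t2) (by
      intro u hu
      have hu' : ‖(u : PadicAlgCl p) - 1‖ < 1 := hu
      have ex : ∃ s : PadicAlgCl p, ‖s - 1‖ < 1 ∧ u = s * s := by
        obtain ⟨s, hs⟩ := IsAlgClosed.exists_eq_mul_self (u : PadicAlgCl p)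
        by_contra hc
        have a1 : 1 ≤ ‖s - 1‖ := not_lt.1 fun k => hc ⟨s, k, hs⟩
        have a2 : 1 ≤ ‖-s - 1‖ := not_lt.1 fun k => hc ⟨-s, k, by rw [hs]; ring⟩
        rw [hs, show s * s - 1 = -((s - 1) * (-s - 1)) by ring, norm_neg, norm_mul] at hu'
        exact absurd hu' (not_lt.2 (one_le_mul_of_one_le_of_one_le a1 a2))
      obtain ⟨s, s1, s2⟩ := ex
      have sK : s ∈ K := (mem_fixedField_iff H _).2 fun g hg => by
        have e : g s * g s = s * s := by
          rw [← map_mul, ← s2]; exact (mem_fixedField_iff H _).1 u.2 g hg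
        rcases mul_self_eq_mul_self_iff.1 e with k | k
        · exact k
        · have b1 : ‖-s - 1‖ < 1 := by rw [← k, ← map_one g, ← map_sub, iso]; exact s1
          have b2 := IsUltrametricDist.norm_add_le_max (s - 1) (-s - 1)
          rw [show s - 1 + (-s - 1) = -2 by ring, norm_neg, t2] at b2
          exact absurd (max_lt s1 b1) (not_lt.2 b2)
      exact ⟨⟨s, sK⟩, s1, Subtype.ext s2⟩)
  obtain ⟨ka, k1, k2, -⟩ := Kum.kummer H hH
  obtain ⟨h5, Φ, -⟩ := Kum.dual (ZMod 2) ka k1 k2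
  rw [← Φ.finrank_eq, Subspace.dual_finrank_eq] at h4
  rw [Module.natCard_eq_pow_finrank (K := ZMod 2), h4, Nat.card_zmod]
  rfl

end Vale.Agent.P022E.GW.Nil
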