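import Vale.Agent.P022D.L2c.Sym
import Vale.Agent.P022D.L2.Ar

/-!
# P022, block GW: a cup product of quadratic characters dies if and only if a norm equation holds
-/

set_option linter.all false

noncomputable section

namespace Vale.Agent.P022E.GW.Nrm

open Vale.Agent.P022D.L2c (Hm Cob cup)
open Vale.Agent.P022D.L2.Ar (sg sg_add sg_sq sg_inj map_sg pm sg0 sg1 z2 lc)

variable {k L : Type} [Field k] [Field L] [Algebra k L] [CharZero L] [IsGalois k L]
  {D : Subgroup Gal(L / k)}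

theorem lcD (s : L) : IsLocallyConstant fun g : D => g.1 s :=
  (lc s).comp_continuous continuous_subtype_val

/-- the character of a square root -/
theorem hm {s : L} (hs : s ≠ 0) {a : D → ZMod 2} (h : ∀ g : D, g.1 s = sg L (a g) * s) :
    a ∈ Hm (ZMod 2) D := by
  refine ⟨IsLocallyConstant.desc a (fun c => sg L c * s) ?_ (sg_inj hs), fun x y => sg_inj hs ?_⟩
  · rw [show (fun c => sg L c * s) ∘ a = fun g : D => g.1 s from funext fun g => (h g).symm]
    exact lcD s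
  · show sg L _ * s = sg L _ * s
    rw [← h, Subgroup.coe_mul, AlgEquiv.mul_apply, h y, map_mul, map_sg, h x, sg_add]
    ring

/-- existence of the character -/
theorem ex_ch {s : L} (h : ∀ g ∈ D, g (s ^ 2) = s ^ 2) :
    ∃ a : D → ZMod 2, ∀ g : D, g.1 s = sg L (a g) * s := by
  have h1 : ∀ g : D, ∃ a, g.1 s = sg L a * s := fun g => pm (by rw [← map_pow, h g.1 g.2])
  choose a ha using h1
  exact ⟨a, ha⟩

/-- Kummer theory on a closed subgroup of `D` -/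
theorem kumS (hD : IsClosed (D : Set Gal(L / k))) (H : Subgroup D) (hH : IsClosed (H : Set D))
    {z : D → ZMod 2} (hz : IsLocallyConstant z) (ad : ∀ x ∈ H, ∀ y ∈ H, z (x * y) = z x + z y) :
    ∃ l : L, l ≠ 0 ∧ ∀ x ∈ H, x.1 l = sg L (z x) * l := by
  have z1 : z 1 = 0 := by simpa using ad 1 H.one_mem 1 H.one_mem
  let N : Subgroup D :=
    { carrier := H ∩ {x | z x = 0}
      mul_mem' := fun {x y} hx hy => ⟨H.mul_mem hx.1 hy.1, by
        have := ad x hx.1 y hy.1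
        rwa [hx.2, hy.2, add_zero] at this⟩
      one_mem' := ⟨H.one_mem, z1⟩
      inv_mem' := fun {x} hx => ⟨H.inv_mem hx.1, by
        have := ad x hx.1 x⁻¹ (H.inv_mem hx.1)
        rwa [mul_inv_cancel, z1, hx.2, zero_add, eq_comm] at this⟩ }
  have n1 : ∀ x ∈ H, x ∉ N → z x = 1 := fun x hx h => (z2 _).resolve_left fun e => h ⟨hx, e⟩
  have cl : IsClosed (N.map D.subtype : Set Gal(L / k)) :=
    hD.isClosedEmbedding_subtypeVal.isClosedMap _ (hH.inter (hz.isClosed_fiber 0))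
  obtain ⟨l, l0, h0, h1⟩ := P025H25.kummer_two (H.map D.subtype) (N.map D.subtype) cl
    (by
      rintro _ ⟨x, hx, rfl⟩ _ ⟨y, hy, rfl⟩ a b
      refine ⟨x * y, ⟨H.mul_mem hx hy, ?_⟩, rfl⟩
      show z (x * y) = 0
      rw [ad x hx y hy, n1 x hx fun e => a ⟨x, e, rfl⟩, n1 y hy fun e => b ⟨y, e, rfl⟩]
      rfl)
    (Subgroup.map_mono fun x hx => hx.1)
  refine ⟨l, l0, fun x hx => ?_⟩
  by_cases h : x ∈ N
  · rw [h0 x.1 ⟨x, h, rfl⟩, show z x = 0 from h.2, sg0, one_mul]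
  · rw [h1 x.1 ⟨x, hx, rfl⟩ (fun ⟨y, hy, e⟩ => h (Subtype.ext e ▸ hy)), n1 x hx h, sg1,
      neg_one_mul]

/-- **Kummer theory for a closed subgroup** -/
theorem h90 (hD : IsClosed (D : Set Gal(L / k))) {z : D → ZMod 2} (hz : z ∈ Hm (ZMod 2) D) :
    ∃ l : L, l ≠ 0 ∧ ∀ x : D, x.1 l = sg L (z x) * l := by
  obtain ⟨l, l0, h⟩ := kumS hD ⊤ isClosed_univ hz.1 fun x _ y _ => hz.2 x y
  exact ⟨l, l0, fun x => h x trivial⟩

/-- **a coboundary gives a norm equation** -/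
theorem norm_of_cob (hD : IsClosed (D : Set Gal(L / k))) {α β : L} (h0 : α ≠ 0) (h1 : β ≠ 0)
    {a b : D → ZMod 2} (ha : ∀ g : D, g.1 α = sg L (a g) * α)
    (hb : ∀ g : D, g.1 β = sg L (b g) * β) (h : cup a b ∈ Cob (ZMod 2) D) :
    ∃ x y : L, (∀ g ∈ D, g x = x) ∧ (∀ g ∈ D, g y = y) ∧ β ^ 2 = x ^ 2 - α ^ 2 * y ^ 2 := by
  have b2 : ∀ g ∈ D, g (β ^ 2) = β ^ 2 := fun g hg => by
    rw [map_pow, hb ⟨g, hg⟩, mul_pow, sq (sg _ _), sg_sq, one_mul]
  by_cases hτ : ∃ τ, a τ = 1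
  swap
  · have a0 : ∀ g ∈ D, g α = α := fun g hg => by
      rw [ha ⟨g, hg⟩, (z2 _).resolve_right fun e => hτ ⟨_, e⟩, sg0, one_mul]
    refine ⟨(β ^ 2 + 1) / 2, (β ^ 2 - 1) / (2 * α), fun g hg => ?_, fun g hg => ?_, ?_⟩
    · rw [map_div₀, map_add, b2 g hg, map_one, map_ofNat]
    · rw [map_div₀, map_sub, b2 g hg, map_one, map_mul, map_ofNat, a0 g hg]
    · field_simp
      ring
  obtain ⟨τ, hτ⟩ := hτ
  obtain ⟨z, hz, ad⟩ := h
  have ad : ∀ x y, z (x * y) = z x + z y + a x * b y := ad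
  have ca := hm h0 ha
  have cb := hm h1 hb
  have am := ca.2
  have bm := cb.2
  have two : ∀ u : ZMod 2, u + u = 0 := by decide
  have iv : ∀ {c : D → ZMod 2}, (∀ x y, c (x * y) = c x + c y) → ∀ x, c x⁻¹ = c x := by
    intro c cm x
    have c1 : c 1 = 0 := by simpa using cm 1 1
    have := cm x x⁻¹
    rw [mul_inv_cancel, c1] at this
    linear_combination -this - two (c x)
  have a1 : a 1 = 0 := by simpa using am 1 1
  let H : Subgroup D :=
    { carrier := {x | a x = 0}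
      mul_mem' := fun {x y} hx hy => by
        have := am x y
        rwa [hx, hy, add_zero] at this
      one_mem' := a1
      inv_mem' := fun {x} hx => (iv am x).trans hx }
  obtain ⟨l, l0, hl⟩ := kumS hD H (ca.1.isClosed_fiber 0) hz fun x hx y hy => by
    rw [ad, show a x = 0 from hx, zero_mul, add_zero]
  have hl : ∀ x, a x = 0 → x.1 l = sg L (z x) * l := hl
  have cj : ∀ x, a x = 0 → a (τ⁻¹ * (x * τ)) = 0 := fun x hx => by
    rw [am, am, iv am, hτ, hx, zero_add, two]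
  have mv : ∀ (x : D) (w : L), x.1 w = τ.1 ((τ⁻¹ * x).1 w) := fun x w => by
    rw [← AlgEquiv.mul_apply, ← Subgroup.coe_mul, mul_inv_cancel_left]
  have k1 : ∀ x, a x = 0 → x.1 (τ.1 l) = sg L (z x + b x) * τ.1 l := fun x hx => by
    have e := ad τ (τ⁻¹ * (x * τ))
    rw [mul_inv_cancel_left, ad, hx, hτ, bm, bm, iv bm] at e
    have e' : z (τ⁻¹ * (x * τ)) = z x + b x := by
      linear_combination -e - two (b τ) - two (b x)
    rw [← AlgEquiv.mul_apply, ← Subgroup.coe_mul, mv, hl _ (cj x hx), map_mul, map_sg, e']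
  have k2 : τ.1 (τ.1 l) = sg L (b τ) * l := by
    rw [← AlgEquiv.mul_apply, ← Subgroup.coe_mul, hl _ (by rw [am, hτ, two]), ad, hτ, two,
      zero_add, one_mul]
  have l1 : τ.1 l ≠ 0 := (map_ne_zero τ.1).2 l0
  have s0 : ∀ u, sg L u ≠ 0 := fun u => left_ne_zero_of_mul_eq_one (sg_sq u)
  obtain ⟨θ, hθ⟩ : ∃ θ, θ = l * τ.1 l / β := ⟨_, rfl⟩
  have θ0 : θ ≠ 0 := hθ ▸ div_ne_zero (mul_ne_zero l0 l1) h1
  have t0 : ∀ x, a x = 0 → x.1 θ = θ := fun x hx => by
    rw [hθ, map_div₀, map_mul, k1 x hx, hl x hx, hb, sg_add]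
    have := s0 (b x)
    field_simp
    linear_combination sg_sq (L := L) (z x)
  have t1 : τ.1 θ = θ := by
    rw [hθ, map_div₀, map_mul, k2, hb]
    have := s0 (b τ)
    field_simp
  have sp : ∀ {w w' : L}, (∀ x, a x = 0 → x.1 w = w) → τ.1 w = w' → ∀ x, a x = 1 → x.1 w = w' :=
    fun h e x hx => by rw [mv x, h _ (by rw [am, iv am, hτ, hx, two]), e]
  have tt : ∀ x : D, x.1 θ = θ := fun x => (z2 (a x)).elim (t0 x) (sp t0 t1 x)
  have w0 : ∀ x, a x = 0 → x.1 (l ^ 2) = l ^ 2 := fun x hx => by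
    rw [map_pow, hl x hx, mul_pow, sq (sg _ _), sg_sq, one_mul]
  have w2 : ∀ x, a x = 0 → x.1 (τ.1 l ^ 2) = τ.1 l ^ 2 := fun x hx => by
    rw [map_pow, k1 x hx, mul_pow, sq (sg _ _), sg_sq, one_mul]
  have w1 := sp w0 (map_pow τ.1 l 2)
  have w3 := sp w2 (w' := l ^ 2) (by rw [map_pow, k2, mul_pow, sq (sg _ _), sg_sq, one_mul])
  refine ⟨(l ^ 2 + τ.1 l ^ 2) / (2 * θ), (l ^ 2 - τ.1 l ^ 2) / (2 * θ * α), fun g hg => ?_,
    fun g hg => ?_, ?_⟩
  · rw [map_div₀, map_add, map_mul, map_ofNat, tt ⟨g, hg⟩]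
    rcases z2 (a ⟨g, hg⟩) with h | h
    · rw [w0 _ h, w2 _ h]
    · rw [w1 _ h, w3 _ h, add_comm]
  · rw [map_div₀, map_sub, map_mul, map_mul, map_ofNat, tt ⟨g, hg⟩, ha ⟨g, hg⟩]
    rcases z2 (a ⟨g, hg⟩) with h | h
    · rw [w0 _ h, w2 _ h, h, sg0, one_mul]
    · rw [w1 _ h, w3 _ h, h, sg1, neg_one_mul, mul_neg, div_neg, ← neg_div, neg_sub]
  · rw [hθ]
    field_simp
    ring

/-- **a norm equation gives a coboundary** -/
theorem cob_of_norm [IsAlgClosed L] {α β : L} (h0 : α ≠ 0) (h1 : β ≠ 0) {a b : D → ZMod 2}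
    (ha : ∀ g : D, g.1 α = sg L (a g) * α) (hb : ∀ g : D, g.1 β = sg L (b g) * β) {p q : L}
    (hp : ∀ g ∈ D, g p = p) (hq : ∀ g ∈ D, g q = q) (e : β ^ 2 = p ^ 2 - α ^ 2 * q ^ 2) :
    cup a b ∈ Cob (ZMod 2) D := by
  obtain ⟨y, hy⟩ := IsAlgClosed.exists_pow_nat_eq (p + q * α) two_pos
  have y0 : y ≠ 0 := fun h => pow_ne_zero 2 h1 (by
    rw [h] at hy
    linear_combination e - (p - q * α) * hy)
  let Y : ZMod 2 → L := fun t => if t = 0 then y else β / y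
  have Y0 : Y 0 = y := rfl
  have Y1 : Y 1 = β / y := rfl
  have Yn : ∀ t, Y t ≠ 0 := fun t => by
    rcases z2 t with rfl | rfl
    exacts [y0, div_ne_zero h1 y0]
  have ex : ∀ x : D, ∃ c, x.1 y = sg L c * Y (a x) := fun x => pm (by
    rw [← map_pow, hy, map_add, map_mul, hp _ x.2, hq _ x.2, ha]
    rcases z2 (a x) with h | h <;> rw [h]
    · rw [Y0, hy, sg0, one_mul]
    · rw [Y1, sg1, div_pow, hy, eq_div_iff (hy ▸ pow_ne_zero 2 y0), e]; ring)
  choose z hz using ex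
  have hY : ∀ (x : D) t, x.1 (Y t) = sg L (z x + b x * t) * Y (a x + t) := fun x t => by
    rcases z2 t with rfl | rfl
    · rw [Y0, hz, mul_zero, add_zero, add_zero]
    · have s2 := sg_sq (L := L) (z x)
      have s0 : sg L (z x) ≠ 0 := left_ne_zero_of_mul_eq_one s2
      rw [Y1, map_div₀, hz, hb, mul_one, sg_add]
      rcases z2 (a x) with h | h <;> rw [h]
      · rw [zero_add, Y0, Y1]
        field_simp
        linear_combination -sg L (b x) * s2
      · rw [show (1 + 1 : ZMod 2) = 0 from rfl, Y0, Y1]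
        field_simp
        linear_combination -sg L (b x) * s2
  have ca := hm h0 ha
  have cb := hm h1 hb
  have k : cup b a ∈ Cob (ZMod 2) D := by
    refine ⟨z, ?_, fun x w => sg_inj (Yn (a (x * w))) ?_⟩
    · refine (IsLocallyConstant.iff_eventually_eq _).2 fun x => ?_
      filter_upwards [(lcD (D := D) y).eventually_eq x, ca.1.eventually_eq x] with w h1 h2
      rw [hz, hz, h2] at h1
      exact sg_inj (Yn _) h1
    · show sg L _ * _ = sg L _ * _
      rw [← hz, Subgroup.coe_mul, AlgEquiv.mul_apply, hz w, map_mul, map_sg, hY, ca.2, cup,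
        sg_add, sg_add, sg_add]
      ring
  have := sub_mem (P022D.L2c.Sym.symm ca cb) k
  rwa [add_sub_cancel_right] at this

/-- **the dictionary** -/
theorem cob_iff [IsAlgClosed L] (hD : IsClosed (D : Set Gal(L / k))) {α β : L} (h0 : α ≠ 0)
    (h1 : β ≠ 0) {a b : D → ZMod 2} (ha : ∀ g : D, g.1 α = sg L (a g) * α)
    (hb : ∀ g : D, g.1 β = sg L (b g) * β) : cup a b ∈ Cob (ZMod 2) D ↔
    ∃ x y : L, (∀ g ∈ D, g x = x) ∧ (∀ g ∈ D, g y = y) ∧ β ^ 2 = x ^ 2 - α ^ 2 * y ^ 2 :=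
  ⟨norm_of_cob hD h0 h1 ha hb, fun ⟨_, _, hp, hq, e⟩ => cob_of_norm h0 h1 ha hb hp hq e⟩

end Vale.Agent.P022E.GW.Nrm
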