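import Vale.Agent.P022E.GW.Fxb
import Vale.Agent.P022E.GW.ObsA
import Vale.Agent.P022E.GW.Syl
import Vale.Agent.P022E.GW.Bor

/-!
# P022E, block GW: the rank of the obstruction
-/

set_option linter.all false

noncomputable section

namespace Vale.Agent.P022E.GW.Ob

open NumberField
open Vale.Agent.P022
open Vale.Agent.P027M.S (Inert mx)
open Vale.Agent.P022D.Sel (IsDec M2)
open Vale.Agent.P022D.L2c (Hm Cob IsZ2 cup)
open Vale.Agent.P022D.W (dec)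
open Vale.Agent.P022E.GW.Fb
open scoped Pointwise

variable {F : Type} [Field F]

theorem lcB {A : Type} (X V : Subgroup GQ) (hV : IsOpen (V : Set GQ)) (c : GQ → A)
    (hc : ∀ g ∈ X, ∀ u ∈ X, u ∈ V → c (g * u) = c g) : IsLocallyConstant fun x : X => c x := by
  refine (IsLocallyConstant.iff_eventually_eq _).2 fun g => ?_
  have ho : IsOpen ((fun x : X => (g.1⁻¹ * x.1 : GQ)) ⁻¹' (V : Set GQ)) :=
    hV.preimage (continuous_const.mul continuous_subtype_val)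
  filter_upwards [ho.mem_nhds (show g ∈ _ by simp [V.one_mem])] with x hx
  have h := hc g g.2 _ (X.mul_mem (X.inv_mem g.2) x.2) hx
  rwa [mul_inv_cancel_left] at h

theorem ch_of {X : Subgroup GQ} {c : GQ → F} (ha : ∀ g ∈ X, ∀ h ∈ X, c (g * h) = c g + c h)
    (ho : Op c) : Ch X c := by
  obtain ⟨U, hU, h⟩ := ho
  exact ⟨lcB X U hU c fun g hg u hu k => by rw [ha g hg u hu, h u k, add_zero],
    fun x y => ha x x.2 y y.2⟩

theorem cb_congr {V : Subgroup GQ} {z z' : GQ → GQ → F} (h : ∀ x ∈ V, ∀ y ∈ V, z x y = z' x y)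
    (hz : Cb V z) : Cb V z' := by
  have e : rs V z = rs V z' := funext fun x => funext fun y => h x x.2 y y.2
  unfold Cb at hz ⊢
  rwa [← e]

theorem cb_zero {V : Subgroup GQ} {z : GQ → GQ → F} (h : ∀ x ∈ V, ∀ y ∈ V, z x y = 0) : Cb V z :=
  cb_congr (z := 0) (fun x hx y hy => (h x hx y hy).symm) (Submodule.zero_mem _)

theorem sy_cup {H : Subgroup GQ} {a b : GQ → F} (ha : Ch H a) (hb : Ch H b) : cup a b ∈ Sy F H :=
  Submodule.subset_span ⟨a, b, ha, hb, rfl⟩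

theorem sy_z2 {H : Subgroup GQ} {z : GQ → GQ → F} (h : z ∈ Sy F H) : Z2 H z := by
  induction h using Submodule.span_induction with
  | mem z hz => obtain ⟨a, b, ha, hb, rfl⟩ := hz; exact Gy.z2_cup ha hb
  | zero => exact ⟨IsLocallyConstant.const 0, fun _ _ _ => rfl⟩
  | add x y _ _ hx hy => exact Gy.z2_add hx hy
  | smul c x _ hx => exact Gy.z2_smul c hx

theorem sy_cc {H : Subgroup GQ} {g : GQ} (hg : ∀ x ∈ H, g * x * g⁻¹ ∈ H) {z : GQ → GQ → F}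
    (h : z ∈ Sy F H) : Syl.cc F g z ∈ Sy F H := by
  induction h using Submodule.span_induction with
  | mem z hz =>
    obtain ⟨a, b, ha, hb, rfl⟩ := hz
    exact sy_cup (Syl.ch_cc g hg ha) (Syl.ch_cc g hg hb)
  | zero => rw [map_zero]; exact Submodule.zero_mem _
  | add x y _ _ hx hy => rw [map_add]; exact Submodule.add_mem _ hx hy
  | smul c x _ hx => rw [map_smul]; exact Submodule.smul_mem _ c hx

theorem rank_succ {V : Type} [AddCommGroup V] [Module F V] (W : Submodule F V) (e : V →ₗ[F] F)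
    {v : V} (hv : v ∈ W) (h : e v = 1) :
    Module.rank F ↥(W ⊓ LinearMap.ker e) + 1 ≤ Module.rank F W := by
  rw [← LinearMap.rank_range_add_rank_ker (e.domRestrict W), add_comm]
  refine add_le_add ?_ ?_
  · have : LinearMap.range (e.domRestrict W) = ⊤ := by
      rw [eq_top_iff]
      intro c _
      exact ⟨c • ⟨v, hv⟩, by rw [map_smul, LinearMap.domRestrict_apply, h, smul_eq_mul, mul_one]⟩
    rw [this, rank_top, Module.rank_self]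
  · let k : ↥(W ⊓ LinearMap.ker e) →ₗ[F] LinearMap.ker (e.domRestrict W) :=
      (Submodule.inclusion inf_le_left).codRestrict _ fun w => w.2.2
    exact k.rank_le_of_injective fun x y hxy =>
      Subtype.ext (congrArg (fun w => (w.1.1 : V)) hxy)

theorem rank_pr' {A B : Type} [AddCommGroup A] [Module F A] [AddCommGroup B] [Module F B]
    (A' : Submodule F A) (B' : Submodule F B) :
    Module.rank F A' + Module.rank F B' ≤ Module.rank F (A'.prod B') := by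
  rw [← rank_prod']
  let k : A' × B' →ₗ[F] A'.prod B' :=
    (A'.subtype.prodMap B'.subtype).codRestrict _ fun w => ⟨w.1.2, w.2.2⟩
  exact k.rank_le_of_injective fun x y h => Prod.ext
    (Subtype.ext (congrArg (fun w => (w.1.1 : A)) h)) (Subtype.ext (congrArg (fun w => (w.1.2 : B)) h))

variable {ρ : GQ →* GL (Fin 2) F} {T : Finset ℕ} {D : ℕ → Set GQ}

theorem mxm (g h : GQ) : mx ρ (g * h) = mx ρ g * mx ρ h := congrArg Units.val (map_mul ρ g h)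

theorem a0 {g : GQ} (h : ρ g = 1) : mx ρ g 0 1 = 0 := by
  have e : mx ρ g = 1 := congrArg Units.val h
  rw [e]; rfl

theorem nrm {γ x : GQ} (hγ : γ ∈ GB ρ) : x ∈ GP ρ ↔ γ * x * γ⁻¹ ∈ GP ρ :=
  ⟨Bor.nrm hγ, fun h => by
    have := Bor.nrm ((GB ρ).inv_mem hγ) h
    rwa [show γ⁻¹ * (γ * x * γ⁻¹) * γ⁻¹⁻¹ = x by group] at this⟩

theorem a_add {g h : GQ} (hg : g ∈ GP ρ) (hh : h ∈ GP ρ) :
    mx ρ (g * h) 0 1 = mx ρ g 0 1 + mx ρ h 0 1 := by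
  rw [mxm, Matrix.mul_apply, Fin.sum_univ_two, (uni hg).2.1, (uni hh).2.2.1]; ring

theorem a_ch (ho : IsOpen {g : GQ | ρ g = 1}) : Ch (GP ρ) fun g => mx ρ g 0 1 :=
  ch_of (fun g hg h hh => a_add hg hh) ⟨ρ.ker, ho, fun σ h => a0 h⟩

theorem a2_ch [CharP F 2] (ho : IsOpen {g : GQ | ρ g = 1}) : Ch (GP ρ) fun g => mx ρ g 0 1 ^ 2 :=
  ch_of (fun g hg h hh => by rw [a_add hg hh, CharTwo.add_sq])
    ⟨ρ.ker, ho, fun σ h => by change mx ρ σ 0 1 ^ 2 = 0; rw [a0 h]; ring⟩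

theorem a_cj [CharP F 2] (hd : ∀ g, (mx ρ g).det = 1) {γ x : GQ} (hγ : γ ∈ GB ρ) (hx : x ∈ GP ρ) :
    mx ρ (γ * x * γ⁻¹) 0 1 = ch ρ γ * mx ρ x 0 1 := by
  have k : mx ρ x 1 0 = 0 := (uni hx).1
  rw [mxm, mxm, (act hd hγ _).2.2.2, (uni hx).2.1, (uni hx).2.2.1, k, CharTwo.add_self_eq_zero]
  ring

theorem z_add {θ z : GQ → F} (hθ : ∀ g ∈ GP ρ, θ g = 1) (hz : z ∈ Zt θ T (GB ρ)) {g h : GQ}
    (hg : g ∈ GP ρ) (hh : h ∈ GB ρ) : z (g * h) = z g + z h := by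
  rw [hz.1 g (uni hg).1 h hh, hθ g hg, one_mul]

theorem z_ch {θ z : GQ → F} (hθ : ∀ g ∈ GP ρ, θ g = 1) (hz : z ∈ Zt θ T (GB ρ)) : Ch (GP ρ) z :=
  ch_of (fun g hg h hh => z_add hθ hz hg (uni hh).1) hz.2.2.1

theorem z_cj {θ z : GQ → F} (hθ : ∀ g ∈ GP ρ, θ g = 1) (hz : z ∈ Zt θ T (GB ρ)) {γ x : GQ}
    (hγ : γ ∈ GB ρ) (hx : x ∈ GP ρ) : z (γ * x * γ⁻¹) = θ γ * z x := by
  have h1 := z_add hθ hz ((nrm hγ).1 hx) hγ
  rw [inv_mul_cancel_right, hz.1 γ hγ x (uni hx).1] at h1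
  linear_combination -h1

theorem ci_one {g : GQ} (hg : g ∈ GP ρ) : ci ρ g = 1 := by rw [ci, (uni hg).2.2.1, one_pow]

theorem ns_left {γ : GQ} (hγ : γ ∈ GB ρ) {l : ℕ} {g : GQ} (h : Ns ρ D l g) : Ns ρ D l (γ * g) := by
  obtain ⟨p, h1, h2, h3⟩ := h
  refine ⟨γ * p * γ⁻¹, (nrm hγ).1 h1, fun k => h2 ?_, ?_⟩
  · rw [show p = γ⁻¹ * (γ * p * γ⁻¹) * γ by group, map_mul, map_mul, k, mul_one, ← map_mul]
    simp
  · rwa [show (γ * g)⁻¹ * (γ * p * γ⁻¹) * (γ * g) = g⁻¹ * p * g by group]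

theorem ns_iff {l : ℕ} (h : IsDec l (D l)) {g : GQ} :
    Ns ρ D l g ↔ ∃ γ ∈ GP ρ, ρ γ ≠ 1 ∧ γ ∈ Dc (D l) g := by
  simp only [Ns, mem_Dc h]

section inv

variable (inv : Subgroup GQ → (GQ → GQ → F) →ₗ[F] F)

/-- the property of the local invariants -/
def Iv (H : Subgroup GQ) : Prop := ∀ (l : ℕ) (D : Subgroup GQ), IsDec l (D : Set GQ) →
  (∀ z ∈ Sy F H, inv D z = 0 ↔ Cb (H ⊓ D) z) ∧
  ∀ (g : GQ) (D' : Subgroup GQ), (∀ x, x ∈ H ↔ g * x * g⁻¹ ∈ H) →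
    (∀ x, x ∈ D ↔ g * x * g⁻¹ ∈ D') → ∀ z ∈ Sy F H,
      inv D (fun x y => z (g * x * g⁻¹) (g * y * g⁻¹)) = inv D' z

open Classical in
/-- the local invariants outside `C` -/
def J (T : Finset ℕ) (D : ℕ → Set GQ) (C : ℕ → GQ → Prop) :
    (GQ → GQ → F) →ₗ[F] (ℕ → GQ → F) :=
  LinearMap.pi fun l => LinearMap.pi fun g => if l ∈ T ∧ ¬ C l g then inv (Dc (D l) g) else 0

variable {inv}

theorem J_pos {C : ℕ → GQ → Prop} {l : ℕ} {g : GQ} (h : l ∈ T ∧ ¬ C l g) (z : GQ → GQ → F) :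
    J inv T D C z l g = inv (Dc (D l) g) z := by
  simp only [J, LinearMap.pi_apply, if_pos h]

theorem J_neg {C : ℕ → GQ → Prop} {l : ℕ} {g : GQ} (h : ¬ (l ∈ T ∧ ¬ C l g)) (z : GQ → GQ → F) :
    J inv T D C z l g = 0 := by
  simp only [J, LinearMap.pi_apply, if_neg h, LinearMap.zero_apply]

theorem inv_left (hI : Iv inv (GP ρ)) {θ : GQ → F} {z : GQ → GQ → F} (hz : z ∈ Sy F (GP ρ))
    (he : ∀ γ ∈ GB ρ, ∀ x ∈ GP ρ, ∀ y ∈ GP ρ, z (γ * x * γ⁻¹) (γ * y * γ⁻¹) = θ γ * z x y)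
    {l : ℕ} {S : Set GQ} (hS : IsDec l S) {γ : GQ} (hγ : γ ∈ GB ρ) (g : GQ) :
    inv (Dc S (γ * g)) z = θ γ * inv (Dc S g) z := by
  obtain ⟨h1, h2⟩ := hI l _ (isDec_Dc hS g)
  rw [← h2 γ _ (fun x => nrm hγ) (Dc_mul S γ g) z hz, ← smul_eq_mul, ← map_smul, ← sub_eq_zero,
    ← map_sub]
  refine (h1 _ (Submodule.sub_mem _ (sy_cc (fun x => (nrm hγ).1) hz)
    (Submodule.smul_mem _ _ hz))).2 (cb_zero fun x hx y hy => ?_)
  change z _ _ - θ γ * z x y = 0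
  rw [he γ hγ x hx.1 y hy.1, sub_self]

theorem J_mem (hI : Iv inv (GP ρ)) (hD : ∀ l ∈ T, IsDec l (D l)) {θ : GQ → F} {z : GQ → GQ → F}
    (hz : z ∈ Sy F (GP ρ))
    (he : ∀ γ ∈ GB ρ, ∀ x ∈ GP ρ, ∀ y ∈ GP ρ, z (γ * x * γ⁻¹) (γ * y * γ⁻¹) = θ γ * z x y)
    (h0 : ∀ x y, ρ x = 1 → z x y = 0) {C : ℕ → GQ → Prop}
    (c1 : ∀ l, ∀ γ ∈ GB ρ, ∀ g, C l (γ * g) ↔ C l g)
    (c2 : ∀ l ∈ T, ∀ d ∈ D l, ∀ g, C l (g * d) ↔ C l g) : J inv T D C z ∈ FN ρ θ T D := by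
  refine ⟨⟨fun l hl => funext fun g => J_neg (fun h => hl h.1) z, fun l γ hγ g => ?_,
    fun l d hd g => ?_⟩, fun l g hg => ?_⟩
  · by_cases h : l ∈ T ∧ ¬ C l g
    · rw [J_pos h, J_pos ⟨h.1, fun k => h.2 ((c1 l γ hγ g).1 k)⟩, inv_left hI hz he (hD l h.1) hγ]
    · rw [J_neg h, J_neg fun k => h ⟨k.1, fun m => k.2 ((c1 l γ hγ g).2 m)⟩, mul_zero]
  · by_cases h : l ∈ T ∧ ¬ C l g
    · rw [J_pos h, J_pos ⟨h.1, fun k => h.2 ((c2 l h.1 d hd g).1 k)⟩, Dc_right _ hd]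
    · rw [J_neg h, J_neg fun k => h ⟨k.1, fun m => k.2 ((c2 l k.1 d hd g).2 m)⟩]
  · by_cases h : l ∈ T ∧ ¬ C l g
    · rw [J_pos h]
      refine ((hI l _ (isDec_Dc (hD l h.1) g)).1 z hz).2 (cb_zero fun x hx y _ => h0 x y ?_)
      by_contra k
      exact hg ((ns_iff (hD l h.1)).2 ⟨x, hx.1, k, hx.2⟩)
    · exact J_neg h z

end inv

theorem unr_cup [CharP F 2] (hU : UNR) {H : Subgroup GQ} (hH : IsOpen (H : Set GQ)) {l : ℕ}
    {P : Ideal (𝓞 Qb)} (hP : Ov l P) {a b : GQ → F} (ha : Ch H a) (hb : Ch H b)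
    (a1 : ∀ i ∈ H, Inert P i → a i = 0) (b1 : ∀ i ∈ H, Inert P i → b i = 0) :
    Cb (H ⊓ dec P) (cup a b) := by
  refine hU F H l P _ hH hP (Gy.z2_le inf_le_left (sy_z2 (sy_cup ha hb))) fun g hg h hh i hi k => ?_
  have e1 : a (g * i) = a g + a i := ha.2 ⟨g, hg.1⟩ ⟨i, hi⟩
  have e2 : b (h * i) = b h + b i := hb.2 ⟨h, hh.1⟩ ⟨i, hi⟩
  simp only [cup, e1, e2, a1 i hi k, b1 i hi k, add_zero, and_self]

theorem lc_of {H : Subgroup GQ} {z : GQ → GQ → F} (h0 : 0 ∈ T) (hD : ∀ l ∈ T, IsDec l (D l))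
    (h1 : ∀ l ∈ T, ∀ g, Cb (H ⊓ Dc (D l) g) z)
    (h2 : ∀ l ∉ T, ∀ P, Ov l P → Cb (H ⊓ dec P) z) : Lc H z := by
  intro l V hV
  by_cases hl : l ∈ T
  · obtain ⟨g, rfl⟩ := ex_Dc (hD l hl) hV
    exact h1 l hl g
  · obtain ⟨e, -⟩ | ⟨lp, P, k1, k2, e⟩ := hV
    · exact absurd (e ▸ h0) hl
    · rw [show V = dec P from SetLike.coe_injective e]
      exact h2 l hl P ⟨lp, k1, k2⟩

/-- the extension of `a ∪ z` to the upper triangular subgroup -/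
def b1 (ρ : GQ →* GL (Fin 2) F) (z : GQ → F) : GQ → GQ → F :=
  fun g h => mx ρ g 0 1 * mx ρ g 1 1 * z h

theorem b1_z2 (ho : IsOpen {g : GQ | ρ g = 1}) (hd : ∀ g, (mx ρ g).det = 1) {z : GQ → F}
    (hz : z ∈ Zt (ci ρ) T (GB ρ)) : Z2 (GB ρ) (b1 ρ z) := by
  obtain ⟨U, hU, h⟩ := hz.2.2.1
  have l1 := lcB (GB ρ) ρ.ker ho (fun g => mx ρ g 0 1 * mx ρ g 1 1) fun g _ u _ k => by
    have e : mx ρ u = 1 := congrArg Units.val k
    simp only [mxm, e, mul_one]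
  have l2 := lcB (GB ρ) U hU z fun g hg u hu k => by rw [hz.1 g hg u hu, h u k, mul_zero, add_zero]
  refine ⟨(l1.comp_continuous continuous_fst).mul (l2.comp_continuous continuous_snd),
    fun g h k => ?_⟩
  have k1 : mx ρ g 1 0 = 0 := g.2
  simp only [rs, b1, Subgroup.coe_mul, hz.1 _ h.2 _ k.2, mxm, Matrix.mul_apply, Fin.sum_univ_two,
    k1, ci]
  linear_combination -(mx ρ h 0 1 * mx ρ h 1 1 * z k) * d01 hd g.2

theorem down [CharP F 2] (hG : ODG) (hy : Hyp ρ T D) {z : GQ → F} (hz : z ∈ Zt (ci ρ) T (GB ρ))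
    {V : Subgroup GQ} (h : Cb (GP ρ ⊓ V) (cup (fun g => mx ρ g 0 1) z)) :
    Cb (GB ρ ⊓ V) (b1 ρ z) := by
  have le : ρ.ker ≤ GP ρ := Bor.ker_le
  refine hG F _ (GP ρ) _ (Subgroup.isOpen_mono le hy.opn) ?_
    (Gy.z2_le inf_le_left (b1_z2 hy.opn (Bor.det hy.std) hz)) ?_
  · haveI : ((GP ρ).subgroupOf (GB ρ)).Normal := Bor.nrm'
    rw [← Subgroup.relIndex_subgroupOf (inf_le_left : GB ρ ⊓ V ≤ GB ρ)]
    exact (Bor.odd_rel hy.std).of_dvd_nat (Subgroup.relIndex_dvd_index_of_normal _ _)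
  · refine cb_congr (z := cup (fun g => mx ρ g 0 1) z) (fun x hx y _ => ?_)
      (Gy.cob_le (le_inf inf_le_right (inf_le_left.trans inf_le_right)) h)
    rw [b1, (uni hx.2).2.2.1, mul_one]
    rfl

end Vale.Agent.P022E.GW.Ob
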