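import Vale.Agent.P022E.GW.Obs

/-!
# P022E, block GW: the rank of the obstruction, conclusion
-/

set_option linter.all false

noncomputable section

namespace Vale.Agent.P022E.GW.Ob

open NumberField
open Vale.Agent.P022
open Vale.Agent.P027M.S (Inert mx)
open Vale.Agent.P022D.Sel (IsDec M2)
open Vale.Agent.P022D.L2c (Hm Cob IsZ2 cup)
open Vale.Agent.P022D.W (dec)
open Vale.Agent.P022E.GW.Fb
open scoped Pointwise

variable {F : Type} [Field F] {ρ : GQ →* GL (Fin 2) F} {T : Finset ℕ} {D : ℕ → Set GQ}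

theorem dec_le (ho : IsOpen {g : GQ | ρ g = 1}) {l : ℕ} {P : Ideal (𝓞 Qb)} {φ : GQ} (hP : Ov l P)
    (hφ : Fb l P φ) (hI : ∀ g, Inert P g → ρ g = 1) (h : φ ∈ GP ρ) : dec P ≤ GP ρ := by
  intro g hg
  obtain ⟨k, s, u, hs, hu, rfl⟩ := P022D.W.dec_gen hP.1 hP.2.1 hP.2.2 hφ hg ρ.ker ho
  exact (GP ρ).mul_mem ((GP ρ).mul_mem (Bor.ker_le hu) ((GP ρ).pow_mem h k))
    (Bor.ker_le (show s ∈ ρ.ker from hI s hs))

theorem ex_prime {l : ℕ} (hl : l.Prime) {S : Set GQ} (h : IsDec l S) :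
    ∃ P, Ov l P ∧ S = (dec P : Set GQ) := by
  obtain ⟨e, -⟩ | ⟨-, P, h1, h2, e⟩ := h
  · exact absurd (e ▸ hl) Nat.not_prime_zero
  · exact ⟨P, ⟨hl, h1, h2⟩, e⟩

/-- reciprocity: the class `a ∪ z` is trivial at the last place -/
theorem last [Finite F] [CharP F 2] (hO : ONE) (hU : UNR) (hG : ODG) (hy : Hyp ρ T D) {l : ℕ}
    {P₁ : Ideal (𝓞 Qb)} {g₀ φ : GQ} (h2 : l ≠ 2) (h1 : Ov l P₁) (e1 : D l = (dec P₁ : Set GQ))
    (hφ : Fb l (g₀ • P₁) φ) (hI : ∀ g, Inert (g₀ • P₁) g → ρ g = 1) (hp : φ ∈ GP ρ)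
    (hn : ρ φ ≠ 1) {z : GQ → F} (hz : z ∈ Zt (ci ρ) T (GB ρ))
    (h : ∀ p ∈ T, ∀ g, ¬ (p = l ∧ ∃ γ ∈ GB ρ, ∃ d ∈ D l, g = γ * g₀ * d) →
      Cb (GP ρ ⊓ Dc (D p) g) (cup (fun g => mx ρ g 0 1) z)) :
    Cb (GP ρ ⊓ dec (g₀ • P₁)) (cup (fun g => mx ρ g 0 1) z) := by
  have hP := ov_smul h1 g₀
  have le := dec_le hy.opn hP hφ hI hp
  have le' : GP ρ ≤ GB ρ := Bor.le
  have oP : IsOpen (GP ρ : Set GQ) := Subgroup.isOpen_mono Bor.ker_le hy.opn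
  have ca := a_ch hy.opn
  have cz := z_ch (fun g => ci_one) hz
  have n0 := (uni hp).2.2.2 hn
  have key : ∀ τ, Gn l (g₀ • P₁) τ → z τ = 0 := by
    intro τ hτ
    have := hO F (GB ρ) (b1 ρ z) Unit (fun _ => l) (fun _ => g₀ • P₁) (fun _ => τ) (fun _ => φ)
      (fun _ g => (mx ρ φ 0 1)⁻¹ * mx ρ g 0 1) (fun _ g => mx ρ φ 0 1 * z g)
      (Subgroup.isOpen_mono le' oP) (b1_z2 hy.opn (Bor.det hy.std) hz)
      (fun _ => ⟨hP, h2, hτ, hφ, le.trans le'⟩) (fun _ _ _ _ _ => rfl)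
      (fun _ => ⟨Submodule.smul_mem _ (mx ρ φ 0 1)⁻¹ (Syl.ch_le le ca),
        Submodule.smul_mem _ (mx ρ φ 0 1) (Syl.ch_le le cz),
        fun g hg => by rw [a0 (hI g hg), mul_zero], inv_mul_cancel₀ n0,
        cb_zero fun x hx y _ => ?_⟩) (fun V hV => ?_) fun p P' hp' hne => ?_
    · rw [Fintype.sum_unique] at this
      exact (mul_eq_zero.1 this).resolve_left n0
    · change mx ρ x 0 1 * mx ρ x 1 1 * z y - (mx ρ φ 0 1)⁻¹ * mx ρ x 0 1 * (mx ρ φ 0 1 * z y) = 0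
      rw [(uni (le hx)).2.2.1]
      field_simp
      ring
    · obtain ⟨g, rfl⟩ := ex_Dc (hy.dec 0 hy.h0) hV
      exact down hG hy hz (h 0 hy.h0 g fun k => h1.1.ne_zero k.1.symm)
    · refine down hG hy hz ?_
      by_cases hT : p ∈ T
      · obtain ⟨P₂, k1, k2, k3⟩ : ∃ P₂, Ov p P₂ ∧ D p = (dec P₂ : Set GQ) ∧ (p = l → P₂ = P₁) := by
          by_cases e : p = l
          · exact ⟨P₁, e ▸ h1, e ▸ e1, fun _ => rfl⟩
          · obtain ⟨P₂, k1, k2⟩ := ex_prime hp'.1 (hy.dec p hT)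
            exact ⟨P₂, k1, k2, fun k => absurd k e⟩
        obtain ⟨g, rfl⟩ := P027M.F.Tra.trans hp'.1 k1.2.1 hp'.2.1 k1.2.2 hp'.2.2
        rw [← Dc_dec k1, ← k2]
        refine h p hT g ?_
        rintro ⟨e, γ, hγ, d, hd, rfl⟩
        rw [e1] at hd
        refine hne () γ hγ fun x => ?_
        rw [k3 e, Ideal.mem_pointwise_smul_iff_inv_smul_mem,
          Ideal.mem_pointwise_smul_iff_inv_smul_mem, ← mul_smul,
          show (γ * g₀ * d)⁻¹ * γ = d⁻¹ * g₀⁻¹ by group, mul_smul]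
        exact ((dec P₁).inv_mem hd _).symm
      · exact unr_cup hU oP hp' ca cz (fun i _ k => a0 (hy.unr p hT P' hp' i k))
          fun i _ k => hz.2.2.2 p hT P' hp' i k
  obtain ⟨τ, hτ⟩ := ex_gn hP
  refine unr_cup hU oP hP ca cz (fun i _ k => a0 (hI i k)) fun i hi k => ?_
  rcases gn_or hτ k with m | m
  · exact key i m
  · have := key _ m
    rwa [z_add (fun g => ci_one) hz hi (le' (le (P022D.W.inP_le_dec hτ.1))), key τ hτ,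
      add_zero] at this

/-- **the rank of the obstruction** -/
theorem obs [Finite F] [CharP F 2] (hH : HASSE) (hS : SYL) (hO : ONE) (hU : UNR) (hG : ODG)
    (hy : Hyp ρ T D) : ∃ K : Submodule F ((GQ → F) × (GQ → F)),
    K ≤ (Zt (ci ρ) T (GB ρ)).prod (Zt (fun _ => (1 : F)) T (GB ρ)) ∧
    (∀ k ∈ K, Cb (GP ρ) (cup (fun g => mx ρ g 0 1) k.1) ∧
      Cb (GP ρ) (cup (fun g => mx ρ g 0 1) k.2 + cup (fun g => mx ρ g 0 1 ^ 2) k.1)) ∧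
    Module.rank F (Zt (ci ρ) T (GB ρ)) + Module.rank F (Zt (fun _ => (1 : F)) T (GB ρ)) + 1 ≤
      Module.rank F K + Module.rank F (FN ρ (fun _ => 1) T D) + Module.rank F (FN ρ (ch ρ) T D) := by
  classical
  have hd : ∀ g, (mx ρ g).det = 1 := Bor.det hy.std
  have oP : IsOpen (GP ρ : Set GQ) := Subgroup.isOpen_mono Bor.ker_le hy.opn
  obtain ⟨inv, hI⟩ := hS F (GP ρ) oP
  replace hI : Iv inv (GP ρ) := hI
  obtain ⟨l, hl, h2, P, φ, hP, hφ, hin, hp, hn⟩ := hy.a0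
  obtain ⟨P₁, h1, e1⟩ := ex_prime hP.1 (hy.dec l hl)
  obtain ⟨g₀, rfl⟩ := P027M.F.Tra.trans hP.1 h1.2.1 hP.2.1 h1.2.2 hP.2.2
  have eD : Dc (D l) g₀ = dec (g₀ • P₁) := by rw [e1, Dc_dec h1]
  let C : ℕ → GQ → Prop := fun p g => p = l ∧ ∃ γ ∈ GB ρ, ∃ d ∈ D l, g = γ * g₀ * d
  let cp : (GQ → F) → (GQ → F) →ₗ[F] (GQ → GQ → F) := fun a =>
    { toFun := cup a
      map_add' := fun x y => by funext g h; simp only [cup, Pi.add_apply, mul_add]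
      map_smul' := fun c x => by
        funext g h; simp only [cup, Pi.smul_apply, smul_eq_mul, RingHom.id_apply, mul_left_comm] }
  let B1 := (cp fun g => mx ρ g 0 1).comp (LinearMap.fst F (GQ → F) (GQ → F))
  let B2 := (cp fun g => mx ρ g 0 1).comp (LinearMap.snd F (GQ → F) (GQ → F)) +
    (cp fun g => mx ρ g 0 1 ^ 2).comp (LinearMap.fst F (GQ → F) (GQ → F))
  let O := ((J inv T D C).comp B1).prod ((J inv T D fun _ _ => False).comp B2)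
  let W := (Zt (ci ρ) T (GB ρ)).prod (Zt (fun _ => (1 : F)) T (GB ρ))
  let ev : (ℕ → GQ → F) →ₗ[F] F := 
    { toFun := fun f => f l g₀
      map_add' := fun _ _ => rfl
      map_smul' := fun _ _ => rfl }
  have ca := a_ch hy.opn
  have ca2 := a2_ch hy.opn
  have cz : ∀ k ∈ W, Ch (GP ρ) k.1 := fun k hk => z_ch (fun g => ci_one) hk.1
  have cs : ∀ k ∈ W, Ch (GP ρ) k.2 := fun k hk => z_ch (fun _ _ => rfl) hk.2
  have s1 : ∀ k ∈ W, B1 k ∈ Sy F (GP ρ) := fun k hk => sy_cup ca (cz k hk)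
  have s2 : ∀ k ∈ W, B2 k ∈ Sy F (GP ρ) := fun k hk =>
    Submodule.add_mem _ (sy_cup ca (cs k hk)) (sy_cup ca2 (cz k hk))
  have q1 : ∀ k ∈ W, ∀ γ ∈ GB ρ, ∀ x ∈ GP ρ, ∀ y ∈ GP ρ,
      B1 k (γ * x * γ⁻¹) (γ * y * γ⁻¹) = 1 * B1 k x y := fun k hk γ hγ x hx y hy' => by
    change mx ρ _ 0 1 * k.1 _ = 1 * (mx ρ x 0 1 * k.1 y)
    rw [a_cj hd hγ hx, z_cj (fun g => ci_one) hk.1 hγ hy']
    linear_combination mx ρ x 0 1 * k.1 y * ch_ci hd hγ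
  have q2 : ∀ k ∈ W, ∀ γ ∈ GB ρ, ∀ x ∈ GP ρ, ∀ y ∈ GP ρ,
      B2 k (γ * x * γ⁻¹) (γ * y * γ⁻¹) = ch ρ γ * B2 k x y := fun k hk γ hγ x hx y hy' => by
    change mx ρ _ 0 1 * k.2 _ + mx ρ _ 0 1 ^ 2 * k.1 _ =
      ch ρ γ * (mx ρ x 0 1 * k.2 y + mx ρ x 0 1 ^ 2 * k.1 y)
    rw [a_cj hd hγ hx, z_cj (fun g => ci_one) hk.1 hγ hy', z_cj (fun _ _ => rfl) hk.2 hγ hy']
    linear_combination ch ρ γ * mx ρ x 0 1 ^ 2 * k.1 y * ch_ci hd hγ
  have sub : ∀ p ∈ T, ∀ d ∈ D p, ∀ d' ∈ D p, d * d' ∈ D p ∧ d⁻¹ ∈ D p := fun p hp d hd d' hd' => by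
    obtain ⟨V, e⟩ := ex_sub (hy.dec p hp)
    rw [← e] at hd hd' ⊢
    exact ⟨V.mul_mem hd hd', V.inv_mem hd⟩
  have one : (1 : GQ) ∈ D l := by rw [e1]; exact (dec P₁).one_mem
  have c1 : ∀ p, ∀ γ ∈ GB ρ, ∀ g, C p (γ * g) ↔ C p g := fun p γ hγ g =>
    and_congr_right fun _ => ⟨fun ⟨δ, hδ, d, hd, e⟩ =>
      ⟨γ⁻¹ * δ, (GB ρ).mul_mem ((GB ρ).inv_mem hγ) hδ, d, hd, by
        rw [mul_assoc, mul_assoc, ← mul_assoc δ, ← e, inv_mul_cancel_left]⟩,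
      fun ⟨δ, hδ, d, hd, e⟩ => ⟨γ * δ, (GB ρ).mul_mem hγ hδ, d, hd, by rw [e]; group⟩⟩
  have c2 : ∀ p ∈ T, ∀ d ∈ D p, ∀ g, C p (g * d) ↔ C p g := fun p _ d hd g =>
    and_congr_right fun e0 => ⟨fun ⟨δ, hδ, d', hd', e⟩ =>
      ⟨δ, hδ, d' * d⁻¹, (sub l hl _ hd' _ (sub l hl d (e0 ▸ hd) d (e0 ▸ hd)).2).1, by
        rw [← mul_assoc, ← e, mul_inv_cancel_right]⟩,
      fun ⟨δ, hδ, d', hd', e⟩ => ⟨δ, hδ, d' * d, (sub l hl _ hd' _ (e0 ▸ hd)).1, by rw [e]; group⟩⟩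
  refine ⟨W ⊓ LinearMap.ker O, inf_le_left, fun k hk => ⟨?_, ?_⟩, ?_⟩
  · have o1 : J inv T D C (B1 k) = 0 := congrArg Prod.fst hk.2
    have h3 : ∀ p ∈ T, ∀ g, ¬ C p g → Cb (GP ρ ⊓ Dc (D p) g) (B1 k) := fun p hp g hg => by
      refine ((hI p _ (isDec_Dc (hy.dec p hp) g)).1 _ (s1 k hk.1)).1 ?_
      rw [← J_pos (C := C) ⟨hp, hg⟩, o1]
      rfl
    have h4 := last hO hU hG hy h2 h1 e1 hφ hin hp hn hk.1.1 h3
    refine hH F _ (B1 k) oP (sy_z2 (s1 k hk.1)) (lc_of hy.h0 hy.dec (fun p hp g => ?_)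
      fun p hp P' hP' => unr_cup hU oP hP' ca (cz k hk.1) (fun i _ m => a0 (hy.unr p hp P' hP' i m))
        fun i _ m => hk.1.1.2.2.2 p hp P' hP' i m)
    by_cases hc : C p g
    · obtain ⟨rfl, γ, hγ, d, hd', rfl⟩ := hc
      refine ((hI p _ (isDec_Dc (hy.dec p hp) _)).1 _ (s1 k hk.1)).1 ?_
      rw [Dc_right _ hd', inv_left hI (θ := fun _ => 1) (s1 k hk.1) (q1 k hk.1) (hy.dec p hp) hγ,
        one_mul]
      refine ((hI p _ (isDec_Dc (hy.dec p hp) _)).1 _ (s1 k hk.1)).2 ?_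
      rw [eD]
      exact h4
    · exact h3 p hp g hc
  · have o2 : J inv T D (fun _ _ => False) (B2 k) = 0 := congrArg Prod.snd hk.2
    refine hH F _ (B2 k) oP (sy_z2 (s2 k hk.1)) (lc_of hy.h0 hy.dec (fun p hp g => ?_)
      fun p hp P' hP' => ?_)
    · refine ((hI p _ (isDec_Dc (hy.dec p hp) g)).1 _ (s2 k hk.1)).1 ?_
      rw [← J_pos (C := fun _ _ => False) ⟨hp, id⟩, o2]
      rfl
    · exact Submodule.add_mem (Syl.CS F _)
        (unr_cup hU oP hP' ca (cs k hk.1) (fun i _ m => a0 (hy.unr p hp P' hP' i m))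
          fun i _ m => hk.1.2.2.2.2 p hp P' hP' i m)
        (unr_cup hU oP hP' ca2 (cz k hk.1)
          (fun i _ m => by change mx ρ i 0 1 ^ 2 = 0; rw [a0 (hy.unr p hp P' hP' i m)]; ring)
          fun i _ m => hk.1.1.2.2.2 p hp P' hP' i m)
  · have r1 := rank_two W O LinearMap.id
      ((FN ρ (fun _ => 1) T D ⊓ LinearMap.ker ev).prod (FN ρ (ch ρ) T D)) (W ⊓ LinearMap.ker O)
      (fun k hk => ⟨⟨J_mem hI hy.dec (s1 k hk) (q1 k hk) (fun x y hx => ?_) c1 c2,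
        J_neg (fun h => h.2 ⟨rfl, 1, (GB ρ).one_mem, 1, one, by group⟩) _⟩,
        J_mem hI hy.dec (s2 k hk) (q2 k hk) (fun x y hx => ?_) (fun _ _ _ _ => Iff.rfl)
          fun _ _ _ _ _ => Iff.rfl⟩) (fun k hk h => ⟨hk, h⟩) fun k _ _ h => h
    · have r2 := rank_pr (FN ρ (fun _ => 1) T D ⊓ LinearMap.ker ev) (FN ρ (ch ρ) T D)
      have n0 : Ns ρ D l g₀ := (ns_iff (hy.dec l hl)).2
        ⟨φ, hp, hn, by rw [eD]; exact P022D.W.phi_mem hP.1 hP.2.1 hφ⟩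
      have r3 := rank_succ (FN ρ (fun _ => 1) T D) ev
        (v := fun p g => if p ∈ T ∧ Ns ρ D p g then 1 else 0)
        ⟨⟨fun p hp => funext fun g => if_neg fun h => hp h.1, fun p γ hγ g => ?_,
          fun p d hd' g => ?_⟩, fun p g hg => if_neg fun h => hg h.2⟩ (if_pos ⟨hl, n0⟩)
      · refine (add_le_add ((rank_pr' _ _).trans (r1.trans (add_le_add r2 le_rfl))) le_rfl).trans ?_
        refine le_trans (le_of_eq ?_) (add_le_add (add_le_add le_rfl r3) le_rfl)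
        ring
      · rw [one_mul]
        refine if_congr (and_congr_right fun _ => ⟨fun h => ?_, ns_left hγ⟩) rfl rfl
        have := ns_left ((GB ρ).inv_mem hγ) h
        rwa [inv_mul_cancel_left] at this
      · refine if_congr (and_congr_right fun hp => ?_) rfl rfl
        rw [ns_iff (hy.dec p hp), ns_iff (hy.dec p hp), Dc_right _ hd']
    · change mx ρ x 0 1 * k.1 y = 0
      rw [a0 hx, zero_mul]
    · change mx ρ x 0 1 * k.2 y + mx ρ x 0 1 ^ 2 * k.1 y = 0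
      rw [a0 hx]
      ring

end Vale.Agent.P022E.GW.Ob
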