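import Vale.Agent.P022E.GW.LbOne89

/-!
# P022E, block GW: the rank of the obstruction
-/

set_option linter.all false

noncomputable section

namespace Vale.Agent.P022E.GW.H89

open NumberField
open Vale.Agent.P022 Vale.Agent.P022.H443
open Vale.Agent.P027M.S (Inert mx)
open Vale.Agent.P022D.Sel (M2 IsDec Stab)
open Vale.Agent.P022D.L2c (Hm Cob IsZ2 cup up)
open Vale.Agent.P022E.GW.Fb (ch ci Ns FN Sup)
open Vale.Agent.P022E.GW.Ob (Dc)

variable {F : Type} [Field F]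

/-- the local invariants -/
def Iv (H : Subgroup GQ) (inv : Subgroup GQ → (GQ → GQ → F) →ₗ[F] F) : Prop :=
  ∀ (l : ℕ) (D : Subgroup GQ), IsDec l (D : Set GQ) →
    (∀ z ∈ Sy F H, inv D z = 0 ↔ Cb (H ⊓ D) z) ∧
    ∀ (g : GQ) (D' : Subgroup GQ), (∀ x, x ∈ H ↔ g * x * g⁻¹ ∈ H) →
      (∀ x, x ∈ D ↔ g * x * g⁻¹ ∈ D') → ∀ z ∈ Sy F H,
        inv D (fun x y => z (g * x * g⁻¹) (g * y * g⁻¹)) = inv D' z

theorem sy {H : Subgroup GQ} {a b : GQ → F} (ha : Ch H a) (hb : Ch H b) : cup a b ∈ Sy F H :=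
  Submodule.subset_span ⟨a, b, ha, hb, rfl⟩

theorem cb0 {H : Subgroup GQ} {z : GQ → GQ → F} (h : ∀ x ∈ H, ∀ y ∈ H, z x y = 0) : Cb H z := by
  have e : rs H z = 0 := funext fun a => funext fun b => h a a.2 b b.2
  unfold Cb
  rw [e]
  exact zero_mem _

theorem eqv {H : Subgroup GQ} {inv : Subgroup GQ → (GQ → GQ → F) →ₗ[F] F} (hi : Iv H inv)
    {l : ℕ} {S : Set GQ} (hS : IsDec l S) {γ : GQ} (hγ : ∀ x, x ∈ H ↔ γ * x * γ⁻¹ ∈ H)
    (g : GQ) {a b : GQ → F} (ha : Ch H a) (hb : Ch H b) {s t : F}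
    (ea : ∀ x ∈ H, a (γ * x * γ⁻¹) = s * a x) (eb : ∀ x ∈ H, b (γ * x * γ⁻¹) = t * b x) :
    inv (Dc S (γ * g)) (cup a b) = s * t * inv (Dc S g) (cup a b) := by
  obtain ⟨h1, h2⟩ := hi l _ (Ob.isDec_Dc hS g)
  rw [← h2 γ _ hγ (Ob.Dc_mul S γ g) _ (sy ha hb)]
  have ca : Ch H fun x => a (γ * x * γ⁻¹) := by
    have e : (fun x : H => a (γ * x * γ⁻¹)) = s • fun x : H => a x := funext fun x => ea x x.2
    unfold Ch
    rw [e]
    exact Submodule.smul_mem _ _ ha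
  have cb : Ch H fun x => b (γ * x * γ⁻¹) := by
    have e : (fun x : H => b (γ * x * γ⁻¹)) = t • fun x : H => b x := funext fun x => eb x x.2
    unfold Ch
    rw [e]
    exact Submodule.smul_mem _ _ hb
  have k := (h1 _ (sub_mem (sy ca cb) (Submodule.smul_mem _ (s * t) (sy ha hb)))).2
    (cb0 fun x hx y hy => by
      simp only [Pi.sub_apply, Pi.smul_apply, cup, smul_eq_mul, ea x hx.1, eb y hy.1]; ring)
  rw [map_sub, map_smul, sub_eq_zero] at k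
  exact k

variable {ρ : GQ →* GL (Fin 2) F} {T : Finset ℕ} {D : ℕ → Set GQ}

theorem zt_cj {θ c : GQ → F} (hc : c ∈ Zt θ T (GB ρ)) (h1 : ∀ x ∈ GP ρ, θ x = 1) {γ x : GQ}
    (hγ : γ ∈ GB ρ) (hx : x ∈ GP ρ) : c (γ * x * γ⁻¹) = θ γ * c x := by
  have m : γ * x * γ⁻¹ ∈ GP ρ := Bor.nrm hγ hx
  have e := hc.1 _ (Bor.le m) γ hγ
  rw [inv_mul_cancel_right, hc.1 γ hγ x (Bor.le hx), h1 _ m] at e
  linear_combination -e

theorem gp_iff {γ : GQ} (hγ : γ ∈ GB ρ) (x : GQ) : x ∈ GP ρ ↔ γ * x * γ⁻¹ ∈ GP ρ :=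
  ⟨Bor.nrm hγ, fun k => by
    have := Bor.nrm (inv_mem hγ) k
    rwa [show γ⁻¹ * (γ * x * γ⁻¹) * γ⁻¹⁻¹ = x by group] at this⟩

theorem ft_fin {θ : GQ → F} {Γ : Subgroup GQ} (hΓ : Γ.index ≠ 0) (h0 : ∀ γ ∈ Γ, θ γ ≠ 0) :
    Module.rank F (Ft θ T D Γ) < Cardinal.aleph0 := by
  haveI : Finite (GQ ⧸ Γ) := Nat.finite_of_card_ne_zero hΓ
  let e : Ft θ T D Γ →ₗ[F] (T × (GQ ⧸ Γ) → F) :=
    { toFun := fun f p => f.1 p.1 p.2.out⁻¹
      map_add' := fun _ _ => rfl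
      map_smul' := fun _ _ => rfl }
  refine (e.rank_le_of_injective ((injective_iff_map_eq_zero _).2 fun f hf => ?_)).trans_lt
    (Module.rank_lt_aleph0 _ _)
  refine Subtype.ext (funext fun l => ?_)
  by_cases hl : l ∈ T
  · funext g
    obtain ⟨p, hp⟩ := QuotientGroup.mk_out_eq_mul Γ g⁻¹
    have k : f.1 l (QuotientGroup.mk g⁻¹ : GQ ⧸ Γ).out⁻¹ = 0 := congrFun hf (⟨l, hl⟩, _)
    rw [hp, mul_inv_rev, inv_inv, f.2.2.1 l _ (inv_mem p.2)] at k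
    exact (mul_eq_zero.1 k).resolve_left (h0 _ (inv_mem p.2))
  · exact f.2.1 l hl

variable [CharP F 2]

theorem a_cj (h : Hyp ρ T D) {γ x : GQ} (hγ : γ ∈ GB ρ) (hx : x ∈ GP ρ) :
    mx ρ (γ * x * γ⁻¹) 0 1 = ch ρ γ * mx ρ x 0 1 := by
  have e : mx ρ (γ * x * γ⁻¹) = mx ρ γ * mx ρ x * mx ρ γ⁻¹ := by
    simp only [mx, map_mul, Units.val_mul]
  obtain ⟨u0, u1, u2, -⟩ := Fb.uni hx
  have u0 : mx ρ x 1 0 = 0 := u0
  rw [e, (Fb.act (Bor.det h.std) hγ _).2.2.2, u0, u1, u2, CharTwo.add_self_eq_zero]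
  ring

/-- **the rank of the obstruction** -/
theorem obs [Finite F] (hH : HASSE) (hS : SYL) (hone : ONE) (h : Hyp ρ T D) :
    ∃ K : Submodule F ((GQ → F) × (GQ → F)), (∀ k ∈ K, k.1 ∈ Zt (ci ρ) T (GB ρ) ∧
      k.2 ∈ Zt (fun _ => (1 : F)) T (GB ρ) ∧ Cb (GP ρ) (cup (fun g => mx ρ g 0 1) k.1) ∧
      Cb (GP ρ) (cup (fun g => mx ρ g 0 1) k.2 + cup (fun g => mx ρ g 0 1 ^ 2) k.1)) ∧
      Module.rank F (Zt (ci ρ) T (GB ρ)) + Module.rank F (Zt (fun _ => (1 : F)) T (GB ρ)) + 1 ≤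
        Module.rank F K + Module.rank F (FN ρ (fun _ => 1) T D) +
          Module.rank F (FN ρ (ch ρ) T D) := by
  classical
  obtain ⟨inv, hi⟩ := hS F (GP ρ) (opP h)
  have hi : Iv (GP ρ) inv := hi
  obtain ⟨V, v1, v2, v3, ⟨l0, hl0, g0, v4⟩, v5⟩ := one89 hone h
  let a : GQ → F := fun g => mx ρ g 0 1
  let b : GQ → F := fun g => mx ρ g 0 1 ^ 2
  have ha : Ch (GP ρ) a := Lb.ch_a h
  have hb : Ch (GP ρ) b := Lb.ch_a2 h
  let cu : (GQ → F) → (GQ → F) →ₗ[F] (GQ → GQ → F) := fun u =>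
    { toFun := cup u
      map_add' := fun x y => by funext g k; simp only [cup, Pi.add_apply, mul_add]
      map_smul' := fun r x => by
        funext g k; simp only [cup, Pi.smul_apply, smul_eq_mul, RingHom.id_apply]; ring }
  let ob : (ℕ → GQ → Prop) → (GQ → GQ → F) →ₗ[F] (ℕ → GQ → F) := fun W =>
    { toFun := fun o l g => if W l g then inv (Dc (D l) g) o else 0
      map_add' := fun x y => by
        funext l g; simp only [Pi.add_apply, map_add]; split_ifs <;> simp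
      map_smul' := fun r x => by
        funext l g; simp only [Pi.smul_apply, map_smul, RingHom.id_apply]; split_ifs <;> simp }
  let o1 : ((GQ → F) × (GQ → F)) →ₗ[F] (ℕ → GQ → F) :=
    (ob fun l g => l ∈ T ∧ ¬ V l g) ∘ₗ cu a ∘ₗ LinearMap.fst F _ _
  let o2 : ((GQ → F) × (GQ → F)) →ₗ[F] (ℕ → GQ → F) :=
    (ob fun l _ => l ∈ T) ∘ₗ (cu a ∘ₗ LinearMap.snd F _ _ + cu b ∘ₗ LinearMap.fst F _ _)
  have e1 : ∀ k l g, o1 k l g = if l ∈ T ∧ ¬ V l g then inv (Dc (D l) g) (cup a k.1) else 0 :=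
    fun k l g => by
      by_cases n : l ∈ T ∧ ¬ V l g
      · exact (if_pos n).trans (if_pos n).symm
      · exact (if_neg n).trans (if_neg n).symm
  have e2 : ∀ k l g, o2 k l g =
      if l ∈ T then inv (Dc (D l) g) (cup a k.2 + cup b k.1) else 0 := fun k l g => by
    by_cases n : l ∈ T
    · exact (if_pos n).trans (if_pos n).symm
    · exact (if_neg n).trans (if_neg n).symm
  have at0 : ∀ l ∈ T, ∀ g, ∀ o ∈ Sy F (GP ρ), inv (Dc (D l) g) o = 0 → Lb.At ρ D o l g :=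
    fun l hl g o ho k D' hD' => by
      rw [show D' = Dc (D l) g from Subgroup.ext fun x => by
        rw [hD', Ob.mem_Dc (h.dec l hl)]]
      exact ((hi l _ (Ob.isDec_Dc (h.dec l hl) g)).1 o ho).1 k
  have ns : ∀ l ∈ T, ∀ g, ¬ Ns ρ D l g → ∀ o ∈ Sy F (GP ρ), (∀ x y, ρ x = 1 → o x y = 0) →
      inv (Dc (D l) g) o = 0 := fun l hl g k o ho h0 =>
    ((hi l _ (Ob.isDec_Dc (h.dec l hl) g)).1 o ho).2 (cb0 fun x hx y _ => h0 x y (by
      by_contra n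
      exact k ⟨x, hx.1, n, (Ob.mem_Dc (h.dec l hl)).1 hx.2⟩))
  have c1 : ∀ x ∈ GP ρ, ci ρ x = 1 := fun x hx => by rw [ci, (Fb.uni hx).2.2.1, one_pow]
  let W := (Zt (ci ρ) T (GB ρ)).prod (Zt (fun _ => (1 : F)) T (GB ρ))
  refine ⟨W ⊓ LinearMap.ker (o1.prod o2), fun k hk => ⟨hk.1.1, hk.1.2, ?_, ?_⟩, ?_⟩
  · refine Lb.loc1 hH unrC h hk.1.1 (v5 _ hk.1.1 fun l hl g n =>
      at0 l hl g _ (sy ha (Lb.ch_z hk.1.1)) ?_)
    have := congrFun (congrFun (congrArg Prod.fst hk.2) l) g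
    exact (if_pos ⟨hl, n⟩).symm.trans ((e1 k l g).symm.trans this)
  · refine Lb.loc2 hH unrC h hk.1.1 hk.1.2 fun l hl g => at0 l hl g _
      (add_mem (sy ha (Lb.ch_s hk.1.2)) (sy hb (Lb.ch_z hk.1.1))) ?_
    have := congrFun (congrFun (congrArg Prod.snd hk.2) l) g
    exact (if_pos hl).symm.trans ((e2 k l g).symm.trans this)
  have r0 : Module.rank F (Zt (ci ρ) T (GB ρ)) + Module.rank F (Zt (fun _ => (1 : F)) T (GB ρ)) ≤
      Module.rank F W := by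
    rw [← rank_prod']
    exact LinearMap.rank_le_of_injective
      (((Zt (ci ρ) T (GB ρ)).subtype.prodMap (Zt (fun _ => (1 : F)) T (GB ρ)).subtype).codRestrict
        W fun p => ⟨p.1.2, p.2.2⟩) fun p q e =>
      Prod.ext (Subtype.ext (congrArg (fun w => w.1.1) e))
        (Subtype.ext (congrArg (fun w => w.1.2) e))
  have r1 := Fb.rank_two W (o1.prod o2) LinearMap.id
    ((FN ρ (fun _ => 1) T D ⊓ Sup F fun l g => ¬ V l g).prod (FN ρ (ch ρ) T D))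
    (W ⊓ LinearMap.ker (o1.prod o2))
    (fun k hk => ⟨⟨⟨⟨fun l hl => ?_, fun l γ hγ g => ?_, fun l d hd g => ?_⟩, fun l g n => ?_⟩,
      fun l g n => ?_⟩, ⟨fun l hl => ?_, fun l γ hγ g => ?_, fun l d hd g => ?_⟩,
      fun l g n => ?_⟩) (fun k hk e => ⟨hk, e⟩) fun _ _ _ e => e
  · have r2 := Fb.rank_pr (FN ρ (fun _ => 1) T D ⊓ Sup F fun l g => ¬ V l g) (FN ρ (ch ρ) T D)
    have r3 := Fb.rank_sup (FN ρ (fun _ => 1) T D) V
    have r4 : 1 ≤ Module.rank F ↥(FN ρ (fun _ => 1) T D ⊓ Sup F V) := by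
      rw [Cardinal.one_le_iff_pos, rank_pos_iff_exists_ne_zero]
      refine ⟨⟨fun l g => if l ∈ T ∧ V l g then 1 else 0, ⟨⟨fun l hl => ?_, fun l γ hγ g => ?_,
        fun l d hd g => ?_⟩, fun l g n => if_neg fun k => n (v3 l g k.2)⟩,
        fun l g n => if_neg fun k => n k.2⟩, fun e => ?_⟩
      · funext g
        exact if_neg fun k => hl k.1
      · simp only [v1 l γ hγ g, one_mul]
      · simp only [v2 l d hd g]
      · have := congrFun (congrFun (congrArg Subtype.val e) l0) g0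
        exact one_ne_zero ((if_pos ⟨hl0, v4⟩).symm.trans this)
    refine (add_le_add (r0.trans (r1.trans (add_le_add r2 le_rfl))) r4).trans ?_
    refine le_trans (le_of_eq ?_) (add_le_add (add_le_add le_rfl r3) le_rfl)
    ring
  · funext g
    exact if_neg fun k => hl k.1
  · change o1 k l (γ * g) = 1 * o1 k l g
    rw [e1, e1, v1 l γ hγ g]
    split_ifs with n
    · rw [eqv hi (h.dec l n.1) (gp_iff hγ) g ha (Lb.ch_z hk.1) (fun x hx => a_cj h hγ hx)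
        fun x hx => zt_cj hk.1 c1 hγ hx, Fb.ch_ci (Bor.det h.std) hγ]
    · rw [mul_zero]
  · change o1 k l (g * d) = o1 k l g
    rw [e1, e1, v2 l d hd g, Ob.Dc_right _ hd]
  · change o1 k l g = 0
    rw [e1]
    split_ifs with m
    · exact ns l m.1 g n _ (sy ha (Lb.ch_z hk.1)) fun x y e => by
        simp only [cup, a, Lb.a0 e, zero_mul]
    · rfl
  · exact if_neg fun m => n m.2
  · funext g
    exact if_neg hl
  · change o2 k l (γ * g) = ch ρ γ * o2 k l g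
    rw [e2, e2]
    split_ifs with n
    · rw [map_add, map_add,
        eqv hi (h.dec l n) (gp_iff hγ) g ha (Lb.ch_s hk.2) (fun x hx => a_cj h hγ hx)
          fun x hx => zt_cj hk.2 (fun _ _ => rfl) hγ hx,
        eqv hi (h.dec l n) (gp_iff hγ) g hb (Lb.ch_z hk.1) (s := ch ρ γ ^ 2)
          (fun x hx => by simp only [b, a_cj h hγ hx, mul_pow])
          fun x hx => zt_cj hk.1 c1 hγ hx, pow_two, mul_assoc (ch ρ γ) (ch ρ γ),
        Fb.ch_ci (Bor.det h.std) hγ]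
      ring
    · rw [mul_zero]
  · change o2 k l (g * d) = o2 k l g
    rw [e2, e2, Ob.Dc_right _ hd]
  · change o2 k l g = 0
    rw [e2]
    split_ifs with m
    · exact ns l m g n _ (add_mem (sy ha (Lb.ch_s hk.2)) (sy hb (Lb.ch_z hk.1))) fun x y e => by
        simp [cup, a, b, Lb.a0 e]
    · rfl

end Vale.Agent.P022E.GW.H89
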