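import Vale.Agent.P022E.GW.LbH35a
import Vale.Agent.P022E.GW.Fxb
import Vale.Agent.P022E.GW.Bor
import Vale.Agent.P022E.GW.Gys

/-!
# P022E, block GW: the rank of the obstruction map
-/

set_option linter.all false

noncomputable section

namespace Vale.Agent.P022E.GW.H35

open NumberField
open Vale.Agent.P022 Vale.Agent.P022.H443
open Vale.Agent.P027M.S (Inert mx)
open Vale.Agent.P022D.Sel (M2 IsDec TanP Big Stab)
open Vale.Agent.P022D.L2c (Hm Cob IsZ2 cup up)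
open Vale.Agent.P022D.W (dec)
open Vale.Agent.P022E.GW.Fb
open scoped Pointwise

variable {F : Type} [Field F]

theorem mem_cl {l : ℕ} {D : Set GQ} (h : IsDec l D) (x : GQ) : x ∈ Subgroup.closure D ↔ x ∈ D := by
  rcases h with ⟨-, c, hc, rfl⟩ | ⟨-, P, -, -, rfl⟩
  · exact cl_two hc x
  · rw [cl_dec]; rfl

theorem lcH {M : Type} {H U : Subgroup GQ} (hU : IsOpen (U : Set GQ)) (c : GQ → M)
    (h : ∀ g ∈ H, ∀ u ∈ H, u ∈ U → c (g * u) = c g) : IsLocallyConstant fun x : H => c x := by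
  refine (IsLocallyConstant.iff_exists_open _).2 fun g =>
    ⟨(fun u : H => (g : GQ)⁻¹ * u) ⁻¹' U, hU.preimage (by fun_prop), by simp, fun y hy => ?_⟩
  rw [← h g g.2 _ (H.mul_mem (H.inv_mem g.2) y.2) hy, mul_inv_cancel_left]

theorem ch_le {H K : Subgroup GQ} (h : H ≤ K) {a : GQ → F} (ha : Ch K a) : Ch H a :=
  Gy.hm_comp (Subgroup.inclusion h) (Gy.inc_cont h) ha

theorem ch_congr {H : Subgroup GQ} {a b : GQ → F} (c : F) (h : ∀ x ∈ H, a x = c * b x)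
    (hb : Ch H b) : Ch H a := by
  have e : (fun x : H => a x) = c • fun x : H => b x := funext fun x => h x x.2
  unfold Ch
  rw [e]
  exact Submodule.smul_mem _ c hb

theorem ch_add {H : Subgroup GQ} {a : GQ → F} (ha : Ch H a) {x y : GQ} (hx : x ∈ H) (hy : y ∈ H) :
    a (x * y) = a x + a y := ha.2 ⟨x, hx⟩ ⟨y, hy⟩

theorem cb_congr {H : Subgroup GQ} {y y' : GQ → GQ → F} (h : ∀ a ∈ H, ∀ b ∈ H, y a b = y' a b)
    (hy : Cb H y') : Cb H y := by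
  have e : rs H y = rs H y' := funext fun a => funext fun b => h a a.2 b b.2
  unfold Cb
  rwa [e]

theorem cb_zero {H : Subgroup GQ} {y : GQ → GQ → F} (h : ∀ a ∈ H, ∀ b ∈ H, y a b = 0) : Cb H y :=
  cb_congr (y' := 0) h (Submodule.zero_mem _)

theorem z2_le {H K : Subgroup GQ} (h : H ≤ K) {y : GQ → GQ → F} (hy : Z2 K y) : Z2 H y :=
  Gy.z2_comp (Subgroup.inclusion h) (Gy.inc_cont h) hy

theorem z2_cup {H : Subgroup GQ} {a b : GQ → F} (ha : Ch H a) (hb : Ch H b) : Z2 H (cup a b) :=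
  Gy.z2_cup ha hb

theorem sy_cup {H : Subgroup GQ} {a b : GQ → F} (ha : Ch H a) (hb : Ch H b) : cup a b ∈ Sy F H :=
  Submodule.subset_span ⟨a, b, ha, hb, rfl⟩

theorem unr1 [CharP F 2] (hU : UNR) {H : Subgroup GQ} (hH : IsOpen (H : Set GQ)) {l : ℕ}
    {P : Ideal (𝓞 Qb)} (hP : Ov l P) {a b : GQ → F} (ha : Ch H a) (hb : Ch H b)
    (a0 : ∀ i ∈ H, Inert P i → a i = 0) (b0 : ∀ i ∈ H, Inert P i → b i = 0) :
    Cb (H ⊓ dec P) (cup a b) :=
  hU F H l P _ hH hP (z2_le inf_le_left (z2_cup ha hb)) fun g hg h hh i hi k =>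
    ⟨by rw [cup, cup, ch_add ha hg.1 hi, a0 i hi k, add_zero],
      by rw [cup, cup, ch_add hb hh.1 hi, b0 i hi k, add_zero]⟩

theorem rank_ker {V A : Type} [AddCommGroup V] [Module F V] [AddCommGroup A] [Module F A]
    (W : Submodule F V) (φ : V →ₗ[F] A) (A' : Submodule F A) (h : ∀ w ∈ W, φ w ∈ A') :
    Module.rank F W ≤ Module.rank F A' + Module.rank F ↥(W ⊓ LinearMap.ker φ) :=
  rank_two W φ LinearMap.id A' _ h (fun w hw k => ⟨hw, k⟩) fun _ _ _ k => k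

theorem rank_pr' {A B : Type} [AddCommGroup A] [Module F A] [AddCommGroup B] [Module F B]
    (A' : Submodule F A) (B' : Submodule F B) :
    Module.rank F A' + Module.rank F B' ≤ Module.rank F (A'.prod B') := by
  rw [← rank_prod']
  refine LinearMap.rank_le_of_injective
    ((A'.subtype.prodMap B'.subtype).codRestrict (A'.prod B') fun w => ⟨w.1.2, w.2.2⟩) ?_
  intro v w h
  have k := congrArg Subtype.val h
  exact Prod.ext (Subtype.ext (congrArg Prod.fst k)) (Subtype.ext (congrArg Prod.snd k))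

theorem rank_one {V : Type} [AddCommGroup V] [Module F V] (S : Submodule F V) (φ : V →ₗ[F] F)
    {v : V} (hv : v ∈ S) (h1 : φ v = 1) :
    Module.rank F ↥(S ⊓ LinearMap.ker φ) + 1 ≤ Module.rank F S := by
  have v0 : v ≠ 0 := by rintro rfl; simp at h1
  have r1 : Module.rank F (Submodule.span F {v}) = 1 :=
    (LinearEquiv.toSpanNonzeroSingleton F V v v0).rank_eq.symm.trans (Module.rank_self F)
  rw [← r1, ← Submodule.rank_sup_add_rank_inf_eq]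
  have : (S ⊓ LinearMap.ker φ) ⊓ Submodule.span F {v} = ⊥ := by
    rw [eq_bot_iff]
    rintro w ⟨⟨-, h2⟩, h3⟩
    obtain ⟨c, rfl⟩ := Submodule.mem_span_singleton.1 h3
    have h4 : φ (c • v) = 0 := h2
    rw [map_smul, h1, smul_eq_mul, mul_one] at h4
    rw [h4, zero_smul]; exact Submodule.zero_mem _
  rw [this, rank_bot, add_zero]
  exact Submodule.rank_mono (sup_le inf_le_left ((Submodule.span_singleton_le_iff_mem _ _).2 hv))

/-- the local invariants at the places above `T` -/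
def Iv (inv : Subgroup GQ → (GQ → GQ → F) →ₗ[F] F) (T : Finset ℕ) (D : ℕ → Set GQ) (b : GQ → F) :
    (GQ → F) →ₗ[F] (ℕ → GQ → F) where
  toFun z l g := if l ∈ T then inv (Dg (D l) g) (cup b z) else 0
  map_add' y z := by
    funext l g
    have e : cup b (y + z) = cup b y + cup b z := by
      funext s t; simp only [cup, Pi.add_apply, mul_add]
    simp only [Pi.add_apply, e, map_add]
    split_ifs <;> simp
  map_smul' c y := by
    funext l g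
    have e : cup b (c • y) = c • cup b y := by
      funext s t; simp only [cup, Pi.smul_apply, smul_eq_mul]; ring
    simp only [Pi.smul_apply, e, map_smul, RingHom.id_apply]
    split_ifs <;> simp

theorem Iv_in {inv : Subgroup GQ → (GQ → GQ → F) →ₗ[F] F} {T : Finset ℕ} {D : ℕ → Set GQ}
    (b z : GQ → F) {l : ℕ} (hl : l ∈ T) (g : GQ) :
    Iv inv T D b z l g = inv (Dg (D l) g) (cup b z) := if_pos hl

/-- the properties of the local invariants -/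
def Sv (H : Subgroup GQ) (inv : Subgroup GQ → (GQ → GQ → F) →ₗ[F] F) : Prop :=
  ∀ (l : ℕ) (D : Subgroup GQ), IsDec l (D : Set GQ) →
    (∀ z ∈ Sy F H, inv D z = 0 ↔ Cb (H ⊓ D) z) ∧
    ∀ (g : GQ) (D' : Subgroup GQ), (∀ x, x ∈ H ↔ g * x * g⁻¹ ∈ H) →
      (∀ x, x ∈ D ↔ g * x * g⁻¹ ∈ D') → ∀ z ∈ Sy F H,
        inv D (fun x y => z (g * x * g⁻¹) (g * y * g⁻¹)) = inv D' z

variable {ρ : GQ →* GL (Fin 2) F} {T : Finset ℕ} {D : ℕ → Set GQ}

theorem nrm {g p : GQ} (hg : g ∈ GB ρ) : p ∈ GP ρ ↔ g * p * g⁻¹ ∈ GP ρ :=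
  ⟨fun h => Bor.nrm (ρ := ρ) hg h, fun h => by
    have k := Bor.nrm (ρ := ρ) ((GB ρ).inv_mem hg) h
    rwa [show g⁻¹ * (g * p * g⁻¹) * g⁻¹⁻¹ = p by group] at k⟩

theorem Iv_mem {inv : Subgroup GQ → (GQ → GQ → F) →ₗ[F] F} (hv : Sv (GP ρ) inv)
    (hD : ∀ l ∈ T, IsDec l (D l)) {b z : GQ → F} (hb : Ch (GP ρ) b) (hz : Ch (GP ρ) z)
    (β θ η : GQ → F) (h1 : ∀ γ ∈ GB ρ, ∀ x ∈ GP ρ, b (γ * x * γ⁻¹) = β γ * b x)
    (h2 : ∀ γ ∈ GB ρ, ∀ x ∈ GP ρ, z (γ * x * γ⁻¹) = θ γ * z x)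
    (h3 : ∀ γ ∈ GB ρ, η γ = β γ * θ γ) (b0 : ∀ x, ρ x = 1 → b x = 0) :
    Iv inv T D b z ∈ FN ρ η T D := by
  refine ⟨⟨fun l hl => funext fun g => if_neg hl, fun l γ hγ g => ?_, fun l d hd g => ?_⟩,
    fun l g hn => ?_⟩
  · by_cases hl : l ∈ T
    swap
    · show (if l ∈ T then _ else _) = η γ * (if l ∈ T then _ else _)
      rw [if_neg hl, if_neg hl, mul_zero]
    obtain ⟨k1, k2⟩ := hv l _ (isDec_Dg (hD l hl) g)
    rw [Iv_in _ _ hl, Iv_in _ _ hl, ← k2 γ _ (fun x => nrm hγ) (fun x => Dg_left _ γ g x) _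
      (sy_cup hb hz), ← smul_eq_mul, ← map_smul, ← sub_eq_zero, ← map_sub]
    refine (k1 _ (Submodule.sub_mem _ (sy_cup (ch_congr _ (h1 γ hγ) hb) (ch_congr _ (h2 γ hγ) hz))
      (Submodule.smul_mem _ _ (sy_cup hb hz)))).2 (cb_zero fun s hs t ht => ?_)
    simp only [Pi.sub_apply, Pi.smul_apply, cup, smul_eq_mul]
    rw [h1 γ hγ s hs.1, h2 γ hγ t ht.1, h3 γ hγ]; ring
  · show (if l ∈ T then _ else _) = (if l ∈ T then _ else _)
    rw [Dg_right hd]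
  · by_cases hl : l ∈ T
    swap
    · exact if_neg hl
    rw [Iv_in _ _ hl]
    refine ((hv l _ (isDec_Dg (hD l hl) g)).1 _ (sy_cup hb hz)).2 (cb_zero fun s hs t ht => ?_)
    rw [cup, b0 s (by_contra fun k => hn ⟨s, hs.1, k, (mem_cl (hD l hl) _).1 hs.2⟩), zero_mul]

theorem mxm (g h : GQ) : mx ρ (g * h) = mx ρ g * mx ρ h := by
  simp only [mx, map_mul, Units.val_mul]

theorem mx1 {g : GQ} (h : ρ g = 1) : mx ρ g = 1 := by rw [mx, h, Units.val_one]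

theorem zt_ch {θ z : GQ → F} (hz : z ∈ Zt θ T (GB ρ)) (h : ∀ x ∈ GP ρ, θ x = 1) :
    Ch (GP ρ) z := by
  obtain ⟨U, hU, k⟩ := hz.2.2.1
  refine ⟨lcH hU z fun g hg u hu h' => ?_, fun x y => ?_⟩
  · rw [hz.1 g (uni hg).1 u (uni hu).1, k u h', mul_zero, add_zero]
  · show z (x * y) = z x + z y
    rw [hz.1 x (uni x.2).1 y (uni y.2).1, h x x.2, one_mul]

theorem zt_cj {θ z : GQ → F} (hz : z ∈ Zt θ T (GB ρ)) (h : ∀ x ∈ GP ρ, θ x = 1) :
    ∀ γ ∈ GB ρ, ∀ x ∈ GP ρ, z (γ * x * γ⁻¹) = θ γ * z x := fun γ hγ x hx => by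
  have k := (nrm hγ).1 hx
  have e1 := hz.1 _ (uni k).1 γ hγ
  have e2 := hz.1 γ hγ x (uni hx).1
  rw [inv_mul_cancel_right, h _ k] at e1
  linear_combination e2 - e1

theorem ci_one : ∀ x ∈ GP ρ, ci ρ x = 1 := fun x hx => by rw [ci, (uni hx).2.2.1, one_pow]

theorem a_add {x y : GQ} (hx : x ∈ GP ρ) (hy : y ∈ GP ρ) :
    mx ρ (x * y) 0 1 = mx ρ x 0 1 + mx ρ y 0 1 := by
  rw [mxm, Matrix.mul_apply, Fin.sum_univ_two, (uni hx).2.1, (uni hy).2.2.1]; ring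

theorem a_zero {x : GQ} (h : ρ x = 1) : mx ρ x 0 1 = 0 := by rw [mx1 h]; rfl

theorem a_ch (ho : IsOpen {g : GQ | ρ g = 1}) : Ch (GP ρ) fun g => mx ρ g 0 1 :=
  ⟨lcH (U := ρ.ker) ho (fun g => mx ρ g 0 1) fun g _ u _ h => by rw [mxm, mx1 h, mul_one],
    fun x y => a_add x.2 y.2⟩

variable [CharP F 2]

theorem a2_ch (ho : IsOpen {g : GQ | ρ g = 1}) : Ch (GP ρ) fun g => mx ρ g 0 1 ^ 2 :=
  ⟨(a_ch ho).1.comp (· ^ 2), fun x y => by
    show mx ρ (x * y) 0 1 ^ 2 = mx ρ x 0 1 ^ 2 + mx ρ y 0 1 ^ 2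
    rw [a_add x.2 y.2, CharTwo.add_sq]⟩

theorem a_cj (hd : ∀ g, (mx ρ g).det = 1) : ∀ γ ∈ GB ρ, ∀ x ∈ GP ρ,
    mx ρ (γ * x * γ⁻¹) 0 1 = ch ρ γ * mx ρ x 0 1 := fun γ hγ x hx => by
  have k : mx ρ x 1 0 = 0 := (uni hx).1
  rw [mxm, mxm, (act hd hγ _).2.2.2, (uni hx).2.1, (uni hx).2.2.1, k, CharTwo.add_self_eq_zero]
  ring

theorem o_z2 (ho : IsOpen {g : GQ | ρ g = 1}) {z : GQ → F} (hz : z ∈ Zt (ci ρ) T (GB ρ))
    (hd : ∀ g, (mx ρ g).det = 1) :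
    Z2 (GB ρ) fun g h => mx ρ g 0 1 * mx ρ g 1 1 * z h := by
  obtain ⟨U, hU, k⟩ := hz.2.2.1
  have l1 : IsLocallyConstant fun x : GB ρ => mx ρ x 0 1 * mx ρ x 1 1 :=
    lcH (U := ρ.ker) ho (fun g => mx ρ g 0 1 * mx ρ g 1 1) fun g _ u _ h => by
      rw [mxm, mx1 h, mul_one]
  have l2 : IsLocallyConstant fun x : GB ρ => z x :=
    lcH hU z fun g hg u hu h' => by rw [hz.1 g hg u hu, k u h', mul_zero, add_zero]
  refine ⟨(l1.comp_continuous continuous_fst).mul (l2.comp_continuous continuous_snd),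
    fun g h k => ?_⟩
  have g0 : mx ρ g 1 0 = 0 := g.2
  have d := d01 hd g.2
  simp only [rs, Subgroup.coe_mul]
  rw [hz.1 h h.2 k k.2, mxm, Matrix.mul_apply, Matrix.mul_apply, Fin.sum_univ_two,
    Fin.sum_univ_two, g0, ci]
  linear_combination -(mx ρ h 0 1 * mx ρ h 1 1 * z k) * d

theorem up_cb (hO : ODG) (H : Hyp ρ T D) {z : GQ → F} (hz : z ∈ Zt (ci ρ) T (GB ρ))
    {E : Subgroup GQ} (h : Cb (GP ρ ⊓ E) (cup (fun g => mx ρ g 0 1) z)) :
    Cb (GB ρ ⊓ E) fun g h => mx ρ g 0 1 * mx ρ g 1 1 * z h := by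
  haveI : ((GP ρ).subgroupOf (GB ρ)).Normal := Bor.nrm' (ρ := ρ)
  have k : Odd ((GP ρ).relIndex (GB ρ)) := Bor.odd_rel H.std
  refine hO F _ (GP ρ) _ (Subgroup.isOpen_mono (H₁ := ρ.ker) (Bor.ker_le (ρ := ρ)) H.opn) ?_
    (z2_le inf_le_left (o_z2 H.opn hz (Bor.det H.std))) ?_
  · rw [← Subgroup.relIndex_subgroupOf (inf_le_left : GB ρ ⊓ E ≤ GB ρ)]
    exact k.of_dvd_nat (Subgroup.relIndex_dvd_index_of_normal _ _)
  · have e : GB ρ ⊓ E ⊓ GP ρ = GP ρ ⊓ E :=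
      le_antisymm (fun x hx => ⟨hx.2, hx.1.2⟩) fun x hx => ⟨⟨(uni hx.1).1, hx.2⟩, hx.1⟩
    rw [e]
    exact cb_congr (fun s hs t _ => by rw [cup, (uni hs.1).2.2.1, mul_one]) h

theorem dec_le {l : ℕ} {P : Ideal (𝓞 Qb)} {φ : GQ} (ho : IsOpen {g : GQ | ρ g = 1}) (hP : Ov l P)
    (hφ : Fb l P φ) (hi : ∀ g, Inert P g → ρ g = 1) (h : φ ∈ GP ρ) : dec P ≤ GP ρ := by
  intro g hg
  obtain ⟨k, s, u, hs, hu, rfl⟩ := P022D.W.dec_gen hP.1 hP.2.1 hP.2.2 hφ hg ρ.ker ho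
  exact mul_mem (mul_mem (Bor.ker_le (ρ := ρ) hu) (pow_mem h k))
    (Bor.ker_le (ρ := ρ) (hi s hs))

theorem smul_eq {P : Ideal (𝓞 Qb)} {d : GQ} (h : Stab P d) : d • P = P := by
  ext x
  rw [P022D.Sel.Pl.mem_smul, ← h, smul_inv_smul]

/-- reciprocity: the class is trivial at the last place -/
theorem last [Finite F] (hO : ODG) (hU : UNR) (h1 : ONE) (H : Hyp ρ T D) {z : GQ → F}
    (hz : z ∈ Zt (ci ρ) T (GB ρ)) {l : ℕ} {P : Ideal (𝓞 Qb)} {φ : GQ} (l2 : l ≠ 2) (hP : Ov l P)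
    (hφ : Fb l P φ) (hi : ∀ g, Inert P g → ρ g = 1) (h : φ ∈ GP ρ) (h' : ρ φ ≠ 1)
    (k0 : ∀ E : Subgroup GQ, IsDec 0 (E : Set GQ) → Cb (GP ρ ⊓ E) (cup (fun g => mx ρ g 0 1) z))
    (k1 : ∀ p ∈ T, ∀ R, Ov p R → (∀ γ ∈ GB ρ, R ≠ γ • P) →
      Cb (GP ρ ⊓ dec R) (cup (fun g => mx ρ g 0 1) z)) :
    Cb (GP ρ ⊓ dec P) (cup (fun g => mx ρ g 0 1) z) := by
  have oP : IsOpen (GP ρ : Set GQ) :=
    Subgroup.isOpen_mono (H₁ := ρ.ker) (Bor.ker_le (ρ := ρ)) H.opn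
  have le := dec_le H.opn hP hφ hi h
  have a0 : mx ρ φ 0 1 ≠ 0 := (uni h).2.2.2 h'
  have cz := zt_ch hz ci_one
  have key : ∀ τ, Gn l P τ → z τ = 0 := fun τ hτ => by
    have := h1 F (GB ρ) _ Unit (fun _ => l) (fun _ => P) (fun _ => τ) (fun _ => φ)
      (fun _ g => (mx ρ φ 0 1)⁻¹ * mx ρ g 0 1) (fun _ g => mx ρ φ 0 1 * z g)
      (Subgroup.isOpen_mono (fun x hx => (uni hx).1) oP) (o_z2 H.opn hz (Bor.det H.std))
      (fun _ => ⟨hP, l2, hτ, hφ, fun x hx => (uni (le hx)).1⟩) (fun _ _ _ _ _ => rfl)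
      (fun _ => ⟨ch_congr _ (fun _ _ => rfl) (ch_le le (a_ch H.opn)),
        ch_congr _ (fun _ _ => rfl) (ch_le le cz), fun g hg => by rw [a_zero (hi g hg), mul_zero],
        inv_mul_cancel₀ a0, cb_zero fun s hs t _ => by
          simp only [Pi.sub_apply, cup]
          rw [(uni (le hs)).2.2.1]
          field_simp
          ring⟩)
      (fun E hE => up_cb hO H hz (k0 E hE)) fun p R hR hn => up_cb hO H hz (by
        by_cases hp : p ∈ T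
        · refine k1 p hp R hR fun γ hγ e => hn () γ hγ fun x => ?_
          rw [e, P022D.Sel.Pl.mem_smul, inv_smul_smul]
        · exact unr1 hU oP hR (a_ch H.opn) cz (fun i _ k => a_zero (H.unr p hp R hR i k))
            fun i _ k => hz.2.2.2 p hp R hR i k)
    rw [Fintype.sum_unique] at this
    exact (mul_eq_zero.1 this).resolve_left a0
  obtain ⟨τ, hτ⟩ := ex_gn hP
  refine unr1 hU oP hP (a_ch H.opn) cz (fun i _ k => a_zero (hi i k)) fun i hi' k => ?_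
  obtain ⟨b, hb⟩ := IsAlgClosed.exists_pow_nat_eq (l : Qb) two_pos
  have all : ∀ g, Inert P g → g b = -b → Gn l P g := fun g hg e => ⟨hg, fun w hw => by
    rcases sq_eq_sq_iff_eq_or_eq_neg.1 (hw.trans hb.symm) with k | k <;> rw [k]
    · exact e
    · rw [map_neg, e]⟩
  rcases P022D.Sel.Kum.pm (w := b) (g := i) (by rw [hb, map_natCast]) with e | e
  · have t1 : i * τ ∈ inP P := (inP P).mul_mem k hτ.1
    have t2 := key _ (all _ t1 (by rw [AlgEquiv.mul_apply, hτ.2 b hb, map_neg, e]))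
    rwa [ch_add cz hi' (Bor.ker_le (ρ := ρ) (hi τ hτ.1)), key τ hτ, add_zero] at t2
  · exact key i (all i k e)

/-- **the rank of the obstruction map** -/
theorem obs [Finite F] (hH : HASSE) (hS : SYL) (h1 : ONE) (hU : UNR) (hO : ODG) (H : Hyp ρ T D) :
    ∃ K : Submodule F ((GQ → F) × (GQ → F)),
      K ≤ (Zt (ci ρ) T (GB ρ)).prod (Zt (fun _ => (1 : F)) T (GB ρ)) ∧
      (∀ k ∈ K, Cb (GP ρ) (cup (fun g => mx ρ g 0 1) k.1) ∧
        Cb (GP ρ) (cup (fun g => mx ρ g 0 1) k.2 + cup (fun g => mx ρ g 0 1 ^ 2) k.1)) ∧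
      Module.rank F (Zt (ci ρ) T (GB ρ)) + Module.rank F (Zt (fun _ => (1 : F)) T (GB ρ)) + 1 ≤
        Module.rank F K + Module.rank F (FN ρ (fun _ => 1) T D) +
          Module.rank F (FN ρ (ch ρ) T D) := by
  classical
  have oP : IsOpen (GP ρ : Set GQ) :=
    Subgroup.isOpen_mono (H₁ := ρ.ker) (Bor.ker_le (ρ := ρ)) H.opn
  have hd : ∀ g, (mx ρ g).det = 1 := Bor.det H.std
  obtain ⟨inv, hv⟩ := hS F (GP ρ) oP
  replace hv : Sv (GP ρ) inv := hv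
  obtain ⟨l, hl, l2, P, φ, hP, hφ, hi, hu, hu'⟩ := H.a0
  obtain ⟨R, hR, eR⟩ := dec_of hP.1.ne_zero (H.dec l hl)
  obtain ⟨g0, e0⟩ := ov_trans hR hP
  let a : GQ → F := fun g => mx ρ g 0 1
  let a2 : GQ → F := fun g => mx ρ g 0 1 ^ 2
  let O : ℕ → GQ → F := fun p g => if p = l ∧ ∃ γ ∈ GB ρ, g • R = γ • P then 1 else 0
  let ev : (ℕ → GQ → F) →ₗ[F] F :=
    { toFun := fun f => f l g0, map_add' := fun _ _ => rfl, map_smul' := fun _ _ => rfl }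
  have O1 : ev O = 1 := if_pos ⟨rfl, 1, one_mem _, by rw [one_smul, e0]⟩
  have OF : O ∈ FN ρ (fun _ => 1) T D := by
    refine ⟨⟨fun p hp => funext fun g => if_neg fun ⟨k, _⟩ => hp (by rw [k]; exact hl), fun p γ hγ g => ?_,
      fun p d hd g => ?_⟩, fun p g hn => if_neg ?_⟩
    · rw [one_mul]
      refine if_congr (and_congr_right fun _ => ⟨?_, ?_⟩) rfl rfl
      · rintro ⟨δ, hδ, e⟩
        exact ⟨γ⁻¹ * δ, mul_mem (inv_mem hγ) hδ, by rw [mul_smul, ← e, mul_smul, inv_smul_smul]⟩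
      · rintro ⟨δ, hδ, e⟩
        exact ⟨γ * δ, mul_mem hγ hδ, by rw [mul_smul, mul_smul, e]⟩
    · refine if_congr (and_congr_right fun k => ?_) rfl rfl
      rw [k, eR] at hd
      rw [mul_smul, smul_eq hd]
    · rintro ⟨rfl, γ, hγ, e⟩
      refine hn ⟨γ * φ * γ⁻¹, (nrm hγ).1 hu, fun k => hu' ?_, ?_⟩
      · rw [map_mul, map_mul, map_inv, mul_inv_eq_one, mul_eq_left] at k
        exact k
      · rw [eR]
        refine (mem_dec_smul R g _).1 ?_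
        rw [e, mem_dec_smul, show γ⁻¹ * (γ * φ * γ⁻¹) * γ = φ by group]
        exact P022D.W.phi_mem hP.1 hP.2.1 hφ
  let V := (Zt (ci ρ) T (GB ρ)).prod (Zt (fun _ => (1 : F)) T (GB ρ))
  let f0 : (GQ → F) × (GQ → F) →ₗ[F] (ℕ → GQ → F) := (Iv inv T D a).comp (LinearMap.fst F _ _)
  let f1 : (GQ → F) × (GQ → F) →ₗ[F] (ℕ → GQ → F) := f0 - (ev.comp f0).smulRight O
  let f2 : (GQ → F) × (GQ → F) →ₗ[F] (ℕ → GQ → F) :=
    (Iv inv T D a).comp (LinearMap.snd F _ _) + (Iv inv T D a2).comp (LinearMap.fst F _ _)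
  have ca : Ch (GP ρ) a := a_ch H.opn
  have ca2 : Ch (GP ρ) a2 := a2_ch H.opn
  have m0 : ∀ v ∈ V, f0 v ∈ FN ρ (fun _ => 1) T D := fun v hv' =>
    Iv_mem hv H.dec ca (zt_ch hv'.1 ci_one) (ch ρ) (ci ρ) _ (a_cj hd) (zt_cj hv'.1 ci_one)
      (fun γ hγ => (ch_ci hd hγ).symm) fun _ => a_zero
  have m1 : ∀ v ∈ V, f1 v ∈ FN ρ (fun _ => 1) T D ⊓ LinearMap.ker ev := fun v hv' =>
    ⟨sub_mem (m0 v hv') (Submodule.smul_mem _ _ OF), by
      show ev (f0 v - ev (f0 v) • O) = 0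
      rw [map_sub, map_smul, O1, smul_eq_mul, mul_one, sub_self]⟩
  have m2 : ∀ v ∈ V ⊓ LinearMap.ker f1, f2 v ∈ FN ρ (ch ρ) T D := fun v hv' =>
    add_mem (Iv_mem hv H.dec ca (zt_ch hv'.1.2 fun _ _ => rfl) (ch ρ) (fun _ => 1) _ (a_cj hd)
      (zt_cj hv'.1.2 fun _ _ => rfl) (fun γ _ => (mul_one _).symm) fun _ => a_zero)
      (Iv_mem hv H.dec ca2 (zt_ch hv'.1.1 ci_one) (fun g => ch ρ g ^ 2) (ci ρ) _
        (fun γ hγ x hx => by simp only [a2]; rw [a_cj hd γ hγ x hx, mul_pow])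
        (zt_cj hv'.1.1 ci_one) (fun γ hγ => by rw [sq, mul_assoc, ch_ci hd hγ, mul_one])
        fun x hx => by simp only [a2]; rw [a_zero hx, zero_pow two_ne_zero])
  have ur : ∀ {θ z b : GQ → F}, z ∈ Zt θ T (GB ρ) → (∀ x ∈ GP ρ, θ x = 1) → Ch (GP ρ) b →
      (∀ x, ρ x = 1 → b x = 0) → ∀ p ∉ T, ∀ E : Subgroup GQ, IsDec p (E : Set GQ) →
      Cb (GP ρ ⊓ E) (cup b z) := fun {θ z b} hz hθ hb b0 p hp E hE => by
    obtain ⟨S, hS, e⟩ := dec_of (fun k => hp (by rw [k]; exact H.h0)) hE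
    rw [show E = dec S from SetLike.coe_injective e]
    exact unr1 hU oP hS hb (zt_ch hz hθ) (fun i _ k => b0 i (H.unr p hp S hS i k))
      fun i _ k => hz.2.2.2 p hp S hS i k
  refine ⟨V ⊓ LinearMap.ker f1 ⊓ LinearMap.ker f2, inf_le_left.trans inf_le_left, ?_, ?_⟩
  · rintro ⟨z, s⟩ ⟨⟨⟨hz, hs⟩, k1⟩, k2⟩
    have cz := zt_ch hz ci_one
    have cs := zt_ch hs fun _ _ => rfl
    have k3 : ∀ p ∈ T, ∀ g, inv (Dg (D p) g) (cup a z) = ev (f0 (z, s)) * O p g := fun p hp g => by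
      rw [← Iv_in a z hp]
      exact sub_eq_zero.1 (congrFun (congrFun k1 p) g)
    have k4 : ∀ p ∈ T, ∀ g, O p g = 0 → Cb (GP ρ ⊓ Dg (D p) g) (cup a z) := fun p hp g e =>
      ((hv p _ (isDec_Dg (H.dec p hp) g)).1 _ (sy_cup ca cz)).1 (by rw [k3 p hp, e, mul_zero])
    have k5 : ev (f0 (z, s)) = 0 := by
      have := last hO hU h1 H hz l2 hP hφ hi hu hu' (fun E hE => by
        obtain ⟨g, rfl⟩ := ex_Dg (H.dec 0 H.h0) hE
        exact k4 0 H.h0 g (if_neg fun k => hP.1.ne_zero k.1.symm)) fun p hp S hS hn => by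
          by_cases e : p = l
          · subst e
            obtain ⟨g, rfl⟩ := ov_trans hR hS
            rw [← Dg_dec, ← eR]
            exact k4 p hp g (if_neg fun ⟨_, γ, hγ, e⟩ => hn γ hγ e)
          · obtain ⟨g, e'⟩ := ex_Dg (H.dec p hp) (isDec_dec hS)
            rw [e']
            exact k4 p hp g (if_neg fun k => e k.1)
      rw [e0, ← Dg_dec, ← eR] at this
      exact (Iv_in a z hl g0).trans
        (((hv l _ (isDec_Dg (H.dec l hl) g0)).1 _ (sy_cup ca cz)).2 this)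
    refine ⟨hH F _ _ oP (z2_cup ca cz) fun p E hE => ?_,
      hH F _ _ oP (Gy.z2_add (z2_cup ca cs) (z2_cup ca2 cz)) fun p E hE => ?_⟩
    · by_cases hp : p ∈ T
      · obtain ⟨g, rfl⟩ := ex_Dg (H.dec p hp) hE
        exact ((hv p _ hE).1 _ (sy_cup ca cz)).1 (by rw [k3 p hp, k5, zero_mul])
      · exact ur hz ci_one ca (fun _ => a_zero) p hp E hE
    · by_cases hp : p ∈ T
      · obtain ⟨g, rfl⟩ := ex_Dg (H.dec p hp) hE
        refine ((hv p _ hE).1 _ (add_mem (sy_cup ca cs) (sy_cup ca2 cz))).1 ?_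
        rw [map_add, ← Iv_in a s hp, ← Iv_in a2 z hp]
        exact congrFun (congrFun k2 p) g
      · exact Submodule.add_mem _ (ur hs (fun _ _ => rfl) ca (fun _ => a_zero) p hp E hE)
          (ur hz ci_one ca2 (fun x hx => by simp only [a2]; rw [a_zero hx, zero_pow two_ne_zero])
            p hp E hE)
  · have r0 := rank_pr' (Zt (ci ρ) T (GB ρ)) (Zt (fun _ => (1 : F)) T (GB ρ))
    have r1 := rank_ker V f1 _ m1
    have r2 := rank_ker _ f2 _ m2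
    have r3 := rank_one _ ev OF O1
    refine (add_le_add (r0.trans (r1.trans (add_le_add le_rfl r2))) le_rfl).trans ?_
    refine le_trans (le_of_eq ?_) (add_le_add (add_le_add le_rfl r3) le_rfl)
    ring

end Vale.Agent.P022E.GW.H35
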