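import Vale.Agent.P022E.GW.Ni
import Vale.Agent.P022E.GW.Kc
import Vale.Agent.P022E.GW.RecA
import Vale.Agent.P022E.GW.Gys
import Vale.Agent.P022D.Sel.Law
import Vale.Agent.P022D.Sel.Pl

/-!
# P022, block GW: reciprocity for a class which is trivial outside tame places
-/

set_option linter.all false

noncomputable section

namespace Vale.Agent.P022E.GW.One

open NumberField IsDedekindDomain
open Vale.Agent.P022 Vale.Agent.P022.C Vale.Agent.P022.H443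
open Vale.Agent.P027M.S (Inert Pr)
open Vale.Agent.P022D.Sel (IsDec ov Sq Adm)
open Vale.Agent.P022D.L2c (Hm Cob IsZ2 cup up)
open Vale.Agent.P022D.L2c
open Vale.Agent.P022D.W (dec dec_gen phi_mem inP_le_dec)
open Vale.Agent.P022E.GW.Kc (kq rt)

/-- the auxiliary prime -/
def PRIME : Prop := ∀ (H : Subgroup GQ), IsOpen (H : Set GQ) → ∀ S : Finset ℕ,
  (∀ l ∈ S, l.Prime ∧ l ≠ 2) → ∃ p : ℕ, p.Prime ∧ p ≠ 2 ∧ p ∉ S ∧
    (∀ P, Ov p P → ∀ g, Inert P g → g ∈ H) ∧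
    (∀ l ∈ S, ∀ P φ, Ov l P → Fb l P φ → kq (p : Qb) φ = 1) ∧
    (∀ P, Ov 2 P → ∀ g ∈ dec P, kq (p : Qb) g = 0) ∧ (∀ c, IsConj c → kq (p : Qb) c = 0) ∧
    ∀ l P, l ≠ p → Ov l P → ∀ g, Inert P g → kq (p : Qb) g = 0

/-- adjustment by a norm -/
def ADJ : Prop := ∀ (K : Type) [Field K] [NumberField K] (p : ℕ), p.Prime →
  (∀ v ∈ ov K {p}, Odd (ordv v (p : K))) → ∀ b : K, b ≠ 0 → ∃ s t : K, s ^ 2 - p * t ^ 2 ≠ 0 ∧
    ∀ v ∈ ov K {p}, v.valuation K (b * (s ^ 2 - p * t ^ 2)) = 1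

/-- local squares -/
def SQ : Prop := ∀ (K : Type) [Field K] [NumberField K] (j : K →+* Qb) (P : Ideal (𝓞 Qb))
  (v : Pr K), P.IsPrime → below j P = v.asIdeal → ∀ y : K, v.valuation K y = 1 →
  (∀ g ∈ GK j, g ∈ dec P → kq (j y) g = 0) → Sq v y

/-- ramification of the square root of a prime -/
def GN : Prop := ∀ (q : ℕ) (P : Ideal (𝓞 Qb)), Ov q P → q ≠ 2 → ∃ τ, Gn q P τ

section

variable {F : Type} [Field F]

theorem cb_mono {D H : Subgroup GQ} (h : D ≤ H) {z : GQ → GQ → F} (hz : Cb H z) : Cb D z := by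
  obtain ⟨w, hw, e⟩ := hz
  exact ⟨Ni.rs h w, hw.comp_continuous (continuous_subtype_val.subtype_mk _),
    fun x y => e ⟨x, h x.2⟩ ⟨y, h y.2⟩⟩

theorem z2_mono {D H : Subgroup GQ} (h : D ≤ H) {z : GQ → GQ → F} (hz : Z2 H z) : Z2 D z :=
  ⟨hz.1.comp_continuous (f := fun p : D × D => ((⟨p.1, h p.1.2⟩ : H), (⟨p.2, h p.2.2⟩ : H)))
    (by fun_prop), fun x y w => hz.2 ⟨x, h x.2⟩ ⟨y, h y.2⟩ ⟨w, h w.2⟩⟩

theorem ch_mono {D H : Subgroup GQ} (h : D ≤ H) {a : GQ → F} (ha : Ch H a) : Ch D a :=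
  Ni.rs_hm h ha

theorem cb_congr {D : Subgroup GQ} {z w : GQ → GQ → F} (hz : Cb D z)
    (h : ∀ x ∈ D, ∀ y ∈ D, w x y = z x y) : Cb D w := by
  have : rs D w = rs D z := funext fun x => funext fun y => h x x.2 y y.2
  rwa [Cb, this]

theorem cb_sub {D : Subgroup GQ} {z w : GQ → GQ → F} (hz : Cb D z) (hw : Cb D w) :
    Cb D (z - w) := sub_mem hz hw

theorem two_pr {l p : ℕ} (hl : l.Prime) (hp : p.Prime) {R : Type} [CommRing R] {P : Ideal R}
    (hP : P.IsPrime) (a : (l : R) ∈ P) (b : (p : R) ∈ P) : l = p := by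
  by_contra h
  obtain ⟨x, y, e⟩ : IsCoprime (l : R) (p : R) :=
    Nat.Coprime.cast ((Nat.coprime_primes hl hp).2 h)
  exact hP.ne_top ((Ideal.eq_top_iff_one _).2
    (e ▸ P.add_mem (P.mul_mem_left _ a) (P.mul_mem_left _ b)))

theorem unr_zero {l : ℕ} {P : Ideal (𝓞 Qb)} (h : Ov l P) {φ : GQ} (hφ : Fb l P φ) {a : GQ → F}
    (ha : Ch (dec P) a) (hI : ∀ g, Inert P g → a g = 0) (h0 : a φ = 0) {g : GQ} (hg : g ∈ dec P) :
    a g = 0 := by
  obtain ⟨U, hU, -, e⟩ := Rc.near ha.1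
  have ad : ∀ s ∈ dec P, ∀ t ∈ dec P, a (s * t) = a s + a t := fun s hs t ht =>
    ha.2 ⟨s, hs⟩ ⟨t, ht⟩
  obtain ⟨k, s, v, hs, hv, rfl⟩ := dec_gen h.1 h.2.1 h.2.2 hφ hg U hU
  have m := phi_mem h.1 h.2.1 hφ
  have mk := (dec P).pow_mem m k
  have ms := inP_le_dec hs
  have mv : v ∈ dec P := ((dec P).mul_mem_cancel_right mk).1 (((dec P).mul_mem_cancel_right ms).1 hg)
  rw [ad _ ((dec P).mul_mem mv mk) _ ms, ad _ mv _ mk, Rc.add_pow ad m, h0, hI s hs,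
    show a v = a 1 from e ⟨v, mv⟩ hv, hI 1 (inP P).one_mem]
  simp

theorem km_kq (D : Subgroup GQ) {x : Qb} (x0 : x ≠ 0) (h : ∀ g ∈ D, g x = x) :
    Ni.Km D (fun g => kq x g) (rt x) := ⟨Kc.root_ne x0 (Kc.rt_sq x), fun g => by
  beta_reduce
  rcases Sym.z2 (kq x g) with e | e
  · rw [e, Ni.sg_zero, one_mul, (Kc.kq_zero (Kc.rt_sq x) _).1 e]
  · rw [e, Ni.sg_one, neg_one_mul, (Kc.kq_one x0 (Kc.rt_sq x) (h g g.2)).1 e]⟩

theorem ch_kq (D : Subgroup GQ) {x : Qb} (h : ∀ g ∈ D, g x = x) : Ch D (kq x) :=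
  ⟨(Kc.kq_lc x).comp_continuous continuous_subtype_val, fun a b => Kc.kq_add (h a a.2) (h b b.2)⟩

theorem fr_dec {N : ℕ} (hN : N ≠ 0) {P : Ideal (𝓞 Qb)} (hP : P.IsPrime) {φ : GQ}
    (hφ : ∀ x : 𝓞 Qb, φ • x - x ^ N ∈ P) : φ ∈ dec P := fun x => by
  constructor
  · intro h
    have := P.sub_mem h (hφ x)
    rw [sub_sub_cancel] at this
    exact hP.mem_of_pow_mem _ this
  · intro h
    simpa using P.add_mem (hφ x) (Ideal.pow_mem_of_mem P h N (Nat.pos_of_ne_zero hN))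

theorem dec_conj {P P' : Ideal (𝓞 Qb)} {g : GQ} (h : ∀ x : 𝓞 Qb, x ∈ P ↔ g • x ∈ P') (s : GQ) :
    s ∈ dec P ↔ g * s * g⁻¹ ∈ dec P' := by
  constructor
  · intro hs x
    rw [mul_smul, mul_smul, ← h, hs, h, smul_inv_smul]
  · intro hs x
    rw [h, h x, ← hs (g • x), mul_smul, inv_smul_smul, mul_smul]

end

theorem one (hH : HASSE) (hG : GYS) (hC : CJ) (hPr : PRIME) (hA : ADJ) (hS : SQ) (hN : GN) :
    ONE := by
  classical
  intro F _ _ _ H z ι _ l P τ φ u ψ hO hz h1 h2 h3 h4 h5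
  obtain ⟨K, _, _, j, rfl⟩ := Ni.ex_fld hO
  obtain ⟨p, pp, p2, pS, pI, pF, pD, pc, pU⟩ := hPr (GK j) hO (Finset.univ.image l) fun a ha => by
    obtain ⟨i, -, rfl⟩ := Finset.mem_image.1 ha
    exact ⟨(h1 i).1.1, (h1 i).2.1⟩
  have lS : ∀ i, l i ∈ Finset.univ.image l := fun i => Finset.mem_image_of_mem _ (Finset.mem_univ i)
  have lp : ∀ i, l i ≠ p := fun i e => pS (e ▸ lS i)
  have p0 : (p : Qb) ≠ 0 := Nat.cast_ne_zero.2 pp.ne_zero
  obtain ⟨χ, hχ⟩ : ∃ χ, χ = kq (p : Qb) := ⟨_, rfl⟩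
  rw [← hχ] at pF pD pc pU
  have χc : ∀ D, Ch D χ := fun D => hχ ▸ ch_kq D fun g _ => map_natCast g p
  have χa : ∀ g h, χ (g * h) = χ g + χ h := fun g h => (χc ⊤).2 ⟨g, trivial⟩ ⟨h, trivial⟩
  let θ : GQ →* Multiplicative (ZMod 2) :=
    MonoidHom.mk' (fun g => Multiplicative.ofAdd (χ g)) fun g h => by rw [χa, ofAdd_add]
  have hθ : ∀ g, g ∈ θ.ker ↔ χ g = 0 := fun g => Iff.rfl
  have θo : IsOpen (θ.ker : Set GQ) := (hχ ▸ Kc.kq_lc (p : Qb) : IsLocallyConstant χ) {0}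
  letI : Algebra (ZMod 2) F := ZMod.algebra F 2
  refine (Module.forall_dual_apply_eq_zero_iff (ZMod 2) _).1 fun Λ => ?_
  obtain ⟨w, hw⟩ : ∃ w : GQ → GQ → ZMod 2, w = fun g h => Λ (z g h) := ⟨_, rfl⟩
  have wz : Z2 (GK j) w := hw ▸ Gy.z2_map Λ.toAddMonoidHom hz
  have wc : ∀ D, Cb D z → Cb D w := fun D h => hw ▸ Sym.cob_map Λ.toAddMonoidHom h
  have φ1 : ∀ i, χ (φ i) = 1 := fun i => pF _ (lS i) _ _ (h1 i).1 (h1 i).2.2.2.1
  have χI : ∀ i g, Inert (P i) g → χ g = 0 := fun i => pU _ _ (lp i) (h1 i).1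
  have w3 : ∀ i, Cb (dec (P i)) (w - cup χ fun g => Λ (ψ i g)) := fun i => by
    obtain ⟨a1, a2, a3, a4, a5⟩ := h3 i
    refine cb_congr (z := fun g h => Λ ((z - cup (u i) (ψ i)) g h))
      (Sym.cob_map Λ.toAddMonoidHom a5) fun x hx y _ => ?_
    have e := unr_zero (h1 i).1 (h1 i).2.2.2.1 (a := u i - fun g => up F (χ g))
      (sub_mem a1 (Sym.hm_map (up F).toAddMonoidHom (χc _)))
      (fun g hg => by simp only [Pi.sub_apply, a3 g hg, χI i g hg, map_zero, sub_zero])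
      (by simp only [Pi.sub_apply, a4, φ1, map_one, sub_self]) hx
    simp only [Pi.sub_apply, sub_eq_zero] at e
    simp only [hw, Pi.sub_apply, cup, map_sub, e]
    rw [mul_comm (up F _), mul_comm (χ x)]
    exact congrArg _ (Sym.lin Λ.toAddMonoidHom _ _).symm
  have w4 : Cb (GK j ⊓ θ.ker) w := by
    refine hH (ZMod 2) _ w (hO.inter θo) (z2_mono inf_le_left wz) ?_
    rintro q D hD
    rcases hD with ⟨rfl, hD⟩ | ⟨hq, P', hP', hq', e⟩
    · exact cb_mono (inf_le_inf_right _ inf_le_left) (wc _ (h4 D (Or.inl ⟨rfl, hD⟩)))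
    obtain rfl : D = dec P' := SetLike.coe_injective e
    by_cases k : ∀ i, ∀ g ∈ GK j, ¬ ∀ x : 𝓞 Qb, x ∈ P i ↔ g • x ∈ P'
    · exact cb_mono (inf_le_inf_right _ inf_le_left) (wc _ (h5 q P' ⟨hq, hP', hq'⟩ k))
    obtain ⟨i, k⟩ := not_forall.1 k
    obtain ⟨g, k⟩ := not_forall.1 k
    obtain ⟨hg, k⟩ := Classical.not_imp.1 k
    rw [inf_assoc]
    refine hC (ZMod 2) (GK j) (θ.ker ⊓ dec (P i)) _ g w hg (fun x => ?_) wz ?_
    · rw [Subgroup.mem_inf, Subgroup.mem_inf, dec_conj (not_not.1 k) x]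
      exact and_congr_left' ⟨fun h => θ.normal_ker.conj_mem _ h g, fun h => by
        simpa [mul_assoc] using θ.normal_ker.conj_mem _ h g⁻¹⟩
    · refine cb_congr (cb_mono (inf_le_right.trans inf_le_right) (w3 i)) fun x hx y _ => ?_
      simp only [Pi.sub_apply, cup, (hθ x).1 hx.2.1, zero_mul, sub_zero]
  obtain ⟨b, hb, w5⟩ := hG (ZMod 2) (GK j) _ χ w (χc _) (fun g => Iff.rfl) wz w4
  obtain ⟨β, q, hq, kb⟩ := Ni.kumK j hb
  have bq : ∀ g ∈ GK j, b g = kq (j β) g := fun g hg =>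
    Kc.z2_ext ((kb.zero ⟨g, hg⟩).trans (Kc.kq_zero hq g).symm)
  have ram : ∀ P', Ov p P' → ∃ s ∈ GK j, Inert P' s ∧ χ s = 1 := fun P' h => by
    obtain ⟨s, s1, s2⟩ := hN p P' h p2
    exact ⟨s, pI P' h s s1, s1, hχ ▸ (Kc.kq_one p0 (Kc.rt_sq _) (map_natCast s p)).2
      (s2 _ (Kc.rt_sq _))⟩
  have ovp : ∀ v ∈ ov K {p}, ∃ P', Ov p P' ∧ below j P' = v.asIdeal := by
    rintro v ⟨a, ha, -, hv⟩
    obtain rfl := Finset.mem_singleton.1 ha
    obtain ⟨P', a1, a2⟩ := Kc.ex_above j v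
    exact ⟨P', ⟨pp, a1, (Kc.nat_mem j a2 _).1 hv⟩, a2⟩
  have n2 : ∀ {a P'}, Ov a P' → a ≠ 2 → (2 : 𝓞 Qb) ∉ P' := fun {a P'} h ha m =>
    ha (two_pr h.1 Nat.prime_two h.2.1 h.2.2 (by exact_mod_cast m))
  obtain ⟨s, t, n0, hy⟩ := hA K p pp (fun v hv => by
    obtain ⟨P', a1, a2⟩ := ovp v hv
    obtain ⟨s, s1, s2, s3⟩ := ram P' a1
    refine Int.not_even_iff_odd.1 fun he => ?_
    have := Kc.kq_even j (Nat.cast_ne_zero.2 pp.ne_zero) v a1.2.1 a2 (n2 a1 p2) he s1 s2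
    rw [map_natCast, ← hχ, s3] at this
    exact one_ne_zero this) β β.ne_zero
  obtain ⟨y, ey⟩ : ∃ y, y = (β : K) * (s ^ 2 - p * t ^ 2) := ⟨_, rfl⟩
  have y0 : y ≠ 0 := ey ▸ mul_ne_zero β.ne_zero n0
  rw [← ey] at hy
  have cc : ∀ D ≤ GK j, Ch D (kq (j y)) := fun D h => ch_kq D fun g hg => h hg y
  have w6 : Cb (GK j) (w - cup χ (kq (j y))) := by
    have n1 : Cb (GK j) (cup χ (kq (j (s ^ 2 - p * t ^ 2)))) :=
      Ni.cob_of_norm (χc _) (ch_kq _ fun g hg => hg _)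
        (hχ ▸ km_kq _ p0 fun g _ => map_natCast g p)
        (km_kq _ ((map_ne_zero j).2 n0) fun g hg => hg _) (fun g hg => hg s) (fun g hg => hg t)
        (by rw [Kc.rt_sq, Kc.rt_sq]; simp)
    refine cb_congr (cb_sub w5 n1) fun x _ g hg => ?_
    simp only [Pi.sub_apply, cup, ey, Kc.kq_mulL j β.ne_zero n0 hg, bq g hg, up,
      ZMod.castHom_self, RingHom.id_apply]
    ring
  have w7 : ∀ a P', Ov a P' → (∀ i, below j (P i) ≠ below j P') →
      Cb (GK j ⊓ dec P') (cup χ (kq (j y))) := fun a P' h k => by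
    have := cb_sub (wc _ (h5 a P' h fun i g hg e => k i (Ideal.ext fun x => ?_)))
      (cb_mono inf_le_left w6)
    · rwa [sub_sub_cancel] at this
    · rw [below, below, Ideal.mem_comap, Ideal.mem_comap, e]
      exact iff_of_eq (congrArg (· ∈ P') (Subtype.ext (hg _)))
  choose v hv lv using fun i => Kc.ex_below j (h1 i).1.1.ne_zero (h1 i).1.2.1 (h1 i).1.2.2
  have vp : ∀ i, v i ∉ ov K {p} := by
    rintro i ⟨a, ha, -, m⟩
    obtain rfl := Finset.mem_singleton.1 ha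
    exact lp i (two_pr (h1 i).1.1 pp (v i).isPrime (lv i) m)
  choose Q fr hfr using H565.fre_exists j
  have fu : ∀ r ∉ ov K {p}, ∀ (P' : Ideal (𝓞 Qb)) (g : GK j), FrI j r P' g → χ g = χ (fr r) :=
    fun r hr P' g hg => Multiplicative.ofAdd.injective (H565.fre_unique j (θ.comp (GK j).subtype) r
      (fun R hR e s hs => by
        obtain ⟨a, ha, m⟩ := Kc.prime_mem r
        exact pU a R (fun e' => hr ⟨a, Finset.mem_singleton.2 e', ha.ne_zero, m⟩)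
          ⟨ha, hR, (Kc.nat_mem j e _).1 m⟩ s hs) P' (Q r) g _ hg (hfr r))
  have key := P022D.Sel.law K (ZMod 2) j 1 1 ∅ {p} (fun g => if g ∈ GK j then χ g else 0)
    (fun r => if r ∈ ov K {p} then 0 else χ (fr r)) (fun h => p2 (Finset.mem_singleton.1 h).symm)
    ⟨fun a ha b hb => by simp only [if_pos ha, if_pos hb, if_pos ((GK j).mul_mem ha hb), χa],
      fun g hg => if_neg hg, ⟨θ.ker, θo, fun g hg => by simp only [(hθ g).1 hg, ite_self]⟩,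
      fun a ha m R hR m' g hg => by
        simp only [pU a R (fun e => m (Finset.mem_singleton.2 e)) ⟨ha, hR, m'⟩ g hg, ite_self],
      fun a ha => absurd ha (Finset.notMem_empty a),
      fun c hc => by simp only [pc c hc, ite_self], fun g _ => by simp⟩
    (fun r hr => if_pos hr) (fun r hr P' g hg => by
      beta_reduce
      rw [if_pos g.2, if_neg hr, fu r hr P' g hg]) y y0 (fun r hr => by
      obtain ⟨P', a1, a2⟩ := ovp r hr
      obtain ⟨s, s1, s2, s3⟩ := ram P' a1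
      refine hS K j P' r a1.2.1 a2 y (hy r hr) fun g g1 g2 => ?_
      have c1 := w7 p P' a1 fun i e => vp i (by
        rwa [HeightOneSpectrum.ext ((hv i).symm.trans (e.trans a2))])
      have c2 := (Submodule.add_mem_iff_right _ c1).1
        (Sym.symm (χc (GK j ⊓ dec P')) (cc _ inf_le_left))
      have := Rc.tame pp p2 a1.2.1 a1.2.2 inf_le_right (χc _) (fun s hs =>
        Kc.kq_even j y0 r a1.2.1 a2 (n2 a1 p2) (by rw [ordv, hy r hr]; simp) s.2.1 hs) c2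
        ⟨g, g1, g2⟩ ⟨s, s1, inP_le_dec s2⟩ s2
      simpa only [s3, mul_one] using this)
  rw [finsum_eq_sum_of_support_subset (s := Finset.univ.image v), Finset.sum_image] at key
  · rw [map_sum, ← key]
    refine Finset.sum_congr rfl fun i _ => ?_
    obtain ⟨a1, a2, a3, a4, a5⟩ := h1 i
    have m := phi_mem a1.1 a1.2.1 a4
    have mτ : τ i ∈ dec (P i) := inP_le_dec a3.1
    have e1 : χ (fr (v i)) = 1 := by
      rw [← fu _ (vp i) (P i) ⟨φ i, a5 m⟩ ⟨a1.2.1, hv i, ?_⟩, φ1]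
      rw [P022D.Sel.Inj.norm_eq (v i) (l i) a1.1 (lv i) fun x => ?_]
      · exact a4
      · rw [← hv i, below, Ideal.mem_comap, map_sub, map_pow]
        have := a4 (RingOfIntegers.mapRingHom j x)
        rwa [show φ i • RingOfIntegers.mapRingHom j x = RingOfIntegers.mapRingHom j x from
          Subtype.ext (a5 m _)] at this
    have c1 := cb_sub (w3 i) (cb_mono a5 w6)
    have e2 := Rc.tame a1.1 a2 a1.2.1 a1.2.2 le_rfl (u := fun g => χ g)
      (b := fun g => (kq (j y) - fun g => Λ (ψ i g)) g)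
      (sub_mem (cc _ a5) (Sym.hm_map Λ.toAddMonoidHom (h3 i).2.1)) (fun s hs => χI i s hs)
      (cb_congr (w := cup χ (kq (j y) - fun g => Λ (ψ i g))) c1 fun x _ g _ => by
        simp only [Pi.sub_apply, cup]; ring) ⟨φ i, m⟩ ⟨τ i, mτ⟩ a3.1
    simp only [φ1, one_mul, Pi.sub_apply, sub_eq_zero] at e2
    rw [if_neg (vp i), e1, mul_one, ← e2]
    have l0 : (l i : K) ≠ 0 := Nat.cast_ne_zero.2 a1.1.ne_zero
    have e3 : kq (j (l i)) (τ i) = 1 := (Kc.kq_one ((map_ne_zero j).2 l0) (Kc.rt_sq _)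
      (a5 mτ _)).2 (a3.2 _ (by rw [Kc.rt_sq, map_natCast]))
    have e4 : Odd (ordv (v i) (l i : K)) := Int.not_even_iff_odd.1 fun he => by
      rw [Kc.kq_even j l0 _ a1.2.1 (hv i) (n2 a1 a2) he (a5 mτ) a3.1] at e3
      exact zero_ne_one e3
    rcases Int.even_or_odd (ordv (v i) y) with he | ho
    · rw [Kc.kq_even j y0 _ a1.2.1 (hv i) (n2 a1 a2) he (a5 mτ) a3.1,
        (ZMod.intCast_eq_zero_iff_even).2 he]
    · rw [Kc.kq_par j y0 l0 _ a1.2.1 (hv i) (n2 a1 a2) (ho.add_odd e4) (a5 mτ) a3.1, e3,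
        (ZMod.intCast_eq_one_iff_odd).2 ho]
  · intro i _ k _ e
    obtain ⟨g, hg⟩ := H916.exists_smul j (h1 i).1.2.1 (h1 k).1.2.1
      ((hv i).trans (e ▸ (hv k).symm))
    refine h2 i k g g.2 fun x => ?_
    rw [hg, P022D.Sel.Pl.mem_smul, inv_smul_smul]
  · intro r hr
    by_contra hn
    refine hr ?_
    beta_reduce
    split_ifs with k
    · exact mul_zero _
    obtain ⟨a1, a2, a3⟩ := hfr r
    obtain ⟨a, ha, m⟩ := Kc.prime_mem r
    have o : Ov a (Q r) := ⟨ha, a1, (Kc.nat_mem j a2 _).1 m⟩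
    have md := fr_dec (Ideal.absNorm_eq_zero_iff.not.2 r.ne_bot) a1 a3
    by_cases a2' : a = 2
    · rw [pD _ (a2' ▸ o) _ md, mul_zero]
    rcases Sym.z2 (χ (fr r)) with e | e
    · rw [e, mul_zero]
    have c1 := w7 a (Q r) o fun i e => hn (Finset.mem_coe.2 (Finset.mem_image.2
      ⟨i, Finset.mem_univ i, HeightOneSpectrum.ext ((hv i).symm.trans (e.trans a2))⟩))
    rw [(ZMod.intCast_eq_zero_iff_even).2 (Kc.even_of j y0 r a1 a2 fun g g1 g2 => ?_), zero_mul]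
    have := Rc.tame ha a2' a1 o.2.2 inf_le_right (cc _ inf_le_left) (fun s hs =>
      pU a _ (fun e' => k ⟨a, Finset.mem_singleton.2 e', ha.ne_zero, m⟩) o s hs) c1
      ⟨fr r, (fr r).2, md⟩ ⟨g, g1, inP_le_dec g2⟩ g2
    simpa only [e, one_mul] using this

end Vale.Agent.P022E.GW.One
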