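import Vale.Agent.P022E.GW.One

/-!
# P022, block GW: a generator of tame inertia modulo squares
-/

set_option linter.all false

noncomputable section

namespace Vale.Agent.P022E.GW.One

open NumberField
open Vale.Agent.P022 Vale.Agent.P022.C
open Vale.Agent.P027M.S.Loc (jQ mem_GK belowQ ordvQ)

theorem gn : GN := by
  intro q P h _
  obtain ⟨v, hv, -⟩ := Kc.ex_below jQ h.1.ne_zero h.2.1 h.2.2
  have q0 : ((q : ℤ) : ℚ) ≠ 0 := by exact_mod_cast h.1.ne_zero
  have e : ordv v ((q : ℤ) : ℚ) = 1 := by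
    haveI : Fact q.Prime := ⟨h.1⟩
    rw [ordvQ v h.1 (hv ▸ belowQ h.2.1 h.1 h.2.2) (by exact_mod_cast h.1.ne_zero),
      padicValInt.of_nat, padicValNat_self]
    rfl
  obtain ⟨g, -, a, b⟩ := Kc.ex_ram jQ q0 v h.2.1 hv (e ▸ odd_one)
  rw [map_intCast, Int.cast_natCast] at b
  exact ⟨g, a, fun w hw =>
    (Kc.kq_one (Nat.cast_ne_zero.2 h.1.ne_zero) hw (map_natCast g q)).1 b⟩

end Vale.Agent.P022E.GW.One
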