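import Vale.Agent.P022E.GW.HnH56
import Vale.Agent.P022E.GW.Hnpg
import Vale.Agent.P022E.GW.Odg
import Vale.Agent.P022E.GW.Kc
import Vale.Agent.P022E.GW.RecA
import Vale.Agent.P022E.GW.OneP
import Vale.Agent.P022D.Sel.Law
import Vale.Agent.P022D.Sel.Art
import Vale.Agent.P022D.Sel.Inj

/-! # P022E, block GW: reciprocity -/

set_option linter.all false

noncomputable section

namespace Vale.Agent.P022E.GW.H64

open NumberField IsDedekindDomain Pointwise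
open Vale.Agent.P022 Vale.Agent.P022.C Vale.Agent.P022.H443
open Vale.Agent.P027M.S (Pr Inert)
open Vale.Agent.P022D Vale.Agent.P022D.Sel
open Vale.Agent.P022D.L2c (Hm Cob IsZ2 cup up)
open Vale.Agent.P022D.W (dec)
open Vale.Agent.P011.Arith (NF LS Z0)
open Vale.Agent.P022E.GW.Kc

/-- the auxiliary prime -/
structure Pq (p : ℕ) : Prop where
  hp : p.Prime
  h2 : p ≠ 2
  two : ∀ P, Ov 2 P → ∀ g ∈ dec P, kq (p : Qb) g = 0
  cj : ∀ c, IsConj c → kq (p : Qb) c = 0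
  unr : ∀ l P, l ≠ p → Ov l P → ∀ g, Inert P g → kq (p : Qb) g = 0

variable {K : Type} [Field K] [NumberField K]

/-- simultaneous approximation of local norms -/
theorem nrm (S : Finset (Pr K)) (α β : Kˣ) (h : ∀ v ∈ S, β ∈ NF α ⊔ LS (v.valuation K)) :
    ∃ n ∈ NF α, ∀ v ∈ S, Sq v ((β * n : Kˣ) : K) := by
  classical
  rcases S.eq_empty_or_nonempty with rfl | ⟨v0, hv0⟩
  · exact ⟨1, one_mem _, by simp⟩
  have h1 : ∀ v : Pr K, ∃ X Z : K, v ∈ S → v.valuation K (β * (X ^ 2 - α * Z ^ 2) - 1) < 1 := by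
    intro v
    by_cases hv : v ∈ S
    · obtain ⟨μ, ⟨y, hy⟩, x, z, e⟩ := P011.Arith.mem_sup_iff_exists.1 (inv_mem (h v hv))
      refine ⟨x / y, z / y, fun _ => lt_of_eq_of_lt ?_ (hy.trans_le (P011.Arith.val_four_le _))⟩
      congr 1
      have y0 := y.ne_zero
      have b0 := β.ne_zero
      rw [Units.val_inv_eq_inv_val] at e
      field_simp
      field_simp at e
      linear_combination -e
    · exact ⟨0, 0, fun k => absurd k hv⟩
  choose X Z hX using h1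
  choose g1 g10 hg1 using fun v : Pr K => Brg.small (v.valuation K) (β : K) one_ne_zero (X v)
  choose g2 g20 hg2 using fun v : Pr K => Brg.small (v.valuation K) (β * α : K) one_ne_zero (Z v)
  obtain ⟨x, hx, -⟩ := P011.Arith.approxVal S X g1 (fun v _ => g10 v) (fun _ => 0) one_pos
  obtain ⟨z, hz, -⟩ := P011.Arith.approxVal S Z g2 (fun v _ => g20 v) (fun _ => 0) one_pos
  have key : ∀ v ∈ S, v.valuation K (β * (x ^ 2 - α * z ^ 2) - 1) < 1 := fun v hv => by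
    have e : (β : K) * (x ^ 2 - α * z ^ 2) - 1 = (β * (X v ^ 2 - α * Z v ^ 2) - 1) +
        (β * (x ^ 2 - X v ^ 2) - β * α * (z ^ 2 - Z v ^ 2)) := by ring
    rw [e]
    refine Valuation.map_add_lt _ (hX v hv) (Valuation.map_sub_lt _ (hg1 v x ?_) (hg2 v z ?_))
    · rw [Valuation.map_sub_swap]; exact hx v hv
    · rw [Valuation.map_sub_swap]; exact hz v hv
  have n0 : x ^ 2 - α * z ^ 2 ≠ 0 := fun e => by
    have := key v0 hv0
    rw [e, mul_zero, zero_sub, Valuation.map_neg, map_one] at this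
    exact lt_irrefl _ this
  refine ⟨Units.mk0 _ n0, ⟨x, z, rfl⟩, fun v hv => ⟨?_, 1, by rw [one_pow]; exact key v hv⟩⟩
  have := (v.valuation K).map_one_add_of_lt (key v hv)
  rwa [add_sub_cancel] at this

theorem addp (p : ℕ) (g h : GQ) : kq (p : Qb) (g * h) = kq (p : Qb) g + kq (p : Qb) h :=
  kq_add (map_natCast g p) (map_natCast h p)

theorem chp (p : ℕ) (H : Subgroup GQ) : Ch H (kq (p : Qb)) :=
  ⟨(kq_lc _).comp_continuous continuous_subtype_val, fun g h => addp p g h⟩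

theorem chj (j : K →+* Qb) (y : K) : Ch (GK j) (kq (j y)) :=
  ⟨(kq_lc _).comp_continuous continuous_subtype_val, fun g h => kq_addL j y g.2 h.2⟩

theorem kmj (j : K →+* Qb) (y : Kˣ) : H56.Km j (kq (j y)) y (rt (j y)) :=
  ⟨rt_sq _, fun g hg => kq_act (rt_sq _) (hg _)⟩

/-- **the product formula** -/
theorem pf (j : K →+* Qb) {p : ℕ} (hq : Pq p) {ι : Type} [Fintype ι] {l : ι → ℕ}
    {P : ι → Ideal (𝓞 Qb)} {τ φ : ι → GQ}
    (h1 : ∀ i, Ov (l i) (P i) ∧ l i ≠ 2 ∧ Gn (l i) (P i) (τ i) ∧ Fb (l i) (P i) (φ i) ∧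
      dec (P i) ≤ GK j)
    (h2 : ∀ i i', ∀ g ∈ GK j, (∀ x : 𝓞 Qb, x ∈ P i ↔ g • x ∈ P i') → i = i')
    (hl : ∀ i, l i ≠ p) (hφ : ∀ i, kq (p : Qb) (φ i) = 1) {y : K} (hy : y ≠ 0)
    (hS : ∀ u ∈ ov K {p}, Sq u y)
    (ho : ∀ (q : ℕ) (P' : Ideal (𝓞 Qb)), Ov q P' → q ≠ p →
      (∀ i, ∀ g ∈ GK j, ¬ ∀ x : 𝓞 Qb, x ∈ P i ↔ g • x ∈ P') →
      Cb (GK j ⊓ dec P') (cup (kq (p : Qb)) (kq (j y)))) :
    ∑ i, kq (j y) (τ i) = 0 := by
  classical
  let χ : GQ → ZMod 2 := (GK j : Set GQ).indicator (kq (p : Qb))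
  have c1 : ∀ g ∈ GK j, χ g = kq (p : Qb) g := fun g hg => Set.indicator_of_mem hg _
  have c0 : ∀ g, kq (p : Qb) g = 0 → χ g = 0 := fun g hg => by
    by_cases k : g ∈ GK j
    · rw [c1 g k, hg]
    · exact Set.indicator_of_notMem k _
  have hA : Adm (GK j) 1 (1 : ZMod 2) ∅ {p} χ :=
    { add := fun σ hσ t ht => by rw [c1 _ (mul_mem hσ ht), c1 _ hσ, c1 _ ht, addp]
      off := fun g hg => Set.indicator_of_notMem hg _
      opn := (kq_opn (p : Qb)).imp fun U hU => ⟨hU.1, fun σ hσ => c0 σ (hU.2 σ hσ)⟩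
      unr := fun q hq' hn P' hP hqP g hg => c0 g (hq.unr q P' (by simpa using hn) ⟨hq', hP, hqP⟩ g hg)
      dec := fun q hq' => absurd hq' (Finset.notMem_empty q)
      cj := fun c hc => c0 c (hq.cj c hc)
      eqv := fun σ _ => by rw [one_mul, inv_one, mul_one, one_mul] }
  choose R g hg using H651.exists_frI j
  let a : Pr K → ZMod 2 := fun v => if v ∈ ov K {p} then 0 else χ (g v)
  have key := law K (ZMod 2) j 1 1 ∅ {p} χ a (by simpa using hq.h2.symm) hA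
    (fun v hv => if_pos hv) (fun v hv P' g' k => by
      rw [show a v = _ from if_neg hv]; exact ArtA.indep hA hv k (hg v)) y hy hS
  choose vv hvv using fun i => ex_below j (h1 i).1.1.ne_zero (h1 i).1.2.1 (h1 i).1.2.2
  have cj : ∀ i P', P'.IsPrime → below j P' = (vv i).asIdeal →
      ∃ t ∈ GK j, ∀ x : 𝓞 Qb, x ∈ P i ↔ t • x ∈ P' := fun i P' hP hb => by
    obtain ⟨t, rfl⟩ := H916.exists_smul j (h1 i).1.2.1 hP ((hvv i).1.trans hb.symm)
    exact ⟨t, t.2, fun x => Ideal.smul_mem_pointwise_smul_iff.symm⟩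
  have inj : Function.Injective vv := fun i i' e => by
    obtain ⟨t, ht, k⟩ := cj i (P i') (h1 i').1.2.1 (by rw [(hvv i').1, e])
    exact h2 i i' t ht k
  have nov : ∀ i, vv i ∉ ov K {p} := fun i =>
    not_ov (by simpa using Or.inr hq.hp) (h1 i).1.1 (by simpa using hl i) (hvv i).2
  have odd : ∀ i, (2 : 𝓞 Qb) ∉ P i := fun i k => by
    have : vv i ∉ ov K {2} := not_ov (by simpa using Nat.prime_two) (h1 i).1.1
      (by simpa using (h1 i).2.1) (hvv i).2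
    exact two_not j (Finset.mem_singleton_self 2) this (hvv i).1 k
  have av : ∀ i, a (vv i) = 1 := fun i => by
    have m : φ i ∈ GK j := (h1 i).2.2.2.2 (W.phi_mem (h1 i).1.1 (h1 i).1.2.1 (h1 i).2.2.2.1)
    have hN : Ideal.absNorm (vv i).asIdeal = l i := Inj.norm_eq (vv i) (l i) (h1 i).1.1 (hvv i).2
      fun x => by
        rw [← (hvv i).1, below, Ideal.mem_comap, map_sub, map_pow]
        have := (h1 i).2.2.2.1 (RingOfIntegers.mapRingHom j x)
        rwa [show φ i • RingOfIntegers.mapRingHom j x = RingOfIntegers.mapRingHom j x from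
          Subtype.ext (m _)] at this
    have fr : FrI j (vv i) (P i) ⟨φ i, m⟩ := ⟨(h1 i).1.2.1, (hvv i).1, by
      rw [hN]; exact (h1 i).2.2.2.1⟩
    rw [show a (vv i) = _ from if_neg (nov i), ← ArtA.indep hA (nov i) fr (hg _)]
    exact (c1 _ m).trans (hφ i)
  have ev : ∀ {n : ℤ}, Even n → (n : ZMod 2) = 0 := fun {n} hn =>
    (ZMod.intCast_eq_zero_iff_even).2 hn
  have par : ∀ i, (ordv (vv i) y : ZMod 2) = kq (j y) (τ i) := fun i => by
    have hi : Inert (P i) (τ i) := (h1 i).2.2.1.1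
    have m : τ i ∈ GK j := (h1 i).2.2.2.2 (W.inP_le_dec hi)
    have l0 : (l i : K) ≠ 0 := by exact_mod_cast (h1 i).1.1.ne_zero
    have k1 : kq (j (l i)) (τ i) = 1 := by
      rw [map_natCast]
      exact (kq_one (by exact_mod_cast (h1 i).1.1.ne_zero) (rt_sq _) (map_natCast _ _)).2
        ((h1 i).2.2.1.2 _ (rt_sq _))
    rcases Int.even_or_odd (ordv (vv i) y) with e | e
    · rw [ev e, kq_even j hy (vv i) (h1 i).1.2.1 (hvv i).1 (odd i) e m hi]
    · have e' : Odd (ordv (vv i) (l i : K)) := Int.not_even_iff_odd.1 fun k => by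
        rw [kq_even j l0 (vv i) (h1 i).1.2.1 (hvv i).1 (odd i) k m hi] at k1
        exact zero_ne_one k1
      rw [kq_par j hy l0 (vv i) (h1 i).1.2.1 (hvv i).1 (odd i) (e.add_odd e') m hi, k1]
      exact ZMod.intCast_eq_one_iff_odd.2 e
  rw [finsum_eq_sum_of_support_subset (s := Finset.univ.image vv), Finset.sum_image
    (fun i _ i' _ e => inj e)] at key
  · simpa only [av, mul_one, par] using key
  intro v hv
  by_contra hn
  refine hv (show (ordv v y : ZMod 2) * a v = 0 from ?_)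
  by_cases hp : v ∈ ov K {p}
  · rw [show a v = 0 from if_pos hp, mul_zero]
  rcases z2 (a v) with k | k
  · rw [k, mul_zero]
  rw [show a v = _ from if_neg hp, c1 _ (g v).2] at k
  obtain ⟨q, hq', hqv⟩ := prime_mem v
  have hov : Ov q (R v) := ⟨hq', (hg v).1, ArtA.up (hg v).2.1 hqv⟩
  have qp : q ≠ p := by
    rintro rfl
    exact hp ⟨q, Finset.mem_singleton_self q, hq'.ne_zero, hqv⟩
  have gd : (g v : GQ) ∈ dec (R v) := ArtA.stab (hg v)
  have q2 : q ≠ 2 := by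
    rintro rfl
    rw [hq.two _ hov _ gd] at k
    exact zero_ne_one k
  have cb := ho q (R v) hov qp fun i t ht e => hn (by
    refine Finset.mem_coe.2 (Finset.mem_image.2 ⟨i, Finset.mem_univ i, ?_⟩)
    apply HeightOneSpectrum.ext
    rw [← (hvv i).1, ← (hg v).2.1]
    ext x
    rw [below, below, Ideal.mem_comap, Ideal.mem_comap, e,
      show t • RingOfIntegers.mapRingHom j x = RingOfIntegers.mapRingHom j x from
        Subtype.ext (ht _)])
  rw [ev (even_of j hy v (hg v).1 (hg v).2.1 fun s hs hi => ?_), zero_mul]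
  have := Rc.tame hq' q2 (hg v).1 hov.2.2 (D := GK j ⊓ dec (R v)) inf_le_right
    (H56.ch_le inf_le_left (chj j y)) (fun s hs => hq.unr q _ qp hov s hs) cb
    ⟨g v, (g v).2, gd⟩ ⟨s, hs, W.inP_le_dec hi⟩ hi
  rwa [show kq (p : Qb) (g v) = 1 from k, one_mul] at this

theorem cb_le {F : Type} [Field F] {A B : Subgroup GQ} (h : A ≤ B) {z : GQ → GQ → F}
    (k : Cb B z) : Cb A z := Gy.cob_le h k

theorem cb_sub {F : Type} [Field F] {A : Subgroup GQ} {z w : GQ → GQ → F} (h : Cb A z)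
    (k : Cb A w) : Cb A (z - w) := sub_mem h k

theorem dec_cj {P P' : Ideal (𝓞 Qb)} {g : GQ} (e : ∀ x : 𝓞 Qb, x ∈ P ↔ g • x ∈ P') (x : GQ) :
    x ∈ dec P ↔ g * x * g⁻¹ ∈ dec P' := by
  constructor
  · intro h y
    rw [mul_smul, mul_smul, ← e, h, e, smul_inv_smul]
  · intro h y
    have := h (g • y)
    rwa [mul_smul, inv_smul_smul, mul_smul, ← e, ← e] at this

/-- the case of the prime field -/
theorem core (j : K →+* Qb) {p : ℕ} (hq : Pq p) {ι : Type} [Fintype ι] {l : ι → ℕ}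
    {P : ι → Ideal (𝓞 Qb)} {τ φ : ι → GQ} {z : GQ → GQ → ZMod 2} {ψ : ι → GQ → ZMod 2}
    (hz : Z2 (GK j) z)
    (h1 : ∀ i, Ov (l i) (P i) ∧ l i ≠ 2 ∧ Gn (l i) (P i) (τ i) ∧ Fb (l i) (P i) (φ i) ∧
      dec (P i) ≤ GK j)
    (h2 : ∀ i i', ∀ g ∈ GK j, (∀ x : 𝓞 Qb, x ∈ P i ↔ g • x ∈ P i') → i = i')
    (hl : ∀ i, l i ≠ p) (hφ : ∀ i, kq (p : Qb) (φ i) = 1)
    (h3 : ∀ i, Ch (dec (P i)) (ψ i) ∧ Cb (dec (P i)) (z - cup (kq (p : Qb)) (ψ i)))
    (h4 : ∀ D : Subgroup GQ, IsDec 0 (D : Set GQ) → Cb (GK j ⊓ D) z)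
    (h5 : ∀ (q : ℕ) (P' : Ideal (𝓞 Qb)), Ov q P' →
      (∀ i, ∀ g ∈ GK j, ¬ ∀ x : 𝓞 Qb, x ∈ P i ↔ g • x ∈ P') → Cb (GK j ⊓ dec P') z) :
    ∑ i, ψ i (τ i) = 0 := by
  classical
  let H' : Subgroup GQ := GK j ⊓ MulAction.stabilizer GQ (rt (p : Qb))
  have mH : ∀ g, g ∈ H' ↔ g ∈ GK j ∧ kq (p : Qb) g = 0 := fun g =>
    and_congr_right fun _ => (kq_zero (rt_sq _) g).symm
  have oH : IsOpen (H' : Set GQ) := (Inj.opnGK j).inter (stab_open _)
  have cH : ∀ g ∈ GK j, ∀ x, x ∈ H' ↔ g * x * g⁻¹ ∈ H' := fun g hg x => by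
    have e := kq_conj (p : Qb) g x
    rw [map_natCast] at e
    rw [mH, mH, e, Subgroup.mul_mem_cancel_right _ (inv_mem hg), Subgroup.mul_mem_cancel_left _ hg]
  have lc : Lc H' z := by
    rintro q D (⟨rfl, k⟩ | ⟨hq', P', hP, hqP, e⟩)
    · exact cb_le (inf_le_inf_right D inf_le_left) (h4 D (Or.inl ⟨rfl, k⟩))
    obtain rfl : D = dec P' := SetLike.coe_injective e
    by_cases k : ∀ i, ∀ g ∈ GK j, ¬ ∀ x : 𝓞 Qb, x ∈ P i ↔ g • x ∈ P'
    · exact cb_le (inf_le_inf_right _ inf_le_left) (h5 q P' ⟨hq', hP, hqP⟩ k)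
    push Not at k
    obtain ⟨i, g, hg, k⟩ := k
    refine cb_le (le_inf (inf_le_left.trans inf_le_left) le_rfl)
      (cj (ZMod 2) (GK j) (H' ⊓ dec (P i)) (H' ⊓ dec P') g z hg
        (fun x => and_congr (cH g hg x) (dec_cj k x)) hz ?_)
    have := cb_le (A := GK j ⊓ (H' ⊓ dec (P i))) (inf_le_right.trans inf_le_right) (h3 i).2
    have e' : rs (GK j ⊓ (H' ⊓ dec (P i))) (z - cup (kq (p : Qb)) (ψ i)) =
        rs (GK j ⊓ (H' ⊓ dec (P i))) z := funext fun x => funext fun y => by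
      show z x y - kq (p : Qb) x * ψ i y = z x y
      rw [((mH x).1 x.2.2.1).2, zero_mul, sub_zero]
    unfold Cb at this ⊢
    rwa [e'] at this
  obtain ⟨b, hb, k⟩ := gysC (ZMod 2) (GK j) H' (kq (p : Qb)) z (chp p _) mH hz
    (hasseCC (ZMod 2) H' z oH (Gy.z2_le inf_le_left hz) lc)
  rw [show (fun g => up (ZMod 2) (kq (p : Qb) g)) = kq (p : Qb) from Gy.ue_zmod _] at k
  obtain ⟨β, B, kb⟩ := H56.ex_km hb
  have p0 : (p : K) ≠ 0 := by exact_mod_cast hq.hp.ne_zero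
  let α : Kˣ := Units.mk0 _ p0
  have ka : H56.Km j (kq (p : Qb)) α (rt (p : Qb)) := by
    have := kmj j α
    rwa [show j (α : K) = p from map_natCast j p] at this
  have o1 : ∀ (q : ℕ) (P' : Ideal (𝓞 Qb)), Ov q P' →
      (∀ i, ∀ g ∈ GK j, ¬ ∀ x : 𝓞 Qb, x ∈ P i ↔ g • x ∈ P') →
      Cb (GK j ⊓ dec P') (cup (kq (p : Qb)) b) := fun q P' hP hn => by
    have := cb_sub (h5 q P' hP hn) (cb_le inf_le_left k)
    rwa [sub_sub_cancel] at this
  obtain ⟨n, ⟨x, y, hn⟩, hS⟩ := nrm (LawP.fin_ov (L := K) {p}).toFinset α β fun v hv => by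
    obtain ⟨q, hq', -, hqv⟩ := (Set.Finite.mem_toFinset _).1 hv
    obtain rfl : q = p := Finset.mem_singleton.1 hq'
    obtain ⟨P', hP, hb'⟩ := ex_above j v
    have hqP := ArtA.up hb' hqv
    refine (H56.dict hP hb' (chp q _) hb ka kb).1 (o1 q P' ⟨hq.hp, hP, hqP⟩ fun i g hg e => ?_)
    have m : (l i : 𝓞 Qb) ∈ P' := by
      have := (e _).1 (h1 i).1.2.2
      rwa [show g • (l i : 𝓞 Qb) = l i from Subtype.ext (map_natCast g _)] at this
    exact not_ov (A := {q}) (by simpa using Or.inr hq.hp) (h1 i).1.1 (by simpa using hl i)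
      ((nat_mem j hb' _).2 m) ⟨q, hq', hq.hp.ne_zero, hqv⟩
  have cn : Cb (GK j) (cup (kq (p : Qb)) (kq (j n))) :=
    H56.cb_of le_rfl (chp p _) (chj j n) ka (kmj j n) (x := j x) (y := j y) (fun g hg => hg x)
      (fun g hg => hg y) (by rw [hn, map_sub, map_mul, map_pow, map_pow])
  have eb : ∀ g ∈ GK j, kq (j ((β * n : Kˣ) : K)) g = b g + kq (j n) g := fun g hg => by
    rw [Units.val_mul, kq_mulL j β.ne_zero n.ne_zero hg]
    congr 1
    refine L2.Ar.sg_inj kb.ne ?_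
    exact (kq_act kb.sq (hg _)).symm.trans (kb.act g hg)
  have ad : ∀ A : Subgroup GQ, A ≤ GK j → rs A (cup (kq (p : Qb)) (kq (j ((β * n : Kˣ) : K)))) =
      rs A (cup (kq (p : Qb)) b) + rs A (cup (kq (p : Qb)) (kq (j n))) := fun A hA =>
    funext fun x => funext fun y => by
      show kq (p : Qb) x * kq (j ((β * n : Kˣ) : K)) y =
        kq (p : Qb) x * b y + kq (p : Qb) x * kq (j n) y
      rw [eb y (hA y.2), mul_add]
  rw [← pf j hq h1 h2 hl hφ (β * n).ne_zero (fun u hu => hS u ((Set.Finite.mem_toFinset _).2 hu))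
    fun q P' hP _ hn => by
      unfold Cb
      rw [ad _ inf_le_left]
      exact add_mem (o1 q P' hP hn) (cb_le inf_le_left cn)]
  refine Finset.sum_congr rfl fun i _ => ?_
  have le := (h1 i).2.2.2.2
  have hi : Inert (P i) (τ i) := (h1 i).2.2.1.1
  have c1 : cup (fun g : dec (P i) => kq (p : Qb) g)
      ((fun g : dec (P i) => kq (j ((β * n : Kˣ) : K)) g) - fun g : dec (P i) => ψ i g) ∈
      Cob (ZMod 2) (dec (P i)) := by
    have := add_mem (cb_sub (h3 i).2 (cb_le le k)) (cb_le le cn)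
    have e : rs (dec (P i)) (z - cup (kq (p : Qb)) (ψ i) - (z - cup (kq (p : Qb)) b)) +
        rs (dec (P i)) (cup (kq (p : Qb)) (kq (j n))) = cup (fun g : dec (P i) => kq (p : Qb) g)
        ((fun g : dec (P i) => kq (j ((β * n : Kˣ) : K)) g) - fun g : dec (P i) => ψ i g) :=
      funext fun x => funext fun y => by
        show z x y - kq (p : Qb) x * ψ i y - (z x y - kq (p : Qb) x * b y) +
          kq (p : Qb) x * kq (j n) y = kq (p : Qb) x * (kq (j ((β * n : Kˣ) : K)) y - ψ i y)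
        rw [eb y (le y.2)]
        ring
    rwa [e] at this
  have := Rc.tame (h1 i).1.1 (h1 i).2.1 (h1 i).1.2.1 (h1 i).1.2.2 le_rfl
    (sub_mem (H56.ch_le le (chj j _)) (h3 i).1) (fun s hs => hq.unr _ _ (hl i) (h1 i).1 s hs) c1
    ⟨φ i, W.phi_mem (h1 i).1.1 (h1 i).1.2.1 (h1 i).2.2.2.1⟩ ⟨τ i, W.inP_le_dec hi⟩ hi
  rw [show kq (p : Qb) (φ i) = 1 from hφ i, one_mul] at this
  exact (sub_eq_zero.1 this).symm

/-- existence of the auxiliary prime -/
def PRIME : Prop := ∀ S : Finset ℕ, (∀ l ∈ S, l.Prime ∧ l ≠ 2) → ∃ p : ℕ, Pq p ∧ p ∉ S ∧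
  ∀ l ∈ S, ∀ P φ, Ov l P → Fb l P φ → kq (p : Qb) φ = 1

theorem one_of (hp : PRIME) : ONE := by
  classical
  intro F _ _ _ H z ι _ l P τ φ u ψ hH hz h1 h2 h3 h4 h5
  obtain ⟨K, _, _, j, rfl⟩ := H56.ex_fld hH
  obtain ⟨p, hq, hS, hφ⟩ := hp (Finset.univ.image l) fun q hq => by
    obtain ⟨i, -, rfl⟩ := Finset.mem_image.1 hq
    exact ⟨(h1 i).1.1, (h1 i).2.1⟩
  have mem : ∀ i, l i ∈ Finset.univ.image l := fun i => Finset.mem_image_of_mem _ (Finset.mem_univ i)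
  have hl : ∀ i, l i ≠ p := fun i e => hS (e ▸ mem i)
  have f1 : ∀ i, kq (p : Qb) (φ i) = 1 := fun i => hφ _ (mem i) _ _ (h1 i).1 (h1 i).2.2.2.1
  have hu : ∀ i, ∀ g ∈ dec (P i), u i g = up F (kq (p : Qb) g) := fun i g hg => by
    have fd := W.phi_mem (h1 i).1.1 (h1 i).1.2.1 (h1 i).2.2.2.1
    have hc : Ch (dec (P i)) (u i - fun g => up F (kq (p : Qb) g)) :=
      sub_mem (h3 i).1 (Gy.ue_hm (chp p _))
    generalize hd : (u i - fun g => up F (kq (p : Qb) g)) = d at hc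
    have d1 : ∀ g, d g = u i g - up F (kq (p : Qb) g) := fun g => by rw [← hd]; rfl
    have ad : ∀ s ∈ dec (P i), ∀ t ∈ dec (P i), d (s * t) = d s + d t := fun s hs t ht =>
      hc.2 ⟨s, hs⟩ ⟨t, ht⟩
    obtain ⟨U, oU, -, hU⟩ := Rc.near hc.1
    obtain ⟨k, s, w, hs, hw, rfl⟩ := W.dec_gen (h1 i).1.1 (h1 i).1.2.1 (h1 i).1.2.2
      (h1 i).2.2.2.1 hg U oU
    have sd := W.inP_le_dec hs
    have wd : w ∈ dec (P i) := (Subgroup.mul_mem_cancel_right _ (pow_mem fd k)).1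
      ((Subgroup.mul_mem_cancel_right _ sd).1 hg)
    have d0 : d 1 = 0 := by
      have := ad 1 (one_mem _) 1 (one_mem _)
      rw [mul_one] at this
      exact left_eq_add.1 this
    rw [← sub_eq_zero, ← d1, ad _ (mul_mem wd (pow_mem fd k)) _ sd, ad _ wd _ (pow_mem fd k),
      Rc.add_pow ad fd, show d w = d 1 from hU ⟨w, wd⟩ hw, d0, d1 (φ i), d1 s, (h3 i).2.2.2.1,
      f1, (h3 i).2.2.1 s hs, hq.unr _ _ (hl i) (h1 i).1 s hs]
    simp
  letI : Algebra (ZMod 2) F := ZMod.algebra F 2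
  refine (Module.forall_dual_apply_eq_zero_iff (ZMod 2) _).1 fun Λ => ?_
  rw [map_sum]
  refine core j hq (z := fun g h => Λ (z g h)) (ψ := fun i g => Λ (ψ i g))
    (Gy.z2_map Λ.toAddMonoidHom hz) h1 h2 hl f1 (fun i => ⟨L2c.Sym.hm_map Λ.toAddMonoidHom
      (h3 i).2.1, ?_⟩) (fun D hD => L2c.Sym.cob_map Λ.toAddMonoidHom (h4 D hD))
    fun q P' hP hn => L2c.Sym.cob_map Λ.toAddMonoidHom (h5 q P' hP hn)
  have := L2c.Sym.cob_map Λ.toAddMonoidHom (h3 i).2.2.2.2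
  have e : (fun x y => Λ.toAddMonoidHom (rs (dec (P i)) (z - cup (u i) (ψ i)) x y)) =
      rs (dec (P i)) ((fun g h => Λ (z g h)) - cup (kq (p : Qb)) fun g => Λ (ψ i g)) :=
    funext fun x => funext fun y => by
      show Λ (z x y - u i x * ψ i y) = Λ (z x y) - kq (p : Qb) x * Λ (ψ i y)
      rw [map_sub, hu i x x.2]
      rcases z2 (kq (p : Qb) x) with k | k <;> simp [k]
  unfold Cb
  rwa [e] at this

/-- **reciprocity** -/
theorem one : ONE := one_of fun S hS => by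
  obtain ⟨p, a, b, c, -, d, e, f, g⟩ := OneP.prime ⊤ isOpen_univ S hS
  exact ⟨p, ⟨a, b, e, f, g⟩, c, d⟩

end Vale.Agent.P022E.GW.H64
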