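import Vale.Agent.P022E.GW.Cnt
import Vale.Agent.P022E.GW.Hyp
import Vale.Agent.P022E.GW.BorW
import Vale.Agent.P022E.GW.Enl2

/-!
# P022E, block GW: the tangent space bound from reciprocity and the lower bound
-/

set_option linter.all false

noncomputable section

namespace Vale.Agent.P022E.GW.S93

open NumberField Module
open Vale.Agent.P022 Vale.Agent.P022D.Sel
open Vale.Agent.P027M.S (Inert mx)

/-- existence of a tame generator -/
def GN : Prop := ∀ (q : ℕ) (P : Ideal (𝓞 Qb)), Ov q P → q ≠ 2 → ∃ τ, Gn q P τ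

/-- the value at a tame generator -/
def TAU : Prop := ∀ (F : Type) [Field F] [CharP F 2] (ρ : GQ →* GL (Fin 2) F) (q : ℕ)
  (P : Ideal (𝓞 Qb)) (φ τ : GQ) (c : GQ → M2 F), Ov q P → q ≠ 2 → Fb q P φ → Gn q P τ →
  (∀ g, Inert P g → ρ g = 1) → (∀ g h, c (g * h) = c g + mx ρ g * c h * mx ρ g⁻¹) → Op c →
  mx ρ φ * c τ * mx ρ φ⁻¹ = c τ ∧
    (c τ = 0 → ∀ P' : Ideal (𝓞 Qb), Ov q P' → ∀ g, Inert P' g → c g = 0)

variable {F : Type} [Field F] [Finite F] [CharP F 2] {ρ : GQ →* GL (Fin 2) F}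

/-- the bound for a big set of places -/
theorem selH (hG : GN) (hT : TAU) (hR : REC) (hL : LB) {H : Subgroup GQ} (hd : Sel.Dh ρ H)
    {A : Finset ℕ} {D : ℕ → Set GQ} (hy : Hyp ρ A D) :
    ∃ (r : ℕ) (σ : Fin r → GQ) (U : Subgroup GQ), IsOpen (U : Set GQ) ∧ U.Normal ∧
      (∀ g ∈ U, ρ g = 1) ∧ (∀ i, σ i ∈ Ginf ∧ (mx ρ (σ i)).trace ≠ 0) ∧
      ∀ q : Fin r → ℕ, Function.Injective q → (∀ i, Aux ρ U A (σ i) (q i)) →
        Tan ρ A (Finset.univ.image q) D (2 * r + 5) := by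
  classical
  haveI : Module.Finite F (Fx ρ A D ⊤) := Cnt.fx_fin
  have hn : Module.rank F (Fx ρ A D ⊤) + 3 = ((finrank F (Fx ρ A D ⊤) + 3 : ℕ) : Cardinal) := by
    rw [Nat.cast_add, finrank_eq_rank]; rfl
  have hlb := hL F ρ A D hy
  rw [hn] at hlb
  obtain ⟨f, hf⟩ := Module.le_rank_iff_exists_linearMap.1 hlb
  let Y : Submodule F (GQ → M2 F) := LinearMap.range ((H1 ρ A ⊤).subtype ∘ₗ f)
  have hY : ∀ y ∈ Y, y ∈ H1 ρ A ⊤ := by
    rintro _ ⟨v, rfl⟩
    exact (f v).2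
  have hYc : ∀ y ∈ Y, ∀ g h, y (g * h) = y g + mx ρ g * y h * mx ρ g⁻¹ := fun y hy g h =>
    (hY y hy).1 g trivial h trivial
  have rY : finrank F Y = finrank F (Fx ρ A D ⊤) + 3 := by
    have hi : Function.Injective ((H1 ρ A ⊤).subtype ∘ₗ f) := fun a b h => hf (Subtype.ext h)
    rw [LinearMap.finrank_range_of_inj hi, finrank_fin_fun]
  obtain ⟨r, σ, hσ, hk⟩ := Kl.kill hd Y fun y hy => ⟨hYc y hy, (hY y hy).2.2.1⟩
  obtain ⟨U, oU, nU, kU, yU⟩ := Cnt.ex_U Y (fun y hy => (hY y hy).2.2.1) (V := ρ.ker) hd.opn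
  refine ⟨r, σ, U, oU, nU, fun g hg => kU hg, hσ, fun q hq hx => ?_⟩
  have hqp : ∀ i, (q i).Prime := fun i => (hx i).1
  have hqA : ∀ i, q i ∉ A := fun i => (hx i).2.1
  have hq2 : ∀ i, q i ≠ 2 := fun i e => hqA i (e ▸ hy.h2)
  choose φ m hφ hm hφU hφS using fun i => (hx i).2.2
  choose P hP hqP hfr using hφ
  have ov : ∀ i, Ov (q i) (P i) := fun i => ⟨hqp i, hP i, hqP i⟩
  choose τ hτ using fun i => hG (q i) (P i) (ov i) (hq2 i)
  have eρ : ∀ i, ρ (φ i) = ρ (σ i ^ m i) := fun i => by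
    have h1 : ρ ((φ i)⁻¹ * σ i ^ m i) = 1 := kU (hφU i)
    rwa [map_mul, map_inv, inv_mul_eq_one] at h1
  have em : ∀ i, mx ρ (φ i) = mx ρ (σ i ^ m i) := fun i => congrArg Units.val (eρ i)
  have ey : ∀ y ∈ Y, ∀ i, y (φ i) = y (σ i ^ m i) := fun y hy i => by
    have h1 := hYc y hy (φ i) ((φ i)⁻¹ * σ i ^ m i)
    rw [mul_inv_cancel_left, yU y hy _ (hφU i), mul_zero, zero_mul, add_zero] at h1
    exact h1.symm
  have od : ∀ i, Odd (orderOf (ρ (σ i))) := fun i =>
    Gp.odd_order (hy.std.sl.ord ⟨σ i, rfl⟩) (hσ i).2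
  let E : (Fin r → F × F) →ₗ[F] (Fin r → M2 F) :=
    { toFun := fun w i => (w i).1 • (1 : M2 F) + (w i).2 • mx ρ (φ i)
      map_add' := fun a b => by
        funext i
        simp only [Pi.add_apply, Prod.fst_add, Prod.snd_add, add_smul]
        abel
      map_smul' := fun s a => by
        funext i
        simp only [Pi.smul_apply, Prod.smul_fst, Prod.smul_snd, RingHom.id_apply, smul_add,
          smul_eq_mul, mul_smul] }
  let Γ : (GQ → M2 F) →ₗ[F] Dual F (Fin r → F × F) :=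
    LinearMap.mk₂ F (fun y w => ∑ i, (E w i * y (φ i)).trace)
      (fun a b w => by simp only [Pi.add_apply, mul_add, Matrix.trace_add, Finset.sum_add_distrib])
      (fun s a w => by
        simp only [Pi.smul_apply, mul_smul_comm, Matrix.trace_smul, Finset.smul_sum])
      (fun a v w => by
        simp only [map_add, Pi.add_apply, add_mul, Matrix.trace_add, Finset.sum_add_distrib])
      (fun s a w => by
        simp only [map_smul, Pi.smul_apply, smul_mul_assoc, Matrix.trace_smul, Finset.smul_sum])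
  have eΓ : ∀ y i (u : F × F), Γ y (Pi.single i u) =
      ((u.1 • (1 : M2 F) + u.2 • mx ρ (φ i)) * y (φ i)).trace := fun y i u => by
    change ∑ j, ((((Pi.single i u : Fin r → F × F) j).1 • (1 : M2 F) +
      ((Pi.single i u : Fin r → F × F) j).2 • mx ρ (φ j)) * y (φ j)).trace = _
    rw [Finset.sum_eq_single i, Pi.single_eq_same]
    · intro j _ hj
      rw [Pi.single_eq_of_ne hj]
      simp
    · exact fun h => absurd (Finset.mem_univ i) h
  let γ := Γ ∘ₗ Y.subtype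
  have kγ : finrank F γ.ker ≤ 5 := by
    refine finrank_le_of_rank_le ?_
    rw [(Submodule.equivMapOfInjective Y.subtype Y.subtype_injective γ.ker).rank_eq]
    refine hk _ (Submodule.map_subtype_le _ _) ?_
    rintro _ ⟨⟨y, hy'⟩, h0, rfl⟩ i
    have h1 : Γ y = 0 := h0
    have h2 := eΓ y i (1, 0)
    have h3 := eΓ y i (0, 1)
    rw [h1, LinearMap.zero_apply, ey y hy', em] at h2 h3
    simp only [one_smul, zero_smul, add_zero, zero_add, one_mul] at h2 h3
    refine Kl.of_pow (hYc y hy') (hm i) (fun hs => hφS i ?_) h2.symm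
      ((Matrix.trace_mul_comm _ _).trans h3.symm)
    unfold Sc at hs ⊢
    rwa [em]
  have hc := Cnt.cnt γ kγ
  rw [rY, finrank_pi_fintype] at hc
  simp only [finrank_prod, finrank_self, Finset.sum_const, Finset.card_univ, Fintype.card_fin,
    smul_eq_mul] at hc
  intro Z hZ
  let α : ((GQ → M2 F) × (ℕ → M2 F)) →ₗ[F] (Fin r → M2 F) :=
    { toFun := fun z i => z.1 (τ i)
      map_add' := fun _ _ => rfl
      map_smul' := fun _ _ => rfl }
  have tau := fun z (hz : z ∈ Z) i => hT F ρ (q i) (P i) (φ i) (τ i) z.1 (ov i) (hq2 i) (hfr i)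
    (hτ i) (hy.unr _ (hqA i) _ (ov i)) (hZ z hz).coc (hZ z hz).opn
  have h1 := KerH.step α (γ.range.dualCoannihilator.map E) Z (Module.rank F (Fx ρ A D ⊤) + 3)
    (fun z hz => ?_) fun K le h0 => Cnt.ker_le (Q := Finset.univ.image q) K fun z hz =>
      ⟨hZ z (le hz), ?_⟩
  · refine h1.trans ?_
    rw [hn]
    refine (add_le_add (rank_map_le _ _) le_rfl).trans ?_
    rw [← finrank_eq_rank, ← Nat.cast_add]
    exact Nat.cast_le.2 (by omega)
  · have cm : ∀ i, mx ρ (φ i) * z.1 (τ i) = z.1 (τ i) * mx ρ (φ i) := fun i => by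
      conv_rhs => rw [← (tau z hz i).1]
      rw [Matrix.mul_assoc, Kl.mi, Matrix.mul_one]
    choose u v huv using fun i => Cnt.cen2 (hφS i) (cm i)
    refine ⟨fun i => (u i, v i), ?_, funext fun i => (huv i).symm⟩
    refine (Submodule.mem_dualCoannihilator _).2 ?_
    rintro _ ⟨⟨y, hy'⟩, rfl⟩
    have h2 := hR F ρ A (Finset.univ.image q) D (Function.extend q P fun _ => ⊤)
      (Function.extend q τ 1) (Function.extend q φ 1)
      (Function.extend q (fun i => orderOf (ρ (σ i))) 1) z.1 y z.2 hy.opn hy.h0 hy.h2 hy.dec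
      hy.unr (fun l hl => ?_) (hZ z hz) (hY y hy')
    · rw [Finset.sum_image fun _ _ _ _ h => hq h] at h2
      change ∑ i, ((u i • (1 : M2 F) + v i • mx ρ (φ i)) * y (φ i)).trace = 0
      refine Eq.trans (Finset.sum_congr rfl fun i _ => ?_) h2
      have o : ((orderOf (ρ (σ i)) : ℕ) : F) = 1 := by
        obtain ⟨k, hk⟩ := od i
        rw [hk]
        push_cast
        rw [CharTwo.two_eq_zero, zero_mul, zero_add]
      rw [hq.extend_apply, hq.extend_apply, hq.extend_apply, Cnt.trpow (hYc y hy') (cm i), o,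
        one_mul, huv i]
    · obtain ⟨i, -, rfl⟩ := Finset.mem_image.1 hl
      rw [hq.extend_apply, hq.extend_apply, hq.extend_apply, hq.extend_apply]
      refine ⟨hqA i, ov i, hτ i, hfr i, od i, ?_⟩
      rw [map_pow, eρ, map_pow, ← pow_mul, mul_comm, pow_mul, pow_orderOf_eq_one, one_pow]
  · have ht := hZ z (le hz)
    refine Sha.sha hy (a := z.2) ⟨ht.coc, ht.opn, fun l hl hlA _ P' hP' hlP g hg => ?_, ht.loc,
      ht.zero⟩
    by_cases hlQ : l ∈ Finset.univ.image q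
    · obtain ⟨i, -, rfl⟩ := Finset.mem_image.1 hlQ
      exact (tau z (le hz) i).2 (congrFun (h0 z hz) i) P' ⟨hl, hP', hlP⟩ g hg
    · exact ht.unr l hl hlA hlQ P' hP' hlP g hg

/-- **The tangent space bound.** -/
theorem sel_of (hG : GN) (hT : TAU) (hR : REC) (hL : LB) : Sel.SEL := by
  refine Bor.sel_of_std fun F _ _ _ ρ H T D hd hs h0 h2 hD => ?_
  obtain ⟨A, D', hTA, hDD, hy⟩ := hyp0 hd.opn hs h0 h2 hD
  obtain ⟨r, σ, U, a, b, c, d, e⟩ := selH hG hT hR hL hd hy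
  refine ⟨r, σ, U, A, a, b, c, hTA, d, fun q hq hx => ?_⟩
  refine Enl.enls' hd.opn A hTA (fun l hl hl' => ⟨?_, fun hQ => ?_, hy.dec l hl⟩) hDD (e q hq hx)
  · exact ((hy.dec l hl).resolve_left fun h => hl' (h.1 ▸ h0)).1
  · obtain ⟨i, -, rfl⟩ := Finset.mem_image.1 hQ
    exact (hx i).2.1 hl

end Vale.Agent.P022E.GW.S93
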