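import Vale.Agent.P022E.GW.Defs
import Vale.Agent.P022E.Gp.All
import Vale.Agent.P022D.Sel.All

/-!
# P022E, block GW: an unramified class which is trivial at a big set of places is trivial
-/

set_option linter.all false

noncomputable section

namespace Vale.Agent.P022E.GW.Sha

open NumberField
open Vale.Agent.P022 Vale.Agent.P022D.Sel
open Vale.Agent.P027M.S (Pr Inert mx)

variable {F : Type} [Field F] [CharP F 2]

theorem adm0 {L : Type} [Field L] [NumberField L] (j : L →+* Qb) {T : Finset ℕ} (hB : Big L T)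
    {φ : GQ → F} (H : Adm (GK j) 1 1 T ∅ φ) : φ = 0 := by
  choose P g hg using H651.exists_frI j
  let a : Pr L → F := fun v => φ (g v)
  have hov : ∀ v : Pr L, v ∉ ov L ∅ := fun v ⟨l, hl, _⟩ => absurd hl (Finset.notMem_empty l)
  have h1 : ∀ v ∈ ov L T, a v = 0 := fun v ⟨l, hl, l0, hlv⟩ =>
    H.dec l hl l0 _ (hg v).1 (ArtA.up (hg v).2.1 hlv) _ (ArtA.stab (hg v))
  have hl := law L F j 1 1 T ∅ φ a (Finset.notMem_empty 2) H (fun v hv => absurd hv (hov v))
    (fun v hv P' g' k => ArtA.indep H hv k (hg v))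
  have h2 : ∀ v, a v = 0 := by
    intro v
    by_cases hv : v ∈ ov L T
    · exact h1 v hv
    obtain ⟨y, y0, y1, y2⟩ := hB v hv
    have h3 := hl y y0 (fun u hu => absurd hu (hov u))
    rw [finsum_eq_single _ v] at h3
    · rwa [y1, Int.cast_one, one_mul] at h3
    · intro v' hne
      by_cases hv' : v' ∈ ov L T
      · rw [h1 v' hv', mul_zero]
      · rw [y2 v' hv' hne, Int.cast_zero, zero_mul]
  exact inj P027M.TW.dens L F j 1 1 T ∅ φ H fun v hv P' g' k =>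
    (ArtA.indep H hv k (hg v)).trans (h2 v)

variable {ρ : GQ →* GL (Fin 2) F} {T : Finset ℕ} {D : ℕ → Set GQ} {c : GQ → M2 F} {a : ℕ → M2 F}

theorem mx1 {g : GQ} (hg : ρ g = 1) : mx ρ g = 1 := congrArg Units.val hg

theorem mx1' {g : GQ} (hg : ρ g = 1) : mx ρ g⁻¹ = 1 := mx1 (by rw [map_inv, hg, inv_one])

theorem sha0 (hB : Bg ρ.ker T) (h0 : 0 ∈ T) (hD : ∀ l ∈ T, IsDec l (D l))
    (hc : TanP ρ T ∅ D c a) {g : GQ} (hg : ρ g = 1) : c g = 0 := by
  obtain ⟨L, _, _, j, hj, hb⟩ := hB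
  ext i k
  have H := AdmA.gen h0 hD hc ρ.ker i k
    (fun g hg M => by rw [mx1 hg, mx1' hg, one_mul, mul_one]) 1 1
    (fun σ hσ => by rw [one_mul, inv_one, mul_one, one_mul]; exact ⟨hσ, rfl⟩)
  rw [← hj] at H
  have h1 := congrFun (adm0 j hb H) g
  rw [hj, Set.indicator_of_mem (show g ∈ (ρ.ker : Set GQ) from hg)] at h1
  exact h1

/-- a cocycle which vanishes on the kernel is a coboundary -/
theorem cob0 (hb : Gp.Big ρ.range) (hc : ∀ g h, c (g * h) = c g + mx ρ g * c h * mx ρ g⁻¹)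
    (h0 : ∀ g, ρ g = 1 → c g = 0) : ∃ X : M2 F, ∀ g, c g = X - mx ρ g * X * mx ρ g⁻¹ := by
  have e : ∀ g g', ρ g = ρ g' → c g = c g' := by
    intro g g' h
    have h1 := hc g (g⁻¹ * g')
    rw [mul_inv_cancel_left, h0 (g⁻¹ * g') (by rw [map_mul, map_inv, h, inv_mul_cancel]), mul_zero,
      zero_mul, add_zero] at h1
    exact h1.symm
  have e2 : ∀ g, c (Function.invFun ρ (ρ g)) = c g := fun g =>
    e _ _ (Function.invFun_eq ⟨g, rfl⟩)
  obtain ⟨X, hX⟩ := hb.h1 (fun x => c (Function.invFun ρ x)) (by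
    rintro _ ⟨g, rfl⟩ _ ⟨h, rfl⟩
    simp only
    rw [← map_mul, e2, e2, e2, hc, ← map_inv])
  refine ⟨X, fun g => ?_⟩
  have h1 := hX (ρ g) ⟨g, rfl⟩
  rw [e2, ← map_inv] at h1
  exact h1

/-- **The Tate-Shafarevich group vanishes.** -/
theorem sha (H : Hyp ρ T D) (hc : TanP ρ T ∅ D c a) :
    ∃ X : M2 F, ∀ g, c g = X - mx ρ g * X * mx ρ g⁻¹ :=
  cob0 (Gp.big F _ H.std) hc.coc fun _ hg => sha0 H.bL H.h0 H.dec hc hg

end Vale.Agent.P022E.GW.Sha
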