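import Vale.Agent.P022E.GW.CntH32
import Vale.Agent.P022E.GW.Hyp
import Vale.Agent.P022E.GW.Sha
import Vale.Agent.P022E.GW.RecA
import Vale.Agent.P022E.GW.LbH35a

/-!
# P022E, block GW: the block from the reciprocity law and the lower bound
-/

set_option linter.all false

noncomputable section

namespace Vale.Agent.P022E.GW.H32

open NumberField Matrix
open Vale.Agent.P022 Vale.Agent.P022.H443 Vale.Agent.P022E.Sel
open Vale.Agent.P027M.S (Inert mx)
open Vale.Agent.P022E.GW.Enl (mx1 mx1')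
open scoped Pointwise

theorem tau : TAU := by
  classical
  intro F _ _ ρ q P φ ov q2 hφ hu
  obtain ⟨τ, hτ⟩ := H35.ex_gn ov
  refine ⟨τ, hτ, fun c hc ⟨V, hV, hV0⟩ => ?_⟩
  obtain ⟨w, hw⟩ := IsAlgClosed.exists_pow_nat_eq (q : Qb) two_pos
  have w0 : w ≠ -w := fun e => by
    have : w = 0 := by linear_combination e / 2
    rw [this] at hw
    exact ov.1.ne_zero (by exact_mod_cast (by simpa using hw.symm : (q : Qb) = 0))
  have pm : ∀ g : GQ, g w = w ∨ g w = -w := fun g =>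
    P022D.Sel.Kum.pm (by rw [hw, map_natCast])
  let a : GQ → F := fun g => if g w = w then 0 else 1
  have a0 : ∀ g : GQ, g w = w → a g = 0 := fun g h => if_pos h
  have a1 : ∀ g : GQ, g w = -w → a g = 1 := fun g h => if_neg fun e => w0 (e.symm.trans h)
  have aa : ∀ s t, a (s * t) = a s + a t := fun s t => by
    rcases pm s with h | h <;> rcases pm t with k | k
    · rw [a0 s h, a0 t k, a0 _ (by rw [AlgEquiv.mul_apply, k, h]), add_zero]
    · rw [a0 s h, a1 t k, a1 _ (by rw [AlgEquiv.mul_apply, k, map_neg, h]), zero_add]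
    · rw [a1 s h, a0 t k, a1 _ (by rw [AlgEquiv.mul_apply, k, h]), add_zero]
    · rw [a1 s h, a1 t k, a0 _ (by rw [AlgEquiv.mul_apply, k, map_neg, h, neg_neg]),
        CharTwo.add_self_eq_zero]
  have := galQb
  obtain ⟨U, hU⟩ := ProfiniteGrp.exist_openNormalSubgroup_sub_open_nhds_of_one
    (U := (V : Set GQ) ∩ MulAction.stabilizer GQ w) (hV.inter (stabilizer_isOpen_of_isIntegral w))
    ⟨V.one_mem, Subgroup.one_mem _⟩
  haveI := U.isNormal'
  obtain ⟨t, ht, hs⟩ := Rc.ti (F := F) ov.1 q2 ov.2.1 ov.2.2 (I := inP P) le_rfl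
    U.toOpenSubgroup.toSubgroup U.isOpen'
  have k1 : ∀ s ∈ inP P, ∃ n : ℕ, a s = n * a t ∧ c s = (n : F) • c t := fun s h => by
    obtain ⟨n, hn⟩ := hs s h
    refine ⟨n, hn a (fun s _ t _ => aa s t) fun s _ h => a0 s (hU h).2, ?_⟩
    ext i j
    exact hn (fun g => c g i j) (fun s h t _ => by
      rw [hc, mx1 (hu s h), mx1' (hu s h), one_mul, mul_one]; rfl)
      fun s _ h => by rw [hV0 s (hU h).1]; rfl
  have aτ : a τ = 1 := a1 τ (hτ.2 w hw)
  have at1 : a t = 1 := by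
    rcases pm t with h | h
    · obtain ⟨n, hn, -⟩ := k1 τ hτ.1
      rw [aτ, a0 t h, mul_zero] at hn
      exact absurd hn one_ne_zero
    · exact a1 t h
  have k2 : ∀ s ∈ inP P, c s = a s • c t := fun s h => by
    obtain ⟨n, h1, h2⟩ := k1 s h
    rw [h1, at1, mul_one, h2]
  have cj : ∀ g s, ρ (g * s * g⁻¹) = 1 → c (g * s * g⁻¹) = mx ρ g * c s * mx ρ g⁻¹ := by
    intro g s h
    rw [P022D.Sel.AdmA.cnj hc (t := g) (g' := s) (inv_mul_cancel_right _ _), mx1 h, mx1' h,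
      one_mul, mul_one, add_sub_cancel_left]
  refine ⟨?_, fun h0 P' ov' g hg => ?_⟩
  · have m := P022D.W.conj_inP (P022D.W.phi_mem ov.1 ov.2.1 hφ) hτ.1
    have i1 : a φ⁻¹ = a φ := by
      have := aa φ φ⁻¹
      rw [mul_inv_cancel, a0 1 rfl] at this
      exact (CharTwo.add_eq_zero.1 this.symm).symm
    rw [← cj φ τ (hu _ m), k2 _ m, k2 τ hτ.1, aa, aa, i1, add_right_comm,
      CharTwo.add_self_eq_zero, zero_add]
  · obtain ⟨k, rfl⟩ := P027M.F.Tra.trans ov.1 ov.2.1 ov'.2.1 ov.2.2 ov'.2.2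
    have m := H35.inert_conj hg k
    rw [inv_smul_smul] at m
    have e : g = k * (k⁻¹ * g * k) * k⁻¹ := by group
    rw [k2 τ hτ.1, aτ, one_smul] at h0
    rw [e, cj _ _ (by rw [map_mul, map_mul, hu _ m, mul_one, ← map_mul, mul_inv_cancel, map_one]),
      k2 _ m, h0, smul_zero, Matrix.mul_zero, Matrix.zero_mul]

/-- **the block** -/
theorem selC_of (hR : REC) (hL : LB) : SEL :=
  sel hR hL tau (fun _ _ _ _ _ _ _ _ _ h k => Sha.sha h k)
    fun _ _ _ _ _ _ _ a b c d e => hyp0 a b c d e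

end Vale.Agent.P022E.GW.H32
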