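import Vale.Agent.P022E.GW.Kill
import Vale.Agent.P022E.GW.Sha
import Vale.Agent.P022E.GW.Hyp
import Vale.Agent.P022E.GW.Enl2
import Vale.Agent.P022E.GW.BorW
import Vale.Agent.P022E.GW.Fxb

/-!
# P022E, block GW: the tangent space bound from reciprocity and the lower bound
-/

set_option linter.all false

noncomputable section

namespace Vale.Agent.P022E.GW.H58

open NumberField Matrix
open Vale.Agent.P022 Vale.Agent.P022E.Sel Vale.Agent.P022E.GW.Kl
open Vale.Agent.P027M.S (Inert mx)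

/-- the tame inertia group -/
def TAU : Prop := ∀ (F : Type) [Field F] [CharP F 2] (ρ : GQ →* GL (Fin 2) F) (q : ℕ)
  (P : Ideal (𝓞 Qb)) (φ : GQ), Ov q P → q ≠ 2 → Fb q P φ → (∀ g, Inert P g → ρ g = 1) →
  ∃ τ, Gn q P τ ∧ ∀ c : GQ → M2 F, (∀ g h, c (g * h) = c g + mx ρ g * c h * mx ρ g⁻¹) → Op c →
    mx ρ φ * c τ * mx ρ φ⁻¹ = c τ ∧ (c τ = 0 → ∀ P', Ov q P' → ∀ g, Inert P' g → c g = 0)

variable {F : Type} [Field F]

/-- the count -/
theorem cnt {Z W Y : Type} [AddCommGroup Z] [Module F Z] [AddCommGroup W] [Module F W]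
    [AddCommGroup Y] [Module F Y] [Module.Finite F W] [Module.Finite F Y] (f : Z →ₗ[F] W)
    (g : Y →ₗ[F] Module.Dual F W) (h : ∀ z y, g y (f z) = 0) {k e : ℕ}
    (hk : Module.rank F (LinearMap.ker f) ≤ k) (hY : k ≤ Module.finrank F Y)
    (he : Module.rank F (LinearMap.ker g) ≤ e) :
    Module.rank F Z ≤ (Module.finrank F W + e : ℕ) := by
  have h1 : LinearMap.range g ≤ (LinearMap.range f).dualAnnihilator := by
    rintro _ ⟨y, rfl⟩
    rw [Submodule.mem_dualAnnihilator]
    rintro _ ⟨z, rfl⟩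
    exact h z y
  have h2 := Submodule.finrank_mono h1
  have h3 := Subspace.finrank_add_finrank_dualAnnihilator_eq (LinearMap.range f)
  have h4 := g.finrank_range_add_finrank_ker
  have h5 : Module.finrank F (LinearMap.ker g) ≤ e := Module.finrank_le_of_rank_le he
  rw [← f.rank_range_add_rank_ker, ← Module.finrank_eq_rank F (LinearMap.range f)]
  refine (add_le_add le_rfl hk).trans ?_
  rw [← Nat.cast_add, Nat.cast_le]
  omega

/-- the centraliser of a non scalar matrix -/
theorem cent {A X : M2 F} (hA : ¬ (A 0 1 = 0 ∧ A 1 0 = 0 ∧ A 0 0 = A 1 1)) (h : A * X = X * A) :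
    ∃ s t : F, X = s • (1 : M2 F) + t • A := by
  have e := fun i j => congrFun (congrFun h i) j
  have e00 := e 0 0
  have e01 := e 0 1
  have e10 := e 1 0
  simp only [Matrix.mul_apply, Fin.sum_univ_two] at e00 e01 e10
  have key : ∀ t : F, X 0 1 = t * A 0 1 → X 1 0 = t * A 1 0 →
      X 0 0 - X 1 1 = t * (A 0 0 - A 1 1) → ∃ s t : F, X = s • (1 : M2 F) + t • A := by
    intro t a b c
    refine ⟨X 0 0 - t * A 0 0, t, ?_⟩
    ext i j
    fin_cases i <;> fin_cases j <;> simp [a, b]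
    linear_combination -c
  by_cases h1 : A 0 1 = 0
  · by_cases h2 : A 1 0 = 0
    · have h3 : A 0 0 - A 1 1 ≠ 0 := fun k => hA ⟨h1, h2, sub_eq_zero.1 k⟩
      refine key ((X 0 0 - X 1 1) / (A 0 0 - A 1 1)) ?_ ?_ (by field_simp)
      · rw [h1, mul_zero]
        apply mul_left_cancel₀ h3
        linear_combination e01 + (X 0 0 - X 1 1) * h1
      · rw [h2, mul_zero]
        apply mul_left_cancel₀ h3
        linear_combination -e10 + (X 0 0 - X 1 1) * h2
    · refine key (X 1 0 / A 1 0) ?_ (by field_simp) ?_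
      · field_simp
        linear_combination -e00
      · field_simp
        linear_combination e10
  · refine key (X 0 1 / A 0 1) (by field_simp) ?_ ?_
    · field_simp
      linear_combination e00
    · field_simp
      linear_combination -e01

/-- a regular element has odd order -/
theorem pow_card [Fintype F] [CharP F 2] {A : M2 F} {a b : F} (h1 : A.trace = a + b)
    (h2 : A.det = a * b) (hd : A.det = 1) (ht : A.trace ≠ 0) : A ^ (Fintype.card F - 1) = 1 := by
  have k : ∀ n : ℕ, ∃ s c : F, A ^ n = s • A + c • (1 : M2 F) ∧ a ^ n = s * a + c ∧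
      b ^ n = s * b + c := fun n => by
    induction n with
    | zero => exact ⟨0, 1, by simp⟩
    | succ n ih =>
      obtain ⟨s, c, h, ha, hb⟩ := ih
      refine ⟨s * (a + b) + c, -(s * (a * b)), ?_, ?_, ?_⟩
      · rw [pow_succ, h, ← h1, ← h2]
        ext i j
        fin_cases i <;> fin_cases j <;>
          simp [Matrix.mul_apply, Fin.sum_univ_two, trace_fin_two, det_fin_two] <;> ring
      · rw [pow_succ, ha]; ring
      · rw [pow_succ, hb]; ring
  obtain ⟨s, c, h, ha, hb⟩ := k (Fintype.card F - 1)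
  have hab : a * b ≠ 0 := by rw [← h2, hd]; exact one_ne_zero
  rw [FiniteField.pow_card_sub_one_eq_one a (left_ne_zero_of_mul hab)] at ha
  rw [FiniteField.pow_card_sub_one_eq_one b (right_ne_zero_of_mul hab)] at hb
  have t : (2 : F) = 0 := CharTwo.two_eq_zero
  have s0 : s = 0 := by
    apply mul_right_cancel₀ (h1 ▸ ht : a + b ≠ 0)
    linear_combination -ha - hb + (1 - c) * t
  rw [s0, zero_mul, zero_add] at ha
  rw [h, s0, ← ha, zero_smul, one_smul, zero_add]

variable {ρ : GQ →* GL (Fin 2) F}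

theorem tr_pow {y : GQ → M2 F} (hy : Co ρ y) {σ : GQ} (C : M2 F) (hC : C * mx ρ σ = mx ρ σ * C)
    (n : ℕ) : (y (σ ^ n) * C).trace = n * (y σ * C).trace := by
  induction n with
  | zero =>
    have := hy 1 1
    simp only [mul_one, inv_one, mx, map_one, Units.val_one, one_mul, left_eq_add] at this
    simp [this]
  | succ n ih =>
    rw [pow_succ', hy, add_mul, trace_add, Matrix.mul_assoc, Matrix.mul_assoc, trace_mul_comm
      (mx ρ σ), Matrix.mul_assoc, Matrix.mul_assoc, hC, ← Matrix.mul_assoc (mx ρ σ⁻¹), mi,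
      Matrix.one_mul, ih]
    push_cast
    ring

theorem mi' (g : GQ) : mx ρ g * mx ρ g⁻¹ = 1 := by simpa using mi (ρ := ρ) g⁻¹

theorem fin_fx (T : Finset ℕ) (D : ℕ → Set GQ) : Module.Finite F (Fx ρ T D ⊤) := by
  let e : Fx ρ T D ⊤ →ₗ[F] (T → M2 F) :=
    { toFun := fun f l => f.1 l 1
      map_add' := fun _ _ => rfl
      map_smul' := fun _ _ => rfl }
  refine Module.Finite.of_injective e ((injective_iff_map_eq_zero e).2 fun f hf => ?_)
  ext1
  funext l g
  by_cases hl : l ∈ T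
  · have h1 := f.2.2.1 l g trivial 1
    have h2 : f.1 l 1 = 0 := congrFun hf ⟨l, hl⟩
    rw [mul_one, h2, mul_zero, zero_mul] at h1
    exact h1
  · exact congrFun (f.2.1 l hl) g

/-- the unramified tangent vectors -/
theorem ker_le [Finite F] [CharP F 2] {T : Finset ℕ} {D : ℕ → Set GQ} (H : Hyp ρ T D)
    (Z : Submodule F ((GQ → M2 F) × (ℕ → M2 F))) (hZ : ∀ z ∈ Z, TanP ρ T ∅ D z.1 z.2) :
    Module.rank F Z ≤ 3 + Module.rank F (Fx ρ T D ⊤) := by
  let ψ : ((GQ → M2 F) × (ℕ → M2 F)) →ₗ[F] (ℕ → GQ → M2 F) :=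
    { toFun := fun z l g => mx ρ g * z.2 l * mx ρ g⁻¹
      map_add' := fun a b => by
        funext l g
        simp only [Prod.snd_add, Pi.add_apply, mul_add, add_mul]
      map_smul' := fun r a => by
        funext l g
        simp only [Prod.smul_snd, Pi.smul_apply, RingHom.id_apply, Matrix.mul_smul,
          Matrix.smul_mul] }
  have hψ : ∀ z l g, ψ z l g = mx ρ g * z.2 l * mx ρ g⁻¹ := fun _ _ _ => rfl
  refine (Fb.rank_two Z (LinearMap.fst F _ _) ψ (LinearMap.range (dd ρ)) (Fx ρ T D ⊤)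
    (fun z hz => ?_) (fun z hz h0 => ⟨fun l hl => ?_, fun l γ _ g => ?_, fun l d hd g => ?_⟩)
    fun z hz h0 h1 => ?_).trans (add_le_add rank_dd le_rfl)
  · obtain ⟨X, hX⟩ := Sha.sha H (hZ z hz)
    exact ⟨X, funext fun g => (hX g).symm⟩
  · funext g
    rw [hψ, (hZ z hz).zero l hl, mul_zero, zero_mul]
    rfl
  · rw [hψ, hψ, _root_.mul_inv_rev, mm, mm]
    simp only [mul_assoc]
  · by_cases hl : l ∈ T
    · have h2 := (hZ z hz).loc l hl d hd
      rw [show z.1 = 0 from h0, Pi.zero_apply, eq_comm, sub_eq_zero] at h2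
      rw [hψ, hψ, _root_.mul_inv_rev, mm, mm]
      conv_rhs => rw [h2]
      simp only [mul_assoc]
    · rw [hψ, hψ, (hZ z hz).zero l hl, mul_zero, zero_mul, mul_zero, zero_mul]
  · refine Prod.ext h0 (funext fun l => ?_)
    have := congrFun (congrFun h1 l) 1
    rw [hψ] at this
    simpa [mx] using this

/-- a finite dimensional space of cocycles vanishes on an open normal subgroup -/
theorem ex_U (ho : IsOpen {g : GQ | ρ g = 1}) (Y : Submodule F (GQ → M2 F)) [Module.Finite F Y]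
    (hY : ∀ y ∈ Y, Op y) : ∃ U : Subgroup GQ, IsOpen (U : Set GQ) ∧ U.Normal ∧
      (∀ g ∈ U, ρ g = 1) ∧ ∀ y ∈ Y, ∀ u ∈ U, y u = 0 := by
  have := P022D.Sel.OddP.compact_GQ
  let b := Module.finBasis F Y
  choose V hV hV0 using fun i => hY (b i) (b i).2
  have h1 : IsOpen ((ρ.ker ⊓ ⨅ i, V i : Subgroup GQ) : Set GQ) := by
    rw [Subgroup.coe_inf, Subgroup.coe_iInf]
    exact ho.inter (isOpen_iInter_of_finite hV)
  obtain ⟨M, hM⟩ := IsTopologicalGroup.exist_openNormalSubgroup_sub_clopen_nhds_of_one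
    (G := GQ) ⟨Subgroup.isClosed_of_isOpen _ h1, h1⟩ (Subgroup.one_mem _)
  refine ⟨M.toSubgroup, M.isOpen', M.isNormal', fun g hg => (hM hg).1, fun y hy u hu => ?_⟩
  have e := congrArg (fun w : Y => (w : GQ → M2 F) u) (b.sum_repr ⟨y, hy⟩)
  simp only [Submodule.coe_sum, Submodule.coe_smul, Finset.sum_apply, Pi.smul_apply] at e
  rw [← e]
  exact Finset.sum_eq_zero fun i _ => by
    rw [hV0 i u (Subgroup.mem_iInf.1 (hM hu).2 i), smul_zero]

end Vale.Agent.P022E.GW.H58
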