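import Vale.Agent.P022E.GW.Sha
import Vale.Agent.P022E.GW.Kill
import Vale.Agent.P022E.GW.Kc
import Vale.Agent.P022E.GW.RecA
import Vale.Agent.P022E.GW.Hyp
import Vale.Agent.P022E.GW.BorW
import Vale.Agent.P022E.GW.Enl2
import Vale.Agent.P022E.GW.CorL
import Vale.Agent.P027M.F.Tra

/-!
# P022, non solvable case, block GW: the bound for the tangent space
-/

set_option linter.all false

noncomputable section

namespace Vale.Agent.P022E.GW.H90

open NumberField Matrix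
open Vale.Agent.P022 Vale.Agent.P022.H443
open Vale.Agent.P027M.S (Inert mx)
open Vale.Agent.P022D.Sel (M2 IsDec TanP Tan Aux Sc Stab Ginf)
open Vale.Agent.P022D.L2c (up)
open Enl (mxm mx1 mx1' mxi mxi')
open scoped Pointwise

variable {F : Type} [Field F] {ρ : GQ →* GL (Fin 2) F}

theorem core {U : Subgroup GQ} (hU : IsOpen (U : Set GQ)) :
    ∃ V : Subgroup GQ, IsOpen (V : Set GQ) ∧ V.Normal ∧ V ≤ U := by
  have := galQb
  obtain ⟨V, hV⟩ := ProfiniteGrp.exist_openNormalSubgroup_sub_open_nhds_of_one hU U.one_mem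
  exact ⟨V.toOpenSubgroup.toSubgroup, V.toOpenSubgroup.isOpen, V.isNormal', hV⟩

theorem gn_iff {q : ℕ} {P : Ideal (𝓞 Qb)} (h : Ov q P) {τ : GQ} (hi : Inert P τ) :
    Gn q P τ ↔ Kc.kq (q : Qb) τ = 1 := by
  have q0 : (q : Qb) ≠ 0 := by exact_mod_cast h.1.ne_zero
  exact ⟨fun k => (Kc.kq_one q0 (Kc.rt_sq _) (map_natCast τ q)).2 (k.2 _ (Kc.rt_sq _)),
    fun k => ⟨hi, fun w hw => (Kc.kq_one q0 hw (map_natCast τ q)).1 k⟩⟩

theorem ex_gn {q : ℕ} {P : Ideal (𝓞 Qb)} (h : Ov q P) : ∃ τ, Gn q P τ := by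
  obtain ⟨v, hv, -⟩ := Kc.ex_below P027M.S.Loc.jQ h.1.ne_zero h.2.1 h.2.2
  haveI := Fact.mk h.1
  have q0 : ((q : ℤ) : ℚ) ≠ 0 := by exact_mod_cast h.1.ne_zero
  have ho := P027M.S.Loc.ordvQ v h.1 (hv ▸ P027M.S.Loc.belowQ h.2.1 h.1 h.2.2) (c := q)
    (by exact_mod_cast h.1.ne_zero)
  rw [padicValInt_self] at ho
  obtain ⟨g, -, hi, hg⟩ := Kc.ex_ram P027M.S.Loc.jQ q0 v h.2.1 hv (by rw [ho]; exact odd_one)
  refine ⟨g, (gn_iff h hi).2 ?_⟩
  rwa [map_intCast, Int.cast_natCast] at hg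

theorem tau0 [CharP F 2] {q : ℕ} {P : Ideal (𝓞 Qb)} (h : Ov q P) (h2 : q ≠ 2) {τ : GQ}
    (hτ : Gn q P τ) (hu : ∀ g, Inert P g → ρ g = 1) {c : GQ → M2 F} (hc : Kl.Co ρ c) (ho : Op c)
    {s : GQ} (hs : Inert P s) : c s = up F (Kc.kq (q : Qb) s) • c τ := by
  obtain ⟨U, hU, hU0⟩ := ho
  obtain ⟨W, hW, hW0⟩ := Kc.kq_opn (q : Qb)
  obtain ⟨V, hV, hn, hle⟩ := core (U := U ⊓ W) (hU.inter hW)
  obtain ⟨t, ht, k⟩ := Rc.ti (F := F) h.1 h2 h.2.1 h.2.2 (le_refl (inP P)) V hV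
  have a1 : ∀ s ∈ inP P, ∀ t ∈ inP P, up F (Kc.kq (q : Qb) (s * t)) =
      up F (Kc.kq (q : Qb) s) + up F (Kc.kq (q : Qb) t) := fun s _ t _ => by
    rw [Kc.kq_add (map_natCast s q) (map_natCast t q), map_add]
  have a2 : ∀ s ∈ inP P, s ∈ V → up F (Kc.kq (q : Qb) s) = 0 := fun s _ k => by
    rw [hW0 s (hle k).2, map_zero]
  have b1 : ∀ i j, ∀ s ∈ inP P, ∀ t ∈ inP P, c (s * t) i j = c s i j + c t i j :=
    fun i j s hs t _ => by rw [hc, mx1 (hu s hs), mx1' (hu s hs), one_mul, mul_one]; rfl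
  have b2 : ∀ i j, ∀ s ∈ inP P, s ∈ V → c s i j = 0 := fun i j s _ k => by
    rw [hU0 s (hle k).1]; rfl
  obtain ⟨n, hn⟩ := k s hs
  obtain ⟨m, hm⟩ := k τ hτ.1
  have e1 := hn _ a1 a2
  have e2 := hm _ a1 a2
  rw [(gn_iff h hτ.1).1 hτ, map_one] at e2
  have e3 : up F (Kc.kq (q : Qb) t) = 1 := by
    rcases Kc.z2 (Kc.kq (q : Qb) t) with e | e
    · rw [e, map_zero, mul_zero] at e2; exact absurd e2 one_ne_zero
    · rw [e, map_one]
  rw [e3, mul_one] at e1 e2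
  ext i j
  rw [Matrix.smul_apply, hn (fun g => c g i j) (b1 i j) (b2 i j), hm (fun g => c g i j) (b1 i j) (b2 i j),
    e1, ← e2, one_mul, smul_eq_mul]

theorem co_conj {c : GQ → M2 F} (hc : Kl.Co ρ c) (g : GQ) {s : GQ} (hs : ρ s = 1) :
    c (g * s * g⁻¹) = mx ρ g * c s * mx ρ g⁻¹ := by
  have e := P022D.Sel.AdmA.cnj hc (g := g * s * g⁻¹) (t := g) (g' := s) (by group)
  have h1 : ρ (g * s * g⁻¹) = 1 := by rw [map_mul, map_mul, hs, mul_one, ← map_mul]; simp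
  rw [e, mx1 h1, mx1' h1, one_mul, mul_one]
  abel

theorem tau1 [CharP F 2] {q : ℕ} {P : Ideal (𝓞 Qb)} (h : Ov q P) (h2 : q ≠ 2) {τ φ : GQ}
    (hτ : Gn q P τ) (hφ : Fb q P φ) (hu : ∀ g, Inert P g → ρ g = 1) {c : GQ → M2 F}
    (hc : Kl.Co ρ c) (ho : Op c) : c τ * mx ρ φ = mx ρ φ * c τ := by
  have hi : Inert P (φ * τ * φ⁻¹) :=
    P022D.W.conj_inP (P022D.W.phi_mem h.1 h.2.1 hφ) hτ.1
  have e := tau0 h h2 hτ hu hc ho hi
  have k := Kc.kq_conj (q : Qb) φ τ
  rw [map_natCast, (gn_iff h hτ.1).1 hτ] at k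
  rw [k, map_one, one_smul, co_conj hc φ (hu τ hτ.1)] at e
  conv_lhs => rw [← e, mul_assoc, mxi', mul_one]

theorem tau2 [CharP F 2] {q : ℕ} {P : Ideal (𝓞 Qb)} (h : Ov q P) (h2 : q ≠ 2) {τ : GQ}
    (hτ : Gn q P τ) (hu : ∀ g, Inert P g → ρ g = 1) {c : GQ → M2 F}
    (hc : Kl.Co ρ c) (ho : Op c) (h0 : c τ = 0) {P' : Ideal (𝓞 Qb)} (h' : Ov q P') {g : GQ}
    (hg : Inert P' g) : c g = 0 := by
  obtain ⟨t, rfl⟩ := P027M.F.Tra.trans h.1 h.2.1 h'.2.1 h.2.2 h'.2.2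
  have hi : Inert P (t⁻¹ * g * t) := fun x => by
    have := hg (t • x)
    rw [Ideal.mem_pointwise_smul_iff_inv_smul_mem, smul_sub, inv_smul_smul] at this
    rwa [mul_smul, mul_smul]
  have e := co_conj hc t (hu _ hi)
  rw [tau0 h h2 hτ hu hc ho hi, h0, smul_zero, mul_zero, zero_mul] at e
  rw [← e]
  congr 1
  group

/-- the centraliser of a non scalar matrix -/
theorem cen {N X : M2 F} (hN : ¬ (N 0 1 = 0 ∧ N 1 0 = 0 ∧ N 0 0 = N 1 1)) (h : X * N = N * X) :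
    ∃ a b : F, X = a • (1 : M2 F) + b • N := by
  have e00 := congrFun (congrFun h 0) 0
  have e01 := congrFun (congrFun h 0) 1
  have e10 := congrFun (congrFun h 1) 0
  simp only [Matrix.mul_apply, Fin.sum_univ_two] at e00 e01 e10
  by_cases h1 : N 0 1 = 0
  · by_cases h2 : N 1 0 = 0
    · have h3 : N 0 0 - N 1 1 ≠ 0 := fun k => hN ⟨h1, h2, sub_eq_zero.1 k⟩
      have x1 : X 0 1 = 0 := by
        apply mul_left_cancel₀ h3
        rw [h1] at e01
        linear_combination -e01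
      have x2 : X 1 0 = 0 := by
        apply mul_left_cancel₀ h3
        rw [h2] at e10
        linear_combination e10
      refine ⟨X 0 0 - (X 0 0 - X 1 1) / (N 0 0 - N 1 1) * N 0 0,
        (X 0 0 - X 1 1) / (N 0 0 - N 1 1), ?_⟩
      ext i j
      fin_cases i <;> fin_cases j <;> simp [h1, h2, x1, x2]
      field_simp
      ring
    · refine ⟨X 0 0 - X 1 0 / N 1 0 * N 0 0, X 1 0 / N 1 0, ?_⟩
      ext i j
      fin_cases i <;> fin_cases j <;> simp
      · field_simp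
        linear_combination e00
      · field_simp
      · field_simp
        linear_combination e10
  · refine ⟨X 0 0 - X 0 1 / N 0 1 * N 0 0, X 0 1 / N 0 1, ?_⟩
    ext i j
    fin_cases i <;> fin_cases j <;> simp
    · field_simp
    · field_simp
      linear_combination -e00
    · field_simp
      linear_combination -e01

theorem tr_pow {y : GQ → M2 F} (hy : Kl.Co ρ y) {σ : GQ} {C : M2 F}
    (hC : C * mx ρ σ = mx ρ σ * C) (n : ℕ) :
    (C * y (σ ^ n)).trace = n * (C * y σ).trace := by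
  induction n with
  | zero =>
    have := hy 1 1
    simp only [mul_one, inv_one, mx, map_one, Units.val_one, one_mul, left_eq_add] at this
    simp [this]
  | succ n ih =>
    rw [pow_succ', hy, mul_add, trace_add, ← mul_assoc, trace_mul_comm _ (mx ρ σ⁻¹), ← mul_assoc C,
      hC, ← mul_assoc, ← mul_assoc, mxi', one_mul, ih]
    push_cast
    ring

theorem odd_cast [CharP F 2] {m : ℕ} (hm : Odd m) : (m : F) = 1 := by
  obtain ⟨k, rfl⟩ := hm
  push_cast
  rw [CharTwo.two_eq_zero, zero_mul, zero_add]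

/-- orthogonal subspaces -/
theorem orth {ι : Type} [Fintype ι] (A B : Submodule F (ι → F))
    (h : ∀ a ∈ A, ∀ b ∈ B, ∑ i, a i * b i = 0) :
    Module.finrank F A + Module.finrank F B ≤ Fintype.card ι := by
  classical
  let e : (ι → F) →ₗ[F] Module.Dual F (ι → F) := (Pi.basisFun F ι).toDual
  have he : ∀ a b, e a b = ∑ i, a i * b i := fun a b => by
    conv_lhs => rw [← (Pi.basisFun F ι).sum_repr b]
    simp only [map_sum, map_smul, e, Module.Basis.toDual_apply_left, Pi.basisFun_repr, smul_eq_mul]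
    exact Finset.sum_congr rfl fun i _ => mul_comm _ _
  have h1 : A.map e ≤ B.dualAnnihilator := by
    rintro _ ⟨a, ha, rfl⟩
    rw [Submodule.mem_dualAnnihilator]
    intro b hb
    rw [he, h a ha b hb]
  have h2 := Subspace.finrank_add_finrank_dualAnnihilator_eq B
  have h3 : Module.finrank F (A.map e) = Module.finrank F A :=
    (Submodule.equivMapOfInjective e (Pi.basisFun F ι).toDual_injective A).finrank_eq.symm
  have h4 := Submodule.finrank_mono h1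
  rw [Module.finrank_fintype_fun_eq_card] at h2
  omega

/-- the two traces -/
def ev {r : ℕ} (ρ : GQ →* GL (Fin 2) F) (σ : Fin r → GQ) :
    (GQ → M2 F) →ₗ[F] (Fin r × Fin 2 → F) where
  toFun y p := (y (σ p.1) * mx ρ (σ p.1) ^ (p.2 : ℕ)).trace
  map_add' y z := funext fun p => by simp only [Pi.add_apply, add_mul, trace_add]
  map_smul' s y := funext fun p => by
    simp only [Pi.smul_apply, smul_mul_assoc, trace_smul, RingHom.id_apply]

/-- the coordinates in the centraliser -/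
def cd (N : M2 F) : M2 F →ₗ[F] (Fin 2 → F) where
  toFun X := ![(X * N).trace / N.trace - X.trace, X.trace / N.trace]
  map_add' X Y := by
    ext i; fin_cases i <;> simp [add_mul, add_div]; ring
  map_smul' s X := by
    ext i; fin_cases i <;> simp [mul_div_assoc, mul_sub]

theorem cd_eq [CharP F 2] {N : M2 F} (hN : N.trace ≠ 0) (a b : F) :
    cd N (a • (1 : M2 F) + b • N) = ![a, b] := by
  have h2 : (2 : F) = 0 := CharTwo.two_eq_zero
  have e1 : (N * N).trace = N.trace ^ 2 := by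
    simp only [trace_fin_two, Matrix.mul_apply, Fin.sum_univ_two]
    linear_combination (N 0 1 * N 1 0 - N 0 0 * N 1 1) * h2
  have e0 : (1 : M2 F).trace = 0 := by simp [h2]
  ext i
  fin_cases i
  · simp only [cd, LinearMap.coe_mk, AddHom.coe_mk, add_mul, smul_mul_assoc, one_mul, trace_add,
      trace_smul, e0, e1, smul_eq_mul]
    simp
    field_simp
    ring
  · simp only [cd, LinearMap.coe_mk, AddHom.coe_mk, trace_add, trace_smul, e0, smul_eq_mul]
    simp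
    field_simp

/-- the ramification at the auxiliary primes -/
def ps {r : ℕ} (ρ : GQ →* GL (Fin 2) F) (σ τ : Fin r → GQ) :
    ((GQ → M2 F) × (ℕ → M2 F)) →ₗ[F] (Fin r × Fin 2 → F) where
  toFun z p := cd (mx ρ (σ p.1)) (z.1 (τ p.1)) p.2
  map_add' y z := funext fun p => by simp only [Prod.fst_add, Pi.add_apply, map_add]
  map_smul' s y := funext fun p => by
    simp only [Prod.smul_fst, Pi.smul_apply, map_smul, RingHom.id_apply]

/-- the frames -/
def fr (ρ : GQ →* GL (Fin 2) F) : ((GQ → M2 F) × (ℕ → M2 F)) →ₗ[F] (ℕ → GQ → M2 F) where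
  toFun z l g := mx ρ g * z.2 l * mx ρ g⁻¹
  map_add' y z := by funext l g; simp only [Prod.snd_add, Pi.add_apply, mul_add, add_mul]
  map_smul' s y := by
    funext l g
    simp only [Prod.smul_snd, Pi.smul_apply, mul_smul_comm, smul_mul_assoc, RingHom.id_apply]

theorem ker_le [Finite F] [CharP F 2] {T : Finset ℕ} {D : ℕ → Set GQ} (hy : Hyp ρ T D)
    (K : Submodule F ((GQ → M2 F) × (ℕ → M2 F))) (hK : ∀ z ∈ K, TanP ρ T ∅ D z.1 z.2) :
    Module.rank F K ≤ Module.rank F (Fx ρ T D ⊤) + 3 := by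
  rw [← Cor.rank_split (LinearMap.fst F _ _) K, add_comm]
  refine add_le_add ?_ (le_trans (Submodule.rank_mono ?_) (Kl.rank_dd (ρ := ρ)))
  · rw [← Cor.rank_split (fr ρ) _]
    have h0 : (K ⊓ LinearMap.ker (LinearMap.fst F _ _)) ⊓ LinearMap.ker (fr ρ) = ⊥ := by
      rw [eq_bot_iff]
      rintro ⟨c, a⟩ ⟨⟨-, h1⟩, h2⟩
      have h1 : c = 0 := h1
      have h3 : a = 0 := funext fun l => by
        have : mx ρ 1 * a l * mx ρ 1⁻¹ = 0 := congrFun (congrFun h2 l) 1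
        rwa [mx1 (map_one ρ), mx1' (map_one ρ), one_mul, mul_one] at this
      rw [h1, h3]
      exact Submodule.zero_mem _
    rw [h0, rank_bot, add_zero]
    refine Submodule.rank_mono ?_
    rintro _ ⟨⟨c, a⟩, ⟨hz, h1⟩, rfl⟩
    have h1 : c = 0 := h1
    have ht : TanP ρ T ∅ D c a := hK _ hz
    refine ⟨fun l hl => funext fun g => ?_, fun l γ _ g => ?_, fun l d hd g => ?_⟩
    · show mx ρ g * a l * mx ρ g⁻¹ = 0
      rw [ht.zero l hl, mul_zero, zero_mul]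
    · show mx ρ (γ * g) * a l * mx ρ (γ * g)⁻¹ = mx ρ γ * (mx ρ g * a l * mx ρ g⁻¹) * mx ρ γ⁻¹
      rw [_root_.mul_inv_rev, mxm, mxm]; noncomm_ring
    · show mx ρ (g * d) * a l * mx ρ (g * d)⁻¹ = mx ρ g * a l * mx ρ g⁻¹
      by_cases hl : l ∈ T
      · have e := ht.loc l hl d hd
        rw [h1, Pi.zero_apply, eq_comm, sub_eq_zero] at e
        conv_rhs => rw [e]
        rw [_root_.mul_inv_rev, mxm, mxm]; noncomm_ring
      · rw [ht.zero l hl]; simp
  · rintro _ ⟨z, hz, rfl⟩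
    obtain ⟨X, hX⟩ := Sha.sha hy (hK z hz)
    exact ⟨X, (funext hX).symm⟩

theorem fx_fin {T : Finset ℕ} {D : ℕ → Set GQ} : Module.Finite F (Fx ρ T D ⊤) := by
  let f : Fx ρ T D ⊤ →ₗ[F] (T → M2 F) :=
    { toFun := fun x l => x.1 l 1
      map_add' := fun _ _ => rfl
      map_smul' := fun _ _ => rfl }
  refine Module.Finite.of_injective f ?_
  rw [← LinearMap.ker_eq_bot, LinearMap.ker_eq_bot']
  rintro ⟨x, hx⟩ h
  refine Subtype.ext (funext fun l => ?_)
  by_cases hl : l ∈ T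
  · funext g
    have e := hx.2.1 l g trivial 1
    have e0 : x l 1 = 0 := congrFun h ⟨l, hl⟩
    rw [mul_one, e0, mul_zero, zero_mul] at e
    exact e
  · exact hx.1 l hl

theorem cnt [Finite F] [CharP F 2] (hR : REC) {T : Finset ℕ} {D : ℕ → Set GQ} (hy : Hyp ρ T D)
    {r : ℕ} {σ : Fin r → GQ} (hσ : ∀ i, (mx ρ (σ i)).trace ≠ 0) {U : Subgroup GQ}
    (hU : ∀ g ∈ U, ρ g = 1) (Y : Submodule F (GQ → M2 F)) [Module.Finite F Y]
    (hY : Y ≤ H1 ρ T ⊤) (hYU : ∀ y ∈ Y, ∀ u ∈ U, y u = 0)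
    (hk : ∀ Y₀ ≤ Y, (∀ y ∈ Y₀, ∀ i, (y (σ i)).trace = 0 ∧ (y (σ i) * mx ρ (σ i)).trace = 0) →
      Module.rank F Y₀ ≤ 5)
    (hn : Module.rank F (Fx ρ T D ⊤) + 3 ≤ Module.rank F Y) {q : Fin r → ℕ}
    (hq : Function.Injective q) (ha : ∀ i, Aux ρ U T (σ i) (q i)) :
    Tan ρ T (Finset.univ.image q) D (2 * r + 5) := by
  classical
  intro Z hZ
  choose φ m hφ hm hφσ hsc using fun i => (ha i).2.2
  choose P hP hqP hF using hφ
  have ov : ∀ i, Ov (q i) (P i) := fun i => ⟨(ha i).1, hP i, hqP i⟩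
  have q2 : ∀ i, q i ≠ 2 := fun i e => (ha i).2.1 (e ▸ hy.h2)
  choose τ hτ using fun i => ex_gn (ov i)
  have hu : ∀ i g, Inert (P i) g → ρ g = 1 := fun i => hy.unr _ (ha i).2.1 _ (ov i)
  have e1 : ∀ i, mx ρ (φ i) = mx ρ (σ i ^ m i) := fun i => by
    rw [show σ i ^ m i = φ i * ((φ i)⁻¹ * σ i ^ m i) by group, mxm, mx1 (hU _ (hφσ i)), mul_one]
  have fin := hy.std.sl.fin
  have od : ∀ i, Odd (orderOf (ρ (σ i))) := fun i => Gp.odd_order (by
    have := isOfFinOrder_of_finite (⟨ρ (σ i), σ i, rfl⟩ : ρ.range)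
    exact (ρ.range.subtype).isOfFinOrder this) (hσ i)
  have e2 : ∀ i, ρ (φ i ^ orderOf (ρ (σ i))) = 1 := fun i => by
    rw [map_pow, Units.ext (e1 i), map_pow, ← pow_mul, mul_comm, pow_mul, pow_orderOf_eq_one,
      one_pow]
  have ns : ∀ i, ¬ Sc ρ (σ i) := fun i k => hσ i (by
    rw [trace_fin_two, k.2.2, CharTwo.add_self_eq_zero])
  have cm : ∀ z ∈ Z, ∀ i, ∃ a b : F, z.1 (τ i) = a • (1 : M2 F) + b • mx ρ (σ i) := by
    intro z hz i
    have t := hZ z hz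
    obtain ⟨a, b, e⟩ := cen (hsc i) (tau1 (ov i) (q2 i) (hτ i) (hF i) (hu i) t.coc t.opn)
    refine cen (ns i) ?_
    rw [e, e1, add_mul, mul_add, smul_mul_assoc, smul_mul_assoc, mul_smul_comm, mul_smul_comm,
      one_mul, mul_one, ← mxm, ← mxm, ← pow_succ, ← pow_succ']
  -- orthogonality
  have ho : ∀ x ∈ Z.map (ps ρ σ τ), ∀ w ∈ Y.map (ev ρ σ), ∑ p, x p * w p = 0 := by
    rintro _ ⟨z, hz, rfl⟩ _ ⟨y, hyY, rfl⟩
    have yc : Kl.Co ρ y := fun g h => (hY hyY).1 g trivial h trivial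
    have key := hR F ρ T (Finset.univ.image q) D (Function.extend q P fun _ => ⊥)
      (Function.extend q τ 1) (Function.extend q φ 1)
      (Function.extend q (fun i => orderOf (ρ (σ i))) 1) z.1 y z.2 hy.opn hy.h0 hy.h2 hy.dec
      hy.unr (by
        intro l hl
        obtain ⟨i, -, rfl⟩ := Finset.mem_image.1 hl
        simp only [hq.extend_apply]
        exact ⟨(ha i).2.1, ov i, hτ i, hF i, od i, e2 i⟩) (hZ z hz) (hY hyY)
    rw [Finset.sum_image fun i _ j _ e => hq e] at key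
    simp only [hq.extend_apply] at key
    rw [Fintype.sum_prod_type, ← key]
    refine Finset.sum_congr rfl fun i _ => ?_
    obtain ⟨a, b, e⟩ := cm z hz i
    have c1 : z.1 (τ i) * mx ρ (σ i) = mx ρ (σ i) * z.1 (τ i) := by
      rw [e, add_mul, mul_add, smul_mul_assoc, smul_mul_assoc, mul_smul_comm, mul_smul_comm,
        one_mul, mul_one]
    have c2 := tau1 (ov i) (q2 i) (hτ i) (hF i) (hu i) (hZ z hz).coc (hZ z hz).opn
    have c3 : y (σ i ^ m i) = y (φ i) := by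
      rw [show σ i ^ m i = φ i * ((φ i)⁻¹ * σ i ^ m i) by group, yc, hYU y hyY _ (hφσ i),
        mul_zero, zero_mul, add_zero]
    rw [tr_pow yc c2, odd_cast (od i), one_mul, ← c3, tr_pow yc c1, odd_cast (hm i), one_mul]
    simp only [ps, ev, LinearMap.coe_mk, AddHom.coe_mk, Fin.sum_univ_two]
    rw [e, cd_eq (hσ i), add_mul, smul_mul_assoc, smul_mul_assoc, trace_add, trace_smul,
      trace_smul, one_mul, trace_mul_comm (mx ρ (σ i))]
    simp
  have h1 := orth _ _ ho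
  have h2 : Module.rank F (Z ⊓ LinearMap.ker (ps ρ σ τ) : Submodule F _) ≤
      Module.rank F (Fx ρ T D ⊤) + 3 := by
    refine ker_le hy _ ?_
    rintro z ⟨hz, h0⟩
    have t := hZ z hz
    refine ⟨t.coc, t.opn, fun l hl hT _ P' hP' hlP g hg => ?_, t.loc, t.zero⟩
    by_cases hQ : l ∈ Finset.univ.image q
    · obtain ⟨i, -, rfl⟩ := Finset.mem_image.1 hQ
      refine tau2 (ov i) (q2 i) (hτ i) (hu i) t.coc t.opn ?_ ⟨hl, hP', hlP⟩ hg
      obtain ⟨a, b, e⟩ := cm z hz i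
      have k0 : cd (mx ρ (σ i)) (z.1 (τ i)) 0 = 0 := congrFun h0 (i, 0)
      have k1 : cd (mx ρ (σ i)) (z.1 (τ i)) 1 = 0 := congrFun h0 (i, 1)
      rw [e, cd_eq (hσ i)] at k0 k1
      have k0 : a = 0 := k0
      have k1 : b = 0 := k1
      rw [e, k0, k1, zero_smul, zero_smul, add_zero]
    · exact t.unr l hl hT hQ P' hP' hlP g hg
  have h3 : Module.rank F (Y ⊓ LinearMap.ker (ev ρ σ) : Submodule F _) ≤ 5 := by
    refine hk _ inf_le_left ?_
    rintro y ⟨-, h0⟩ i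
    have k0 : (y (σ i) * mx ρ (σ i) ^ 0).trace = 0 := congrFun h0 (i, 0)
    have k1 : (y (σ i) * mx ρ (σ i) ^ 1).trace = 0 := congrFun h0 (i, 1)
    rw [pow_zero, mul_one] at k0
    rw [pow_one] at k1
    exact ⟨k0, k1⟩
  rw [← Cor.rank_split (ev ρ σ) Y] at hn
  rw [← Cor.rank_split (ps ρ σ τ) Z]
  have h4 : Module.rank F (Z.map (ps ρ σ τ)) + Module.rank F (Y.map (ev ρ σ)) ≤ (2 * r : ℕ) := by
    rw [← Module.finrank_eq_rank, ← Module.finrank_eq_rank, ← Nat.cast_add, Nat.cast_le]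
    simpa [mul_comm] using h1
  calc _ ≤ Module.rank F (Z.map (ps ρ σ τ)) + (Module.rank F (Y.map (ev ρ σ)) + 5) :=
        add_le_add le_rfl (h2.trans (hn.trans (add_le_add le_rfl h3)))
    _ ≤ (2 * r : ℕ) + 5 := by rw [← add_assoc]; exact add_le_add h4 le_rfl
    _ = _ := by push_cast; rfl

theorem sels (hR : REC) (hL : LB) : Bor.SELS := by
  classical
  intro F _ _ _ ρ H T D hD hs h0 h2 hT
  obtain ⟨A, D', hTA, hDD, hy⟩ := hyp0 hD.opn hs h0 h2 hT
  haveI := fx_fin (ρ := ρ) (T := A) (D := D')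
  have hn := hL F ρ A D' hy
  rw [← Module.finrank_eq_rank] at hn
  obtain ⟨v, hv⟩ := (Module.le_rank_iff (n := Module.finrank F (Fx ρ A D' ⊤) + 3)).1
    (by exact_mod_cast hn)
  have hv' := hv.map' (H1 ρ A ⊤).subtype (Submodule.ker_subtype _)
  let Y := Submodule.span F (Set.range ((H1 ρ A ⊤).subtype ∘ v))
  haveI : Module.Finite F Y := Module.Finite.span_of_finite F (Set.finite_range _)
  have hY : Y ≤ H1 ρ A ⊤ := Submodule.span_le.2 (by rintro _ ⟨i, rfl⟩; exact (v i).2)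
  have rk : Module.rank F (Fx ρ A D' ⊤) + 3 ≤ Module.rank F Y := by
    rw [rank_span hv', Cardinal.mk_range_eq _ hv'.injective, ← Module.finrank_eq_rank]
    simp
  choose W hW hW0 using fun i => (v i).2.2.2.1
  obtain ⟨U, hU, hN, hle⟩ := core (U := (⨅ i, W i) ⊓ ρ.ker) (by
    rw [Subgroup.coe_inf, Subgroup.coe_iInf]
    exact (isOpen_iInter_of_finite hW).inter hD.opn)
  have hYU : ∀ y ∈ Y, ∀ u ∈ U, y u = 0 := fun y hy u hu => by
    induction hy using Submodule.span_induction with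
    | mem _ h => obtain ⟨i, rfl⟩ := h; exact hW0 i u (Subgroup.mem_iInf.1 (hle hu).1 i)
    | zero => rfl
    | add _ _ _ _ a b => rw [Pi.add_apply, a, b, add_zero]
    | smul _ _ _ a => rw [Pi.smul_apply, a, smul_zero]
  obtain ⟨r, σ, hσ, hk⟩ := Kl.kill hD Y fun y hy =>
    ⟨fun g h => (hY hy).1 g trivial h trivial, (hY hy).2.2.1⟩
  refine ⟨r, σ, U, A, hU, hN, fun g hg => (hle hg).2, hTA, hσ, fun q hq ha => ?_⟩
  refine Enl.enls' hD.opn A hTA (fun l hl hlT => ⟨?_, fun k => ?_, hy.dec l hl⟩) hDD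
    (cnt hR hy (fun i => (hσ i).2) (fun g hg => (hle hg).2) Y hY hYU hk rk hq ha)
  · obtain ⟨e, -⟩ | ⟨e, -⟩ := hy.dec l hl
    · exact absurd (e ▸ h0) hlT
    · exact e
  · obtain ⟨i, -, rfl⟩ := Finset.mem_image.1 k
    exact (ha i).2.1 hl

/-- **The output of the block from reciprocity and the lower bound.** -/
theorem selC_of (hR : REC) (hL : LB) : Sel.SEL := Bor.sel_of_std (sels hR hL)

end Vale.Agent.P022E.GW.H90
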