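import Vale.Agent.P022E.GW.Defs
import Vale.Agent.P022E.GW.RecA

/-!
# P022E, block GW: the tame symbol
-/

set_option linter.all false

namespace Vale.Agent.P022E.GW.H52

open Vale.Agent.P022D.W (dec inP_le_dec)

theorem tameC : TAME := by
  rintro F _ _ H l P u ψ - h h2 - hψ hu ⟨φ, hφ, u0⟩ hc i hi hi'
  exact (mul_eq_zero.1 (Rc.tame h.1 h2 h.2.1 h.2.2 (D := H ⊓ dec P) inf_le_right
    (u := fun x => u x) hψ (fun s hs => hu s s.2.1 hs) hc ⟨φ, hφ⟩ ⟨i, hi, inP_le_dec hi'⟩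
    hi')).resolve_left u0

end Vale.Agent.P022E.GW.H52
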